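import Mathlib

/-!
# The Rosser tree (abstract part)

A *state* is a pair `(d, w)` of natural numbers: `d` is the product of the (even number of)
primes chosen so far, and only primes `< w` may still be chosen.  The children of `(d, w)` are the
states `(d * p * q, q)`, `q < p < w` primes.  (So for every state which is not the root, `w` is the
smallest prime factor of `d`.)

`T stop fi fs d w` is the sum of `fi` over all not stopped states below and including the root
`(d, w)` (the root is never tested), plus the sum of `fs` over all stopped states (the first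
states with `stop`) below the root.
-/

namespace Crest.Agent.R001.Tree

open Finset Classical

/-- primes below `w` -/
def pr (w : ℕ) : Finset ℕ := (range w).filter Nat.Prime

lemma mem_pr {p w : ℕ} : p ∈ pr w ↔ p < w ∧ p.Prime := by simp [pr]

lemma pr_mono {v w : ℕ} (h : v ≤ w) : pr v ⊆ pr w := by
  intro p; simp only [mem_pr]; exact fun h' => ⟨lt_of_lt_of_le h'.1 h, h'.2⟩

lemma lt_of_mem_pr {p w : ℕ} (h : p ∈ pr w) : p < w := (mem_pr.1 h).1
lemma prime_of_mem_pr {p w : ℕ} (h : p ∈ pr w) : p.Prime := (mem_pr.1 h).2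

/-- the tree functional -/
noncomputable def T (stop : ℕ → ℕ → Prop) (fi fs : ℕ → ℕ → ℝ) (d w : ℕ) : ℝ :=
  fi d w + ∑ p ∈ (pr w).attach, ∑ q ∈ (pr p.1).attach,
    if stop (d * p.1 * q.1) q.1 then fs (d * p.1 * q.1) q.1 else T stop fi fs (d * p.1 * q.1) q.1
termination_by w
decreasing_by
  exact lt_trans (lt_of_mem_pr q.2) (lt_of_mem_pr p.2)

/-- sum over the children -/
noncomputable def ch (g : ℕ → ℕ → ℝ) (d w : ℕ) : ℝ :=
  ∑ p ∈ pr w, ∑ q ∈ pr p, g (d * p * q) q

lemma T_eq (stop : ℕ → ℕ → Prop) (fi fs : ℕ → ℕ → ℝ) (d w : ℕ) :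
    T stop fi fs d w = fi d w + ∑ p ∈ pr w, ∑ q ∈ pr p,
      if stop (d * p * q) q then fs (d * p * q) q else T stop fi fs (d * p * q) q := by
  rw [T]
  congr 1
  rw [Finset.sum_attach (pr w) (fun p => ∑ q ∈ (pr p).attach,
    if stop (d * p * q.1) q.1 then fs (d * p * q.1) q.1 else T stop fi fs (d * p * q.1) q.1)]
  refine Finset.sum_congr rfl fun p _ => ?_
  rw [Finset.sum_attach (pr p) (fun q =>
    if stop (d * p * q) q then fs (d * p * q) q else T stop fi fs (d * p * q) q)]

/-- the function on states: `fs` on stopped states and `T` on the others -/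
noncomputable def G (stop : ℕ → ℕ → Prop) (fi fs : ℕ → ℕ → ℝ) (d w : ℕ) : ℝ :=
  if stop d w then fs d w else T stop fi fs d w

lemma T_eq' (stop : ℕ → ℕ → Prop) (fi fs : ℕ → ℕ → ℝ) (d w : ℕ) :
    T stop fi fs d w = fi d w + ch (G stop fi fs) d w := T_eq stop fi fs d w

/-- Relation: `(d', w')` is a (not stopped) state below `(d, w)`. -/
inductive Node (stop : ℕ → ℕ → Prop) (d0 w0 : ℕ) : ℕ → ℕ → Prop
  | root : Node stop d0 w0 d0 w0
  | step {d w p q : ℕ} : Node stop d0 w0 d w → p ∈ pr w → q ∈ pr p → ¬ stop (d * p * q) q →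
      Node stop d0 w0 (d * p * q) q

/-- `(d', w')` is a first stopped state below `(d, w)`. -/
def Leaf (stop : ℕ → ℕ → Prop) (d0 w0 d' w' : ℕ) : Prop :=
  ∃ d w p, Node stop d0 w0 d w ∧ p ∈ pr w ∧ w' ∈ pr p ∧ d' = d * p * w' ∧ stop d' w'

lemma Node.trans {stop : ℕ → ℕ → Prop} {d0 w0 d1 w1 d2 w2 : ℕ} (h1 : Node stop d0 w0 d1 w1)
    (h2 : Node stop d1 w1 d2 w2) : Node stop d0 w0 d2 w2 := by
  induction h2 with
  | root => exact h1
  | step _ hp hq hs ih => exact Node.step ih hp hq hs

lemma Leaf.of_node {stop : ℕ → ℕ → Prop} {d0 w0 d1 w1 d2 w2 : ℕ} (h1 : Node stop d0 w0 d1 w1)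
    (h2 : Leaf stop d1 w1 d2 w2) : Leaf stop d0 w0 d2 w2 := by
  obtain ⟨d, w, p, hn, hp, hq, hd, hs⟩ := h2
  exact ⟨d, w, p, h1.trans hn, hp, hq, hd, hs⟩

/-- general induction principle: compare `T` with something, using only states that occur. -/
lemma T_congr {stop : ℕ → ℕ → Prop} {fi fi' fs fs' : ℕ → ℕ → ℝ} (d w : ℕ)
    (hi : ∀ d' w', Node stop d w d' w' → fi d' w' = fi' d' w')
    (hs : ∀ d' w', Leaf stop d w d' w' → fs d' w' = fs' d' w') :
    T stop fi fs d w = T stop fi' fs' d w := by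
  induction w using Nat.strong_induction_on generalizing d with
  | _ w ih =>
    rw [T_eq, T_eq, hi d w Node.root]
    congr 1
    refine Finset.sum_congr rfl fun p hp => Finset.sum_congr rfl fun q hq => ?_
    split_ifs with h
    · exact hs _ _ ⟨d, w, p, Node.root, hp, hq, rfl, h⟩
    · have hn : Node stop d w (d * p * q) q := Node.step Node.root hp hq h
      exact ih q (lt_trans (lt_of_mem_pr hq) (lt_of_mem_pr hp)) (d * p * q)
        (fun d' w' h' => hi _ _ (hn.trans h')) (fun d' w' h' => hs _ _ (h'.of_node hn))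

lemma T_mono {stop : ℕ → ℕ → Prop} {fi fi' fs fs' : ℕ → ℕ → ℝ} (d w : ℕ)
    (hi : ∀ d' w', Node stop d w d' w' → fi d' w' ≤ fi' d' w')
    (hs : ∀ d' w', Leaf stop d w d' w' → fs d' w' ≤ fs' d' w') :
    T stop fi fs d w ≤ T stop fi' fs' d w := by
  induction w using Nat.strong_induction_on generalizing d with
  | _ w ih =>
    rw [T_eq, T_eq]
    refine add_le_add (hi d w Node.root) ?_
    refine Finset.sum_le_sum fun p hp => Finset.sum_le_sum fun q hq => ?_
    split_ifs with h
    · exact hs _ _ ⟨d, w, p, Node.root, hp, hq, rfl, h⟩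
    · have hn : Node stop d w (d * p * q) q := Node.step Node.root hp hq h
      exact ih q (lt_trans (lt_of_mem_pr hq) (lt_of_mem_pr hp)) (d * p * q)
        (fun d' w' h' => hi _ _ (hn.trans h')) (fun d' w' h' => hs _ _ (h'.of_node hn))

/-- super-solutions: if `H ≥ fi + Σ_children (H or fs)` on all states that occur then `T ≤ H`. -/
lemma T_le_of_super {stop : ℕ → ℕ → Prop} {fi fs H : ℕ → ℕ → ℝ} (d w : ℕ)
    (h : ∀ d' w', Node stop d w d' w' →
      fi d' w' + ∑ p ∈ pr w', ∑ q ∈ pr p,
        (if stop (d' * p * q) q then fs (d' * p * q) q else H (d' * p * q) q) ≤ H d' w') :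
    T stop fi fs d w ≤ H d w := by
  induction w using Nat.strong_induction_on generalizing d with
  | _ w ih =>
    rw [T_eq]
    refine le_trans (add_le_add le_rfl ?_) (h d w Node.root)
    refine Finset.sum_le_sum fun p hp => Finset.sum_le_sum fun q hq => ?_
    split_ifs with hst
    · exact le_rfl
    · have hn : Node stop d w (d * p * q) q := Node.step Node.root hp hq hst
      exact ih q (lt_trans (lt_of_mem_pr hq) (lt_of_mem_pr hp)) (d * p * q)
        (fun d' w' h' => h _ _ (hn.trans h'))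

/-- sub-solutions -/
lemma le_T_of_sub {stop : ℕ → ℕ → Prop} {fi fs H : ℕ → ℕ → ℝ} (d w : ℕ)
    (h : ∀ d' w', Node stop d w d' w' →
      H d' w' ≤ fi d' w' + ∑ p ∈ pr w', ∑ q ∈ pr p,
        (if stop (d' * p * q) q then fs (d' * p * q) q else H (d' * p * q) q)) :
    H d w ≤ T stop fi fs d w := by
  induction w using Nat.strong_induction_on generalizing d with
  | _ w ih =>
    rw [T_eq]
    refine le_trans (h d w Node.root) (add_le_add le_rfl ?_)
    refine Finset.sum_le_sum fun p hp => Finset.sum_le_sum fun q hq => ?_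
    split_ifs with hst
    · exact le_rfl
    · have hn : Node stop d w (d * p * q) q := Node.step Node.root hp hq hst
      exact ih q (lt_trans (lt_of_mem_pr hq) (lt_of_mem_pr hp)) (d * p * q)
        (fun d' w' h' => h _ _ (hn.trans h'))

lemma T_nonneg {stop : ℕ → ℕ → Prop} {fi fs : ℕ → ℕ → ℝ} (d w : ℕ)
    (hi : ∀ d' w', Node stop d w d' w' → 0 ≤ fi d' w')
    (hs : ∀ d' w', Leaf stop d w d' w' → 0 ≤ fs d' w') : 0 ≤ T stop fi fs d w := by
  induction w using Nat.strong_induction_on generalizing d with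
  | _ w ih =>
    rw [T_eq]
    refine add_nonneg (hi d w Node.root) ?_
    refine Finset.sum_nonneg fun p hp => Finset.sum_nonneg fun q hq => ?_
    split_ifs with h
    · exact hs _ _ ⟨d, w, p, Node.root, hp, hq, rfl, h⟩
    · have hn : Node stop d w (d * p * q) q := Node.step Node.root hp hq h
      exact ih q (lt_trans (lt_of_mem_pr hq) (lt_of_mem_pr hp)) (d * p * q)
        (fun d' w' h' => hi _ _ (hn.trans h')) (fun d' w' h' => hs _ _ (h'.of_node hn))

lemma T_add (stop : ℕ → ℕ → Prop) (fi fi' fs fs' : ℕ → ℕ → ℝ) (d w : ℕ) :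
    T stop (fun a b => fi a b + fi' a b) (fun a b => fs a b + fs' a b) d w
      = T stop fi fs d w + T stop fi' fs' d w := by
  induction w using Nat.strong_induction_on generalizing d with
  | _ w ih =>
    rw [T_eq, T_eq stop fi, T_eq stop fi']
    rw [add_add_add_comm, ← Finset.sum_add_distrib]
    congr 1
    refine Finset.sum_congr rfl fun p hp => ?_
    rw [← Finset.sum_add_distrib]
    refine Finset.sum_congr rfl fun q hq => ?_
    split_ifs with h
    · rfl
    · exact ih q (lt_trans (lt_of_mem_pr hq) (lt_of_mem_pr hp)) (d * p * q)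

lemma T_smul (stop : ℕ → ℕ → Prop) (c : ℝ) (fi fs : ℕ → ℕ → ℝ) (d w : ℕ) :
    T stop (fun a b => c * fi a b) (fun a b => c * fs a b) d w = c * T stop fi fs d w := by
  induction w using Nat.strong_induction_on generalizing d with
  | _ w ih =>
    rw [T_eq, T_eq stop fi, mul_add, Finset.mul_sum]
    congr 1
    refine Finset.sum_congr rfl fun p hp => ?_
    rw [Finset.mul_sum]
    refine Finset.sum_congr rfl fun q hq => ?_
    split_ifs with h
    · rfl
    · exact ih q (lt_trans (lt_of_mem_pr hq) (lt_of_mem_pr hp)) (d * p * q)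

lemma T_sub (stop : ℕ → ℕ → Prop) (fi fi' fs fs' : ℕ → ℕ → ℝ) (d w : ℕ) :
    T stop (fun a b => fi a b - fi' a b) (fun a b => fs a b - fs' a b) d w
      = T stop fi fs d w - T stop fi' fs' d w := by
  have h := T_add stop fi (fun a b => (-1) * fi' a b) fs (fun a b => (-1) * fs' a b) d w
  rw [T_smul] at h
  rw [show T stop fi fs d w - T stop fi' fs' d w = T stop fi fs d w + -1 * T stop fi' fs' d w by ring,
    ← h]
  congr 1 <;> (funext a b; ring)

/-- split into interior and stopped part -/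
lemma T_split (stop : ℕ → ℕ → Prop) (fi fs : ℕ → ℕ → ℝ) (d w : ℕ) :
    T stop fi fs d w = T stop fi (fun _ _ => 0) d w + T stop (fun _ _ => 0) fs d w := by
  rw [← T_add]
  congr 1 <;> (funext a b; ring)

lemma abs_T_le {stop : ℕ → ℕ → Prop} {fi fi' fs fs' : ℕ → ℕ → ℝ} (d w : ℕ)
    (hi : ∀ d' w', Node stop d w d' w' → |fi d' w'| ≤ fi' d' w')
    (hs : ∀ d' w', Leaf stop d w d' w' → |fs d' w'| ≤ fs' d' w') :
    |T stop fi fs d w| ≤ T stop fi' fs' d w := by
  rw [abs_le]
  constructor
  · have := T_mono (stop := stop) (fi := fun a b => (-1) * fi' a b) (fs := fun a b => (-1) * fs' a b)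
      (fi' := fi) (fs' := fs) d w
      (fun d' w' h => by have := (abs_le.1 (hi d' w' h)).1; simpa using this)
      (fun d' w' h => by have := (abs_le.1 (hs d' w' h)).1; simpa using this)
    rw [T_smul] at this
    linarith
  · exact T_mono d w (fun d' w' h => (abs_le.1 (hi d' w' h)).2)
      (fun d' w' h => (abs_le.1 (hs d' w' h)).2)

/-- every stopping rule gives the same value for a function which satisfies the recursion. -/
lemma T_of_rec {stop : ℕ → ℕ → Prop} {fi S : ℕ → ℕ → ℝ} (d w : ℕ)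
    (h : ∀ d' w', Node stop d w d' w' → S d' w' = fi d' w' + ch S d' w') :
    S d w = T stop fi S d w := by
  induction w using Nat.strong_induction_on generalizing d with
  | _ w ih =>
    rw [T_eq, h d w Node.root]
    congr 1
    refine Finset.sum_congr rfl fun p hp => Finset.sum_congr rfl fun q hq => ?_
    split_ifs with hst
    · rfl
    · have hn : Node stop d w (d * p * q) q := Node.step Node.root hp hq hst
      exact ih q (lt_trans (lt_of_mem_pr hq) (lt_of_mem_pr hp)) (d * p * q)
        (fun d' w' h' => h _ _ (hn.trans h'))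

/-- a state which is not stopped for a coarser rule is not stopped for the finer one -/
lemma Node.weaken {s1 s2 : ℕ → ℕ → Prop} (h12 : ∀ d w, s1 d w → s2 d w) {d0 w0 d w : ℕ}
    (h : Node s2 d0 w0 d w) : Node s1 d0 w0 d w := by
  induction h with
  | root => exact Node.root
  | step _ hp hq hs ih => exact Node.step ih hp hq (fun h => hs (h12 _ _ h))

/-- COMPOSITION: stop first with the coarser (= earlier) rule `s2`, then continue with `s1`. -/
lemma T_comp {s1 s2 : ℕ → ℕ → Prop} (h12 : ∀ d w, s1 d w → s2 d w) (fi fs : ℕ → ℕ → ℝ) (d w : ℕ) :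
    T s1 fi fs d w = T s2 fi (G s1 fi fs) d w := by
  induction w using Nat.strong_induction_on generalizing d with
  | _ w ih =>
    rw [T_eq s1, T_eq s2]
    congr 1
    refine Finset.sum_congr rfl fun p hp => Finset.sum_congr rfl fun q hq => ?_
    by_cases h2 : s2 (d * p * q) q
    · rw [if_pos h2, G]
    · have h1 : ¬ s1 (d * p * q) q := fun h => h2 (h12 _ _ h)
      rw [if_neg h2, if_neg h1]
      exact ih q (lt_trans (lt_of_mem_pr hq) (lt_of_mem_pr hp)) (d * p * q)

/-! ### Facts about states -/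

lemma Node.w_le {stop : ℕ → ℕ → Prop} {d0 w0 d w : ℕ} (h : Node stop d0 w0 d w) : w ≤ w0 := by
  induction h with
  | root => exact le_rfl
  | step _ hp hq _ ih =>
    exact (lt_of_mem_pr hq).le.trans ((lt_of_mem_pr hp).le.trans ih)

lemma Node.dvd {stop : ℕ → ℕ → Prop} {d0 w0 d w : ℕ} (h : Node stop d0 w0 d w) : d0 ∣ d := by
  induction h with
  | root => exact dvd_rfl
  | step _ hp hq _ ih =>
    exact (ih.mul_right _).mul_right _

lemma Node.pos {stop : ℕ → ℕ → Prop} {d0 w0 d w : ℕ} (h0 : 0 < d0) (h : Node stop d0 w0 d w) :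
    0 < d := by
  induction h with
  | root => exact h0
  | step _ hp hq _ ih =>
    exact Nat.mul_pos (Nat.mul_pos ih (prime_of_mem_pr hp).pos) (prime_of_mem_pr hq).pos

/-- no prime below `w` divides `d` -/
def Rgh (d w : ℕ) : Prop := ∀ p, p.Prime → p < w → ¬ p ∣ d

lemma rgh_one (w : ℕ) : Rgh 1 w := fun p hp _ h => hp.one_lt.ne' (Nat.dvd_one.1 h)

lemma Rgh.child {d w p q : ℕ} (h : Rgh d w) (hp : p ∈ pr w) (hq : q ∈ pr p) :
    Rgh (d * p * q) q := by
  intro r hr hrq hdvd
  have hqp := lt_of_mem_pr hq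
  have hpw := lt_of_mem_pr hp
  rcases (Nat.Prime.dvd_mul hr).1 hdvd with h1 | h1
  · rcases (Nat.Prime.dvd_mul hr).1 h1 with h2 | h2
    · exact h r hr (by omega) h2
    · have := (Nat.prime_dvd_prime_iff_eq hr (prime_of_mem_pr hp)).1 h2
      omega
  · have := (Nat.prime_dvd_prime_iff_eq hr (prime_of_mem_pr hq)).1 h1
    omega

lemma Node.rgh {stop : ℕ → ℕ → Prop} {d0 w0 d w : ℕ} (h0 : Rgh d0 w0) (h : Node stop d0 w0 d w) :
    Rgh d w := by
  induction h with
  | root => exact h0
  | step _ hp hq _ ih => exact ih.child hp hq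

/-- Buchstab's identity for a pair `(A, S)`: `S d w = A d - ∑_{p < w} S (d p) p`
(for `d` without prime factor `< w`). -/
def Buch (A : ℕ → ℝ) (S : ℕ → ℕ → ℝ) : Prop :=
  ∀ d w, Rgh d w → S d w = A d - ∑ p ∈ pr w, S (d * p) p

lemma Rgh.mul_prime {d w p : ℕ} (h : Rgh d w) (hp : p ∈ pr w) : Rgh (d * p) p := by
  intro r hr hrq hdvd
  rcases (Nat.Prime.dvd_mul hr).1 hdvd with h2 | h2
  · exact h r hr (hrq.trans (lt_of_mem_pr hp)) h2
  · have := (Nat.prime_dvd_prime_iff_eq hr (prime_of_mem_pr hp)).1 h2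
    omega

/-- the interior coefficient: `A d - ∑_{p < w} A (d p)` -/
noncomputable def intF (A : ℕ → ℝ) (d w : ℕ) : ℝ := A d - ∑ p ∈ pr w, A (d * p)

lemma Buch.two_step {A : ℕ → ℝ} {S : ℕ → ℕ → ℝ} (h : Buch A S) {d w : ℕ} (hd : Rgh d w) :
    S d w = intF A d w + ch S d w := by
  rw [h d w hd, intF, ch]
  have : ∀ p ∈ pr w, S (d * p) p = A (d * p) - ∑ q ∈ pr p, S (d * p * q) q :=
    fun p hp => h _ _ (hd.mul_prime hp)
  rw [Finset.sum_congr rfl this, Finset.sum_sub_distrib]
  ring

/-- EXACT TREE IDENTITY for every stopping rule. -/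
theorem identity {A : ℕ → ℝ} {S : ℕ → ℕ → ℝ} (h : Buch A S) (stop : ℕ → ℕ → Prop) {d w : ℕ}
    (hd : Rgh d w) : S d w = T stop (intF A) S d w :=
  T_of_rec d w fun _ _ hn => h.two_step (hn.rgh hd)

/-! ### The two standard pairs `(A, S)` -/

section Weighted

variable {α : Type*} (Ω : Finset α) (n : α → ℤ) (f : α → ℝ)

/-- weight of the multiples of `d` -/
noncomputable def Aw (d : ℕ) : ℝ := ∑ t ∈ Ω.filter (fun t => (d : ℤ) ∣ n t), f t

/-- weight of the multiples of `d` without prime factor `< w` (other than..: no prime `< w`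
divides `n t` at all) -/
noncomputable def Sw (d w : ℕ) : ℝ :=
  ∑ t ∈ Ω.filter (fun t => (d : ℤ) ∣ n t ∧ ∀ p : ℕ, p.Prime → p < w → ¬ (p : ℤ) ∣ n t), f t

lemma Sw_nonneg (hf : ∀ t ∈ Ω, 0 ≤ f t) (d w : ℕ) : 0 ≤ Sw Ω n f d w :=
  Finset.sum_nonneg fun t ht => hf t (Finset.mem_filter.1 ht).1

theorem buch_w : Buch (Aw Ω n f) (Sw Ω n f) := by
  intro d w hd
  classical
  -- partition the multiples of `d` according to the smallest prime `< w` dividing `n t`
  have key : Aw Ω n f d = Sw Ω n f d w + ∑ p ∈ pr w, Sw Ω n f (d * p) p := by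
    unfold Aw Sw
    rw [Finset.sum_filter, Finset.sum_filter]
    simp_rw [Finset.sum_filter]
    rw [Finset.sum_comm, ← Finset.sum_add_distrib]
    refine Finset.sum_congr rfl fun t _ => ?_
    by_cases hdt : (d : ℤ) ∣ n t
    · rw [if_pos hdt]
      by_cases hall : ∀ p : ℕ, p.Prime → p < w → ¬ (p : ℤ) ∣ n t
      · rw [if_pos ⟨hdt, hall⟩]
        rw [Finset.sum_eq_zero, add_zero]
        intro p hp
        rw [if_neg]
        rintro ⟨h1, _⟩
        refine hall p (prime_of_mem_pr hp) (lt_of_mem_pr hp) (dvd_trans ?_ h1)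
        push_cast
        exact dvd_mul_left _ _
      · rw [if_neg (fun h => hall h.2), zero_add]
        push Not at hall
        -- minimal prime
        have hex : ∃ p : ℕ, p.Prime ∧ p < w ∧ (p : ℤ) ∣ n t := by
          obtain ⟨p, h1, h2, h3⟩ := hall
          exact ⟨p, h1, h2, h3⟩
        set p0 := Nat.find hex with hp0
        obtain ⟨hp1, hp2, hp3⟩ := Nat.find_spec hex
        rw [Finset.sum_eq_single_of_mem p0 (mem_pr.2 ⟨hp2, hp1⟩)]
        · rw [if_pos]
          refine ⟨?_, fun r hr hrp hdvd => ?_⟩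
          · push_cast
            refine IsCoprime.mul_dvd ?_ hdt hp3
            rw [Nat.isCoprime_iff_coprime]
            exact ((Nat.Prime.coprime_iff_not_dvd hp1).2 (hd p0 hp1 hp2)).symm
          · exact Nat.find_min hex hrp ⟨hr, hrp.trans hp2, hdvd⟩
        · intro r hr hne
          rw [if_neg]
          rintro ⟨h1, h2⟩
          have hrdvd : (r : ℤ) ∣ n t := dvd_trans (by push_cast; exact dvd_mul_left _ _) h1
          have hle : p0 ≤ r := Nat.find_min' hex ⟨prime_of_mem_pr hr, lt_of_mem_pr hr, hrdvd⟩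
          exact h2 p0 hp1 (lt_of_le_of_ne hle (Ne.symm hne)) hp3
    · rw [if_neg hdt, if_neg (fun h => hdt h.1), zero_add]
      symm
      refine Finset.sum_eq_zero fun p hp => ?_
      rw [if_neg]
      rintro ⟨h1, _⟩
      exact hdt (dvd_trans (by push_cast; exact dvd_mul_right _ _) h1)
  linarith

end Weighted

end Crest.Agent.R001.Tree
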