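import Crest.Agent.R001.End
import Crest.Agent.R001.TreeDefs
import Crest.Agent.Lib.Mertens

/-!
# R1, top assembly, part 1 (helper301)

* parameters `Dlev X = ⌊X/(log X)^3⌋`, `w0 X = √(Dlev X)`;
* short Mertens sum over the primes in `[w0, z)`;
* the loss in passing from sifting limit `w0` to `z` (Brun–Titchmarsh).
-/

set_option autoImplicit false

open Finset Filter

namespace Crest.Agent.R001.Asm

open Crest.Agent.R001.End

/-- the level of the Rosser tree -/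
noncomputable def Dlev (X : ℕ) : ℕ := ⌊(X : ℝ) / (Real.log X) ^ 3⌋₊

/-- the sifting limit of the root of the tree -/
noncomputable def w0 (X : ℕ) : ℕ := Nat.sqrt (Dlev X)

/-- the largeness conditions used in this file -/
structure Big (x : ℝ) : Prop where
  l1 : 1 ≤ Real.log (Real.log x)
  lL : 8 * Real.log (Real.log x) ≤ Real.log x
  u9 : 9 * (Real.log x) ^ 2 ≤ x ^ ((1 : ℝ) / 2)
  L10 : (Real.log x) ^ ((21 : ℝ) / 20) ≤ x ^ ((1 : ℝ) / 10)
  x2 : 2 ≤ x

lemma eventually_log_rpow_le (r s c : ℝ) (hs : 0 < s) (hc : 0 < c) :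
    ∀ᶠ x : ℝ in atTop, c * (Real.log x) ^ r ≤ x ^ s := by
  have h3 := (isLittleO_log_rpow_rpow_atTop r hs).def (inv_pos.mpr hc)
  filter_upwards [h3, eventually_ge_atTop (1 : ℝ)] with x hx hx1
  rw [Real.norm_of_nonneg (Real.rpow_nonneg (Real.log_nonneg hx1) _),
    Real.norm_of_nonneg (by positivity)] at hx
  calc c * (Real.log x) ^ r ≤ c * (c⁻¹ * x ^ s) := by gcongr
    _ = x ^ s := by field_simp

lemma tendsto_loglog : Tendsto (fun x : ℝ => Real.log (Real.log x)) atTop atTop :=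
  Real.tendsto_log_atTop.comp Real.tendsto_log_atTop

/-- `c log log x ≤ log x` eventually -/
lemma eventually_loglog_le (c : ℝ) (hc : 0 < c) :
    ∀ᶠ x : ℝ in atTop, c * Real.log (Real.log x) ≤ Real.log x := by
  have h := eventually_log_rpow_le 1 1 c one_pos hc
  have h2 := Real.tendsto_log_atTop.eventually h
  filter_upwards [h2] with x hx
  simpa using hx

lemma eventually_big : ∀ᶠ x : ℝ in atTop, Big x := by
  have h1 : ∀ᶠ x : ℝ in atTop, 1 ≤ Real.log (Real.log x) := tendsto_loglog.eventually_ge_atTop 1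
  have h2 := eventually_loglog_le 8 (by norm_num)
  have h3 := eventually_log_rpow_le 2 (1 / 2) 9 (by norm_num) (by norm_num)
  have h4 := eventually_log_rpow_le (21 / 20) (1 / 10) 1 (by norm_num) (by norm_num)
  filter_upwards [h1, h2, h3, h4, eventually_ge_atTop (2 : ℝ)] with x a b c d e
  refine ⟨a, b, ?_, ?_, e⟩
  · have : (Real.log x) ^ (2 : ℝ) = (Real.log x) ^ 2 := by
      rw [show (2 : ℝ) = ((2 : ℕ) : ℝ) by norm_num, Real.rpow_natCast]
    rw [this] at c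
    exact c
  · simpa using d

section

variable {X : ℕ} (hX : Big X)

include hX

lemma Big.L8 : 8 ≤ Real.log X := by have := hX.l1; have := hX.lL; linarith

lemma Big.X0 : (0 : ℝ) < X := by have := hX.x2; linarith

/-- `u = X^{1/2}/L^2` -/
lemma Big.u_ge : 9 ≤ (X : ℝ) ^ ((1 : ℝ) / 2) / (Real.log X) ^ 2 := by
  have h8 := hX.L8
  rw [le_div_iff₀ (by positivity)]
  exact hX.u9

/-- `u + 1 < w0` -/
lemma Big.w0_gt : (X : ℝ) ^ ((1 : ℝ) / 2) / (Real.log X) ^ 2 + 1 < w0 X := by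
  have h8 := hX.L8
  have hX0 := hX.X0
  obtain ⟨u, hu⟩ : ∃ u, u = (X : ℝ) ^ ((1 : ℝ) / 2) / (Real.log X) ^ 2 := ⟨_, rfl⟩
  have hu9 : 9 ≤ u := by rw [hu]; exact hX.u_ge
  rw [← hu]
  have hXu : (X : ℝ) = u ^ 2 * (Real.log X) ^ 4 := by
    rw [hu, div_pow, ← Real.rpow_natCast ((X : ℝ) ^ ((1 : ℝ) / 2)), ← Real.rpow_mul hX0.le]
    have : (Real.log (X : ℝ)) ≠ 0 := by linarith
    norm_num
    field_simp
  have h1 : (u + 2) ^ 2 + 1 ≤ (X : ℝ) / (Real.log X) ^ 3 := by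
    rw [le_div_iff₀ (by positivity)]
    have h2 : (u + 2) ^ 2 + 1 ≤ 2 * u ^ 2 := by nlinarith
    have h4 : 0 < (Real.log (X : ℝ)) ^ 3 := by positivity
    calc ((u + 2) ^ 2 + 1) * (Real.log X) ^ 3 ≤ (2 * u ^ 2) * (Real.log X) ^ 3 := by gcongr
      _ ≤ (Real.log X * u ^ 2) * (Real.log X) ^ 3 := by
          have : 2 ≤ Real.log X := by linarith
          gcongr
      _ = u ^ 2 * (Real.log X) ^ 4 := by ring
      _ = X := hXu.symm
  have h5 : (u + 2) ^ 2 < (Dlev X : ℝ) := by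
    unfold Dlev
    have := Nat.lt_floor_add_one ((X : ℝ) / (Real.log X) ^ 3)
    linarith
  have h6 : (Dlev X : ℝ) < ((w0 X : ℝ) + 1) ^ 2 := by
    have := Nat.sqrt_lt' (m := Dlev X) (n := Nat.sqrt (Dlev X) + 1)
    have h7 : Dlev X < (Nat.sqrt (Dlev X) + 1) ^ 2 := this.mp (Nat.lt_succ_self _)
    unfold w0
    exact_mod_cast h7
  have h8 : u + 2 < (w0 X : ℝ) + 1 :=
    lt_of_pow_lt_pow_left₀ 2 (by positivity) (h5.trans h6)
  linarith

/-- short Mertens sum -/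
lemma Big.mertens {z : ℝ} (hz : z ^ 2 ≤ X * (Real.log X) ^ ((21 : ℝ) / 10)) {S : Finset ℕ}
    (hS : ∀ p ∈ S, p.Prime ∧ w0 X ≤ p ∧ (p : ℝ) < z) :
    ∑ p ∈ S, (1 : ℝ) / p ≤ 85 * Real.log (Real.log X) / Real.log X := by
  have h8 := hX.L8
  have hX0 := hX.X0
  have hl1 := hX.l1
  have hlL := hX.lL
  obtain ⟨L, hL⟩ : ∃ L, L = Real.log (X : ℝ) := ⟨_, rfl⟩
  obtain ⟨l, hl⟩ : ∃ l, l = Real.log L := ⟨_, rfl⟩
  obtain ⟨u, hu⟩ : ∃ u, u = (X : ℝ) ^ ((1 : ℝ) / 2) / (Real.log X) ^ 2 := ⟨_, rfl⟩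
  have hu9 : 9 ≤ u := by rw [hu]; exact hX.u_ge
  have hw0 : u + 1 < w0 X := by rw [hu]; exact hX.w0_gt
  rw [← hL] at h8 hl1 hlL hu hz ⊢
  rw [← hl] at hl1 hlL ⊢
  have hL0 : 0 < L := by linarith
  rcases S.eq_empty_or_nonempty with rfl | ⟨p₁, hp₁⟩
  · rw [Finset.sum_empty]; positivity
  obtain ⟨-, hp2, hp3⟩ := hS p₁ hp₁
  have hp2' : (w0 X : ℝ) ≤ p₁ := by exact_mod_cast hp2
  have huz : u ≤ z := by linarith
  have hz0 : 0 < z := by linarith
  have hsub : S ⊆ Lib.Mertens.pr u z := by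
    intro p hp
    obtain ⟨h1, h2, h3⟩ := hS p hp
    have h2' : (w0 X : ℝ) ≤ p := by exact_mod_cast h2
    rw [Lib.Mertens.mem_pr (by linarith) hz0.le]
    exact ⟨⟨by linarith, h3.le⟩, h1⟩
  have hlogu : Real.log u = L / 2 - 2 * l := by
    rw [hu, Real.log_div (by positivity) (by positivity), Real.log_rpow hX0, Real.log_pow, ← hL,
      ← hl]
    push_cast
    ring
  have hlogz : Real.log z ≤ L / 2 + (21 / 20) * l := by
    have h1 : Real.log (z ^ 2) ≤ Real.log (X * L ^ ((21 : ℝ) / 10)) :=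
      Real.log_le_log (by positivity) hz
    rw [Real.log_pow, Real.log_mul hX0.ne' (by positivity), Real.log_rpow hL0, ← hL, ← hl] at h1
    push_cast at h1
    linarith
  have hlu : L / 4 ≤ Real.log u := by rw [hlogu]; linarith
  have hlu0 : 0 < Real.log u := by linarith
  have hlz0 : 0 < Real.log z := lt_of_lt_of_le hlu0 (Real.log_le_log (by linarith) huz)
  have hM := Lib.Mertens.mertens_two u z (by linarith) huz
  have hM2 := (abs_le.mp hM).2
  have h1 : Real.log (Real.log z) - Real.log (Real.log u) ≤ 13 * l / L := by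
    rw [← Real.log_div hlz0.ne' hlu0.ne']
    refine (Real.log_le_sub_one_of_pos (by positivity)).trans ?_
    rw [div_sub_one hlu0.ne', div_le_div_iff₀ hlu0 hL0]
    have h2 : Real.log z - Real.log u ≤ (13 / 4) * l := by rw [hlogu]; linarith
    calc (Real.log z - Real.log u) * L ≤ ((13 / 4) * l) * L := by gcongr
      _ = 13 * l * (L / 4) := by ring
      _ ≤ 13 * l * Real.log u := by gcongr
  have h2 : 18 / Real.log u ≤ 72 * l / L := by
    rw [div_le_div_iff₀ hlu0 hL0]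
    calc 18 * L = 72 * (L / 4) := by ring
      _ ≤ 72 * Real.log u := by gcongr
      _ ≤ 72 * l * Real.log u := by
          have : 72 * Real.log u * 1 ≤ 72 * Real.log u * l := by gcongr
          linarith
  calc ∑ p ∈ S, (1 : ℝ) / p ≤ ∑ p ∈ Lib.Mertens.pr u z, (1 : ℝ) / p :=
        Finset.sum_le_sum_of_subset_of_nonneg hsub fun p _ _ => by positivity
    _ ≤ (Real.log (Real.log z) - Real.log (Real.log u)) + 18 / Real.log u := by linarith
    _ ≤ 13 * l / L + 72 * l / L := add_le_add h1 h2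
    _ = 85 * l / L := by ring

end

/-- **LOSS**: passing from the sifting limit `w0 X` to `z` costs at most `C X l/L^2`. -/
theorem loss : ∃ C : ℝ, 0 < C ∧ ∀ X : ℕ, Big X → ∀ (a : ℤ) (z : ℝ), 0 ≤ z →
    z ^ 2 ≤ X * (Real.log X) ^ ((21 : ℝ) / 10) →
    ((rough (Finset.Ioc (a - X) a) (w0 X : ℝ)).card : ℝ) ≤
      ((rough (Finset.Ioc (a - X) a) z).card : ℝ) +
        C * X * Real.log (Real.log X) / (Real.log X) ^ 2 := by
  obtain ⟨C, hC, hbt⟩ := bt
  refine ⟨5 * C * 85, by positivity, ?_⟩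
  intro X hX a z hz0 hz
  have h8 := hX.L8
  have hX0 := hX.X0
  have hl1 := hX.l1
  have hlL := hX.lL
  have hu9 := hX.u_ge
  have hw0 := hX.w0_gt
  have hL10 := hX.L10
  classical
  obtain ⟨S, hSdef⟩ : ∃ S, S = (Finset.range ⌈z⌉₊).filter
    (fun p : ℕ => p.Prime ∧ w0 X ≤ p ∧ (p : ℝ) < z) := ⟨_, rfl⟩
  have hS : ∀ p ∈ S, p.Prime ∧ w0 X ≤ p ∧ (p : ℝ) < z := by
    intro p hp
    rw [hSdef, Finset.mem_filter] at hp
    exact hp.2
  have hmert := hX.mertens hz hS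
  obtain ⟨R, hR⟩ : ∃ R, R = rough (Finset.Ioc (a - X) a) (w0 X : ℝ) := ⟨_, rfl⟩
  have hcover : R ⊆ rough (Finset.Ioc (a - X) a) z ∪
      S.biUnion (fun p => R.filter (fun t : ℤ => (p : ℤ) ∣ t)) := by
    intro t ht
    rw [Finset.mem_union]
    by_cases h : t ∈ rough (Finset.Ioc (a - X) a) z
    · exact Or.inl h
    · right
      have ht' := ht
      rw [hR, mem_rough] at ht'
      rw [mem_rough] at h
      push Not at h
      obtain ⟨p, hp, hpz, hpt⟩ := h ht'.1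
      rw [Finset.mem_biUnion]
      refine ⟨p, ?_, Finset.mem_filter.mpr ⟨ht, hpt⟩⟩
      rw [hSdef, Finset.mem_filter, Finset.mem_range]
      have hpw : w0 X ≤ p := by
        by_contra hlt
        push Not at hlt
        exact ht'.2 p hp (by exact_mod_cast hlt) hpt
      exact ⟨Nat.lt_ceil.mpr hpz, hp, hpw, hpz⟩
  have hcard : (R.card : ℝ) ≤ ((rough (Finset.Ioc (a - X) a) z).card : ℝ) +
      ∑ p ∈ S, ((R.filter (fun t : ℤ => (p : ℤ) ∣ t)).card : ℝ) := by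
    have h1 := Finset.card_le_card hcover
    have h2 := Finset.card_union_le (rough (Finset.Ioc (a - X) a) z)
      (S.biUnion (fun p => R.filter (fun t : ℤ => (p : ℤ) ∣ t)))
    have h3 : (S.biUnion (fun p => R.filter (fun t : ℤ => (p : ℤ) ∣ t))).card ≤
        ∑ p ∈ S, (R.filter (fun t : ℤ => (p : ℤ) ∣ t)).card := Finset.card_biUnion_le
    have h4 : R.card ≤ (rough (Finset.Ioc (a - X) a) z).card +
        ∑ p ∈ S, (R.filter (fun t : ℤ => (p : ℤ) ∣ t)).card := by omega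
    exact_mod_cast h4
  have hterm : ∀ p ∈ S, ((R.filter (fun t : ℤ => (p : ℤ) ∣ t)).card : ℝ) ≤
      5 * C * X / Real.log X * (1 / p) := by
    intro p hp
    obtain ⟨hpp, hpw, hpz⟩ := hS p hp
    have hp0 : (0 : ℝ) < p := by exact_mod_cast hpp.pos
    obtain ⟨a', ha'⟩ := card_dvd_rough a X p hpp (w0 X : ℝ)
    rw [← hR] at ha'
    have hz1 : z ≤ (X : ℝ) ^ ((1 : ℝ) / 2) * (Real.log X) ^ ((21 : ℝ) / 20) := by
      have h1 : z ^ 2 ≤ ((X : ℝ) ^ ((1 : ℝ) / 2) * (Real.log X) ^ ((21 : ℝ) / 20)) ^ 2 := by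
        rw [mul_pow, ← Real.rpow_natCast ((X : ℝ) ^ ((1 : ℝ) / 2)), ← Real.rpow_mul hX0.le,
          ← Real.rpow_natCast ((Real.log (X : ℝ)) ^ ((21 : ℝ) / 20)),
          ← Real.rpow_mul (by linarith)]
        norm_num
        exact hz
      exact le_of_sq_le_sq h1 (by positivity)
    have hz2 : z ≤ (X : ℝ) ^ ((3 : ℝ) / 5) := by
      calc z ≤ (X : ℝ) ^ ((1 : ℝ) / 2) * (Real.log X) ^ ((21 : ℝ) / 20) := hz1
        _ ≤ (X : ℝ) ^ ((1 : ℝ) / 2) * (X : ℝ) ^ ((1 : ℝ) / 10) := by gcongr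
        _ = (X : ℝ) ^ ((3 : ℝ) / 5) := by rw [← Real.rpow_add hX0]; norm_num
    have hXp : (X : ℝ) ^ ((2 : ℝ) / 5) ≤ X / p := by
      rw [le_div_iff₀ hp0]
      calc (X : ℝ) ^ ((2 : ℝ) / 5) * p ≤ (X : ℝ) ^ ((2 : ℝ) / 5) * (X : ℝ) ^ ((3 : ℝ) / 5) := by
            gcongr
            linarith
        _ = X := by rw [← Real.rpow_add hX0]; norm_num
    obtain ⟨N, hN⟩ : ∃ N, N = X / p + 1 := ⟨_, rfl⟩
    rw [← hN] at ha'
    have hN1 : (X : ℝ) / p ≤ N := by
      rw [hN, div_le_iff₀ hp0]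
      have := (Nat.lt_mul_div_succ X hpp.pos).le
      have h2 : (X : ℝ) ≤ ((p * (X / p + 1) : ℕ) : ℝ) := by exact_mod_cast this
      push_cast at h2 ⊢
      linarith
    have hpow2 : 2 ≤ (X : ℝ) ^ ((2 : ℝ) / 5) := by
      have h1 : Real.log 2 ≤ Real.log ((X : ℝ) ^ ((2 : ℝ) / 5)) := by
        rw [Real.log_rpow hX0]
        have := Real.log_two_lt_d9
        linarith
      exact (Real.log_le_log_iff (by norm_num) (by positivity)).mp h1
    have hN2 : (N : ℝ) ≤ 2 * (X / p) := by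
      have h2 : ((X / p : ℕ) : ℝ) ≤ X / p := Nat.cast_div_le
      rw [hN]
      push_cast
      linarith
    have hN3 : 2 ≤ N := by
      have : (2 : ℝ) ≤ N := by linarith
      exact_mod_cast this
    have hNlog : 2 / 5 * Real.log X ≤ Real.log N := by
      rw [← Real.log_rpow hX0]
      exact Real.log_le_log (by positivity) (by linarith)
    have hNX : (N : ℝ) ≤ X := by
      have hp5 : (2 : ℝ) ≤ p := by exact_mod_cast hpp.two_le
      refine hN2.trans ?_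
      rw [← mul_div_assoc, div_le_iff₀ hp0]
      nlinarith
    have hw0' : (N : ℝ) ^ ((1 : ℝ) / 56) < (w0 X : ℝ) := by
      have h1 : (N : ℝ) ^ ((1 : ℝ) / 56) ≤ (X : ℝ) ^ ((1 : ℝ) / 56) :=
        Real.rpow_le_rpow (by positivity) hNX (by norm_num)
      have h2 : (X : ℝ) ^ ((1 : ℝ) / 56) ≤ (X : ℝ) ^ ((1 : ℝ) / 2) / (Real.log X) ^ 2 := by
        rw [le_div_iff₀ (by positivity)]
        -- `L^2 ≤ (L^{21/20})^2 ≤ X^{1/5}`
        have h3 : (Real.log X) ^ 2 ≤ (X : ℝ) ^ ((1 : ℝ) / 5) := by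
          calc (Real.log X) ^ 2 ≤ ((Real.log X) ^ ((21 : ℝ) / 20)) ^ 2 := by
                gcongr
                calc Real.log X = (Real.log X) ^ (1 : ℝ) := (Real.rpow_one _).symm
                  _ ≤ (Real.log X) ^ ((21 : ℝ) / 20) :=
                    Real.rpow_le_rpow_of_exponent_le (by linarith) (by norm_num)
            _ ≤ ((X : ℝ) ^ ((1 : ℝ) / 10)) ^ 2 := by gcongr
            _ = (X : ℝ) ^ ((1 : ℝ) / 5) := by
                rw [← Real.rpow_natCast, ← Real.rpow_mul hX0.le]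
                norm_num
        calc (X : ℝ) ^ ((1 : ℝ) / 56) * (Real.log X) ^ 2
            ≤ (X : ℝ) ^ ((1 : ℝ) / 56) * (X : ℝ) ^ ((1 : ℝ) / 5) := by gcongr
          _ = (X : ℝ) ^ ((1 : ℝ) / 56 + (1 : ℝ) / 5) := (Real.rpow_add hX0 _ _).symm
          _ ≤ (X : ℝ) ^ ((1 : ℝ) / 2) :=
              Real.rpow_le_rpow_of_exponent_le (by have := hX.x2; linarith) (by norm_num)
      linarith
    have h1 := hbt a' N hN3 (w0 X : ℝ) hw0'
    have h2 : ((R.filter (fun t : ℤ => (p : ℤ) ∣ t)).card : ℝ) ≤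
        ((rough (Finset.Ioc a' (a' + (N : ℤ))) (w0 X : ℝ)).card : ℝ) := by exact_mod_cast ha'
    have hlogN : 0 < Real.log N := by linarith
    calc ((R.filter (fun t : ℤ => (p : ℤ) ∣ t)).card : ℝ) ≤ C * (N / Real.log N) := h2.trans h1
      _ ≤ C * ((2 * (X / p)) / (2 / 5 * Real.log X)) := by gcongr
      _ = 5 * C * X / Real.log X * (1 / p) := by
          field_simp
  rw [← hR]
  refine hcard.trans ?_
  gcongr
  calc ∑ p ∈ S, ((R.filter (fun t : ℤ => (p : ℤ) ∣ t)).card : ℝ)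
      ≤ ∑ p ∈ S, 5 * C * X / Real.log X * (1 / p) := Finset.sum_le_sum hterm
    _ = 5 * C * X / Real.log X * ∑ p ∈ S, (1 : ℝ) / p := by rw [Finset.mul_sum]
    _ ≤ 5 * C * X / Real.log X * (85 * Real.log (Real.log X) / Real.log X) := by gcongr
    _ = 5 * C * 85 * X * Real.log (Real.log X) / (Real.log X) ^ 2 := by
        field_simp

end Crest.Agent.R001.Asm
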