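import Crest.Agent.R001.Fin9_571
import Crest.Agent.R001.Fin.Upper
import Crest.Agent.SW.Final301

set_option autoImplicit false

namespace Crest.Agent.R001.Fin571

open Finset Crest.Agent.Lib.Mertens Crest.Agent.R001.FL ArithmeticFunction Crest.Agent.R001.End

theorem upper_holds : Upper := by
  classical
  obtain ⟨C, k, hC, hk, h⟩ := Crest.Agent.R001.Fin.upper_two
  refine ⟨C, hC, k, hk, fun w V H hw hV hVw hwH x r1 r2 => ?_⟩
  refine (h w V H hw hV hVw hwH x r1 r2 _ (Finset.filter_subset _ _) ?_).trans (le_of_eq ?_)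
  · intro j hj
    rw [Finset.mem_filter] at hj
    refine ⟨fun p hp hp3 hpH => hj.2.1 p hp hp3 ?_, hj.2.2⟩
    have hk0 : (k : ℝ) ≠ 0 := by
      have : k ≠ 0 := by omega
      exact_mod_cast this
    have h1 : ((p : ℝ) ^ k) ≤ H := by exact_mod_cast hpH
    have h2 : ((p : ℝ) ^ k) ^ ((1 : ℝ) / k) ≤ (H : ℝ) ^ ((1 : ℝ) / k) :=
      Real.rpow_le_rpow (by positivity) h1 (by positivity)
    have h3 : ((p : ℝ) ^ k) ^ ((1 : ℝ) / k) = p := by
      rw [← Real.rpow_natCast, ← Real.rpow_mul (Nat.cast_nonneg p), mul_one_div_cancel hk0,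
        Real.rpow_one]
    rw [h3] at h2
    exact h2
  · rfl

/-- **BLOCK FIN.** There is an absolute `ε₀ > 0` such that: if, up to a set `XX` of primes with
`∑ 1/p ≤ ε₀`, every prime `p` with `L^C1 < p < z` divides `V a - U`, then the interval `(a-X, a]`
contains at least `X / L^2` integers without prime factor `< z`. -/
theorem fin : ∃ ε₀ : ℝ, 0 < ε₀ ∧
    ∀ C1 : ℕ, 1 ≤ C1 → ∃ X0 : ℝ, ∀ X : ℕ, X0 ≤ X → ∀ (a U : ℤ) (V : ℕ), 1 ≤ V →
      (V : ℝ) ≤ (Real.log X) ^ C1 → |(U : ℝ)| ≤ X * (Real.log X) ^ C1 → IsCoprime U (V : ℤ) →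
      ∀ z : ℝ, z ≤ (X : ℝ) ^ ((3 : ℝ) / 5) → ∀ XX : Finset ℕ,
      (∀ p ∈ XX, p.Prime ∧ (Real.log X) ^ C1 < p) → ∑ p ∈ XX, (1 : ℝ) / p ≤ ε₀ →
      (∀ p : ℕ, p.Prime → (Real.log X) ^ C1 < p → (p : ℝ) < z → p ∉ XX →
        (p : ℤ) ∣ (V : ℤ) * a - U) →
      (X : ℝ) / (Real.log X) ^ 2 ≤ ((rough (Finset.Ioc (a - X) a) z).card : ℝ) :=
  fin_aux Crest.Agent.SW.psiAP_holds upper_holds

/-- `z^2 ≤ X (log X)^c` implies `z ≤ X^(3/5)` for large `X`. -/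
theorem z_le (c : ℝ) : ∃ X0 : ℝ, ∀ X : ℝ, X0 ≤ X → ∀ z : ℝ, z ^ 2 ≤ X * (Real.log X) ^ c →
    z ≤ X ^ ((3 : ℝ) / 5) := by
  obtain ⟨n, hn⟩ := exists_nat_ge c
  obtain ⟨X1, hX1⟩ := ev_pow (5 * n) 1
  obtain ⟨X2, hX2⟩ := ev_log 1
  refine ⟨max (max X1 X2) 1, fun X hX z hz => ?_⟩
  have h1 := hX1 X ((le_max_left _ _).trans ((le_max_left _ _).trans hX))
  have h2 := hX2 X ((le_max_right _ _).trans ((le_max_left _ _).trans hX))
  have hX1' : 1 ≤ X := (le_max_right _ _).trans hX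
  have hXpos : 0 < X := by linarith
  have h3 : (Real.log X) ^ c ≤ (Real.log X) ^ n := by
    rw [← Real.rpow_natCast]
    exact Real.rpow_le_rpow_of_exponent_le h2 hn
  have h4 : (Real.log X) ^ n ≤ X ^ ((1 : ℝ) / 5) := by
    have h5 : (((Real.log X) ^ n) ^ 5) ^ ((1 : ℝ) / 5) ≤ X ^ ((1 : ℝ) / 5) := by
      apply Real.rpow_le_rpow (by positivity) _ (by norm_num)
      calc ((Real.log X) ^ n) ^ 5 = 1 * (Real.log X) ^ (5 * n) := by ring
        _ ≤ X := h1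
    have h6 : (((Real.log X) ^ n) ^ 5) ^ ((1 : ℝ) / 5) = (Real.log X) ^ n := by
      rw [← Real.rpow_natCast ((Real.log X) ^ n) 5, ← Real.rpow_mul (by positivity)]
      norm_num
    rw [h6] at h5
    exact h5
  have h7 : z ^ 2 ≤ (X ^ ((3 : ℝ) / 5)) ^ 2 := by
    calc z ^ 2 ≤ X * (Real.log X) ^ c := hz
      _ ≤ X * X ^ ((1 : ℝ) / 5) := by gcongr; exact h3.trans h4
      _ = (X ^ ((3 : ℝ) / 5)) ^ 2 := by
          rw [← Real.rpow_natCast, ← Real.rpow_mul hXpos.le]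
          nth_rewrite 1 [← Real.rpow_one X]
          rw [← Real.rpow_add hXpos]
          norm_num
  exact (abs_le_of_sq_le_sq' h7 (by positivity)).2

/-- **BLOCK FIN**, convenience form for the assembly (real exponents, `z ^ 2 ≤ X L^C2`, no lower
bound on the primes of `XX`). -/
theorem fin' : ∃ ε₀ : ℝ, 0 < ε₀ ∧
    ∀ C1 C2 : ℝ, ∃ X0 : ℝ, ∀ X : ℕ, X0 ≤ X → ∀ (a U : ℤ) (V : ℕ), 1 ≤ V →
      (V : ℝ) ≤ (Real.log X) ^ C1 → |(U : ℝ)| ≤ X * (Real.log X) ^ C1 → IsCoprime U (V : ℤ) →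
      ∀ z : ℝ, z ^ 2 ≤ X * (Real.log X) ^ C2 → ∀ XX : Finset ℕ,
      (∀ p ∈ XX, p.Prime) → ∑ p ∈ XX, (1 : ℝ) / p ≤ ε₀ →
      (∀ p : ℕ, p.Prime → (Real.log X) ^ C1 < p → (p : ℝ) < z → p ∉ XX →
        (p : ℤ) ∣ (V : ℤ) * a - U) →
      (X : ℝ) / (Real.log X) ^ 2 ≤ ((rough (Finset.Ioc (a - X) a) z).card : ℝ) := by
  classical
  obtain ⟨ε₀, hε, hfin⟩ := fin
  refine ⟨ε₀, hε, fun C1 C2 => ?_⟩
  obtain ⟨n, hn⟩ := exists_nat_ge (max C1 1)
  have hnC : C1 ≤ n := (le_max_left _ _).trans hn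
  have hn1 : 1 ≤ n := by
    have : (1 : ℝ) ≤ n := (le_max_right _ _).trans hn
    exact_mod_cast this
  obtain ⟨X1, hX1⟩ := hfin n hn1
  obtain ⟨X2, hX2⟩ := ev_log 1
  obtain ⟨X3, hX3⟩ := z_le C2
  refine ⟨max (max X1 X2) (max X3 1), fun X hX a U V hV hVw hUw hUV z hz XX hXX hsum hdvd => ?_⟩
  have h1 := hX1 X ((le_max_left _ _).trans ((le_max_left _ _).trans hX))
  have h2 := hX2 X ((le_max_right _ _).trans ((le_max_left _ _).trans hX))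
  have h3 := hX3 X ((le_max_left _ _).trans ((le_max_right _ _).trans hX)) z hz
  have hX1' : (1 : ℝ) ≤ X := (le_max_right _ _).trans ((le_max_right _ _).trans hX)
  have h4 : (Real.log X) ^ C1 ≤ (Real.log X) ^ n := by
    rw [← Real.rpow_natCast]
    exact Real.rpow_le_rpow_of_exponent_le h2 hnC
  refine h1 a U V hV (hVw.trans h4) (hUw.trans ?_) hUV z h3
    (XX.filter (fun p : ℕ => (Real.log X) ^ n < p)) ?_ ?_ ?_
  · gcongr
  · intro p hp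
    rw [Finset.mem_filter] at hp
    exact ⟨hXX p hp.1, hp.2⟩
  · refine le_trans (Finset.sum_le_sum_of_subset_of_nonneg (Finset.filter_subset _ _) ?_) hsum
    intro p _ _
    positivity
  · intro p hp hpn hpz hpX
    refine hdvd p hp (lt_of_le_of_lt h4 hpn) hpz fun h => hpX ?_
    rw [Finset.mem_filter]
    exact ⟨h, hpn⟩

end Crest.Agent.R001.Fin571
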