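import Crest.Agent.R001.Hit621g
import Crest.Agent.R001.Asm1

/-!
# R1, block NOG: nodes of `line(V)` without a prime factor in `[L^{C1}, X^γ]` are negligible.
helper621
-/

set_option autoImplicit false

namespace Crest.Agent.R001.Hit

open Finset Classical

/-- helper664's line mass bound -/
def LineUp : Prop := ∃ C V1 : ℝ, 0 < C ∧ 0 < V1 ∧ ∀ V : ℝ, V1 ≤ V → ∀ (y : ℝ) (w : ℕ), 2 ≤ w →
  (w : ℝ) ^ 2 ≤ y → V ≤ Real.log y →
  Mass.T (Mass.stopV V) (fun _ _ => 0) (fun _ _ => 1) y w ≤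
    C * V ^ 2 * Real.log w ^ 4 / Real.log y ^ 6

lemma log_w_le_half {y : ℝ} {w : ℕ} (hw : 2 ≤ w) (hy : (w : ℝ) ^ 2 ≤ y) :
    Real.log w ≤ Real.log y / 2 := by
  have h0 : (0 : ℝ) < w := by
    have : 0 < w := by omega
    exact_mod_cast this
  have h1 : Real.log ((w : ℝ) ^ 2) ≤ Real.log y := Real.log_le_log (by positivity) hy
  rw [Real.log_pow] at h1
  push_cast at h1
  linarith

theorem LineUp.massUp (h : LineUp) : MassUp := by
  obtain ⟨C, V1, hC, hV1, H⟩ := h
  refine ⟨C, V1, hC, hV1, ?_⟩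
  intro V hV y w hw hy hVy
  refine (H V hV y w hw hy hVy).trans ?_
  have hVp : 0 < V := by linarith
  have hyp : 0 < Real.log y := by linarith
  have h1 := log_w_le_half hw hy
  have h2 : 0 ≤ Real.log w := Real.log_natCast_nonneg w
  rw [div_le_div_iff₀ (by positivity) (by positivity)]
  have h3 : Real.log w ^ 4 ≤ Real.log y ^ 4 := by
    apply pow_le_pow_left₀ h2
    linarith
  calc C * V ^ 2 * Real.log w ^ 4 * Real.log y ^ 2
      ≤ C * V ^ 2 * Real.log y ^ 4 * Real.log y ^ 2 := by gcongr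
    _ = C * V ^ 2 * Real.log y ^ 6 := by ring

/-- `v(child) ≥ v / 3` -/
lemma third_le {D : ℝ} {d w p q : ℕ} (hi : Inv D d w) (hw : 1 ≤ w) (hc : IsChild D d w p q) :
    vv D d / 3 ≤ vv D (d * p * q) := by
  rw [vv_child hi hc]
  obtain ⟨h1, h2, h3, h4, h5⟩ := hc
  have h6 := two_log_le hi hw
  have hp0 : (0 : ℝ) < p := by exact_mod_cast h2.pos
  have hq0 : (0 : ℝ) < q := by exact_mod_cast h4.pos
  have hd : (0 : ℝ) < d := by exact_mod_cast hi.one_le
  have h7 : Real.log p < Real.log w := Real.log_lt_log hp0 (by exact_mod_cast h1)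
  have hD := D_pos hi hw
  have h8 : Real.log p + 3 * Real.log q < vv D d := by
    unfold vv
    rw [Real.log_div hD.ne' hd.ne']
    have := Real.log_lt_log (by positivity) h5
    rw [Real.log_mul (by positivity) (by positivity), Real.log_mul hd.ne' hp0.ne',
      Real.log_pow] at this
    push_cast at this
    linarith
  linarith

/-- the property "has a prime factor in `[t1, t2]`" -/
def HasG (t1 t2 : ℝ) (d : ℕ) : Prop := ∃ g, g.Prime ∧ g ∣ d ∧ t1 ≤ (g : ℝ) ∧ (g : ℝ) ≤ t2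

lemma cs_inv_le_Q {D : ℝ} {d w : ℕ} :
    cs D (fun d w => Tree.Q (fun n => 1 / (n : ℝ)) d w) d w ≤
      Tree.Q (fun n => 1 / (n : ℝ)) d w := by
  have hQ : ∀ d w, 0 ≤ Tree.Q (fun n => 1 / (n : ℝ)) d w := fun d w =>
    Tree.Q_nonneg (fun n => by positivity) d w
  rw [Tree.Q_rec2 _ d w]
  have h1 : cs D (fun d w => Tree.Q (fun n => 1 / (n : ℝ)) d w) d w ≤
      ∑ p ∈ Tree.pr w, ∑ q ∈ Tree.pr p, Tree.Q (fun n => 1 / (n : ℝ)) (d * p * q) q := by
    unfold cs
    change ∑ p ∈ Tree.pr w, ∑ q ∈ Tree.pr p, _ ≤ _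
    refine Finset.sum_le_sum fun p _ => Finset.sum_le_sum fun q _ => ?_
    split_ifs
    · exact le_rfl
    · exact hQ _ _
  have h2 : 0 ≤ 1 / (d : ℝ) + ∑ p ∈ Tree.pr w, 1 / ((d * p : ℕ) : ℝ) := by
    have : 0 ≤ ∑ p ∈ Tree.pr w, 1 / ((d * p : ℕ) : ℝ) :=
      Finset.sum_nonneg fun p _ => by positivity
    positivity
  linarith

/-- The mass of the leaves without a prime in `[t1, t2]`. -/
theorem nog_core {C V1 : ℝ} (hC : 0 < C) (hV1 : 0 < V1)
    (H : ∀ V : ℝ, V1 ≤ V → ∀ (y : ℝ) (w : ℕ), 2 ≤ w →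
      (w : ℝ) ^ 2 ≤ y → V ≤ Real.log y →
      Mass.T (Mass.stopV V) (fun _ _ => 0) (fun _ _ => 1) y w ≤
        C * V ^ 2 * Real.log w ^ 4 / Real.log y ^ 6)
    {D V t1 t2 : ℝ} (hV : V1 ≤ V) (ht1 : 1 < t1) (ht2 : 1 < t2)
    (hVt : V < 2 / 3 * Real.log t2) :
    ∀ d w, Inv D d w → t2 < (w : ℝ) →
      ls D (Stop D V) (fun d _ => if HasG t1 t2 d then 0 else 1 / (d : ℝ)) d w ≤
        C * V ^ 2 * Real.log t1 ^ 4 / (2 / 3 * Real.log t2) ^ 6 *
          Tree.Q (fun n => 1 / (n : ℝ)) d w := by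
  have hVp : 0 < V := by linarith
  have hlt1 : 0 < Real.log t1 := Real.log_pos ht1
  have hlt2 : 0 < Real.log t2 := Real.log_pos ht2
  set A := C * V ^ 2 * Real.log t1 ^ 4 / (2 / 3 * Real.log t2) ^ 6 with hA
  have hA0 : 0 ≤ A := by positivity
  have hQ : ∀ d w, 0 ≤ Tree.Q (fun n => 1 / (n : ℝ)) d w := fun d w =>
    Tree.Q_nonneg (fun n => by positivity) d w
  refine tree_ind (P := fun d w => t2 < (w : ℝ) →
    ls D (Stop D V) (fun d _ => if HasG t1 t2 d then 0 else 1 / (d : ℝ)) d w ≤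
      A * Tree.Q (fun n => 1 / (n : ℝ)) d w) ?_
  intro d w hi ih hw
  have hw1 : 1 ≤ w := by
    by_contra hcon
    have : w = 0 := by omega
    subst this
    simp at hw
    linarith
  have hwlog : Real.log t2 < Real.log w := Real.log_lt_log (by linarith) hw
  have h2 := two_log_le hi hw1
  have hs : ¬ Stop D V d w := by
    intro hs
    have := hs.2
    linarith
  rw [ls_step hs]
  refine le_trans ?_ (mul_le_mul_of_nonneg_left (cs_inv_le_Q (D := D)) hA0)
  rw [← cs_mul]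
  refine cs_le_cs fun p q hc => ?_
  have hic := hi.child hc
  have hqp := hc.2.2.2.1
  have hq0 : (0 : ℝ) < q := by exact_mod_cast hqp.pos
  by_cases hq2 : t2 < (q : ℝ)
  · exact ih p q hc hq2
  · push Not at hq2
    by_cases hq1 : t1 ≤ (q : ℝ)
    · -- all descendants have a prime in the range
      have h0 : ls D (Stop D V) (fun d _ => if HasG t1 t2 d then 0 else 1 / (d : ℝ))
          (d * p * q) q ≤ ls D (Stop D V) (fun _ _ => 0) (d * p * q) q := by
        refine ls_mono' (J := fun d _ => q ∣ d) (fun d w p' q' _ hj _ =>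
          (hj.mul_right _).mul_right _) ?_ _ _ hic (dvd_mul_left _ _)
        intro d' w' _ hj _
        rw [if_pos ⟨q, hqp, hj, hq1, hq2⟩]
      have h00 : ls D (Stop D V) (fun _ _ => (0 : ℝ)) (d * p * q) q = 0 := by
        have := ls_mul (D := D) (stop := Stop D V) (f := fun _ _ => (0 : ℝ)) 0 _ _ hic
        simpa using this
      rw [h00] at h0
      exact h0.trans (mul_nonneg hA0 (hQ _ _))
    · push Not at hq1
      have hle : ls D (Stop D V) (fun d _ => if HasG t1 t2 d then 0 else 1 / (d : ℝ))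
          (d * p * q) q ≤ FF D V (d * p * q) q :=
        ls_mono (fun d' w' _ _ => by split_ifs <;> first | positivity | exact le_rfl) _ _ hic
      refine hle.trans ?_
      rw [FF_eq D V q _ hic.one_le]
      have hthird := third_le hi hw1 hc
      have hv : 2 / 3 * Real.log t2 < vv D (d * p * q) := by linarith
      have hVv : V ≤ Real.log (D / ((d * p * q : ℕ) : ℝ)) := by
        have : V < vv D (d * p * q) := by linarith
        exact this.le
      have hm := H V hV _ q hqp.two_le (inv_y hic) hVv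
      have hlogq : Real.log q ≤ Real.log t1 := Real.log_le_log hq0 hq1.le
      have hlogq0 : 0 ≤ Real.log q := Real.log_natCast_nonneg q
      have hlt2p : 0 < 2 / 3 * Real.log t2 := by positivity
      have hbound : C * V ^ 2 * Real.log q ^ 4 / Real.log (D / ((d * p * q : ℕ) : ℝ)) ^ 6 ≤ A := by
        rw [hA]
        have : 2 / 3 * Real.log t2 ≤ Real.log (D / ((d * p * q : ℕ) : ℝ)) := hv.le
        gcongr
      have hd1 : 1 / ((d * p * q : ℕ) : ℝ) ≤ Tree.Q (fun n => 1 / (n : ℝ)) (d * p * q) q := by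
        rw [Tree.Q_rec]
        exact le_add_of_nonneg_right (Finset.sum_nonneg fun _ _ => hQ _ _)
      calc 1 / ((d * p * q : ℕ) : ℝ) *
            Mass.T (Mass.stopV V) (fun _ _ => 0) (fun _ _ => 1) (D / ((d * p * q : ℕ) : ℝ)) q
          ≤ 1 / ((d * p * q : ℕ) : ℝ) * A :=
            mul_le_mul_of_nonneg_left (hm.trans hbound) (by positivity)
        _ ≤ Tree.Q (fun n => 1 / (n : ℝ)) (d * p * q) q * A :=
            mul_le_mul_of_nonneg_right hd1 hA0
        _ = _ := mul_comm _ _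

/-- `∏_{p < w} (1 + 1/p) ≤ C log w` -/
lemma prod_le_log : ∃ C : ℝ, 0 < C ∧ ∀ w : ℕ, 3 ≤ w →
    ∏ p ∈ Tree.pr w, (1 + 1 / (p : ℝ)) ≤ C * Real.log w := by
  refine ⟨Real.exp (1 + 18 / Real.log 2) / Real.log 2, by positivity, ?_⟩
  intro w hw
  have hl2 : 0 < Real.log 2 := Real.log_pos (by norm_num)
  have hw2 : (2 : ℝ) ≤ w := by
    have : 2 ≤ w := by omega
    exact_mod_cast this
  have hlw : 0 < Real.log w := Real.log_pos (by linarith)
  have h1 : ∏ p ∈ Tree.pr w, (1 + 1 / (p : ℝ)) ≤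
      Real.exp (∑ p ∈ Tree.pr w, 1 / (p : ℝ)) := by
    rw [Real.exp_sum]
    apply Finset.prod_le_prod
    · intro p _; positivity
    · intro p _
      have := Real.add_one_le_exp (1 / (p : ℝ))
      linarith
  have hsub : Tree.pr w ⊆ insert 2 (Lib.Mertens.pr 2 w) := by
    intro p hp
    rw [Tree.mem_pr] at hp
    rw [Finset.mem_insert]
    by_cases h2 : p = 2
    · exact Or.inl h2
    · right
      rw [Lib.Mertens.mem_pr (by norm_num) (by linarith)]
      have h3 := hp.2.two_le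
      refine ⟨⟨?_, ?_⟩, hp.2⟩
      · have : 2 < p := by omega
        exact_mod_cast this
      · exact_mod_cast hp.1.le
  have h2 : ∑ p ∈ Tree.pr w, 1 / (p : ℝ) ≤ 1 + (Real.log (Real.log w) -
      Real.log (Real.log 2)) + 18 / Real.log 2 := by
    have h3 : ∑ p ∈ Tree.pr w, 1 / (p : ℝ) ≤ ∑ p ∈ insert 2 (Lib.Mertens.pr 2 w), 1 / (p : ℝ) :=
      Finset.sum_le_sum_of_subset_of_nonneg hsub fun p _ _ => by positivity
    have h4 : ∑ p ∈ insert 2 (Lib.Mertens.pr 2 w), 1 / (p : ℝ) ≤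
        1 / ((2 : ℕ) : ℝ) + ∑ p ∈ Lib.Mertens.pr 2 w, 1 / (p : ℝ) := by
      by_cases h2 : 2 ∈ Lib.Mertens.pr 2 w
      · rw [Finset.insert_eq_of_mem h2]
        have : (0 : ℝ) ≤ 1 / ((2 : ℕ) : ℝ) := by positivity
        linarith
      · rw [Finset.sum_insert h2]
    have h5 := (abs_le.1 (Lib.Mertens.mertens_two 2 w le_rfl hw2)).2
    push_cast at h4
    linarith
  refine h1.trans ?_
  calc Real.exp (∑ p ∈ Tree.pr w, 1 / (p : ℝ))
      ≤ Real.exp (1 + (Real.log (Real.log w) - Real.log (Real.log 2)) + 18 / Real.log 2) :=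
        Real.exp_le_exp.2 h2
    _ = Real.exp (1 + 18 / Real.log 2) / Real.log 2 * Real.log w := by
        rw [show 1 + (Real.log (Real.log w) - Real.log (Real.log 2)) + 18 / Real.log 2 =
          (1 + 18 / Real.log 2) + (Real.log (Real.log w) - Real.log (Real.log 2)) by ring,
          Real.exp_add, Real.exp_sub, Real.exp_log hlw, Real.exp_log hl2]
        ring

end Crest.Agent.R001.Hit
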