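import Crest.Agent.R001.MassL664
import Crest.Agent.R001.Nog621

/-! Row 1 (S0001), block (1), file M: the inputs of HIT. -/

set_option autoImplicit false

namespace Crest.Agent.R001.Mass

open Finset Classical

/-- line mass, non-strict form -/
theorem lineUp : Hit.LineUp := by
  obtain ⟨c⟩ := exists_consts
  obtain ⟨C, V1, hC, hV1, h⟩ := line_one
  have hC1 := c.hC1
  have hC3 : 0 < c.C3 := by linarith [c.hC3]
  refine ⟨C + 256 + 256 * c.C1 * c.C3, V1, by positivity, by linarith, ?_⟩
  intro V hV y w hw hwy hVy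
  have hI : Inv y w := ⟨hw, hwy⟩
  have hv := hI.log_y_pos
  have hω := hI.log_w_pos
  have hV0 : 0 < V := by linarith
  have hpos : 0 ≤ V ^ 2 * (Real.log w ^ 4 / Real.log y ^ 6) := by positivity
  have hfin : ∀ A : ℝ, 0 ≤ A → A ≤ C + 256 + 256 * c.C1 * c.C3 →
      T (stopV V) (fun _ _ => 0) (fun _ _ => 1) y w ≤ A * (V ^ 2 * (Real.log w ^ 4 / Real.log y ^ 6)) →
      T (stopV V) (fun _ _ => 0) (fun _ _ => 1) y w ≤
        (C + 256 + 256 * c.C1 * c.C3) * V ^ 2 * Real.log w ^ 4 / Real.log y ^ 6 := by
    intro A _ hA2 h1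
    refine h1.trans ((mul_le_mul_of_nonneg_right hA2 hpos).trans (le_of_eq ?_))
    ring
  rcases lt_or_eq_of_le hVy with hlt | heq
  · refine hfin C hC.le ?_ ?_
    · have : 0 ≤ 256 + 256 * c.C1 * c.C3 := by positivity
      linarith
    · refine (h V hV y w hI hlt).trans (le_of_eq ?_)
      ring
  · by_cases hG : Good y w
    · refine hfin 256 (by norm_num) ?_ ?_
      · have : 0 ≤ C + 256 * c.C1 * c.C3 := by positivity
        linarith
      · rw [T_stop ⟨hG, heq.ge⟩]
        unfold Good at hG
        rw [heq]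
        have e : Real.log y ^ 2 * (Real.log w ^ 4 / Real.log y ^ 6) =
            Real.log w ^ 4 / Real.log y ^ 4 := by
          field_simp
        rw [e, ← mul_div_assoc, le_div_iff₀ (by positivity), one_mul]
        have h1 := pow_le_pow_left₀ hv.le hG.le 4
        linarith [(by ring : (4 * Real.log w) ^ 4 = 256 * Real.log w ^ 4)]
    · have hs : ¬ stopV V y w := fun h' => hG h'.1
      refine hfin (256 * c.C1 * c.C3) (by positivity) ?_ ?_
      · linarith
      · have h1 := line_le c (stopV V) (h := fun _ _ => 1) (A := 256 * V ^ (9 / 4 : ℝ))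
          (by positivity) (by
            rintro y w hI' ⟨hG, hle⟩
            have hv' := hI'.log_y_pos
            have h2 := good_Xi hI' hG
            have h3 : V ^ (-(9 / 4) : ℝ) ≤ Real.log y ^ (-(9 / 4) : ℝ) :=
              Real.rpow_le_rpow_of_nonpos hv' hle (by norm_num)
            have h4 : V ^ (9 / 4 : ℝ) * V ^ (-(9 / 4) : ℝ) = 1 := by
              rw [← Real.rpow_add hV0]
              norm_num
            have h5 := mul_le_mul_of_nonneg_left (h3.trans h2)
              (by positivity : 0 ≤ V ^ (9 / 4 : ℝ))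
            rw [h4] at h5
            linarith) hI hs
        have h2 := below c V y w ⟨hI, heq.ge⟩
        have h3 : XiB y w = Xi y w := by unfold XiB; rw [if_neg hG]
        rw [h3] at h2
        have h4 := mul_le_mul_of_nonneg_left h2
          (by positivity : 0 ≤ 256 * V ^ (9 / 4 : ℝ) * c.C1)
        refine h1.trans (h4.trans (le_of_eq ?_))
        have h5 : V ^ (9 / 4 : ℝ) * Xi y w = V ^ 2 * (Real.log w ^ 4 / Real.log y ^ 6) := by
          rw [← quarter_Xi hI, ← heq]
          have h6 : V ^ (9 / 4 : ℝ) = V ^ 2 * V ^ (1 / 4 : ℝ) := by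
            rw [← Real.rpow_natCast V 2, ← Real.rpow_add hV0]
            norm_num
          rw [h6]
          ring
        calc 256 * V ^ (9 / 4 : ℝ) * c.C1 * (c.C3 * Xi y w)
            = 256 * c.C1 * c.C3 * (V ^ (9 / 4 : ℝ) * Xi y w) := by ring
          _ = _ := by rw [h5]

theorem massUp : Hit.MassUp := lineUp.massUp

theorem massLow : Hit.MassLow := by
  obtain ⟨c, V2, η, hc, hV2, hη, hη1, h⟩ := lower
  refine ⟨c * η ^ 2, V2, 2, by positivity, by linarith, by norm_num, ?_⟩
  intro V hV y w hw hwy hG hVy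
  have hI : Inv y w := ⟨hw, hwy⟩
  have hV0 : 0 < V := by linarith
  have hv := hI.log_y_pos
  have hlt : V < Real.log y := by linarith
  have h1 := h V hV y w hI hG hlt
  have h2 : T (stopV V) (fun _ _ => 0)
      (fun y _ => if η * V < Real.log y then 1 / Real.log y ^ 2 else 0) y w ≤
      1 / (η * V) ^ 2 * T (stopV V) (fun _ _ => 0) (fun _ _ => 1) y w := by
    have e := T_smul (stop := stopV V) (f := fun _ _ => 0) (g := fun _ _ => 1)
      (1 / (η * V) ^ 2) y w
    simp only [mul_zero, mul_one] at e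
    rw [← e]
    refine T_mono inv_closed (fun _ _ _ _ => le_rfl) (fun y w _ _ => ?_) y w hI
    split_ifs with h3
    · apply one_div_le_one_div_of_le (by positivity)
      exact pow_le_pow_left₀ (by positivity) h3.le 2
    · positivity
  have h3 := h1.trans h2
  have h4 := mul_le_mul_of_nonneg_left h3 (by positivity : 0 ≤ (η * V) ^ 2)
  have h5 : (η * V) ^ 2 * (1 / (η * V) ^ 2 * T (stopV V) (fun _ _ => 0) (fun _ _ => 1) y w) =
      T (stopV V) (fun _ _ => 0) (fun _ _ => 1) y w := by
    have : (η * V) ^ 2 ≠ 0 := by positivity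
    field_simp
  rw [h5] at h4
  refine le_trans (le_of_eq ?_) h4
  ring

end Crest.Agent.R001.Mass
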