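import Crest.Agent.R001.HitI621
import Crest.Agent.R001.MassM664

/-!
# R1, block HITI: unconditional form.  helper621
-/

set_option autoImplicit false

namespace Crest.Agent.R001.Hit

open Finset Classical Filter

open Crest.Agent.R001.Asm (Dlev w0)

/-- **HITI, unconditional.** -/
theorem hiti_holds (γ : ℝ) (hγ : 0 < γ) (hγ4 : γ ≤ 1 / 4) :
    ∃ C0 ε0 Cη : ℝ, 11 ≤ C0 ∧ 0 < ε0 ∧ 0 < Cη ∧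
    ∀ (η ε : ℝ), 0 < η → η ≤ 1 → 0 < ε → 2 * ε + Cη * η ^ 2 ≤ ε0 →
    ∀ (K C2 CL C1 : ℝ), 0 < K → C0 * K ≤ C2 → 2 * CL + 3 ≤ C2 → 0 < C1 →
    ∀ᶠ X : ℕ in atTop, ∀ (a : ℤ) (LL : Finset (ℤ × ℤ)),
      (LL.card : ℝ) ≤ (Real.log X) ^ CL →
      (∀ τ ∈ LL, 1 ≤ τ.2 ∧ (τ.2 : ℝ) ≤ (X : ℝ) ^ 2 ∧ |(τ.1 : ℝ)| ≤ (X : ℝ) ^ 2 ∧
        IsCoprime τ.1 τ.2) →
      ∀ U : Finset ℕ,
      ∑ b ∈ U, 1 / ((b : ℝ) * (Real.log ((Dlev X : ℝ) / b)) ^ 2) ≤ ε / (Real.log X) ^ 2 →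
      (∀ b ∈ Tree.LS (stopL (Dlev X) (K * Real.log (Real.log X))) 1 (w0 X),
        ¬ Tree.bd (Dlev X : ℝ) b b.minFac → b ∉ U →
        η * (K * Real.log (Real.log X)) < Real.log ((Dlev X : ℝ) / b) →
        (∃ g : ℕ, g.Prime ∧ g ∣ b ∧ (Real.log X) ^ C1 ≤ (g : ℝ) ∧ (g : ℝ) ≤ (X : ℝ) ^ γ) →
        (∃ p : ℕ, p.Prime ∧ p ∣ b ∧ Real.log (Dlev X) / 5 ≤ Real.log p) →
        ∃ τ ∈ LL, ∀ p : ℕ, p.Prime → p ∣ b → (Real.log X) ^ C2 < (p : ℝ) →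
          (p : ℤ) ∣ τ.2 * a - τ.1) →
      ∃ τ ∈ LL, ∑ p ∈ (Tree.pr (w0 X)).filter (fun p : ℕ => (Real.log X) ^ C2 < (p : ℝ) ∧
        ¬ (p : ℤ) ∣ τ.2 * a - τ.1), 1 / (p : ℝ) ≤ C0 * (2 * ε + Cη * η ^ 2) :=
  hiti Mass.lineUp Mass.massLow γ hγ hγ4

end Crest.Agent.R001.Hit
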