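import Mathlib

/-! Row 1 (S0001), block (1): masses of the Rosser tree.
File A: the tree functional and comparison lemmas. -/

set_option autoImplicit false

namespace Crest.Agent.R001.Mass

open Finset

/-- primes below `w` -/
def P (w : ℕ) : Finset ℕ := (range w).filter Nat.Prime

theorem mem_P {w p : ℕ} : p ∈ P w ↔ p < w ∧ p.Prime := by
  simp [P]

theorem P_mono {a b : ℕ} (h : a ≤ b) : P a ⊆ P b := by
  intro p hp
  rw [mem_P] at *
  exact ⟨by omega, hp.2⟩

/-- sum over the accepted children of a node `(y, w)` -/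
noncomputable def Op (h : ℝ → ℕ → ℝ) (y : ℝ) (w : ℕ) : ℝ :=
  ∑ p ∈ P w, ∑ q ∈ P p,
    if (p : ℝ) * (q : ℝ) ^ 3 < y then 1 / ((p : ℝ) * q) * h (y / ((p : ℝ) * q)) q else 0

/-- `(y', w')` is an accepted child of `(y, w)` via the primes `q < p < w` -/
def Ch (y : ℝ) (w p q : ℕ) : Prop :=
  p ∈ P w ∧ q ∈ P p ∧ (p : ℝ) * (q : ℝ) ^ 3 < y

theorem Ch.q_lt {y : ℝ} {w p q : ℕ} (h : Ch y w p q) : q < w := by
  have h1 := (mem_P.1 h.1).1
  have h2 := (mem_P.1 h.2.1).1
  omega

theorem Ch.pos {y : ℝ} {w p q : ℕ} (h : Ch y w p q) : 0 < (p : ℝ) * q := by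
  have h1 := (mem_P.1 h.1).2.pos
  have h2 := (mem_P.1 h.2.1).2.pos
  positivity

theorem Op_mono {h₁ h₂ : ℝ → ℕ → ℝ} {y : ℝ} {w : ℕ}
    (H : ∀ p q, Ch y w p q → h₁ (y / ((p : ℝ) * q)) q ≤ h₂ (y / ((p : ℝ) * q)) q) :
    Op h₁ y w ≤ Op h₂ y w := by
  unfold Op
  refine sum_le_sum fun p hp => sum_le_sum fun q hq => ?_
  split_ifs with h
  · have hc : Ch y w p q := ⟨hp, hq, h⟩
    have := hc.pos
    exact mul_le_mul_of_nonneg_left (H p q hc) (by positivity)
  · exact le_rfl

theorem Op_congr {h₁ h₂ : ℝ → ℕ → ℝ} {y : ℝ} {w : ℕ}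
    (H : ∀ p q, Ch y w p q → h₁ (y / ((p : ℝ) * q)) q = h₂ (y / ((p : ℝ) * q)) q) :
    Op h₁ y w = Op h₂ y w :=
  le_antisymm (Op_mono fun p q h => (H p q h).le) (Op_mono fun p q h => (H p q h).ge)

theorem Op_nonneg {h : ℝ → ℕ → ℝ} {y : ℝ} {w : ℕ}
    (H : ∀ p q, Ch y w p q → 0 ≤ h (y / ((p : ℝ) * q)) q) : 0 ≤ Op h y w := by
  have : Op (fun _ _ => 0) y w ≤ Op h y w := Op_mono H
  have h0 : Op (fun _ _ => (0 : ℝ)) y w = 0 := by
    unfold Op
    simp
  rw [h0] at this
  exact this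

theorem Op_add (h₁ h₂ : ℝ → ℕ → ℝ) (y : ℝ) (w : ℕ) :
    Op (fun y w => h₁ y w + h₂ y w) y w = Op h₁ y w + Op h₂ y w := by
  unfold Op
  rw [← sum_add_distrib]
  refine sum_congr rfl fun p _ => ?_
  rw [← sum_add_distrib]
  refine sum_congr rfl fun q _ => ?_
  split_ifs with h
  · ring
  · ring

theorem Op_sub (h₁ h₂ : ℝ → ℕ → ℝ) (y : ℝ) (w : ℕ) :
    Op (fun y w => h₁ y w - h₂ y w) y w = Op h₁ y w - Op h₂ y w := by
  unfold Op
  rw [← sum_sub_distrib]
  refine sum_congr rfl fun p _ => ?_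
  rw [← sum_sub_distrib]
  refine sum_congr rfl fun q _ => ?_
  split_ifs with h
  · ring
  · ring

theorem Op_smul (c : ℝ) (h : ℝ → ℕ → ℝ) (y : ℝ) (w : ℕ) :
    Op (fun y w => c * h y w) y w = c * Op h y w := by
  unfold Op
  rw [mul_sum]
  refine sum_congr rfl fun p _ => ?_
  rw [mul_sum]
  refine sum_congr rfl fun q _ => ?_
  split_ifs with h
  · ring
  · ring

open Classical in
/-- the tree functional with fuel -/
noncomputable def Tn (stop : ℝ → ℕ → Prop) (f g : ℝ → ℕ → ℝ) : ℕ → ℝ → ℕ → ℝ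
  | 0 => fun _ _ => 0
  | n + 1 => fun y w => if stop y w then g y w else f y w + Op (Tn stop f g n) y w

theorem Tn_stable (stop : ℝ → ℕ → Prop) (f g : ℝ → ℕ → ℝ) :
    ∀ (w n m : ℕ) (y : ℝ), w + 1 ≤ n → w + 1 ≤ m → Tn stop f g n y w = Tn stop f g m y w := by
  intro w
  induction w using Nat.strong_induction_on with
  | _ w ih =>
    intro n m y hn hm
    obtain ⟨n, rfl⟩ : ∃ k, n = k + 1 := ⟨n - 1, by omega⟩
    obtain ⟨m, rfl⟩ : ∃ k, m = k + 1 := ⟨m - 1, by omega⟩
    unfold Tn
    split_ifs with h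
    · rfl
    · congr 1
      apply Op_congr
      intro p q hc
      have := hc.q_lt
      exact ih q this n m _ (by omega) (by omega)

/-- the tree functional: `T stop f g y w` is the sum over the nodes of the tree below `(y, w)`
of `f` (nodes strictly above the stopping line) resp. `g` (nodes on the line), weighted with
`1 / (product of the primes)`. -/
noncomputable def T (stop : ℝ → ℕ → Prop) (f g : ℝ → ℕ → ℝ) (y : ℝ) (w : ℕ) : ℝ :=
  Tn stop f g (w + 1) y w

variable {stop : ℝ → ℕ → Prop} {f g : ℝ → ℕ → ℝ}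

theorem T_stop {y : ℝ} {w : ℕ} (h : stop y w) : T stop f g y w = g y w := by
  unfold T Tn
  rw [if_pos h]

theorem T_not {y : ℝ} {w : ℕ} (h : ¬ stop y w) :
    T stop f g y w = f y w + Op (T stop f g) y w := by
  unfold T
  rw [Tn]
  simp only [if_neg h]
  congr 1
  apply Op_congr
  intro p q hc
  have := hc.q_lt
  exact Tn_stable stop f g q w (q + 1) _ (by omega) le_rfl

/-- the never-stopping functional -/
noncomputable abbrev T0 (f : ℝ → ℕ → ℝ) : ℝ → ℕ → ℝ := T (fun _ _ => False) f (fun _ _ => 0)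

theorem T0_eq (f : ℝ → ℕ → ℝ) (y : ℝ) (w : ℕ) : T0 f y w = f y w + Op (T0 f) y w :=
  T_not (fun h => h)

/-- A class of nodes closed under taking children. -/
def Closed (I : ℝ → ℕ → Prop) : Prop :=
  ∀ y w p q, I y w → Ch y w p q → I (y / ((p : ℝ) * q)) q

/-- induction over the tree -/
theorem tree_induction {I : ℝ → ℕ → Prop} (hI : Closed I) {R : ℝ → ℕ → Prop}
    (H : ∀ y w, I y w → (∀ p q, Ch y w p q → R (y / ((p : ℝ) * q)) q) → R y w) :
    ∀ y w, I y w → R y w := by
  intro y w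
  induction w using Nat.strong_induction_on generalizing y with
  | _ w ih =>
    intro h
    exact H y w h (fun p q hc => ih q hc.q_lt _ (hI y w p q h hc))

theorem T_nonneg {I : ℝ → ℕ → Prop} (hI : Closed I) (hf : ∀ y w, I y w → 0 ≤ f y w)
    (hg : ∀ y w, I y w → 0 ≤ g y w) : ∀ y w, I y w → 0 ≤ T stop f g y w := by
  refine tree_induction hI ?_
  intro y w h ih
  by_cases hs : stop y w
  · rw [T_stop hs]; exact hg y w h
  · rw [T_not hs]
    exact add_nonneg (hf y w h) (Op_nonneg ih)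

/-- supersolutions bound the functional -/
theorem T_le {I : ℝ → ℕ → Prop} (hI : Closed I) {Φ : ℝ → ℕ → ℝ}
    (h1 : ∀ y w, I y w → stop y w → g y w ≤ Φ y w)
    (h2 : ∀ y w, I y w → ¬ stop y w → f y w + Op Φ y w ≤ Φ y w) :
    ∀ y w, I y w → T stop f g y w ≤ Φ y w := by
  refine tree_induction hI ?_
  intro y w h ih
  by_cases hs : stop y w
  · rw [T_stop hs]; exact h1 y w h hs
  · rw [T_not hs]
    exact (add_le_add_right (Op_mono ih) _).trans (h2 y w h hs)

/-- subsolutions -/
theorem le_T {I : ℝ → ℕ → Prop} (hI : Closed I) {Φ : ℝ → ℕ → ℝ}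
    (h1 : ∀ y w, I y w → stop y w → Φ y w ≤ g y w)
    (h2 : ∀ y w, I y w → ¬ stop y w → Φ y w ≤ f y w + Op Φ y w) :
    ∀ y w, I y w → Φ y w ≤ T stop f g y w := by
  refine tree_induction hI ?_
  intro y w h ih
  by_cases hs : stop y w
  · rw [T_stop hs]; exact h1 y w h hs
  · rw [T_not hs]
    exact (h2 y w h hs).trans (add_le_add_right (Op_mono ih) _)

theorem T_mono {I : ℝ → ℕ → Prop} (hI : Closed I) {f' g' : ℝ → ℕ → ℝ}
    (hf : ∀ y w, I y w → ¬ stop y w → f y w ≤ f' y w)
    (hg : ∀ y w, I y w → stop y w → g y w ≤ g' y w) :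
    ∀ y w, I y w → T stop f g y w ≤ T stop f' g' y w := by
  refine T_le hI ?_ ?_
  · intro y w h hs
    rw [T_stop hs]
    exact hg y w h hs
  · intro y w h hs
    rw [T_not hs]
    exact add_le_add_left (hf y w h hs) _

theorem T_add {f' g' : ℝ → ℕ → ℝ} (y : ℝ) (w : ℕ) :
    T stop (fun y w => f y w + f' y w) (fun y w => g y w + g' y w) y w =
      T stop f g y w + T stop f' g' y w := by
  have hI : Closed (fun _ _ => True) := fun _ _ _ _ _ _ => trivial
  refine tree_induction hI (R := fun y w => T stop (fun y w => f y w + f' y w)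
    (fun y w => g y w + g' y w) y w = T stop f g y w + T stop f' g' y w) ?_ y w trivial
  intro y w _ ih
  by_cases hs : stop y w
  · rw [T_stop hs, T_stop hs, T_stop hs]
  · rw [T_not hs, T_not hs, T_not hs]
    have : Op (T stop (fun y w => f y w + f' y w) (fun y w => g y w + g' y w)) y w =
        Op (T stop f g) y w + Op (T stop f' g') y w := by
      rw [← Op_add]
      exact Op_congr ih
    rw [this]; ring

theorem T_smul (c : ℝ) (y : ℝ) (w : ℕ) :
    T stop (fun y w => c * f y w) (fun y w => c * g y w) y w = c * T stop f g y w := by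
  have hI : Closed (fun _ _ => True) := fun _ _ _ _ _ _ => trivial
  refine tree_induction hI (R := fun y w => T stop (fun y w => c * f y w)
    (fun y w => c * g y w) y w = c * T stop f g y w) ?_ y w trivial
  intro y w _ ih
  by_cases hs : stop y w
  · rw [T_stop hs, T_stop hs]
  · rw [T_not hs, T_not hs]
    have : Op (T stop (fun y w => c * f y w) (fun y w => c * g y w)) y w =
        c * Op (T stop f g) y w := by
      rw [← Op_smul]
      exact Op_congr ih
    rw [this]; ring

/-- shifting `f` by one generation -/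
theorem T_shift {I : ℝ → ℕ → Prop} (hI : Closed I) (hf : ∀ y w, I y w → 0 ≤ f y w) :
    ∀ y w, I y w → T stop f (fun _ _ => 0) y w ≤
      f y w + T stop (Op f) (fun _ _ => 0) y w := by
  refine tree_induction hI ?_
  intro y w h ih
  by_cases hs : stop y w
  · rw [T_stop hs, T_stop hs, add_zero]; exact hf y w h
  · rw [T_not hs, T_not hs]
    have := Op_mono (h₁ := T stop f (fun _ _ => 0))
      (h₂ := fun y w => f y w + T stop (Op f) (fun _ _ => 0) y w) ih
    rw [Op_add f (T stop (Op f) (fun _ _ => 0))] at this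
    linarith

open Classical in
/-- the values on the line are seen from the nodes above it -/
theorem T_line {I : ℝ → ℕ → Prop} (hI : Closed I) :
    ∀ y w, I y w → T stop (fun _ _ => 0) g y w =
      (if stop y w then g y w else 0) +
        T stop (Op (fun y w => if stop y w then g y w else 0)) (fun _ _ => 0) y w := by
  refine tree_induction hI ?_
  intro y w h ih
  by_cases hs : stop y w
  · rw [T_stop hs, T_stop hs, if_pos hs, add_zero]
  · rw [T_not hs, T_not hs, if_neg hs, zero_add, zero_add]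
    have := Op_congr (h₁ := T stop (fun _ _ => 0) g)
      (h₂ := fun y w => (if stop y w then g y w else 0) +
        T stop (Op (fun y w => if stop y w then g y w else 0)) (fun _ _ => 0) y w) ih
    rw [this, Op_add (fun y w => if stop y w then g y w else 0)]

/-- the never-stopping functional dominates the stopped one -/
theorem T_le_T0 {I : ℝ → ℕ → Prop} (hI : Closed I) (hf : ∀ y w, I y w → 0 ≤ f y w) :
    ∀ y w, I y w → T stop f (fun _ _ => 0) y w ≤ T0 f y w := by
  refine tree_induction hI ?_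
  intro y w h ih
  rw [T0_eq]
  have h0 : 0 ≤ T0 f y w := T_nonneg hI hf (fun _ _ _ => le_rfl) y w h
  by_cases hs : stop y w
  · rw [T_stop hs]
    rw [T0_eq] at h0
    exact h0
  · rw [T_not hs]
    exact add_le_add_right (Op_mono ih) _

/-- basic invariant -/
def Inv (y : ℝ) (w : ℕ) : Prop := 2 ≤ w ∧ (w : ℝ) ^ 2 ≤ y

theorem inv_closed : Closed Inv := by
  rintro y w p q ⟨hw, hy⟩ hc
  have h1 := mem_P.1 hc.1
  have h2 := mem_P.1 hc.2.1
  refine ⟨h2.2.two_le, ?_⟩
  rw [le_div_iff₀ hc.pos]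
  have h3 := hc.2.2
  nlinarith

theorem Inv.y_ge {y : ℝ} {w : ℕ} (h : Inv y w) : 4 ≤ y := by
  have h1 : (2 : ℝ) ≤ w := by exact_mod_cast h.1
  nlinarith [h.2]

theorem Inv.log_w_pos {y : ℝ} {w : ℕ} (h : Inv y w) : 0 < Real.log w := by
  have h1 : (1 : ℝ) < w := by exact_mod_cast h.1
  exact Real.log_pos h1

theorem Inv.log_two_le {y : ℝ} {w : ℕ} (h : Inv y w) : Real.log 2 ≤ Real.log w := by
  have h1 : (2 : ℝ) ≤ w := by exact_mod_cast h.1
  exact Real.log_le_log (by norm_num) h1

theorem Inv.two_log_le {y : ℝ} {w : ℕ} (h : Inv y w) : 2 * Real.log w ≤ Real.log y := by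
  have h1 : (2 : ℝ) ≤ w := by exact_mod_cast h.1
  have : Real.log ((w : ℝ) ^ 2) ≤ Real.log y := Real.log_le_log (by positivity) h.2
  rwa [Real.log_pow] at this

theorem Inv.log_y_pos {y : ℝ} {w : ℕ} (h : Inv y w) : 0 < Real.log y := by
  have := h.two_log_le
  have := h.log_w_pos
  linarith

theorem Ch.log_child {y : ℝ} {w p q : ℕ} (h : Inv y w) (hc : Ch y w p q) :
    Real.log (y / ((p : ℝ) * q)) = Real.log y - Real.log p - Real.log q := by
  have h1 := (mem_P.1 hc.1).2.pos
  have h2 := (mem_P.1 hc.2.1).2.pos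
  have hp : (0 : ℝ) < p := by exact_mod_cast h1
  have hq : (0 : ℝ) < q := by exact_mod_cast h2
  have hy : 0 < y := by linarith [h.y_ge]
  rw [Real.log_div hy.ne' (by positivity), Real.log_mul hp.ne' hq.ne']
  ring

/-- facts on logarithms of the children -/
theorem Ch.logs {y : ℝ} {w p q : ℕ} (h : Inv y w) (hc : Ch y w p q) :
    0 < Real.log q ∧ Real.log q ≤ Real.log p ∧ Real.log p ≤ Real.log w ∧
      Real.log p + 3 * Real.log q ≤ Real.log y := by
  have h1 := mem_P.1 hc.1
  have h2 := mem_P.1 hc.2.1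
  have hp : (0 : ℝ) < p := by exact_mod_cast h1.2.pos
  have hq : (1 : ℝ) < q := by exact_mod_cast h2.2.one_lt
  have hq0 : (0 : ℝ) < q := by linarith
  refine ⟨Real.log_pos hq, Real.log_le_log hq0 (by exact_mod_cast h2.1.le),
    Real.log_le_log hp (by exact_mod_cast h1.1.le), ?_⟩
  have h3 := Real.log_le_log (by positivity) hc.2.2.le
  rw [Real.log_mul hp.ne' (by positivity), Real.log_pow] at h3
  push_cast at h3
  exact h3

/-- the logarithm of the level drops at most by a factor 3 -/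
theorem Ch.third {y : ℝ} {w p q : ℕ} (h : Inv y w) (hc : Ch y w p q) :
    Real.log y / 3 ≤ Real.log (y / ((p : ℝ) * q)) := by
  rw [hc.log_child h]
  have h1 := hc.logs h
  have h2 := h.two_log_le
  linarith

theorem Ch.lt {y : ℝ} {w p q : ℕ} (h : Inv y w) (hc : Ch y w p q) :
    Real.log (y / ((p : ℝ) * q)) < Real.log y := by
  rw [hc.log_child h]
  have h1 := hc.logs h
  linarith

end Crest.Agent.R001.Mass
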