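import Crest.Agent.R001.TreeDefs

/-!
# Finset versions and size facts for the Rosser tree
-/

namespace Crest.Agent.R001.Tree

open Finset Classical

lemma pr_succ (w : ℕ) : pr (w + 1) = if w.Prime then insert w (pr w) else pr w := by
  ext p
  split_ifs with h
  · simp only [mem_pr, mem_insert]
    constructor
    · rintro ⟨h1, h2⟩
      rcases Nat.lt_succ_iff_lt_or_eq.1 h1 with h3 | h3
      · exact Or.inr ⟨h3, h2⟩
      · exact Or.inl h3
    · rintro (h1 | h1)
      · subst h1; exact ⟨Nat.lt_succ_self _, h⟩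
      · exact ⟨h1.1.trans (Nat.lt_succ_self _), h1.2⟩
  · simp only [mem_pr]
    constructor
    · rintro ⟨h1, h2⟩
      rcases Nat.lt_succ_iff_lt_or_eq.1 h1 with h3 | h3
      · exact ⟨h3, h2⟩
      · subst h3; exact absurd h2 h
    · rintro ⟨h1, h2⟩
      exact ⟨h1.trans (Nat.lt_succ_self _), h2⟩

lemma not_mem_pr_self (w : ℕ) : w ∉ pr w := by simp [mem_pr]

/-- sum over all squarefree extensions of `d` by primes `< w` -/
noncomputable def Q (g : ℕ → ℝ) (d w : ℕ) : ℝ := ∑ S ∈ (pr w).powerset, g (d * ∏ p ∈ S, p)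

lemma Q_rec (g : ℕ → ℝ) (d w : ℕ) : Q g d w = g d + ∑ p ∈ pr w, Q g (d * p) p := by
  induction w with
  | zero => simp [Q, pr]
  | succ w ih =>
    rw [pr_succ]
    by_cases h : w.Prime
    · rw [if_pos h, Finset.sum_insert (not_mem_pr_self w), add_left_comm, ← ih]
      unfold Q
      rw [pr_succ, if_pos h, Finset.sum_powerset_insert (not_mem_pr_self w), add_comm]
      congr 1
      refine Finset.sum_congr rfl fun S hS => ?_
      rw [Finset.prod_insert (fun hw => not_mem_pr_self w (Finset.mem_powerset.1 hS hw)), mul_assoc]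
    · rw [if_neg h, ← ih]
      unfold Q
      rw [pr_succ, if_neg h]

lemma Q_nonneg {g : ℕ → ℝ} (hg : ∀ n, 0 ≤ g n) (d w : ℕ) : 0 ≤ Q g d w :=
  Finset.sum_nonneg fun _ _ => hg _

lemma Q_rec2 (g : ℕ → ℝ) (d w : ℕ) :
    Q g d w = (g d + ∑ p ∈ pr w, g (d * p)) + ∑ p ∈ pr w, ∑ q ∈ pr p, Q g (d * p * q) q := by
  rw [Q_rec, add_assoc, ← Finset.sum_add_distrib]
  congr 1
  refine Finset.sum_congr rfl fun p _ => ?_
  rw [Q_rec]

/-- the sum of `g ≥ 0` over the whole support (even states, odd states and stopped states) is at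
most the sum over all squarefree extensions. -/
theorem T_le_Q (stop : ℕ → ℕ → Prop) {g : ℕ → ℝ} (hg : ∀ n, 0 ≤ g n) (d w : ℕ) :
    T stop (fun d w => g d + ∑ p ∈ pr w, g (d * p)) (fun d _ => g d) d w ≤ Q g d w := by
  refine T_le_of_super (H := fun d w => Q g d w) d w fun d' w' _ => ?_
  show g d' + ∑ p ∈ pr w', g (d' * p) + _ ≤ Q g d' w'
  rw [Q_rec2]
  refine add_le_add le_rfl (Finset.sum_le_sum fun p _ => Finset.sum_le_sum fun q _ => ?_)
  split_ifs
  · rw [Q_rec]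
    exact le_add_of_nonneg_right (Finset.sum_nonneg fun _ _ => Q_nonneg hg _ _)
  · exact le_rfl

lemma prod_injOn (w : ℕ) : Set.InjOn (fun S : Finset ℕ => ∏ p ∈ S, p) ((pr w).powerset : Set (Finset ℕ)) := by
  intro S hS S' hS' h
  have hS1 : ∀ p ∈ S, p.Prime := fun p hp => prime_of_mem_pr (Finset.mem_powerset.1 hS hp)
  have hS2 : ∀ p ∈ S', p.Prime := fun p hp => prime_of_mem_pr (Finset.mem_powerset.1 hS' hp)
  have h1 : (∏ p ∈ S, p).primeFactors = S := Nat.primeFactors_prod hS1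
  have h2 : (∏ p ∈ S', p).primeFactors = S' := Nat.primeFactors_prod hS2
  rw [← h1, ← h2]
  simp only at h
  rw [h]

/-- number of squarefree extensions `n` of `d` with `n ≤ N` -/
lemma Q_indicator_le (N d w : ℕ) (hd : 0 < d) :
    Q (fun n => if n ≤ N then 1 else 0) d w ≤ (N / d : ℕ) := by
  unfold Q
  rw [← Finset.sum_filter, Finset.sum_const, nsmul_eq_mul, mul_one]
  have : (((pr w).powerset.filter fun S => d * ∏ p ∈ S, p ≤ N).image fun S => ∏ p ∈ S, p)
      ⊆ Finset.Icc 1 (N / d) := by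
    intro m hm
    obtain ⟨S, hS, rfl⟩ := Finset.mem_image.1 hm
    rw [Finset.mem_filter] at hS
    rw [Finset.mem_Icc]
    refine ⟨Finset.prod_pos fun p hp => (prime_of_mem_pr (Finset.mem_powerset.1 hS.1 hp)).pos, ?_⟩
    rw [Nat.le_div_iff_mul_le hd, mul_comm]
    exact hS.2
  have h2 := Finset.card_le_card this
  rw [Nat.card_Icc, Nat.add_sub_cancel] at h2
  rw [Finset.card_image_of_injOn] at h2
  · exact_mod_cast h2
  · refine (prod_injOn w).mono ?_
    intro S hS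
    exact Finset.mem_coe.2 (Finset.mem_filter.1 (Finset.mem_coe.1 hS)).1

lemma Q_inv (d w : ℕ) : Q (fun n => 1 / (n : ℝ)) d w = 1 / d * ∏ p ∈ pr w, (1 + 1 / (p : ℝ)) := by
  unfold Q
  rw [Finset.prod_one_add, Finset.mul_sum]
  refine Finset.sum_congr rfl fun S _ => ?_
  push_cast
  rw [one_div_mul_eq_div, Finset.prod_div_distrib, Finset.prod_const_one, div_div, mul_comm]

/-! ### Rosser's rule -/

/-- Rosser's stopping rule with `β = 2` and level `D` -/
def bd (D : ℝ) (d w : ℕ) : Prop := D ≤ (d : ℝ) * (w : ℝ) ^ 2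

lemma not_bd {D : ℝ} {d w : ℕ} : ¬ bd D d w ↔ (d : ℝ) * (w : ℝ) ^ 2 < D := by
  unfold bd; exact not_le

/-- admissible states: `d p^2 < D` for all primes `p < w` -/
def Adm (D : ℝ) (d w : ℕ) : Prop := ∀ p ∈ pr w, (d : ℝ) * (p : ℝ) ^ 2 < D

lemma adm_of_lt {D : ℝ} {d w : ℕ} (h : (d : ℝ) * (w : ℝ) ^ 2 < D) : Adm D d w := by
  intro p hp
  refine lt_of_le_of_lt ?_ h
  have : (p : ℝ) ≤ w := by exact_mod_cast (lt_of_mem_pr hp).le
  gcongr

lemma Node.adm {D : ℝ} {d0 w0 d w : ℕ} (h0 : Adm D d0 w0) (h : Node (bd D) d0 w0 d w) :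
    Adm D d w := by
  cases h with
  | root => exact h0
  | step _ hp hq hs => exact adm_of_lt (not_bd.1 hs)

/-- the same for every rule which is implied by Rosser's rule -/
lemma Node.adm' {stop : ℕ → ℕ → Prop} {D : ℝ} (hst : ∀ d w, bd D d w → stop d w)
    {d0 w0 d w : ℕ} (h0 : Adm D d0 w0) (h : Node stop d0 w0 d w) : Adm D d w :=
  (h.weaken hst).adm h0

/-- children of admissible states are `< D`. -/
lemma child_lt {D : ℝ} {d w p q : ℕ} (hd : Adm D d w) (hp : p ∈ pr w) (hq : q ∈ pr p) :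
    ((d * p * q : ℕ) : ℝ) < D := by
  have h1 := hd p hp
  have h2 : (q : ℝ) ≤ p := by exact_mod_cast (lt_of_mem_pr hq).le
  push_cast
  calc (d : ℝ) * p * q ≤ d * p * p := by gcongr
    _ = d * (p : ℝ) ^ 2 := by ring
    _ < D := h1

lemma odd_lt {D : ℝ} {d w p : ℕ} (hd : Adm D d w) (hp : p ∈ pr w) :
    ((d * p : ℕ) : ℝ) < D := by
  have h1 := hd p hp
  have h2 : (1 : ℝ) ≤ p := by exact_mod_cast (prime_of_mem_pr hp).one_lt.le
  push_cast
  calc (d : ℝ) * p = d * p * 1 := by ring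
    _ ≤ d * p * p := by gcongr
    _ = d * (p : ℝ) ^ 2 := by ring
    _ < D := h1

lemma Node.lt {D : ℝ} {d0 w0 d w : ℕ} (h0 : Adm D d0 w0) (hd0 : (d0 : ℝ) < D)
    (h : Node (bd D) d0 w0 d w) : (d : ℝ) < D := by
  cases h with
  | root => exact hd0
  | step hn hp hq hs => exact child_lt (hn.adm h0) hp hq

lemma Leaf.lt {D : ℝ} {d0 w0 d w : ℕ} (h0 : Adm D d0 w0)
    (h : Leaf (bd D) d0 w0 d w) : (d : ℝ) < D := by
  obtain ⟨d', w', p, hn, hp, hq, rfl, hs⟩ := h
  exact child_lt (hn.adm h0) hp hq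

/-- the child of an admissible state: `D / (d p q) ≥ (D / d)^{1/3}` for unstopped children
(in the form `D / d ≤ (D / (d p q))^3`). -/
lemma cube_le {D : ℝ} {d w p q : ℕ} (hd0 : 0 < d) (hd : Adm D d w) (hp : p ∈ pr w) (hq : q ∈ pr p)
    (hs : ¬ bd D (d * p * q) q) : D / d ≤ (D / (d * p * q : ℕ)) ^ 3 := by
  have hdpos : (0 : ℝ) < d := by exact_mod_cast hd0
  have hppos : (0 : ℝ) < p := by exact_mod_cast (prime_of_mem_pr hp).pos
  have hqpos : (0 : ℝ) < q := by exact_mod_cast (prime_of_mem_pr hq).pos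
  have h1 : (d : ℝ) * p ^ 2 < D := hd p hp
  have h2 := not_bd.1 hs
  push_cast at h2 ⊢
  have hDpos : 0 < D := lt_trans (by positivity) h1
  rw [div_pow, div_le_div_iff₀ hdpos (by positivity)]
  -- D (dpq)^3 ≤ D^3 d
  have h3 : (d : ℝ) * p * q ^ 3 < D := by nlinarith
  have h4 : (d : ℝ) ^ 2 * p ^ 3 * q ^ 3 ≤ D ^ 2 := by
    calc (d : ℝ) ^ 2 * p ^ 3 * q ^ 3 = (d * p ^ 2) * (d * p * q ^ 3) := by ring
      _ ≤ D * D := by
        apply mul_le_mul h1.le h3.le (by positivity) hDpos.le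
      _ = D ^ 2 := by ring
  calc D * (d * p * q : ℝ) ^ 3 = D * d * ((d : ℝ) ^ 2 * p ^ 3 * q ^ 3) := by ring
    _ ≤ D * d * D ^ 2 := by gcongr
    _ = D ^ 3 * d := by ring

/-- COUNTING THE SUPPORT: number of even states + odd states + boundary states `≤ D / d0`. -/
theorem count_support {stop : ℕ → ℕ → Prop} {D : ℝ} (hst : ∀ d w, bd D d w → stop d w)
    {d0 w0 : ℕ} (hd0 : 0 < d0) (h0 : Adm D d0 w0) (hD : (d0 : ℝ) < D) :
    T stop (fun _ w => 1 + (pr w).card) (fun _ _ => 1) d0 w0 ≤ D / d0 := by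
  have hDpos : 0 < D := lt_trans (by exact_mod_cast hd0) hD
  set N := ⌊D⌋₊ with hN
  have hle : ∀ n : ℕ, (n : ℝ) < D → n ≤ N := fun n hn => Nat.le_floor hn.le
  have h1 : T stop (fun _ w => 1 + (pr w).card) (fun _ _ => 1) d0 w0
      = T stop (fun d w => (fun n => if n ≤ N then (1:ℝ) else 0) d
          + ∑ p ∈ pr w, (fun n => if n ≤ N then (1:ℝ) else 0) (d * p))
        (fun d _ => (fun n => if n ≤ N then (1:ℝ) else 0) d) d0 w0 := by
    refine T_congr d0 w0 (fun d w hn => ?_) (fun d w hl => ?_)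
    · have hn' := hn.weaken hst
      have hdlt : (d : ℝ) < D := hn'.lt h0 hD
      simp only
      rw [if_pos (hle d hdlt)]
      congr 1
      rw [Finset.sum_congr rfl (g := fun _ => (1:ℝ)) (fun p hp => if_pos (hle _ (odd_lt (hn'.adm h0) hp)))]
      simp
    · obtain ⟨d', w', p, hn, hp, hq, rfl, hs⟩ := hl
      have := child_lt ((hn.weaken hst).adm h0) hp hq
      simp only
      rw [if_pos (hle _ this)]
  rw [h1]
  refine (T_le_Q stop (fun n => by split_ifs <;> norm_num) d0 w0).trans ?_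
  refine (Q_indicator_le N d0 w0 hd0).trans ?_
  calc ((N / d0 : ℕ) : ℝ) ≤ (N : ℝ) / d0 := Nat.cast_div_le
    _ ≤ D / d0 := by gcongr; exact Nat.floor_le hDpos.le

/-- sum of `1/n` over the whole support -/
theorem mass_support (stop : ℕ → ℕ → Prop) (d0 w0 : ℕ) :
    T stop (fun d w => 1 / (d : ℝ) + ∑ p ∈ pr w, 1 / ((d * p : ℕ) : ℝ)) (fun d _ => 1 / (d : ℝ)) d0 w0
      ≤ 1 / d0 * ∏ p ∈ pr w0, (1 + 1 / (p : ℝ)) := by
  rw [← Q_inv]
  exact T_le_Q stop (g := fun n => 1 / (n : ℝ)) (fun n => by positivity) d0 w0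

/-! ### Finset versions -/

/-- factorisation of the states below `(d0, w0)` -/
lemma Node.factor {stop : ℕ → ℕ → Prop} {d0 w0 d w : ℕ} (h : Node stop d0 w0 d w) :
    ∃ m, d = d0 * m ∧ 0 < m ∧ (∀ r, r.Prime → r ∣ m → w ≤ r ∧ r < w0) ∧
      ((d = d0 ∧ w = w0 ∧ m = 1) ∨ (w ∣ m ∧ w.Prime ∧ w < w0)) := by
  induction h with
  | root =>
    exact ⟨1, by ring, one_pos, fun r hr h1 => absurd (Nat.dvd_one.1 h1) hr.one_lt.ne',
      Or.inl ⟨rfl, rfl, rfl⟩⟩
  | @step d w p q hn hp hq hs ih =>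
    obtain ⟨m, hm, hm0, h1, h2⟩ := ih
    have hpp := prime_of_mem_pr hp
    have hqp := prime_of_mem_pr hq
    have hqlt := lt_of_mem_pr hq
    have hplt := lt_of_mem_pr hp
    have hww0 : w ≤ w0 := hn.w_le
    refine ⟨m * p * q, by rw [hm]; ring, by positivity [hpp.pos, hqp.pos], ?_, Or.inr
      ⟨dvd_mul_left _ _, hqp, by omega⟩⟩
    intro r hr hdvd
    rcases (Nat.Prime.dvd_mul hr).1 hdvd with h3 | h3
    · rcases (Nat.Prime.dvd_mul hr).1 h3 with h4 | h4
      · obtain ⟨h5, h6⟩ := h1 r hr h4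
        omega
      · have := (Nat.prime_dvd_prime_iff_eq hr hpp).1 h4
        omega
    · have := (Nat.prime_dvd_prime_iff_eq hr hqp).1 h3
      omega

/-- finset of the (integers `d` of the) unstopped states -/
noncomputable def NS (stop : ℕ → ℕ → Prop) (d w : ℕ) : Finset ℕ :=
  insert d ((pr w).attach.biUnion fun p => (pr p.1).attach.biUnion fun q =>
    if stop (d * p.1 * q.1) q.1 then ∅ else NS stop (d * p.1 * q.1) q.1)
termination_by w
decreasing_by
  exact lt_trans (lt_of_mem_pr q.2) (lt_of_mem_pr p.2)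

/-- finset of the (integers `d` of the) first stopped states -/
noncomputable def LS (stop : ℕ → ℕ → Prop) (d w : ℕ) : Finset ℕ :=
  (pr w).attach.biUnion fun p => (pr p.1).attach.biUnion fun q =>
    if stop (d * p.1 * q.1) q.1 then {d * p.1 * q.1} else LS stop (d * p.1 * q.1) q.1
termination_by w
decreasing_by
  exact lt_trans (lt_of_mem_pr q.2) (lt_of_mem_pr p.2)

/-- pairs of primes `q < p < w` -/
def prp (w : ℕ) : Finset (ℕ × ℕ) := (pr w ×ˢ pr w).filter (fun x => x.2 < x.1)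

lemma mem_prp {w : ℕ} {x : ℕ × ℕ} : x ∈ prp w ↔ x.1 ∈ pr w ∧ x.2 ∈ pr x.1 := by
  simp only [prp, mem_filter, mem_product, mem_pr]
  constructor
  · rintro ⟨⟨⟨h1, h2⟩, h3, h4⟩, h5⟩; exact ⟨⟨h1, h2⟩, h5, h4⟩
  · rintro ⟨⟨h1, h2⟩, h3, h4⟩; exact ⟨⟨⟨h1, h2⟩, h3.trans h1, h4⟩, h3⟩

lemma sum_pr_pr (w : ℕ) (g : ℕ → ℕ → ℝ) :
    ∑ p ∈ pr w, ∑ q ∈ pr p, g p q = ∑ x ∈ prp w, g x.1 x.2 := by
  rw [prp, Finset.sum_filter, Finset.sum_product]
  refine Finset.sum_congr rfl fun p hp => ?_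
  rw [← Finset.sum_filter]
  refine Finset.sum_congr ?_ fun _ _ => rfl
  ext q
  simp only [mem_pr, mem_filter]
  have := lt_of_mem_pr hp
  constructor
  · rintro ⟨h1, h2⟩; exact ⟨⟨h1.trans this, h2⟩, h1⟩
  · rintro ⟨⟨_, h2⟩, h1⟩; exact ⟨h1, h2⟩

lemma NS_eq (stop : ℕ → ℕ → Prop) (d w : ℕ) :
    NS stop d w = insert d ((prp w).biUnion fun x =>
      if stop (d * x.1 * x.2) x.2 then ∅ else NS stop (d * x.1 * x.2) x.2) := by
  rw [NS]
  congr 1
  ext b
  simp only [mem_biUnion, mem_attach, true_and, Subtype.exists, mem_prp, Prod.exists]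
  constructor
  · rintro ⟨p, hp, q, hq, h⟩; exact ⟨p, q, ⟨hp, hq⟩, h⟩
  · rintro ⟨p, q, ⟨hp, hq⟩, h⟩; exact ⟨p, hp, q, hq, h⟩

lemma LS_eq (stop : ℕ → ℕ → Prop) (d w : ℕ) :
    LS stop d w = (prp w).biUnion fun x =>
      if stop (d * x.1 * x.2) x.2 then {d * x.1 * x.2} else LS stop (d * x.1 * x.2) x.2 := by
  rw [LS]
  ext b
  simp only [mem_biUnion, mem_attach, true_and, Subtype.exists, mem_prp, Prod.exists]
  constructor
  · rintro ⟨p, hp, q, hq, h⟩; exact ⟨p, q, ⟨hp, hq⟩, h⟩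
  · rintro ⟨p, q, ⟨hp, hq⟩, h⟩; exact ⟨p, hp, q, hq, h⟩

lemma mem_NS {stop : ℕ → ℕ → Prop} {d w b : ℕ} :
    b ∈ NS stop d w ↔ ∃ w', Node stop d w b w' := by
  constructor
  · intro h
    induction w using Nat.strong_induction_on generalizing d with
    | _ w ih =>
      rw [NS_eq, mem_insert, mem_biUnion] at h
      rcases h with rfl | ⟨x, hx, h⟩
      · exact ⟨w, Node.root⟩
      · obtain ⟨hp, hq⟩ := mem_prp.1 hx
        split_ifs at h with hs
        · simp at h
        · obtain ⟨w', h'⟩ := ih x.2 (lt_trans (lt_of_mem_pr hq) (lt_of_mem_pr hp)) h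
          exact ⟨w', (Node.step Node.root hp hq hs).trans h'⟩
  · rintro ⟨w', h⟩
    induction h with
    | root => rw [NS_eq]; exact mem_insert_self _ _
    | @step d' w' p q hn hp hq hs ih =>
      clear ih
      -- go down from the top
      have key : ∀ (d1 w1 : ℕ), Node stop d w d1 w1 → ∀ b, b ∈ NS stop d1 w1 → b ∈ NS stop d w := by
        intro d1 w1 hn
        induction hn with
        | root => exact fun b hb => hb
        | @step d2 w2 p q hn2 hp hq hs ih =>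
          intro b hb
          refine ih b ?_
          rw [NS_eq, mem_insert, mem_biUnion]
          refine Or.inr ⟨(p, q), mem_prp.2 ⟨hp, hq⟩, ?_⟩
          simp only [if_neg hs]
          exact hb
      refine key _ _ (hn.step hp hq hs) _ ?_
      rw [NS_eq]; exact mem_insert_self _ _

lemma mem_LS {stop : ℕ → ℕ → Prop} {d w b : ℕ} :
    b ∈ LS stop d w ↔ ∃ w', Leaf stop d w b w' := by
  constructor
  · intro h
    induction w using Nat.strong_induction_on generalizing d with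
    | _ w ih =>
      rw [LS_eq, mem_biUnion] at h
      obtain ⟨x, hx, h⟩ := h
      obtain ⟨hp, hq⟩ := mem_prp.1 hx
      split_ifs at h with hs
      · rw [mem_singleton] at h
        subst h
        exact ⟨x.2, d, w, x.1, Node.root, hp, hq, rfl, hs⟩
      · obtain ⟨w', h'⟩ := ih x.2 (lt_trans (lt_of_mem_pr hq) (lt_of_mem_pr hp)) h
        exact ⟨w', h'.of_node (Node.step Node.root hp hq hs)⟩
  · rintro ⟨w', d', w1, p, hn, hp, hq, rfl, hs⟩
    have key : ∀ (d1 w1 : ℕ), Node stop d w d1 w1 → ∀ b, b ∈ LS stop d1 w1 → b ∈ LS stop d w := by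
      intro d1 w1 hn
      induction hn with
      | root => exact fun b hb => hb
      | @step d2 w2 p q hn2 hp hq hs ih =>
        intro b hb
        refine ih b ?_
        rw [LS_eq, mem_biUnion]
        refine ⟨(p, q), mem_prp.2 ⟨hp, hq⟩, ?_⟩
        simp only [if_neg hs]
        exact hb
    refine key _ _ hn _ ?_
    rw [LS_eq, mem_biUnion]
    refine ⟨(p, w'), mem_prp.2 ⟨hp, hq⟩, ?_⟩
    simp only [if_pos hs]
    exact mem_singleton_self _

/-- uniqueness of the first two primes -/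
lemma pair_unique {d p q m p' q' m' : ℕ} (hd : 0 < d) (hp : p.Prime) (hq : q.Prime) (hqp : q < p)
    (hm : ∀ r, r.Prime → r ∣ m → r < q) (hp' : p'.Prime) (hq' : q'.Prime)
    (hqp' : q' < p') (hm' : ∀ r, r.Prime → r ∣ m' → r < q') (hm0 : 0 < m) (hm0' : 0 < m')
    (h : d * p * q * m = d * p' * q' * m') : p = p' ∧ q = q' := by
  have h1 : p * (q * m) = p' * (q' * m') := by
    have : d * (p * (q * m)) = d * (p' * (q' * m')) := by
      rw [show d * (p * (q * m)) = d * p * q * m by ring, h]; ring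
    exact Nat.eq_of_mul_eq_mul_left hd this
  have hle : ∀ {p q m p' q' m' : ℕ}, p.Prime → p'.Prime → q'.Prime → q' < p' →
      (∀ r, r.Prime → r ∣ m' → r < q') → p * (q * m) = p' * (q' * m') → p ≤ p' := by
    intro p q m p' q' m' hp hp' hq' hqp' hm' h1
    have hdvd : p ∣ p' * (q' * m') := by rw [← h1]; exact dvd_mul_right _ _
    rcases (Nat.Prime.dvd_mul hp).1 hdvd with h2 | h2
    · exact ((Nat.prime_dvd_prime_iff_eq hp hp').1 h2).le
    · rcases (Nat.Prime.dvd_mul hp).1 h2 with h3 | h3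
      · have := (Nat.prime_dvd_prime_iff_eq hp hq').1 h3; omega
      · have := hm' p hp h3; omega
  have hpe : p = p' := le_antisymm (hle hp hp' hq' hqp' hm' h1) (hle hp' hp hq hqp hm h1.symm)
  subst hpe
  have h2 : q * m = q' * m' := Nat.eq_of_mul_eq_mul_left hp.pos h1
  refine ⟨rfl, ?_⟩
  have hle2 : ∀ {q m q' m' : ℕ}, q.Prime → q'.Prime →
      (∀ r, r.Prime → r ∣ m' → r < q') → q * m = q' * m' → q ≤ q' := by
    intro q m q' m' hq hq' hm' h1
    have hdvd : q ∣ q' * m' := by rw [← h1]; exact dvd_mul_right _ _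
    rcases (Nat.Prime.dvd_mul hq).1 hdvd with h2 | h2
    · exact ((Nat.prime_dvd_prime_iff_eq hq hq').1 h2).le
    · exact (hm' q hq h2).le
  exact le_antisymm (hle2 hq hq' hm' h2) (hle2 hq' hq hm h2.symm)

lemma factor_of_mem_NS {stop : ℕ → ℕ → Prop} {d w b : ℕ} (h : b ∈ NS stop d w) :
    ∃ m, b = d * m ∧ 0 < m ∧ ∀ r, r.Prime → r ∣ m → r < w := by
  obtain ⟨w', hn⟩ := mem_NS.1 h
  obtain ⟨m, hm, hm0, h1, _⟩ := hn.factor
  exact ⟨m, hm, hm0, fun r hr hd => (h1 r hr hd).2⟩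

lemma factor_of_mem_LS {stop : ℕ → ℕ → Prop} {d w b : ℕ} (h : b ∈ LS stop d w) :
    ∃ m, b = d * m ∧ 1 < m ∧ ∀ r, r.Prime → r ∣ m → r < w := by
  obtain ⟨w', d', w1, p, hn, hp, hq, rfl, hs⟩ := mem_LS.1 h
  obtain ⟨m, hm, hm0, h1, _⟩ := hn.factor
  have hpp := prime_of_mem_pr hp
  have hqp := prime_of_mem_pr hq
  have hqlt := lt_of_mem_pr hq
  have hplt := lt_of_mem_pr hp
  have hww0 : w1 ≤ w := hn.w_le
  refine ⟨m * p * w', by rw [hm]; ring, ?_, ?_⟩
  · have h3 := hpp.one_lt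
    have h4 := hqp.one_lt
    nlinarith [Nat.mul_pos hm0 hpp.pos]
  · intro r hr hdvd
    rcases (Nat.Prime.dvd_mul hr).1 hdvd with h3 | h3
    · rcases (Nat.Prime.dvd_mul hr).1 h3 with h4 | h4
      · exact (h1 r hr h4).2
      · have := (Nat.prime_dvd_prime_iff_eq hr hpp).1 h4
        omega
    · have := (Nat.prime_dvd_prime_iff_eq hr hqp).1 h3
      omega

/-- second component of a state in terms of the first -/
noncomputable def wOf (d0 w0 d : ℕ) : ℕ := if d = d0 then w0 else d.minFac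

lemma minFac_eq {d w : ℕ} (hw : w.Prime) (hd : Rgh d w) (hdvd : w ∣ d) : d.minFac = w := by
  apply le_antisymm (Nat.minFac_le_of_dvd hw.two_le hdvd)
  by_contra hlt
  push Not at hlt
  have hd1 : d ≠ 1 := by rintro rfl; exact hw.one_lt.ne' (Nat.dvd_one.1 hdvd)
  exact hd _ (Nat.minFac_prime hd1) hlt (Nat.minFac_dvd d)

lemma Node.wOf {stop : ℕ → ℕ → Prop} {d0 w0 d w : ℕ} (hd0 : 0 < d0) (h0 : Rgh d0 w0)
    (h : Node stop d0 w0 d w) : Tree.wOf d0 w0 d = w := by
  obtain ⟨m, hm, hm0, h1, h2⟩ := h.factor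
  rcases h2 with ⟨h3, h4, _⟩ | ⟨h3, h4, h5⟩
  · rw [Tree.wOf, if_pos h3, h4]
  · have hne : d ≠ d0 := by
      intro he
      rw [he] at hm
      have : m = 1 := by
        have : d0 * 1 = d0 * m := by rw [mul_one]; exact hm
        exact (Nat.eq_of_mul_eq_mul_left hd0 this).symm
      rw [this] at h3
      exact h4.one_lt.ne' (Nat.dvd_one.1 h3)
    rw [Tree.wOf, if_neg hne]
    exact minFac_eq h4 (h.rgh h0) (hm ▸ h3.mul_left _)

lemma Leaf.minFac {stop : ℕ → ℕ → Prop} {d0 w0 d w : ℕ} (h0 : Rgh d0 w0)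
    (h : Leaf stop d0 w0 d w) : d.minFac = w := by
  obtain ⟨d', w1, p, hn, hp, hq, rfl, hs⟩ := h
  exact minFac_eq (prime_of_mem_pr hq) ((hn.rgh h0).child hp hq) (dvd_mul_left _ _)

/-- `T` as a sum over finsets of integers (stopped part) -/
theorem T_eq_sum_LS (stop : ℕ → ℕ → Prop) (fs : ℕ → ℕ → ℝ) {d0 w0 : ℕ} (hd0 : 0 < d0)
    (h0 : Rgh d0 w0) : T stop (fun _ _ => 0) fs d0 w0 = ∑ b ∈ LS stop d0 w0, fs b b.minFac := by
  induction w0 using Nat.strong_induction_on generalizing d0 with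
  | _ w ih =>
    rw [T_eq, zero_add, LS_eq, sum_pr_pr w (fun p q => if stop (d0 * p * q) q then
      fs (d0 * p * q) q else T stop (fun _ _ => 0) fs (d0 * p * q) q), Finset.sum_biUnion]
    · refine Finset.sum_congr rfl fun x hx => ?_
      obtain ⟨hp, hq⟩ := mem_prp.1 hx
      split_ifs with hs
      · rw [Finset.sum_singleton, minFac_eq (prime_of_mem_pr hq) (h0.child hp hq) (dvd_mul_left _ _)]
      · exact ih x.2 (lt_trans (lt_of_mem_pr hq) (lt_of_mem_pr hp))
          (Nat.mul_pos (Nat.mul_pos hd0 (prime_of_mem_pr hp).pos) (prime_of_mem_pr hq).pos)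
          (h0.child hp hq)
    · intro x hx y hy hxy
      obtain ⟨hp, hq⟩ := mem_prp.1 (Finset.mem_coe.1 hx)
      obtain ⟨hp', hq'⟩ := mem_prp.1 (Finset.mem_coe.1 hy)
      rw [Function.onFun, Finset.disjoint_left]
      intro b hb hb'
      apply hxy
      have hb1 : ∃ m, b = d0 * x.1 * x.2 * m ∧ 0 < m ∧ ∀ r, r.Prime → r ∣ m → r < x.2 := by
        split_ifs at hb
        · rw [mem_singleton] at hb
          exact ⟨1, by rw [hb, mul_one], one_pos,
            fun r hr h1 => absurd (Nat.dvd_one.1 h1) hr.one_lt.ne'⟩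
        · obtain ⟨m, h1, h2, h3⟩ := factor_of_mem_LS hb
          exact ⟨m, h1, by omega, h3⟩
      have hb2 : ∃ m, b = d0 * y.1 * y.2 * m ∧ 0 < m ∧ ∀ r, r.Prime → r ∣ m → r < y.2 := by
        split_ifs at hb'
        · rw [mem_singleton] at hb'
          exact ⟨1, by rw [hb', mul_one], one_pos,
            fun r hr h1 => absurd (Nat.dvd_one.1 h1) hr.one_lt.ne'⟩
        · obtain ⟨m, h1, h2, h3⟩ := factor_of_mem_LS hb'
          exact ⟨m, h1, by omega, h3⟩
      obtain ⟨m, h1, h2, h3⟩ := hb1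
      obtain ⟨m', h1', h2', h3'⟩ := hb2
      obtain ⟨h4, h5⟩ := pair_unique hd0 (prime_of_mem_pr hp) (prime_of_mem_pr hq)
        (lt_of_mem_pr hq) h3 (prime_of_mem_pr hp') (prime_of_mem_pr hq') (lt_of_mem_pr hq') h3'
        h2 h2' (h1.symm.trans h1')
      exact Prod.ext h4 h5

/-- `T` as a sum over finsets of integers (unstopped part) -/
theorem T_eq_sum_NS (stop : ℕ → ℕ → Prop) (fi : ℕ → ℕ → ℝ) {d0 w0 : ℕ} (hd0 : 0 < d0)
    (h0 : Rgh d0 w0) :
    T stop fi (fun _ _ => 0) d0 w0 = ∑ b ∈ NS stop d0 w0, fi b (wOf d0 w0 b) := by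
  have main : ∀ (w0 d0 : ℕ), 0 < d0 → Rgh d0 w0 → ∀ (g : ℕ → ℝ),
      (∀ b w, Node stop d0 w0 b w → g b = fi b w) →
      T stop fi (fun _ _ => 0) d0 w0 = ∑ b ∈ NS stop d0 w0, g b := by
    intro w0
    induction w0 using Nat.strong_induction_on with
    | _ w ih =>
      intro d0 hd0 h0 g hg
      rw [T_eq, NS_eq, sum_pr_pr w (fun p q => if stop (d0 * p * q) q then
        (0:ℝ) else T stop fi (fun _ _ => 0) (d0 * p * q) q), Finset.sum_insert, Finset.sum_biUnion]
      · rw [hg _ _ Node.root]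
        congr 1
        refine Finset.sum_congr rfl fun x hx => ?_
        obtain ⟨hp, hq⟩ := mem_prp.1 hx
        split_ifs with hs
        · rw [Finset.sum_empty]
        · exact ih x.2 (lt_trans (lt_of_mem_pr hq) (lt_of_mem_pr hp)) _
            (Nat.mul_pos (Nat.mul_pos hd0 (prime_of_mem_pr hp).pos) (prime_of_mem_pr hq).pos)
            (h0.child hp hq) g
            (fun b w' hn => hg b w' ((Node.step Node.root hp hq hs).trans hn))
      · intro x hx y hy hxy
        obtain ⟨hp, hq⟩ := mem_prp.1 (Finset.mem_coe.1 hx)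
        obtain ⟨hp', hq'⟩ := mem_prp.1 (Finset.mem_coe.1 hy)
        rw [Function.onFun, Finset.disjoint_left]
        intro b hb hb'
        apply hxy
        split_ifs at hb
        · simp at hb
        split_ifs at hb'
        · simp at hb'
        obtain ⟨m, h1, h2, h3⟩ := factor_of_mem_NS hb
        obtain ⟨m', h1', h2', h3'⟩ := factor_of_mem_NS hb'
        obtain ⟨h4, h5⟩ := pair_unique hd0 (prime_of_mem_pr hp) (prime_of_mem_pr hq)
          (lt_of_mem_pr hq) h3 (prime_of_mem_pr hp') (prime_of_mem_pr hq') (lt_of_mem_pr hq') h3'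
          h2 h2' (h1.symm.trans h1')
        exact Prod.ext h4 h5
      · intro hmem
        rw [mem_biUnion] at hmem
        obtain ⟨x, hx, hb⟩ := hmem
        obtain ⟨hp, hq⟩ := mem_prp.1 hx
        split_ifs at hb
        · simp at hb
        obtain ⟨m, h1, h2, h3⟩ := factor_of_mem_NS hb
        have h4 : d0 * 1 = d0 * (x.1 * x.2 * m) := by rw [mul_one]; nlinarith [h1]
        have h5 := Nat.eq_of_mul_eq_mul_left hd0 h4
        have h6 := (prime_of_mem_pr hp).one_lt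
        have h7 := (prime_of_mem_pr hq).one_lt
        have h8 : 1 < x.1 * x.2 * m := by
          calc 1 < x.1 * x.2 := by nlinarith
            _ ≤ x.1 * x.2 * m := Nat.le_mul_of_pos_right _ h2
        omega
  exact main w0 d0 hd0 h0 _ (fun b w hn => by rw [hn.wOf hd0 h0])

end Crest.Agent.R001.Tree
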