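import Mathlib
import Crest.Agent.R001.TreeSize
import Crest.Agent.R001.MassA664

/-!
# R1: bridge between `Tree.T` (helper7) and the level-normalised functional `Mass.T` (helper664)
-/

set_option autoImplicit false

namespace Crest.Agent.R001.Bridge

open Finset Classical
open Crest.Agent.R001

/-- boundary operator -/
noncomputable def BdOp (h : ℝ → ℕ → ℝ) (y : ℝ) (w : ℕ) : ℝ :=
  ∑ p ∈ Mass.P w, ∑ q ∈ Mass.P p,
    if y ≤ (p : ℝ) * (q : ℝ) ^ 3 then 1 / ((p : ℝ) * q) * h (y / ((p : ℝ) * q)) q else 0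

lemma P_eq (w : ℕ) : Mass.P w = Tree.pr w := rfl

/-- the stopping rule for products corresponding to a level-normalised rule -/
def stp (D : ℝ) (stop : ℝ → ℕ → Prop) (d w : ℕ) : Prop := Tree.bd D d w ∨ stop (D / d) w

/-- **bridge** -/
theorem bridge (D : ℝ) (stop : ℝ → ℕ → Prop) (f g h : ℝ → ℕ → ℝ) (w : ℕ) :
    ∀ d : ℕ, 0 < d → ¬ stop (D / d) w →
    Tree.T (stp D stop) (fun d w => 1 / (d : ℝ) * f (D / d) w)
      (fun d w => if Tree.bd D d w then 1 / (d : ℝ) * h (D / d) w else 1 / (d : ℝ) * g (D / d) w)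
      d w =
    1 / (d : ℝ) * Mass.T stop (fun y w => f y w + BdOp h y w) g (D / d) w := by
  induction w using Nat.strong_induction_on with
  | _ w ih =>
    intro d hd hst
    have hd0 : (0 : ℝ) < d := by exact_mod_cast hd
    rw [Tree.T_eq, Mass.T_not hst, mul_add, mul_add, add_assoc]
    congr 1
    obtain ⟨F, hF⟩ : ∃ F : ℝ → ℕ → ℝ, F = fun y w => f y w + BdOp h y w := ⟨_, rfl⟩
    rw [← hF] at ih ⊢
    unfold BdOp Mass.Op
    rw [Finset.mul_sum, Finset.mul_sum, ← Finset.sum_add_distrib]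
    refine Finset.sum_congr rfl fun p hp => ?_
    rw [Finset.mul_sum, Finset.mul_sum, ← Finset.sum_add_distrib]
    refine Finset.sum_congr rfl fun q hq => ?_
    have hp' := (Mass.mem_P.1 hp).2.pos
    have hq' := (Mass.mem_P.1 hq).2.pos
    have hp0 : (0 : ℝ) < p := by exact_mod_cast hp'
    have hq0 : (0 : ℝ) < q := by exact_mod_cast hq'
    have hqw : q < w := lt_trans (Mass.mem_P.1 hq).1 (Mass.mem_P.1 hp).1
    have e1 : D / ((d * p * q : ℕ) : ℝ) = D / d / ((p : ℝ) * q) := by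
      push_cast; field_simp
    have e2 : (1 : ℝ) / ((d * p * q : ℕ) : ℝ) = 1 / d * (1 / ((p : ℝ) * q)) := by
      push_cast; field_simp
    have hbd : Tree.bd D (d * p * q) q ↔ D / d ≤ (p : ℝ) * (q : ℝ) ^ 3 := by
      unfold Tree.bd
      rw [div_le_iff₀ hd0]
      push_cast
      have : (d : ℝ) * p * q * (q : ℝ) ^ 2 = p * (q : ℝ) ^ 3 * d := by ring
      rw [this]
    by_cases hb : Tree.bd D (d * p * q) q
    · have hs : stp D stop (d * p * q) q := Or.inl hb
      have hb' := hbd.mp hb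
      have hb'' : ¬ ((p : ℝ) * (q : ℝ) ^ 3 < D / d) := not_lt.mpr hb'
      rw [if_pos hs, if_pos hb, if_pos hb', if_neg hb'', e1, e2]
      ring
    · have hb' : ¬ (D / d ≤ (p : ℝ) * (q : ℝ) ^ 3) := fun h => hb (hbd.mpr h)
      have hb'' : (p : ℝ) * (q : ℝ) ^ 3 < D / d := not_le.mp hb'
      rw [if_neg hb', if_pos hb'', mul_zero, zero_add]
      by_cases hs : stop (D / ((d * p * q : ℕ) : ℝ)) q
      · have hs' : stp D stop (d * p * q) q := Or.inr hs
        rw [if_pos hs', if_neg hb]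
        rw [e1] at hs
        rw [Mass.T_stop hs, e1, e2]
        ring
      · have hs' : ¬ stp D stop (d * p * q) q := fun h => h.elim hb hs
        rw [if_neg hs', ih q hqw (d * p * q) (Nat.mul_pos (Nat.mul_pos hd hp') hq') hs, e1, e2]
        ring

/-- no line -/
theorem bridge0 (D : ℝ) (f h : ℝ → ℕ → ℝ) (w d : ℕ) (hd : 0 < d) :
    Tree.T (Tree.bd D) (fun d w => 1 / (d : ℝ) * f (D / d) w)
      (fun d w => 1 / (d : ℝ) * h (D / d) w) d w =
    1 / (d : ℝ) * Mass.T0 (fun y w => f y w + BdOp h y w) (D / d) w := by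
  have h1 := bridge D (fun _ _ => False) f (fun _ _ => 0) h w d hd (fun h => h)
  have e : stp D (fun _ _ => False) = Tree.bd D := by
    funext d w
    unfold stp
    simp
  rw [e] at h1
  rw [← h1]
  apply Tree.T_congr
  · intro d' w' _; rfl
  · intro d' w' hl
    obtain ⟨_, _, _, _, _, _, _, hs⟩ := hl
    rw [if_pos hs]

end Crest.Agent.R001.Bridge
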