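import Mathlib
import Crest.Agent.Lib.Mertens

/-!
# R1, block F1, part A: partial summation

`sumG_bound` : for `2 ≤ w`, `w ^ 2 ≤ x`,
`∑_{w < p ≤ √x} 1 / (p log (x / p)) = log (log x / log w - 1) / log x + O (1 / (log w log x))`.
-/

open MeasureTheory Finset

namespace Crest.Agent.R001.F1

open Crest.Agent.Lib.Mertens

/-- Comparison of a sum with an integral by partial summation. `P` is an antiderivative of
`f * H'`. -/
theorem abel_compare {a b E : ℝ} (ha : 0 ≤ a) (hab : a ≤ b) (hE : 0 ≤ E)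
    (f f' H P : ℝ → ℝ) (c : ℕ → ℝ)
    (hf : ∀ t ∈ Set.Icc a b, HasDerivAt f (f' t) t)
    (hf' : ContinuousOn f' (Set.Icc a b))
    (hf'0 : ∀ t ∈ Set.Icc a b, 0 ≤ f' t)
    (hfa : 0 ≤ f a)
    (hHc : ContinuousOn H (Set.Icc a b)) (hHa : H a = 0)
    (hP : ∀ t ∈ Set.Icc a b, HasDerivAt (fun t => f t * H t - P t) (f' t * H t) t)
    (hE' : ∀ t ∈ Set.Icc a b, |∑ k ∈ Ioc ⌊a⌋₊ ⌊t⌋₊, c k - H t| ≤ E) :
    |∑ k ∈ Ioc ⌊a⌋₊ ⌊b⌋₊, f k * c k - (P b - P a)| ≤ 2 * E * f b := by
  classical
  -- replace `c` by `c'` supported on `(a, ∞)`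
  set c' : ℕ → ℝ := fun k => if ⌊a⌋₊ < k then c k else 0 with hc'
  have hC : ∀ t, a ≤ t → ∑ k ∈ Icc 0 ⌊t⌋₊, c' k = ∑ k ∈ Ioc ⌊a⌋₊ ⌊t⌋₊, c k := by
    intro t hat
    rw [← Finset.sum_filter_add_sum_filter_not (Icc 0 ⌊t⌋₊) (fun k => ⌊a⌋₊ < k)]
    have h0 : ∑ k ∈ (Icc 0 ⌊t⌋₊).filter (fun k => ¬ ⌊a⌋₊ < k), c' k = 0 := by
      apply Finset.sum_eq_zero
      intro k hk
      rw [Finset.mem_filter] at hk
      simp [hc', hk.2]
    rw [h0, add_zero]
    have : (Icc 0 ⌊t⌋₊).filter (fun k => ⌊a⌋₊ < k) = Ioc ⌊a⌋₊ ⌊t⌋₊ := by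
      ext k
      simp only [Finset.mem_filter, Finset.mem_Icc, Finset.mem_Ioc]
      constructor
      · rintro ⟨⟨_, h2⟩, h3⟩; exact ⟨h3, h2⟩
      · rintro ⟨h1, h2⟩; exact ⟨⟨Nat.zero_le _, h2⟩, h1⟩
    rw [this]
    apply Finset.sum_congr rfl
    intro k hk
    rw [Finset.mem_Ioc] at hk
    simp [hc', hk.1]
  have hsum : ∑ k ∈ Ioc ⌊a⌋₊ ⌊b⌋₊, f k * c k = ∑ k ∈ Ioc ⌊a⌋₊ ⌊b⌋₊, f k * c' k := by
    apply Finset.sum_congr rfl
    intro k hk
    rw [Finset.mem_Ioc] at hk
    simp [hc', hk.1]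
  have hderiv : ∀ t ∈ Set.Icc a b, deriv f t = f' t := fun t ht => (hf t ht).deriv
  have hint : IntegrableOn (deriv f) (Set.Icc a b) := by
    have h1 : IntegrableOn f' (Set.Icc a b) := hf'.integrableOn_Icc
    exact h1.congr_fun (fun t ht => (hderiv t ht).symm) measurableSet_Icc
  have habel := sum_mul_eq_sub_sub_integral_mul (𝕜 := ℝ) c' ha hab
    (fun t ht => (hf t ht).differentiableAt) hint (f := f)
  rw [hsum, habel, hC b hab, hC a le_rfl]
  simp only [Finset.Ioc_self, Finset.sum_empty, mul_zero, sub_zero]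
  -- the integral
  have hsub : Set.uIcc a b = Set.Icc a b := Set.uIcc_of_le hab
  have e1 : ∫ t in Set.Ioc a b, deriv f t * ∑ k ∈ Icc 0 ⌊t⌋₊, c' k =
      ∫ t in a..b, f' t * ∑ k ∈ Icc 0 ⌊t⌋₊, c' k := by
    rw [intervalIntegral.integral_of_le hab]
    apply setIntegral_congr_fun measurableSet_Ioc
    intro t ht
    simp only
    rw [hderiv t ⟨ht.1.le, ht.2⟩]
  have hI1 : IntervalIntegrable (fun t => f' t * ∑ k ∈ Icc 0 ⌊t⌋₊, c' k) volume a b := by
    rw [intervalIntegrable_iff_integrableOn_Icc_of_le hab]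
    exact integrableOn_mul_sum_Icc c' ha hf'.integrableOn_Icc
  have hI2 : IntervalIntegrable (fun t => f' t * H t) volume a b := by
    apply ContinuousOn.intervalIntegrable
    rw [hsub]
    exact hf'.mul hHc
  have hI3 : IntervalIntegrable f' volume a b := by
    apply ContinuousOn.intervalIntegrable
    rw [hsub]
    exact hf'
  have e2 : ∫ t in a..b, f' t * H t = (f b * H b - P b) - (f a * H a - P a) := by
    apply intervalIntegral.integral_eq_sub_of_hasDerivAt
    · rw [hsub]; exact hP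
    · exact hI2
  have e3 : ∫ t in a..b, f' t = f b - f a := by
    apply intervalIntegral.integral_eq_sub_of_hasDerivAt
    · rw [hsub]; exact hf
    · exact hI3
  have e4 : |(∫ t in a..b, f' t * ∑ k ∈ Icc 0 ⌊t⌋₊, c' k) - ∫ t in a..b, f' t * H t| ≤
      E * (f b - f a) := by
    rw [← intervalIntegral.integral_sub hI1 hI2, ← e3, ← intervalIntegral.integral_const_mul,
      ← Real.norm_eq_abs]
    apply intervalIntegral.norm_integral_le_of_norm_le hab
    · refine Filter.Eventually.of_forall ?_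
      intro t ht
      have ht' : t ∈ Set.Icc a b := ⟨ht.1.le, ht.2⟩
      rw [← mul_sub, Real.norm_eq_abs, abs_mul, abs_of_nonneg (hf'0 t ht'), mul_comm,
        hC t ht'.1]
      exact mul_le_mul_of_nonneg_right (hE' t ht') (hf'0 t ht')
    · exact hI3.const_mul E
  have hfb : f a ≤ f b := by
    have : 0 ≤ ∫ t in a..b, f' t := intervalIntegral.integral_nonneg hab hf'0
    linarith [e3 ▸ this]
  have h5 := hE' b ⟨hab, le_rfl⟩
  have hfb0 : 0 ≤ f b := hfa.trans hfb
  have h6 : |f b * (∑ k ∈ Ioc ⌊a⌋₊ ⌊b⌋₊, c k - H b)| ≤ f b * E := by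
    rw [abs_mul, abs_of_nonneg hfb0]
    exact mul_le_mul_of_nonneg_left h5 hfb0
  rw [e1]
  rw [hHa] at e2
  have key : f b * ∑ k ∈ Ioc ⌊a⌋₊ ⌊b⌋₊, c k - (∫ t in a..b, f' t * ∑ k ∈ Icc 0 ⌊t⌋₊, c' k) -
      (P b - P a) = f b * (∑ k ∈ Ioc ⌊a⌋₊ ⌊b⌋₊, c k - H b) -
        ((∫ t in a..b, f' t * ∑ k ∈ Icc 0 ⌊t⌋₊, c' k) - ∫ t in a..b, f' t * H t) := by
    rw [e2]; ring
  rw [key]
  refine (abs_sub _ _).trans ?_
  have h7 : E * (f b - f a) ≤ E * f b := by
    apply mul_le_mul_of_nonneg_left _ hE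
    linarith
  linarith

/-- the sum `∑_{w < p ≤ √x} 1 / (p log (x / p))` -/
noncomputable def G (x w : ℝ) : ℝ :=
  ∑ p ∈ pr w (Real.sqrt x), 1 / ((p : ℝ) * (Real.log x - Real.log p))

theorem G_bound {x w : ℝ} (hw : 2 ≤ w) (hx : w ^ 2 ≤ x) :
    |G x w - Real.log ((Real.log x - Real.log w) / Real.log w) / Real.log x| ≤
      72 / (Real.log w * Real.log x) := by
  have hw0 : 0 < w := by linarith
  have hx4 : 4 ≤ x := by nlinarith
  have hx0 : 0 < x := by linarith
  have hws : w ≤ Real.sqrt x := Real.le_sqrt_of_sq_le hx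
  have hs2 : 2 ≤ Real.sqrt x := hw.trans hws
  have hlw : 0 < Real.log w := Real.log_pos (by linarith)
  have hlx : 0 < Real.log x := Real.log_pos (by linarith)
  have hlsx : Real.log (Real.sqrt x) = Real.log x / 2 := by
    rw [Real.log_sqrt hx0.le]
  have hlws : Real.log w ≤ Real.log x / 2 := by
    rw [← hlsx]; exact Real.log_le_log hw0 hws
  set a := w with ha_def
  set b := Real.sqrt x with hb_def
  -- facts on the interval
  have ht : ∀ t ∈ Set.Icc a b, 0 < t ∧ 0 < Real.log t ∧ 0 < Real.log x - Real.log t := by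
    intro t ht
    have h0 : 0 < t := lt_of_lt_of_le hw0 ht.1
    have h1 : Real.log w ≤ Real.log t := Real.log_le_log hw0 ht.1
    have h2 : Real.log t ≤ Real.log x / 2 := by
      rw [← hlsx]; exact Real.log_le_log h0 ht.2
    exact ⟨h0, by linarith, by linarith⟩
  have key := abel_compare (a := a) (b := b) (E := 18 / Real.log w) hw0.le hws (by positivity)
    (fun t => 1 / (Real.log x - Real.log t))
    (fun t => (1 / t) / (Real.log x - Real.log t) ^ 2)
    (fun t => Real.log (Real.log t) - Real.log (Real.log a))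
    (fun t => (1 / Real.log x) * (Real.log (Real.log t) - Real.log (Real.log x - Real.log t)))
    (fun k => if k.Prime then (1 : ℝ) / k else 0)
    ?_ ?_ ?_ ?_ ?_ ?_ ?_ ?_
  · have e1 : ∑ k ∈ Ioc ⌊a⌋₊ ⌊b⌋₊, (fun t => 1 / (Real.log x - Real.log t)) (k : ℝ) *
        (fun k : ℕ => if k.Prime then (1 : ℝ) / k else 0) k = G x w := by
      unfold G pr
      rw [Finset.sum_filter]
      apply Finset.sum_congr rfl
      intro k _
      simp only
      split_ifs with hk
      · rw [one_div_mul_one_div, mul_comm]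
      · simp
    rw [e1] at key
    have e2 : (fun t => (1 / Real.log x) *
        (Real.log (Real.log t) - Real.log (Real.log x - Real.log t))) b -
        (fun t => (1 / Real.log x) *
        (Real.log (Real.log t) - Real.log (Real.log x - Real.log t))) a =
        Real.log ((Real.log x - Real.log w) / Real.log w) / Real.log x := by
      simp only
      rw [hlsx, Real.log_div (by linarith) hlw.ne']
      have : Real.log x - Real.log x / 2 = Real.log x / 2 := by ring
      rw [this]
      ring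
    rw [e2] at key
    refine key.trans (le_of_eq ?_)
    have e3 : Real.log x - Real.log b = Real.log x / 2 := by rw [hlsx]; ring
    rw [e3, ← ha_def]
    field_simp
    ring
  · intro t htt
    obtain ⟨h0, h1, h2⟩ := ht t htt
    have h := ((hasDerivAt_const t (Real.log x)).sub (Real.hasDerivAt_log h0.ne')).inv h2.ne'
    have e : (fun t => 1 / (Real.log x - Real.log t)) =
        (fun t => (Real.log x - Real.log t)⁻¹) := by
      funext t; rw [one_div]
    rw [e]
    refine h.congr_deriv ?_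
    simp
  · have hc : ContinuousOn (fun t => Real.log x - Real.log t) (Set.Icc a b) :=
      continuousOn_const.sub (Real.continuousOn_log.mono (fun t htt => (ht t htt).1.ne'))
    apply ContinuousOn.div
    · exact continuousOn_const.div continuousOn_id (fun t htt => (ht t htt).1.ne')
    · exact hc.pow 2
    · intro t htt
      exact pow_ne_zero 2 (ht t htt).2.2.ne'
  · intro t htt
    obtain ⟨h0, h1, h2⟩ := ht t htt
    positivity
  · have := (ht a ⟨le_rfl, hws⟩).2.2
    positivity
  · apply ContinuousOn.sub _ continuousOn_const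
    apply ContinuousOn.log
    · exact Real.continuousOn_log.mono (fun t htt => (ht t htt).1.ne')
    · intro t htt
      exact (ht t htt).2.1.ne'
  · simp
  · intro t htt
    obtain ⟨h0, h1, h2⟩ := ht t htt
    have hd1 : HasDerivAt (fun t => 1 / (Real.log x - Real.log t))
        ((1 / t) / (Real.log x - Real.log t) ^ 2) t := by
      have h := ((hasDerivAt_const t (Real.log x)).sub (Real.hasDerivAt_log h0.ne')).inv h2.ne'
      have e : (fun t => 1 / (Real.log x - Real.log t)) =
          (fun t => (Real.log x - Real.log t)⁻¹) := by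
        funext t; rw [one_div]
      rw [e]
      refine h.congr_deriv ?_
      simp
    have hd2 : HasDerivAt (fun t => Real.log (Real.log t)) (1 / t / Real.log t) t := by
      have := (Real.hasDerivAt_log h0.ne').log h1.ne'
      simpa using this
    have hd3 : HasDerivAt (fun t => Real.log (Real.log x - Real.log t))
        (-(1 / t) / (Real.log x - Real.log t)) t := by
      have := ((hasDerivAt_const t (Real.log x)).sub (Real.hasDerivAt_log h0.ne')).log h2.ne'
      refine this.congr_deriv ?_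
      simp
    have hd := (hd1.mul (hd2.sub (hasDerivAt_const t (Real.log (Real.log a))))).sub
      ((hd2.sub hd3).const_mul (1 / Real.log x))
    refine hd.congr_deriv ?_
    have h3 : Real.log x ≠ 0 := hlx.ne'
    have h4 : Real.log t ≠ 0 := h1.ne'
    have h5 : Real.log x - Real.log t ≠ 0 := h2.ne'
    have h6 : t ≠ 0 := h0.ne'
    simp only [sub_zero, Pi.sub_apply]
    have e : 1 / (Real.log x - Real.log t) * (1 / t / Real.log t) =
        1 / Real.log x * (1 / t / Real.log t - -(1 / t) / (Real.log x - Real.log t)) := by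
      field_simp
      ring
    linarith
  · intro t htt
    have h := mertens_two w t hw htt.1
    have e : ∑ k ∈ Ioc ⌊a⌋₊ ⌊t⌋₊, (if k.Prime then (1 : ℝ) / k else 0) =
        ∑ p ∈ pr w t, (1 : ℝ) / p := by
      unfold pr
      rw [Finset.sum_filter]
    rw [e]
    exact h

end Crest.Agent.R001.F1
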