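import Mathlib
import Crest.Agent.R001.F1A

/-!
# R1, block F1, part B: counting rough numbers with two prime factors
-/

open Finset ArithmeticFunction

namespace Crest.Agent.R001.F1

open Crest.Agent.Lib.Mertens

/-- positive integers `≤ x` all of whose prime factors are `≥ w` -/
noncomputable def roughN (x w : ℝ) : Finset ℕ := by
  classical exact (Finset.Icc 1 ⌊x⌋₊).filter (fun m => ∀ p : ℕ, p.Prime → p ∣ m → w ≤ p)

/-- `2 * #{m ≤ x : m is w-rough, Ω m even} = ∑_{m ≤ x, w-rough} (1 + λ m)` -/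
noncomputable def Rw (x w : ℝ) : ℝ :=
  2 * (((roughN x w).filter (fun m => Even (cardFactors m))).card : ℝ)

/-- Prime number theorem with error term `x / log² x`. -/
def PNT2 : Prop := ∃ C : ℝ, ∀ x : ℝ, 2 ≤ x →
  |(Nat.primeCounting ⌊x⌋₊ : ℝ) - x / Real.log x| ≤ C * x / Real.log x ^ 2

lemma mem_roughN {x w : ℝ} {m : ℕ} (hx : 0 ≤ x) : m ∈ roughN x w ↔
    1 ≤ m ∧ (m : ℝ) ≤ x ∧ ∀ p : ℕ, p.Prime → p ∣ m → w ≤ p := by
  classical
  unfold roughN
  rw [Finset.mem_filter, Finset.mem_Icc, Nat.le_floor_iff hx, and_assoc]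

/-- rough numbers `≤ x` with exactly `k` prime factors -/
noncomputable def rk (k : ℕ) (x w : ℝ) : Finset ℕ :=
  (roughN x w).filter (fun m => cardFactors m = k)

lemma mem_rk {k : ℕ} {x w : ℝ} {m : ℕ} (hx : 0 ≤ x) : m ∈ rk k x w ↔
    (1 ≤ m ∧ (m : ℝ) ≤ x ∧ ∀ p : ℕ, p.Prime → p ∣ m → w ≤ p) ∧ cardFactors m = k := by
  unfold rk
  rw [Finset.mem_filter, mem_roughN hx]

lemma pow_length_le {w : ℝ} (hw : 0 ≤ w) : ∀ (l : List ℕ), (∀ a ∈ l, w ≤ (a : ℝ)) →
    w ^ l.length ≤ ((l.prod : ℕ) : ℝ)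
  | [], _ => by simp
  | a :: l, h => by
    have h1 := pow_length_le hw l (fun b hb => h b (List.mem_cons_of_mem _ hb))
    have h2 := h a List.mem_cons_self
    rw [List.length_cons, List.prod_cons, pow_succ', Nat.cast_mul]
    exact mul_le_mul h2 h1 (by positivity) (by positivity)

lemma pow_le_of_rough {w : ℝ} (hw : 0 ≤ w) {m : ℕ} (hm : 1 ≤ m)
    (h : ∀ p : ℕ, p.Prime → p ∣ m → w ≤ p) : w ^ (cardFactors m) ≤ m := by
  have h1 := pow_length_le hw m.primeFactorsList (fun a ha => by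
    have hm0 : m ≠ 0 := by omega
    exact h a (Nat.prime_of_mem_primeFactorsList ha) (Nat.dvd_of_mem_primeFactorsList ha))
  rw [Nat.prod_primeFactorsList (by omega), ← cardFactors_apply] at h1
  exact h1

/-- primes `q` with `w ≤ q ≤ √x` -/
noncomputable def Pq (x w : ℝ) : Finset ℕ := (Icc ⌈w⌉₊ ⌊Real.sqrt x⌋₊).filter Nat.Prime

lemma mem_Pq {x w : ℝ} {q : ℕ} : q ∈ Pq x w ↔
    (w ≤ q ∧ (q : ℝ) ≤ Real.sqrt x) ∧ q.Prime := by
  unfold Pq
  rw [Finset.mem_filter, Finset.mem_Icc, Nat.ceil_le, Nat.le_floor_iff (Real.sqrt_nonneg x)]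

/-- primes `r` with `q ≤ r ≤ x / q` -/
noncomputable def Pr (x : ℝ) (q : ℕ) : Finset ℕ := (Icc q ⌊x / q⌋₊).filter Nat.Prime

lemma mem_Pr {x : ℝ} {q r : ℕ} (hx : 0 ≤ x) : r ∈ Pr x q ↔
    (q ≤ r ∧ (r : ℝ) ≤ x / q) ∧ r.Prime := by
  unfold Pr
  rw [Finset.mem_filter, Finset.mem_Icc, Nat.le_floor_iff (by positivity)]

lemma two_factors {m : ℕ} (hm : m ≠ 0) (h : cardFactors m = 2) :
    (m.minFac).Prime ∧ (m / m.minFac).Prime ∧ m = m.minFac * (m / m.minFac) ∧
      m.minFac ≤ m / m.minFac := by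
  have hm1 : m ≠ 1 := by
    rintro rfl
    simp at h
  have hp : (m.minFac).Prime := Nat.minFac_prime hm1
  have hd : m = m.minFac * (m / m.minFac) := (Nat.mul_div_cancel' m.minFac_dvd).symm
  have hq0 : m / m.minFac ≠ 0 := by
    intro h0
    rw [h0] at hd
    simp at hd
    exact hm hd
  have hO : cardFactors (m / m.minFac) = 1 := by
    have h2 := cardFactors_mul hp.ne_zero hq0
    rw [← hd, h, cardFactors_apply_prime hp] at h2
    omega
  have hqp : (m / m.minFac).Prime := cardFactors_eq_one_iff_prime.mp hO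
  refine ⟨hp, hqp, hd, ?_⟩
  apply Nat.minFac_le_of_dvd hqp.two_le
  exact Nat.div_dvd_of_dvd m.minFac_dvd

lemma minFac_mul_of_le {q r : ℕ} (hq : q.Prime) (hr : r.Prime) (h : q ≤ r) :
    (q * r).minFac = q := by
  have h1 : (q * r).minFac ≤ q := Nat.minFac_le_of_dvd hq.two_le (dvd_mul_right q r)
  have hne : q * r ≠ 1 := by
    have := Nat.mul_le_mul hq.two_le hr.two_le
    omega
  have hp := Nat.minFac_prime hne
  have h2 : (q * r).minFac ∣ q * r := Nat.minFac_dvd _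
  rcases hp.dvd_mul.mp h2 with h3 | h3
  · rcases (Nat.dvd_prime hq).mp h3 with h4 | h4
    · exact absurd h4 hp.one_lt.ne'
    · exact h4
  · rcases (Nat.dvd_prime hr).mp h3 with h4 | h4
    · exact absurd h4 hp.one_lt.ne'
    · omega

lemma card_rk_two {x w : ℝ} (_hw : 2 ≤ w) (hx : 0 ≤ x) :
    (rk 2 x w).card = ∑ q ∈ Pq x w, (Pr x q).card := by
  rw [Finset.card_eq_sum_card_fiberwise (f := Nat.minFac) (t := Pq x w)]
  · apply Finset.sum_congr rfl
    intro q hq
    rw [mem_Pq] at hq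
    obtain ⟨⟨hq1, hq2⟩, hqp⟩ := hq
    have hq0 : (0 : ℝ) < q := by exact_mod_cast hqp.pos
    symm
    apply Finset.card_bij (fun r _ => q * r)
    · intro r hr
      rw [mem_Pr hx] at hr
      obtain ⟨⟨hr1, hr2⟩, hrp⟩ := hr
      rw [Finset.mem_filter, mem_rk hx]
      refine ⟨⟨⟨?_, ?_, ?_⟩, ?_⟩, ?_⟩
      · exact Nat.mul_pos hqp.pos hrp.pos
      · push_cast
        rw [le_div_iff₀ hq0] at hr2
        linarith [mul_comm (q : ℝ) r]
      · intro p hp hpd
        rcases hp.dvd_mul.mp hpd with h3 | h3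
        · rcases (Nat.dvd_prime hqp).mp h3 with h4 | h4
          · exact absurd h4 hp.one_lt.ne'
          · rw [h4]; exact hq1
        · rcases (Nat.dvd_prime hrp).mp h3 with h4 | h4
          · exact absurd h4 hp.one_lt.ne'
          · rw [h4]
            have : (q : ℝ) ≤ r := by exact_mod_cast hr1
            linarith
      · rw [cardFactors_mul hqp.ne_zero hrp.ne_zero, cardFactors_apply_prime hqp,
          cardFactors_apply_prime hrp]
      · exact minFac_mul_of_le hqp hrp hr1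
    · intro r1 _ r2 _ h
      exact Nat.eq_of_mul_eq_mul_left hqp.pos h
    · intro m hm
      rw [Finset.mem_filter, mem_rk hx] at hm
      obtain ⟨⟨⟨hm1, hm2, hm3⟩, hm4⟩, hm5⟩ := hm
      obtain ⟨h1, h2, h3, h4⟩ := two_factors (by omega) hm4
      rw [hm5] at h1 h2 h3 h4
      refine ⟨m / q, ?_, h3.symm⟩
      rw [mem_Pr hx]
      refine ⟨⟨h4, ?_⟩, h2⟩
      rw [le_div_iff₀ hq0]
      calc ((m / q : ℕ) : ℝ) * q = (((q * (m / q) : ℕ)) : ℝ) := by push_cast; ring
        _ = m := by rw [← h3]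
        _ ≤ x := hm2
  · intro m hm
    rw [Finset.mem_coe, mem_rk hx] at hm
    obtain ⟨⟨hm1, hm2, hm3⟩, hm4⟩ := hm
    obtain ⟨h1, h2, h3, h4⟩ := two_factors (by omega) hm4
    rw [Finset.mem_coe, mem_Pq]
    refine ⟨⟨hm3 _ h1 (Nat.minFac_dvd m), ?_⟩, h1⟩
    apply Real.le_sqrt_of_sq_le
    have h5 : m.minFac * m.minFac ≤ m := by
      calc m.minFac * m.minFac ≤ m.minFac * (m / m.minFac) := Nat.mul_le_mul_left _ h4
        _ = m := h3.symm
    have h6 : ((m.minFac * m.minFac : ℕ) : ℝ) ≤ m := by exact_mod_cast h5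
    push_cast at h6
    rw [sq]
    linarith

/-! ### prime counting -/

lemma card_primes_Icc {a b : ℕ} (ha : 1 ≤ a) (hab : a - 1 ≤ b) :
    (((Icc a b).filter Nat.Prime).card : ℝ) =
      (Nat.primeCounting b : ℝ) - Nat.primeCounting (a - 1) := by
  have h1 : Nat.primeCounting b = ((Icc 1 b).filter Nat.Prime).card := by
    rw [Nat.primeCounting, Nat.primeCounting', Nat.count_eq_card_filter_range]
    congr 1
    ext p
    simp only [Finset.mem_filter, Finset.mem_range, Finset.mem_Icc]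
    constructor
    · rintro ⟨h, hp⟩; exact ⟨⟨hp.pos, by omega⟩, hp⟩
    · rintro ⟨⟨_, h⟩, hp⟩; exact ⟨by omega, hp⟩
  have h2 : Nat.primeCounting (a - 1) = ((Icc 1 (a - 1)).filter Nat.Prime).card := by
    rw [Nat.primeCounting, Nat.primeCounting', Nat.count_eq_card_filter_range]
    congr 1
    ext p
    simp only [Finset.mem_filter, Finset.mem_range, Finset.mem_Icc]
    constructor
    · rintro ⟨h, hp⟩; exact ⟨⟨hp.pos, by omega⟩, hp⟩
    · rintro ⟨⟨_, h⟩, hp⟩; exact ⟨by omega, hp⟩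
  have h3 : (Icc 1 b).filter Nat.Prime =
      (Icc 1 (a - 1)).filter Nat.Prime ∪ (Icc a b).filter Nat.Prime := by
    ext p
    simp only [Finset.mem_filter, Finset.mem_union, Finset.mem_Icc]
    constructor
    · rintro ⟨⟨h, h'⟩, hp⟩
      by_cases hpa : p ≤ a - 1
      · left; exact ⟨⟨h, hpa⟩, hp⟩
      · right; exact ⟨⟨by omega, h'⟩, hp⟩
    · rintro (⟨⟨h, h'⟩, hp⟩ | ⟨⟨h, h'⟩, hp⟩)
      · exact ⟨⟨h, by omega⟩, hp⟩
      · exact ⟨⟨by omega, h'⟩, hp⟩
  have h4 : Disjoint ((Icc 1 (a - 1)).filter Nat.Prime) ((Icc a b).filter Nat.Prime) := by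
    rw [Finset.disjoint_left]
    intro p hp hp'
    simp only [Finset.mem_filter, Finset.mem_Icc] at hp hp'
    omega
  rw [h1, h3, Finset.card_union_of_disjoint h4, h2]
  push_cast
  ring

/-- Chebyshev's upper bound from `PNT2` -/
lemma cheb {C : ℝ} (hC : ∀ x : ℝ, 2 ≤ x →
    |(Nat.primeCounting ⌊x⌋₊ : ℝ) - x / Real.log x| ≤ C * x / Real.log x ^ 2) :
    ∃ K : ℝ, 0 < K ∧ ∀ x : ℝ, 2 ≤ x → (Nat.primeCounting ⌊x⌋₊ : ℝ) ≤ K * x / Real.log x := by
  refine ⟨1 + |C| / Real.log 2, by positivity, ?_⟩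
  intro x hx
  have h := hC x hx
  have hl2 : 0 < Real.log 2 := Real.log_pos (by norm_num)
  have hlx : Real.log 2 ≤ Real.log x := Real.log_le_log (by norm_num) hx
  have hlx0 : 0 < Real.log x := hl2.trans_le hlx
  have hx0 : 0 < x := by linarith
  have h1 : (Nat.primeCounting ⌊x⌋₊ : ℝ) ≤ x / Real.log x + C * x / Real.log x ^ 2 := by
    have := (abs_le.mp h).2
    linarith
  have h2 : C * x / Real.log x ^ 2 ≤ |C| / Real.log 2 * x / Real.log x := by
    have e : |C| / Real.log 2 * x / Real.log x = |C| * x / (Real.log 2 * Real.log x) := by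
      field_simp
    rw [e]
    calc C * x / Real.log x ^ 2 ≤ |C| * x / Real.log x ^ 2 := by
          apply div_le_div_of_nonneg_right _ (by positivity)
          exact mul_le_mul_of_nonneg_right (le_abs_self C) hx0.le
      _ ≤ |C| * x / (Real.log 2 * Real.log x) := by
          apply div_le_div_of_nonneg_left (by positivity) (by positivity)
          rw [sq]
          exact mul_le_mul_of_nonneg_right hlx hlx0.le
  have e : (1 + |C| / Real.log 2) * x / Real.log x =
      x / Real.log x + |C| / Real.log 2 * x / Real.log x := by ring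
  rw [e]
  linarith

end Crest.Agent.R001.F1
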