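import Crest.Agent.R001.MassA664
import Crest.Agent.Lib.Mertens

/-! Row 1 (S0001), block (1), file B: the supersolution `(log w)^4 (log y)^(-25/4)`. -/

set_option autoImplicit false

namespace Crest.Agent.R001.Mass

open Finset Crest.Agent.Lib.Mertens

/-- primes `< w` with logarithm `≤ x` -/
noncomputable def PL (w : ℕ) (x : ℝ) : Finset ℕ := (P w).filter (fun p : ℕ => Real.log p ≤ x)

/-- primes `< w` with logarithm `> x` -/
noncomputable def PG (w : ℕ) (x : ℝ) : Finset ℕ := (P w).filter (fun p : ℕ => x < Real.log p)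

theorem mem_PL {w p : ℕ} {x : ℝ} : p ∈ PL w x ↔ (p < w ∧ p.Prime) ∧ Real.log p ≤ x := by
  rw [PL, Finset.mem_filter, mem_P]

theorem mem_PG {w p : ℕ} {x : ℝ} : p ∈ PG w x ↔ (p < w ∧ p.Prime) ∧ x < Real.log p := by
  rw [PG, Finset.mem_filter, mem_P]

/-- `∑_{p ≤ n} (log p)^4 / p` -/
noncomputable def U4 (n : ℕ) : ℝ := ∑ p ∈ Nat.primesLE n, Real.log p ^ 4 / p

theorem U4_succ (n : ℕ) : U4 (n + 1) = U4 n + (A (n + 1) - A n) * Real.log ((n + 1 : ℕ) : ℝ) ^ 3 := by
  unfold U4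
  rw [A_succ]
  have h : Nat.primesLE (n + 1) = if (n + 1).Prime then insert (n + 1) (Nat.primesLE n)
      else Nat.primesLE n := by
    ext p
    split_ifs with hp
    · simp only [Nat.mem_primesLE, Finset.mem_insert]
      constructor
      · rintro ⟨h1, h2⟩
        rcases Nat.lt_or_ge n p with h3 | h3
        · left; omega
        · right; exact ⟨h3, h2⟩
      · rintro (rfl | ⟨h1, h2⟩)
        · exact ⟨le_rfl, hp⟩
        · exact ⟨by omega, h2⟩
    · simp only [Nat.mem_primesLE]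
      constructor
      · rintro ⟨h1, h2⟩
        refine ⟨?_, h2⟩
        rcases Nat.lt_or_ge n p with h3 | h3
        · exfalso
          have : p = n + 1 := by omega
          exact hp (this ▸ h2)
        · exact h3
      · rintro ⟨h1, h2⟩
        exact ⟨by omega, h2⟩
  rw [h]
  split_ifs with hp
  · rw [Finset.sum_insert (by simp [Nat.mem_primesLE])]
    ring
  · ring

theorem U4_le_aux (n : ℕ) (hn : 1 ≤ n) :
    U4 n ≤ A n * Real.log n ^ 3 - 3 / 4 * Real.log n ^ 4 + 4 * Real.log n ^ 3 := by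
  induction n, hn using Nat.le_induction with
  | base =>
    have : U4 1 = 0 := by
      unfold U4
      apply Finset.sum_eq_zero
      intro p hp
      have h1 := Nat.mem_primesLE.1 hp
      have := h1.2.two_le
      omega
    rw [this]
    simp
  | succ k hk ih =>
    rw [U4_succ]
    set a := Real.log (k : ℝ) with ha
    set b := Real.log ((k + 1 : ℕ) : ℝ) with hb
    have ha0 : 0 ≤ a := Real.log_nonneg (by exact_mod_cast hk)
    have hab : a ≤ b := Real.log_le_log (by exact_mod_cast hk) (by push_cast; linarith)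
    have hba : b ≤ a + 1 := by
      have hk0 : (0 : ℝ) < k := by exact_mod_cast hk
      have h1 : b - a ≤ 1 / k := by
        rw [hb, ha, ← Real.log_div (by positivity) hk0.ne']
        refine (Real.log_le_sub_one_of_pos (by positivity)).trans ?_
        push_cast
        apply le_of_eq
        field_simp
        ring
      have h2 : (1 : ℝ) / k ≤ 1 := by
        rw [div_le_one hk0]
        exact_mod_cast hk
      linarith
    have hA := le_A k hk
    have h3 : 0 ≤ b ^ 3 - a ^ 3 := by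
      have := pow_le_pow_left₀ ha0 hab 3
      linarith
    have h4 : 3 / 4 * (b ^ 4 - a ^ 4) ≤ b * (b ^ 3 - a ^ 3) := by
      nlinarith [sq_nonneg (b - a), sq_nonneg (b + a), mul_nonneg ha0 (ha0.trans hab),
        sq_nonneg (b ^ 2 - a ^ 2), mul_nonneg (mul_nonneg ha0 (ha0.trans hab)) (sq_nonneg (b - a)),
        mul_nonneg (sq_nonneg a) (sq_nonneg (b - a)), mul_nonneg (sq_nonneg b) (sq_nonneg (b - a))]
    have h5 : b * (b ^ 3 - a ^ 3) ≤ (A k + 4) * (b ^ 3 - a ^ 3) :=
      mul_le_mul_of_nonneg_right (by linarith) h3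
    nlinarith [ih, h4, h5]

theorem U4_le (n : ℕ) (hn : 1 ≤ n) : U4 n ≤ Real.log n ^ 4 / 4 + 6 * Real.log n ^ 3 := by
  have h1 := U4_le_aux n hn
  have h2 := A_le n hn
  have h3 : Real.log 4 ≤ 2 := by
    have : Real.log 4 = 2 * Real.log 2 := by
      rw [show (4 : ℝ) = 2 ^ 2 by norm_num, Real.log_pow]; push_cast; ring
    have := Real.log_two_lt_d9
    linarith
  have h4 : 0 ≤ Real.log n := Real.log_nonneg (by exact_mod_cast hn)
  have h5 : A n * Real.log n ^ 3 ≤ (Real.log n + 2) * Real.log n ^ 3 :=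
    mul_le_mul_of_nonneg_right (by linarith) (by positivity)
  nlinarith

theorem exp_floor {T : ℝ} (hT : 0 ≤ T) : 1 ≤ ⌊Real.exp T⌋₊ ∧ Real.log (⌊Real.exp T⌋₊ : ℝ) ≤ T ∧
    ∀ p : ℕ, 0 < p → Real.log p ≤ T → p ≤ ⌊Real.exp T⌋₊ := by
  have h1 : 1 ≤ ⌊Real.exp T⌋₊ := by
    rw [Nat.one_le_floor_iff]
    exact Real.one_le_exp hT
  refine ⟨h1, ?_, ?_⟩
  · have : Real.log (⌊Real.exp T⌋₊ : ℝ) ≤ Real.log (Real.exp T) :=
      Real.log_le_log (by exact_mod_cast h1) (Nat.floor_le (Real.exp_pos T).le)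
    rwa [Real.log_exp] at this
  · intro p hp hpT
    apply Nat.le_floor
    rw [← Real.exp_log (by exact_mod_cast hp : (0 : ℝ) < p)]
    exact Real.exp_le_exp.2 hpT

theorem sum4_le (w : ℕ) {T : ℝ} (hT : 0 ≤ T) :
    ∑ p ∈ PL w T, Real.log p ^ 4 / p ≤ T ^ 4 / 4 + 6 * T ^ 3 := by
  obtain ⟨h1, h2, h3⟩ := exp_floor hT
  have h0 : 0 ≤ Real.log (⌊Real.exp T⌋₊ : ℝ) := Real.log_nonneg (by exact_mod_cast h1)
  calc ∑ p ∈ PL w T, Real.log p ^ 4 / p ≤ U4 ⌊Real.exp T⌋₊ := by
        refine Finset.sum_le_sum_of_subset_of_nonneg ?_ ?_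
        · intro p hp
          rw [mem_PL] at hp
          rw [Nat.mem_primesLE]
          exact ⟨h3 p hp.1.2.pos hp.2, hp.1.2⟩
        · intro p hp _
          positivity
    _ ≤ _ := U4_le _ h1
    _ ≤ _ := by
      have a4 := pow_le_pow_left₀ h0 h2 4
      have a3 := pow_le_pow_left₀ h0 h2 3
      linarith

theorem sum1_le (w : ℕ) {T : ℝ} (hT : 0 ≤ T) :
    ∑ p ∈ PL w T, Real.log p / p ≤ T + 2 := by
  obtain ⟨h1, h2, h3⟩ := exp_floor hT
  have h4 : Real.log 4 ≤ 2 := by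
    have : Real.log 4 = 2 * Real.log 2 := by
      rw [show (4 : ℝ) = 2 ^ 2 by norm_num, Real.log_pow]; push_cast; ring
    have := Real.log_two_lt_d9
    linarith
  calc ∑ p ∈ PL w T, Real.log p / p ≤ A ⌊Real.exp T⌋₊ := by
        refine Finset.sum_le_sum_of_subset_of_nonneg ?_ ?_
        · intro p hp
          rw [mem_PL] at hp
          rw [Nat.mem_primesLE]
          exact ⟨h3 p hp.1.2.pos hp.2, hp.1.2⟩
        · intro p hp _
          have := (Nat.mem_primesLE.1 hp).2.one_le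
          have : 0 ≤ Real.log p := Real.log_nonneg (by exact_mod_cast this)
          positivity
    _ ≤ _ := A_le _ h1
    _ ≤ _ := by linarith

theorem mem_primesIoc' {a b : ℝ} {p : ℕ} (h1 : a < p) (ha : 0 ≤ a) (h2 : (p : ℝ) ≤ b)
    (hp : p.Prime) : p ∈ pr a b := by
  rw [pr_eq, mem_primesIoc]
  refine ⟨⟨?_, Nat.le_floor h2⟩, hp⟩
  exact (Nat.floor_lt ha).2 h1

theorem sum_inv_le (w : ℕ) (hw : 2 ≤ w) {x : ℝ} (hx : Real.log 2 ≤ x) (hxw : x ≤ Real.log w) :
    ∑ p ∈ PG w x, (1 : ℝ) / p ≤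
      Real.log (Real.log w) - Real.log x + 18 / x := by
  have hx0 : 0 < x := lt_of_lt_of_le (Real.log_pos (by norm_num)) hx
  have hw0 : (0 : ℝ) < w := by positivity
  have h2 : 2 ≤ Real.exp x := by
    rw [← Real.exp_log (by norm_num : (0 : ℝ) < 2)]
    exact Real.exp_le_exp.2 hx
  have h3 : Real.exp x ≤ w := by
    rw [← Real.exp_log hw0]
    exact Real.exp_le_exp.2 hxw
  have h4 := mertens_two (Real.exp x) w h2 h3
  rw [Real.log_exp, abs_le] at h4
  have h5 : ∑ p ∈ PG w x, (1 : ℝ) / p ≤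
      ∑ p ∈ pr (Real.exp x) w, (1 : ℝ) / p := by
    refine Finset.sum_le_sum_of_subset_of_nonneg ?_ ?_
    · intro p hp
      rw [mem_PG] at hp
      have hp0 : (0 : ℝ) < p := by exact_mod_cast hp.1.2.pos
      refine mem_primesIoc' ?_ (Real.exp_pos x).le (by exact_mod_cast hp.1.1.le) hp.1.2
      rw [← Real.exp_log hp0]
      exact Real.exp_lt_exp.2 hp.2
    · intro p _ _
      positivity
  linarith [h4.2]

/-- the outer sum -/
theorem outer (w : ℕ) (hw : 2 ≤ w) {x Λ : ℝ} (hx : Real.log 2 ≤ x) (hxw : x ≤ Real.log w)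
    (hΛ : Real.log (Real.log w) - Real.log x ≤ Λ) (hΛ0 : 0 ≤ Λ) :
    ∑ p ∈ P w, 1 / (p : ℝ) * (min (Real.log p) x ^ 4 / 4 + 6 * min (Real.log p) x ^ 3) ≤
      x ^ 4 * (1 / 16 + Λ / 4) + x ^ 3 * (12 + 6 * Λ) + 120 * x ^ 2 := by
  have hx0 : 0 < x := lt_of_lt_of_le (Real.log_pos (by norm_num)) hx
  have hlog : ∀ p ∈ P w, 0 < Real.log p := fun p hp =>
    Real.log_pos (by exact_mod_cast (mem_P.1 hp).2.one_lt)
  rw [← Finset.sum_filter_add_sum_filter_not (P w) (fun p : ℕ => Real.log p ≤ x)]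
  change ∑ p ∈ PL w x, _ + _ ≤ _
  have h1 : ∑ p ∈ PL w x,
      1 / (p : ℝ) * (min (Real.log p) x ^ 4 / 4 + 6 * min (Real.log p) x ^ 3) ≤
      1 / 4 * (x ^ 4 / 4 + 6 * x ^ 3) + 6 * x ^ 2 * (x + 2) := by
    calc _ ≤ ∑ p ∈ PL w x,
          (1 / 4 * (Real.log p ^ 4 / p) + 6 * x ^ 2 * (Real.log p / p)) := by
          refine Finset.sum_le_sum fun p hp => ?_
          rw [mem_PL] at hp
          have h0 := hlog p (mem_P.2 hp.1)
          have hp0 : (0 : ℝ) < p := by exact_mod_cast hp.1.2.pos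
          rw [min_eq_left hp.2]
          have h2 : Real.log p ^ 3 ≤ x ^ 2 * Real.log p := by
            have := pow_le_pow_left₀ h0.le hp.2 2
            nlinarith
          have h3 : 1 / (p : ℝ) * (Real.log p ^ 4 / 4 + 6 * Real.log p ^ 3) ≤
              1 / (p : ℝ) * (Real.log p ^ 4 / 4 + 6 * (x ^ 2 * Real.log p)) :=
            mul_le_mul_of_nonneg_left (by linarith) (by positivity)
          refine h3.trans (le_of_eq ?_)
          ring
      _ = 1 / 4 * ∑ p ∈ PL w x, Real.log p ^ 4 / p +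
          6 * x ^ 2 * ∑ p ∈ PL w x, Real.log p / p := by
          rw [Finset.sum_add_distrib, Finset.mul_sum, Finset.mul_sum]
      _ ≤ _ := by
          have a := sum4_le w hx0.le
          have b := sum1_le w hx0.le
          have c : 0 ≤ 6 * x ^ 2 := by positivity
          have d := mul_le_mul_of_nonneg_left b c
          linarith
  have h2 : ∑ p ∈ (P w).filter (fun p : ℕ => ¬ Real.log p ≤ x),
      1 / (p : ℝ) * (min (Real.log p) x ^ 4 / 4 + 6 * min (Real.log p) x ^ 3) ≤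
      (x ^ 4 / 4 + 6 * x ^ 3) * (Λ + 18 / x) := by
    calc _ = ∑ p ∈ PG w x, (x ^ 4 / 4 + 6 * x ^ 3) * (1 / (p : ℝ)) := by
          refine Finset.sum_congr ?_ fun p hp => ?_
          · ext p; simp [not_le, PG]
          · rw [mem_PG] at hp
            rw [min_eq_right hp.2.le]; ring
      _ = (x ^ 4 / 4 + 6 * x ^ 3) * ∑ p ∈ PG w x, 1 / (p : ℝ) := by
          rw [Finset.mul_sum]
      _ ≤ _ := by
          refine mul_le_mul_of_nonneg_left ?_ (by positivity)
          have := sum_inv_le w hw hx hxw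
          linarith
  have h3 : (x ^ 4 / 4 + 6 * x ^ 3) * (Λ + 18 / x) =
      x ^ 4 * (Λ / 4) + 6 * x ^ 3 * Λ + 9 / 2 * x ^ 3 + 108 * x ^ 2 := by
    field_simp
    ring
  rw [h3] at h2
  nlinarith [h1, h2]

/-- the supersolution -/
noncomputable def Xi (y : ℝ) (w : ℕ) : ℝ :=
  Real.log w ^ 4 * Real.log y ^ (-(25 / 4) : ℝ)

theorem Xi_pos {y : ℝ} {w : ℕ} (h : Inv y w) : 0 < Xi y w := by
  unfold Xi
  have h1 := h.log_w_pos
  have h2 := h.log_y_pos
  positivity

/-- good nodes -/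
def Good (y : ℝ) (w : ℕ) : Prop := Real.log y < 4 * Real.log w

/-- comparison of the powers of the levels -/
theorem rpow_level {v v' M : ℝ} (hv : 0 < v) (hv' : 0 < v') (hM : 0 < M) (h : v ≤ M * v') :
    v' ^ (-(25 / 4) : ℝ) ≤ M ^ (25 / 4 : ℝ) * v ^ (-(25 / 4) : ℝ) := by
  rw [Real.rpow_neg hv'.le, Real.rpow_neg hv.le, ← div_eq_mul_inv, le_div_iff₀ (by positivity),
    inv_mul_le_iff₀ (by positivity), ← Real.mul_rpow hv'.le hM.le]
  apply Real.rpow_le_rpow hv.le _ (by norm_num)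
  linarith

/-- core estimate for the one-generation operator -/
theorem Op_core {h : ℝ → ℕ → ℝ} {y : ℝ} {w : ℕ} (hI : Inv y w) {M x Λ : ℝ} (hM : 0 < M)
    (hx : Real.log 2 ≤ x) (hxw : x ≤ Real.log w)
    (hΛ : Real.log (Real.log w) - Real.log x ≤ Λ) (hΛ0 : 0 ≤ Λ)
    (h1 : ∀ p q, Ch y w p q → h (y / ((p : ℝ) * q)) q ≤
      if Real.log q ≤ x then
        Real.log q ^ 4 * (M ^ (25 / 4 : ℝ) * Real.log y ^ (-(25 / 4) : ℝ)) else 0) :
    Op h y w ≤ M ^ (25 / 4 : ℝ) * Real.log y ^ (-(25 / 4) : ℝ) *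
      (x ^ 4 * (1 / 16 + Λ / 4) + x ^ 3 * (12 + 6 * Λ) + 120 * x ^ 2) := by
  have hw := hI.1
  set Z := M ^ (25 / 4 : ℝ) * Real.log y ^ (-(25 / 4) : ℝ) with hZ
  have hv := hI.log_y_pos
  have hZ0 : 0 ≤ Z := by positivity
  have hx0 : 0 < x := lt_of_lt_of_le (Real.log_pos (by norm_num)) hx
  calc Op h y w ≤ ∑ p ∈ P w, ∑ q ∈ P p, (if Real.log q ≤ x then
          1 / ((p : ℝ) * q) * (Real.log q ^ 4 * Z) else 0) := by
        unfold Op
        refine Finset.sum_le_sum fun p hp => Finset.sum_le_sum fun q hq => ?_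
        have hp0 : (0 : ℝ) < p := by exact_mod_cast (mem_P.1 hp).2.pos
        have hq0 : (0 : ℝ) < q := by exact_mod_cast (mem_P.1 hq).2.pos
        have hq1 : 0 ≤ Real.log q := Real.log_nonneg (by exact_mod_cast (mem_P.1 hq).2.one_le)
        by_cases hc : (p : ℝ) * (q : ℝ) ^ 3 < y
        · rw [if_pos hc]
          have h2 := h1 p q ⟨hp, hq, hc⟩
          have h3 := mul_le_mul_of_nonneg_left h2 (by positivity : 0 ≤ 1 / ((p : ℝ) * q))
          refine h3.trans (le_of_eq ?_)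
          split_ifs <;> simp
        · rw [if_neg hc]
          split_ifs
          · positivity
          · exact le_rfl
    _ = ∑ p ∈ P w, Z * (1 / (p : ℝ) * ∑ q ∈ PL p x, Real.log q ^ 4 / q) := by
        refine Finset.sum_congr rfl fun p hp => ?_
        rw [Finset.mul_sum, Finset.mul_sum, PL, Finset.sum_filter]
        refine Finset.sum_congr rfl fun q hq => ?_
        split_ifs
        · have hp0 : (0 : ℝ) < p := by exact_mod_cast (mem_P.1 hp).2.pos
          have hq0 : (0 : ℝ) < q := by exact_mod_cast (mem_P.1 hq).2.pos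
          field_simp
        · rfl
    _ ≤ ∑ p ∈ P w, Z * (1 / (p : ℝ) *
          (min (Real.log p) x ^ 4 / 4 + 6 * min (Real.log p) x ^ 3)) := by
        refine Finset.sum_le_sum fun p hp => ?_
        have hp0 : (0 : ℝ) < p := by exact_mod_cast (mem_P.1 hp).2.pos
        have hp1 : 0 ≤ Real.log p := Real.log_nonneg (by exact_mod_cast (mem_P.1 hp).2.one_le)
        refine mul_le_mul_of_nonneg_left (mul_le_mul_of_nonneg_left ?_ (by positivity)) hZ0
        refine le_trans ?_ (sum4_le p (T := min (Real.log p) x) (le_min hp1 hx0.le))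
        refine Finset.sum_le_sum_of_subset_of_nonneg ?_ ?_
        · intro q hq
          rw [mem_PL] at hq ⊢
          refine ⟨hq.1, le_min ?_ hq.2⟩
          exact Real.log_le_log (by exact_mod_cast hq.1.2.pos) (by exact_mod_cast hq.1.1.le)
        · intro q _ _
          have : (0 : ℝ) ≤ (Real.log q) ^ 4 := by positivity
          positivity
    _ = Z * ∑ p ∈ P w, (1 / (p : ℝ) *
          (min (Real.log p) x ^ 4 / 4 + 6 * min (Real.log p) x ^ 3)) := by
        rw [Finset.mul_sum]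
    _ ≤ _ := mul_le_mul_of_nonneg_left (outer w hw hx hxw hΛ hΛ0) hZ0

end Crest.Agent.R001.Mass
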