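import Mathlib
import Crest.Agent.R001.Bridge
import Crest.Agent.R001.MassB664
import Crest.Agent.R001.F1B
import Crest.Agent.SW.PNT774

/-!
# R1: boundary nodes `b ≤ D` ("two short windows")

`B y w = (1/y) #{(p, q) : q < p < w, y ≤ p q³, p q ≤ y}`:
* `B_le` : `B y w ≤ C w² / (y log² y)`, and `B y w = 0` unless `y < w⁴`;
* `OpB_le` : `Op B y w ≤ C (log w)⁴ (log y)^(-7)`.
-/

set_option autoImplicit false

namespace Crest.Agent.R001.Bridge

open Finset Classical
open Crest.Agent.R001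

/-- the value of a boundary node -/
noncomputable def hb (y : ℝ) (_ : ℕ) : ℝ := if 1 ≤ y then 1 / y else 0

/-- boundary function -/
noncomputable def B (y : ℝ) (w : ℕ) : ℝ := BdOp hb y w

lemma pnt2_holds : F1.PNT2 := Crest.Agent.SW.pnt2

lemma card_P_le : ∃ K : ℝ, 0 < K ∧ ∀ x : ℝ, 2 ≤ x → ∀ s : Finset ℕ,
    (∀ p ∈ s, p.Prime ∧ (p : ℝ) ≤ x) → (s.card : ℝ) ≤ K * x / Real.log x := by
  obtain ⟨C, hC⟩ := pnt2_holds
  obtain ⟨K, hK0, hK⟩ := F1.cheb hC
  refine ⟨K, hK0, ?_⟩
  intro x hx s hs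
  refine le_trans ?_ (hK x hx)
  have h3 := F1.card_primes_Icc (a := 1) (b := ⌊x⌋₊) le_rfl (by omega)
  simp only [Nat.sub_self, Nat.primeCounting_zero, Nat.cast_zero, sub_zero] at h3
  rw [← h3]
  have h1 : s ⊆ (Icc 1 ⌊x⌋₊).filter Nat.Prime := by
    intro q hq
    rw [Finset.mem_filter, Finset.mem_Icc]
    exact ⟨⟨(hs q hq).1.pos, Nat.le_floor (hs q hq).2⟩, (hs q hq).1⟩
  exact_mod_cast Finset.card_le_card h1

lemma B_nonneg {y : ℝ} {w : ℕ} : 0 ≤ B y w := by
  unfold B BdOp hb
  refine Finset.sum_nonneg fun p _ => Finset.sum_nonneg fun q _ => ?_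
  split_ifs with h1 h2
  · have : 0 < y / ((p : ℝ) * q) := by linarith
    positivity
  · simp
  · exact le_rfl

/-- `B` vanishes unless `y < w⁴` -/
lemma B_eq_zero {y : ℝ} {w : ℕ} (h : (w : ℝ) ^ 4 ≤ y) : B y w = 0 := by
  unfold B BdOp
  refine Finset.sum_eq_zero fun p hp => Finset.sum_eq_zero fun q hq => ?_
  rw [if_neg]
  intro h1
  have hp' := Mass.mem_P.1 hp
  have hq' := Mass.mem_P.1 hq
  have h2 : (p : ℝ) < w := by exact_mod_cast hp'.1
  have h3 : (q : ℝ) < w := by exact_mod_cast (lt_trans hq'.1 hp'.1)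
  have h4 : (0 : ℝ) < p := by exact_mod_cast hp'.2.pos
  have h5 : (0 : ℝ) < q := by exact_mod_cast hq'.2.pos
  have h6 : (q : ℝ) ^ 3 < (w : ℝ) ^ 3 := pow_lt_pow_left₀ h3 h5.le (by norm_num)
  have h7 : (p : ℝ) * (q : ℝ) ^ 3 < w * (w : ℝ) ^ 3 := mul_lt_mul'' h2 h6 h4.le (by positivity)
  have h8 : (w : ℝ) * (w : ℝ) ^ 3 = (w : ℝ) ^ 4 := by ring
  linarith

/-- the crude bound for `B` -/
theorem B_le : ∃ K : ℝ, 0 < K ∧ ∀ y w, Mass.Inv y w →
    B y w ≤ if y < (w : ℝ) ^ 4 then K * (w : ℝ) ^ 2 / (y * Real.log y ^ 2) else 0 := by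
  obtain ⟨K, hK0, hK⟩ := card_P_le
  refine ⟨16 * K ^ 2, by positivity, ?_⟩
  intro y w hI
  by_cases hyw : y < (w : ℝ) ^ 4
  swap
  · rw [if_neg hyw, B_eq_zero (not_lt.1 hyw)]
  rw [if_pos hyw]
  have hy4 := hI.y_ge
  have hy0 : 0 < y := by linarith
  have hw2 : (2 : ℝ) ≤ w := by exact_mod_cast hI.1
  have hw0 : (0 : ℝ) < w := by linarith
  have hlw := hI.log_w_pos
  have hly := hI.log_y_pos
  have h1 : B y w ≤ ∑ p ∈ Mass.P w, ∑ q ∈ Mass.P p, 1 / y := by
    unfold B BdOp hb
    refine Finset.sum_le_sum fun p hp => Finset.sum_le_sum fun q hq => ?_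
    have hp0 : (0 : ℝ) < p := by exact_mod_cast (Mass.mem_P.1 hp).2.pos
    have hq0 : (0 : ℝ) < q := by exact_mod_cast (Mass.mem_P.1 hq).2.pos
    split_ifs with h1 h2
    · apply le_of_eq; field_simp
    · rw [mul_zero]; positivity
    · positivity
  have hcard : ((Mass.P w).card : ℝ) ≤ K * w / Real.log w := by
    apply hK w hw2
    intro p hp
    rw [Mass.mem_P] at hp
    exact ⟨hp.2, by exact_mod_cast hp.1.le⟩
  have h2 : ∑ p ∈ Mass.P w, ∑ q ∈ Mass.P p, 1 / y ≤
      (K * w / Real.log w) * (K * w / Real.log w) * (1 / y) := by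
    calc ∑ p ∈ Mass.P w, ∑ q ∈ Mass.P p, 1 / y
        ≤ ∑ p ∈ Mass.P w, ∑ q ∈ Mass.P w, 1 / y := by
          refine Finset.sum_le_sum fun p hp => ?_
          apply Finset.sum_le_sum_of_subset_of_nonneg
          · exact Mass.P_mono (Mass.mem_P.1 hp).1.le
          · intro _ _ _; positivity
      _ = ((Mass.P w).card : ℝ) * ((Mass.P w).card : ℝ) * (1 / y) := by
          rw [Finset.sum_const, Finset.sum_const, nsmul_eq_mul, nsmul_eq_mul, mul_assoc]
      _ ≤ _ := by
          apply mul_le_mul_of_nonneg_right _ (by positivity)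
          exact mul_le_mul hcard hcard (by positivity) (by positivity)
  refine h1.trans (h2.trans ?_)
  have h4 : Real.log y ≤ 4 * Real.log w := by
    have := Real.log_le_log hy0 hyw.le
    rw [Real.log_pow] at this
    exact_mod_cast this
  have h5 : 1 / Real.log w ^ 2 ≤ 16 / Real.log y ^ 2 := by
    rw [div_le_div_iff₀ (by positivity) (by positivity)]
    nlinarith
  calc (K * w / Real.log w) * (K * w / Real.log w) * (1 / y)
      = K ^ 2 * (w : ℝ) ^ 2 / y * (1 / Real.log w ^ 2) := by field_simp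
    _ ≤ K ^ 2 * (w : ℝ) ^ 2 / y * (16 / Real.log y ^ 2) :=
        mul_le_mul_of_nonneg_left h5 (by positivity)
    _ = 16 * K ^ 2 * (w : ℝ) ^ 2 / (y * Real.log y ^ 2) := by field_simp

/-- `B y w ≤ C / log² y` -/
theorem B_le' : ∃ K : ℝ, 0 < K ∧ ∀ y w, Mass.Inv y w → B y w ≤ K / Real.log y ^ 2 := by
  obtain ⟨K, hK0, hK⟩ := B_le
  refine ⟨K, hK0, ?_⟩
  intro y w hI
  have hy4 := hI.y_ge
  have hy0 : 0 < y := by linarith
  have hly := hI.log_y_pos
  refine (hK y w hI).trans ?_
  split_ifs with h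
  · rw [div_le_div_iff₀ (by positivity) (by positivity)]
    have := hI.2
    have h1 : K * (w : ℝ) ^ 2 * Real.log y ^ 2 ≤ K * y * Real.log y ^ 2 := by
      apply mul_le_mul_of_nonneg_right _ (by positivity)
      exact mul_le_mul_of_nonneg_left this hK0.le
    linarith
  · positivity

/-- one generation of `B`: an extra logarithm is saved -/
theorem OpB_le : ∃ C : ℝ, 0 < C ∧ ∀ y w, Mass.Inv y w →
    Mass.Op B y w ≤ C * (Real.log w ^ 4 / Real.log y ^ 7) := by
  obtain ⟨K, hK0, hK⟩ := B_le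
  obtain ⟨K', hK0', hK'⟩ := card_P_le
  refine ⟨9 * K * (6 * K') * 30 * 6 ^ 4, by positivity, ?_⟩
  intro y w hI
  have hy4 := hI.y_ge
  have hy0 : 0 < y := by linarith
  have hw2 : (2 : ℝ) ≤ w := by exact_mod_cast hI.1
  have hw0 : (0 : ℝ) < w := by linarith
  have hlw := hI.log_w_pos
  have hly := hI.log_y_pos
  have h2lw := hI.two_log_le
  set L := Real.log y with hL
  -- inner sums
  have hinner : ∀ p ∈ Mass.P w, (∑ q ∈ Mass.P p,
      if (p : ℝ) * (q : ℝ) ^ 3 < y then 1 / ((p : ℝ) * q) * B (y / ((p : ℝ) * q)) q else 0) ≤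
      if L / 6 < Real.log p then 9 * K * (6 * K') / L ^ 3 * (1 / (p : ℝ)) else 0 := by
    intro p hp
    have hp' := Mass.mem_P.1 hp
    have hp0 : (0 : ℝ) < p := by exact_mod_cast hp'.2.pos
    have hpw : (p : ℝ) < w := by exact_mod_cast hp'.1
    have hp2 : (2 : ℝ) ≤ p := by exact_mod_cast hp'.2.two_le
    have hlpw : Real.log p ≤ Real.log w := Real.log_le_log hp0 hpw.le
    -- terms
    have hterm : ∀ q ∈ Mass.P p,
        (if (p : ℝ) * (q : ℝ) ^ 3 < y then 1 / ((p : ℝ) * q) * B (y / ((p : ℝ) * q)) q else 0) ≤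
        if (p : ℝ) * (q : ℝ) ^ 3 < y ∧ y < (p : ℝ) * (q : ℝ) ^ 5 then
          9 * K / (y * L ^ 2) * (q : ℝ) ^ 2 else 0 := by
      intro q hq
      have hq' := Mass.mem_P.1 hq
      have hq0 : (0 : ℝ) < q := by exact_mod_cast hq'.2.pos
      have hq2 : (2 : ℝ) ≤ q := by exact_mod_cast hq'.2.two_le
      by_cases h1 : (p : ℝ) * (q : ℝ) ^ 3 < y
      swap
      · rw [if_neg h1, if_neg (fun h => h1 h.1)]
      rw [if_pos h1]
      have hc : Mass.Ch y w p q := ⟨hp, hq, h1⟩
      have hIc := Mass.inv_closed y w p q hI hc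
      have h2 := hK _ _ hIc
      have hpq : 0 < (p : ℝ) * q := by positivity
      by_cases h3 : y / ((p : ℝ) * q) < (q : ℝ) ^ 4
      · rw [if_pos h3] at h2
        have h3' : y < (p : ℝ) * (q : ℝ) ^ 5 := by
          rw [div_lt_iff₀ hpq] at h3
          calc y < (q : ℝ) ^ 4 * (p * q) := h3
            _ = p * (q : ℝ) ^ 5 := by ring
        rw [if_pos ⟨h1, h3'⟩]
        -- `log (y/(pq)) ≥ L / 3`
        have h4 : L / 3 ≤ Real.log (y / ((p : ℝ) * q)) := by
          have h5 := hc.third hI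
          linarith
        have h4' : (L / 3) ^ 2 ≤ Real.log (y / ((p : ℝ) * q)) ^ 2 :=
          pow_le_pow_left₀ (by positivity) h4 2
        calc 1 / ((p : ℝ) * q) * B (y / ((p : ℝ) * q)) q
            ≤ 1 / ((p : ℝ) * q) * (K * (q : ℝ) ^ 2 /
                (y / ((p : ℝ) * q) * Real.log (y / ((p : ℝ) * q)) ^ 2)) :=
              mul_le_mul_of_nonneg_left h2 (by positivity)
          _ ≤ 1 / ((p : ℝ) * q) * (K * (q : ℝ) ^ 2 / (y / ((p : ℝ) * q) * (L / 3) ^ 2)) := by
              apply mul_le_mul_of_nonneg_left _ (by positivity)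
              apply div_le_div_of_nonneg_left (by positivity) (by positivity)
              exact mul_le_mul_of_nonneg_left h4' (by positivity)
          _ = 9 * K / (y * L ^ 2) * (q : ℝ) ^ 2 := by
              field_simp
              norm_num
      · rw [if_neg h3] at h2
        have h4 : B (y / ((p : ℝ) * q)) q = 0 := le_antisymm h2 B_nonneg
        rw [h4, mul_zero]
        split_ifs
        · positivity
        · exact le_rfl
    refine (Finset.sum_le_sum hterm).trans ?_
    rw [← Finset.sum_filter]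
    set S := (Mass.P p).filter (fun q : ℕ => (p : ℝ) * (q : ℝ) ^ 3 < y ∧ y < (p : ℝ) * (q : ℝ) ^ 5)
      with hS
    by_cases hSe : S = ∅
    · rw [hSe, Finset.sum_empty]
      split_ifs
      · positivity
      · exact le_rfl
    · obtain ⟨q0, hq0⟩ := Finset.nonempty_iff_ne_empty.mpr hSe
      rw [hS, Finset.mem_filter] at hq0
      obtain ⟨hq0m, hq0a, hq0b⟩ := hq0
      have hq0' := Mass.mem_P.1 hq0m
      have hq0p : (q0 : ℝ) < p := by exact_mod_cast hq0'.1
      have hq00 : (0 : ℝ) < q0 := by exact_mod_cast hq0'.2.pos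
      have hq02 : (2 : ℝ) ≤ q0 := by exact_mod_cast hq0'.2.two_le
      have hlp : L / 6 < Real.log p := by
        have h1 : y < (p : ℝ) ^ 6 := by
          have h2 : (q0 : ℝ) ^ 5 < (p : ℝ) ^ 5 := pow_lt_pow_left₀ hq0p hq00.le (by norm_num)
          calc y < p * (q0 : ℝ) ^ 5 := hq0b
            _ < p * (p : ℝ) ^ 5 := mul_lt_mul_of_pos_left h2 hp0
            _ = (p : ℝ) ^ 6 := by ring
        have h2 := Real.log_lt_log hy0 h1
        rw [Real.log_pow] at h2
        push_cast at h2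
        linarith
      rw [if_pos hlp]
      -- `Z = (y/p)^(1/3)`
      set Z := (y / p) ^ (1 / 3 : ℝ) with hZ
      have hyp : 0 < y / p := by positivity
      have hZ0 : 0 < Z := Real.rpow_pos_of_pos hyp _
      have hZ3 : Z ^ 3 = y / p := by
        rw [hZ, ← Real.rpow_natCast, ← Real.rpow_mul hyp.le]
        norm_num
      have hqZ : ∀ q ∈ S, (q : ℝ) ≤ Z := by
        intro q hq
        rw [hS, Finset.mem_filter] at hq
        have h1 : (q : ℝ) ^ 3 ≤ Z ^ 3 := by
          rw [hZ3, le_div_iff₀ hp0]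
          linarith [hq.2.1, mul_comm (p : ℝ) ((q : ℝ) ^ 3)]
        exact le_of_pow_le_pow_left₀ (by norm_num) hZ0.le h1
      have hZ2 : 2 ≤ Z := by
        have := hqZ q0 (by rw [hS, Finset.mem_filter]; exact ⟨hq0m, hq0a, hq0b⟩)
        linarith
      have hcard : (S.card : ℝ) ≤ K' * Z / Real.log Z := by
        apply hK' Z hZ2
        intro q hq
        refine ⟨?_, hqZ q hq⟩
        rw [hS, Finset.mem_filter] at hq
        exact (Mass.mem_P.1 hq.1).2
      have hlZ : L / 6 ≤ Real.log Z := by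
        rw [hZ, Real.log_rpow hyp, Real.log_div hy0.ne' hp0.ne']
        linarith
      have hlZ0 : 0 < Real.log Z := by linarith [div_pos hly (by norm_num : (0:ℝ) < 6)]
      calc ∑ q ∈ S, 9 * K / (y * L ^ 2) * (q : ℝ) ^ 2
          ≤ ∑ q ∈ S, 9 * K / (y * L ^ 2) * Z ^ 2 := by
            refine Finset.sum_le_sum fun q hq => ?_
            apply mul_le_mul_of_nonneg_left _ (by positivity)
            exact pow_le_pow_left₀ (by positivity) (hqZ q hq) 2
        _ = S.card * (9 * K / (y * L ^ 2) * Z ^ 2) := by rw [Finset.sum_const, nsmul_eq_mul]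
        _ ≤ (K' * Z / Real.log Z) * (9 * K / (y * L ^ 2) * Z ^ 2) :=
            mul_le_mul_of_nonneg_right hcard (by positivity)
        _ ≤ (K' * Z / (L / 6)) * (9 * K / (y * L ^ 2) * Z ^ 2) := by
            apply mul_le_mul_of_nonneg_right _ (by positivity)
            apply div_le_div_of_nonneg_left (by positivity) (by positivity) hlZ
        _ = K' * 6 * (9 * K) / (y * L ^ 3) * Z ^ 3 := by field_simp
        _ = 9 * K * (6 * K') / L ^ 3 * (1 / (p : ℝ)) := by
            rw [hZ3]; field_simp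
  unfold Mass.Op
  refine (Finset.sum_le_sum hinner).trans ?_
  rw [← Finset.sum_filter]
  have hfe : (Mass.P w).filter (fun p : ℕ => L / 6 < Real.log p) = Mass.PG w (L / 6) := rfl
  rw [hfe, ← Finset.mul_sum]
  by_cases hne : (Mass.PG w (L / 6)) = ∅
  · rw [hne, Finset.sum_empty, mul_zero]
    positivity
  · obtain ⟨p0, hp0⟩ := Finset.nonempty_iff_ne_empty.mpr hne
    rw [Mass.mem_PG] at hp0
    have hp00 : (0 : ℝ) < p0 := by exact_mod_cast hp0.1.2.pos
    have h1 : Real.log p0 ≤ Real.log w := Real.log_le_log hp00 (by exact_mod_cast hp0.1.1.le)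
    have hL6w : L / 6 ≤ Real.log w := by linarith [hp0.2]
    have hl2 : 0.6931471803 < Real.log 2 := Real.log_two_gt_d9
    have hl2' : Real.log 2 < 0.6931471808 := Real.log_two_lt_d9
    -- sum of reciprocals
    have hsum : ∑ p ∈ Mass.PG w (L / 6), 1 / (p : ℝ) ≤ 30 := by
      set x' := max (Real.log 2) (L / 6) with hx'
      have hx2 : Real.log 2 ≤ x' := le_max_left _ _
      have hxL : L / 6 ≤ x' := le_max_right _ _
      have hxw : x' ≤ Real.log w :=
        max_le (Real.log_le_log (by norm_num) hw2) hL6w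
      have hx0 : 0 < x' := by linarith
      have h2mem : 2 ∉ Mass.PG w x' := by
        intro h
        rw [Mass.mem_PG] at h
        have := h.2
        push_cast at this
        linarith
      have h3 : Mass.PG w (L / 6) ⊆ insert 2 (Mass.PG w x') := by
        intro p hp
        rw [Finset.mem_insert]
        by_cases hp2 : p = 2
        · left; exact hp2
        · right
          rw [Mass.mem_PG] at hp ⊢
          refine ⟨hp.1, ?_⟩
          rw [hx', max_lt_iff]
          refine ⟨?_, hp.2⟩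
          apply Real.log_lt_log (by norm_num)
          have := hp.1.2.two_le
          have : 2 < p := by omega
          exact_mod_cast this
      have h4 := Finset.sum_le_sum_of_subset_of_nonneg (f := fun p : ℕ => 1 / (p : ℝ)) h3
        (fun _ _ _ => by positivity)
      rw [Finset.sum_insert h2mem] at h4
      have h5 := Mass.sum_inv_le w hI.1 hx2 hxw
      have h6 : Real.log (Real.log w) - Real.log x' ≤ 2 := by
        rw [← Real.log_div hlw.ne' hx0.ne']
        refine (Real.log_le_sub_one_of_pos (by positivity)).trans ?_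
        have : Real.log w / x' ≤ 3 := by
          rw [div_le_iff₀ hx0]
          linarith
        linarith
      have h7 : 18 / x' ≤ 26 := by
        rw [div_le_iff₀ hx0]
        nlinarith
      push_cast at h4
      linarith
    have hw4 : 1 ≤ 6 ^ 4 * (Real.log w ^ 4 / L ^ 4) := by
      rw [← mul_div_assoc, le_div_iff₀ (by positivity), one_mul]
      have h8 : L ≤ 6 * Real.log w := by linarith
      have := pow_le_pow_left₀ hly.le h8 4
      rw [mul_pow] at this
      exact this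
    have h0 : 0 ≤ 9 * K * (6 * K') / L ^ 3 := by positivity
    calc 9 * K * (6 * K') / L ^ 3 * ∑ p ∈ Mass.PG w (L / 6), 1 / (p : ℝ)
        ≤ 9 * K * (6 * K') / L ^ 3 * 30 := mul_le_mul_of_nonneg_left hsum h0
      _ = 9 * K * (6 * K') / L ^ 3 * 30 * 1 := by ring
      _ ≤ 9 * K * (6 * K') / L ^ 3 * 30 * (6 ^ 4 * (Real.log w ^ 4 / L ^ 4)) :=
          mul_le_mul_of_nonneg_left hw4 (by positivity)
      _ = 9 * K * (6 * K') * 30 * 6 ^ 4 * (Real.log w ^ 4 / L ^ 7) := by
          field_simp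

/-- mass theorem at the level of `Xi` (helper664) -/
def XiH : Prop := ∃ C : ℝ, ∀ y w, Mass.Inv y w → Mass.T0 Mass.Xi y w ≤ C / Real.log y ^ 2

lemma T0_smul' (a : ℝ) (f : ℝ → ℕ → ℝ) (y : ℝ) (w : ℕ) :
    Mass.T0 (fun y w => a * f y w) y w = a * Mass.T0 f y w := by
  have := Mass.T_smul (stop := fun _ _ => False) (f := f) (g := fun _ _ => 0) a y w
  simp only [mul_zero] at this
  exact this

lemma T0_mono' {f f' : ℝ → ℕ → ℝ} (hf : ∀ y w, Mass.Inv y w → f y w ≤ f' y w) (y : ℝ) (w : ℕ)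
    (h : Mass.Inv y w) : Mass.T0 f y w ≤ Mass.T0 f' y w :=
  Mass.T_mono Mass.inv_closed (fun y w h _ => hf y w h) (fun _ _ _ _ => le_rfl) y w h

/-- total boundary mass -/
theorem T0_B_le (hX : XiH) : ∃ C : ℝ, 0 < C ∧ ∀ y w, Mass.Inv y w →
    Mass.T0 B y w ≤ C / Real.log y ^ 2 := by
  obtain ⟨C, hC⟩ := hX
  obtain ⟨K, hK0, hK⟩ := B_le'
  obtain ⟨K', hK0', hK'⟩ := OpB_le
  refine ⟨K + K' * |C|, by positivity, ?_⟩
  intro y w hI
  have hly := hI.log_y_pos
  have h1 := Mass.T_shift (stop := fun _ _ => False) (f := B) Mass.inv_closed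
    (fun _ _ _ => B_nonneg) y w hI
  have h2 : Mass.T0 (Mass.Op B) y w ≤ Mass.T0 (fun y w => K' * Mass.Xi y w) y w := by
    apply T0_mono' _ y w hI
    intro y w h
    refine (hK' y w h).trans ?_
    apply mul_le_mul_of_nonneg_left _ hK0'.le
    have hl1 : 1 ≤ Real.log y := by
      have h3 : Real.log 4 ≤ Real.log y := Real.log_le_log (by norm_num) h.y_ge
      have h4 : Real.log 4 = 2 * Real.log 2 := by
        have : (4 : ℝ) = 2 ^ 2 := by norm_num
        rw [this, Real.log_pow]; push_cast; ring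
      have h5 : 0.6931471803 < Real.log 2 := Real.log_two_gt_d9
      linarith
    unfold Mass.Xi
    rw [div_eq_mul_inv]
    apply mul_le_mul_of_nonneg_left _ (by positivity)
    rw [← Real.rpow_natCast, ← Real.rpow_neg (by linarith)]
    apply Real.rpow_le_rpow_of_exponent_le hl1
    norm_num
  rw [T0_smul'] at h2
  have h3 := hC y w hI
  have h4 : K' * Mass.T0 Mass.Xi y w ≤ K' * (|C| / Real.log y ^ 2) := by
    apply mul_le_mul_of_nonneg_left _ hK0'.le
    exact h3.trans (div_le_div_of_nonneg_right (le_abs_self C) (by positivity))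
  have h5 := hK y w hI
  have e : (K + K' * |C|) / Real.log y ^ 2 =
      K / Real.log y ^ 2 + K' * (|C| / Real.log y ^ 2) := by ring
  rw [e]
  have h6 : Mass.T0 B y w ≤ B y w + Mass.T0 (Mass.Op B) y w := h1
  linarith

end Crest.Agent.R001.Bridge
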