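import Crest.Agent.R001.MassH664
import Crest.Agent.R001.BdBound

/-! Row 1 (S0001), block (1), file I: unconditional mass theorem, line masses. -/

set_option autoImplicit false

namespace Crest.Agent.R001.Mass

open Finset Classical

theorem Bb_eq {y : ℝ} {w : ℕ} (hI : Inv y w) : Bb y w = Bridge.B y w := by
  unfold Bb Bridge.B Bridge.BdOp Bridge.hb
  refine Finset.sum_congr rfl fun p hp => Finset.sum_congr rfl fun q hq => ?_
  have hp0 : (0 : ℝ) < p := by exact_mod_cast (mem_P.1 hp).2.pos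
  have hq0 : (0 : ℝ) < q := by exact_mod_cast (mem_P.1 hq).2.pos
  have hpw : (p : ℝ) ≤ w := by exact_mod_cast (mem_P.1 hp).1.le
  have hqw : (q : ℝ) ≤ w := by
    have h1 := (mem_P.1 hp).1
    have h2 := (mem_P.1 hq).1
    exact_mod_cast (by omega : q ≤ w)
  have hy0 : 0 < y := by linarith [hI.y_ge]
  by_cases hacc : (p : ℝ) * (q : ℝ) ^ 3 < y
  · rw [if_pos hacc, if_neg (not_le.2 hacc)]
  · rw [if_neg hacc, if_pos (not_lt.1 hacc)]
    have h1 : 1 ≤ y / ((p : ℝ) * q) := by
      rw [le_div_iff₀ (by positivity), one_mul]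
      refine le_trans ?_ hI.2
      rw [sq]
      exact mul_le_mul hpw hqw hq0.le (by positivity)
    rw [if_pos h1]
    field_simp

theorem bbh : BBH := by
  obtain ⟨K, hK0, hK⟩ := Bridge.B_le'
  obtain ⟨K', hK0', hK'⟩ := Bridge.OpB_le
  refine ⟨K + K', by positivity, ?_, ?_⟩
  · intro y w hI
    rw [Bb_eq hI]
    refine (hK y w hI).trans ?_
    have := hI.log_y_pos
    apply div_le_div_of_nonneg_right _ (by positivity)
    linarith
  · intro y w hI
    have h1 : Op Bb y w = Op Bridge.B y w :=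
      Op_congr fun p q hc => Bb_eq (inv_closed y w p q hI hc)
    rw [h1]
    refine (hK' y w hI).trans ?_
    have hv := hI.log_y_pos
    have h2 : Real.log w ^ 4 / Real.log y ^ 7 ≤ Xi y w := by
      unfold Xi
      rw [div_eq_mul_inv]
      apply mul_le_mul_of_nonneg_left _ (by positivity)
      rw [← Real.rpow_natCast, ← Real.rpow_neg hv.le]
      apply Real.rpow_le_rpow_of_exponent_le hI.one_le_log
      norm_num
    have h3 := Xi_pos hI
    nlinarith

/-- **mass theorem** -/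
theorem mass : ∃ C V1 : ℝ, 0 < C ∧ 1 ≤ V1 ∧ ∀ V : ℝ, V1 ≤ V → ∀ y w, Inv y w →
    T0 (XiV V) y w ≤ C * (Real.log y / V) ^ (1 / 4 : ℝ) * Xi y w := by
  obtain ⟨k⟩ := exists_KData bbh
  exact k.mass

/-- the potential, without restriction on the level -/
theorem mass_all : ∃ C : ℝ, 0 < C ∧ ∀ y w, Inv y w →
    T0 Xi y w ≤ C * Real.log y ^ (1 / 4 : ℝ) * Xi y w := by
  obtain ⟨c⟩ := exists_consts
  obtain ⟨C, V1, hC, hV1, h⟩ := mass
  obtain ⟨Cs, hCs, hsm⟩ := small_w (⌈Real.exp V1⌉₊ + 1)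
  have hC1 := c.hC1
  -- below `V1`, `w` is bounded
  have hlow : ∀ y w, InvV V1 y w → T0 Xi y w ≤ Cs * Xi y w := by
    rintro y w ⟨hI, hv⟩
    apply hsm y w hI
    have h1 : (w : ℝ) ≤ Real.exp V1 := by
      have h2 := hI.two_log_le
      have h3 := hI.log_w_pos
      have hw : (0 : ℝ) < w := by exact_mod_cast (by have := hI.1; omega : 0 < w)
      rw [← Real.exp_log hw]
      exact Real.exp_le_exp.2 (by linarith)
    have h2 : w ≤ ⌈Real.exp V1⌉₊ := by
      have := h1.trans (Nat.le_ceil _)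
      exact_mod_cast this
    omega
  have key : ∀ y w, Inv y w → T0 Xi y w ≤ (1 + Cs * c.C1) * T0 (XiV V1) y w +
      (if Real.log y ≤ V1 then Cs * Xi y w else 0) := by
    refine tree_induction inv_closed ?_
    intro y w hI ih
    have hX := Xi_pos hI
    by_cases hle : Real.log y ≤ V1
    · rw [if_pos hle, XiV_zero hI hle, mul_zero, zero_add]
      exact hlow y w ⟨hI, hle⟩
    · rw [if_neg hle, add_zero, T0_eq, T0_eq]
      have h1 : Op (T0 Xi) y w ≤
          Op (fun y w => (1 + Cs * c.C1) * T0 (XiV V1) y w + Cs * Xi y w) y w := by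
        refine Op_mono fun p q hc => (ih p q hc).trans ?_
        have hIc := inv_closed y w p q hI hc
        refine add_le_add_right ?_ _
        split_ifs
        · exact le_rfl
        · exact mul_nonneg hCs.le (Xi_pos hIc).le
      rw [Op_add (fun y w => (1 + Cs * c.C1) * T0 (XiV V1) y w) (fun y w => Cs * Xi y w),
        Op_smul, Op_smul] at h1
      have h2 := mul_le_mul_of_nonneg_left (c.op y w hI) hCs.le
      have h3 : XiV V1 y w = Xi y w := by unfold XiV; rw [if_pos (not_le.1 hle)]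
      rw [h3]
      nlinarith
  refine ⟨(1 + Cs * c.C1) * C + Cs, by positivity, ?_⟩
  intro y w hI
  have hX := Xi_pos hI
  have hv := hI.log_y_pos
  have h1 := key y w hI
  have h2 := h V1 le_rfl y w hI
  have h3 : (Real.log y / V1) ^ (1 / 4 : ℝ) ≤ Real.log y ^ (1 / 4 : ℝ) := by
    apply Real.rpow_le_rpow (by positivity) _ (by norm_num)
    exact div_le_self hv.le hV1
  have h4 : (1 : ℝ) ≤ Real.log y ^ (1 / 4 : ℝ) := Real.one_le_rpow hI.one_le_log (by norm_num)
  have h5 : (if Real.log y ≤ V1 then Cs * Xi y w else 0) ≤ Cs * Xi y w := by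
    split_ifs
    · exact le_rfl
    · positivity
  have h6 : C * (Real.log y / V1) ^ (1 / 4 : ℝ) * Xi y w ≤
      C * Real.log y ^ (1 / 4 : ℝ) * Xi y w := by gcongr
  have h7 : 0 ≤ 1 + Cs * c.C1 := by positivity
  have h8 := mul_le_mul_of_nonneg_left (h2.trans h6) h7
  have h9 : Cs * Xi y w ≤ Cs * Real.log y ^ (1 / 4 : ℝ) * Xi y w := by
    have := mul_le_mul_of_nonneg_left h4 (by positivity : 0 ≤ Cs * Xi y w)
    nlinarith
  nlinarith

/-- `v^(1/4) Xi = ω⁴ / v⁶` -/
theorem quarter_Xi {y : ℝ} {w : ℕ} (hI : Inv y w) :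
    Real.log y ^ (1 / 4 : ℝ) * Xi y w = Real.log w ^ 4 / Real.log y ^ 6 := by
  have hv := hI.log_y_pos
  unfold Xi
  have e : Real.log y ^ (1 / 4 : ℝ) * (Real.log w ^ 4 * Real.log y ^ (-(25 / 4) : ℝ)) =
      Real.log w ^ 4 * (Real.log y ^ (1 / 4 : ℝ) * Real.log y ^ (-(25 / 4) : ℝ)) := by ring
  have e2 : Real.log y ^ (1 / 4 : ℝ) * Real.log y ^ (-(25 / 4) : ℝ) = 1 / Real.log y ^ 6 := by
    have e3 : (1 : ℝ) / Real.log y ^ 6 = Real.log y ^ (-6 : ℝ) := by
      rw [Real.rpow_neg hv.le, one_div]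
      norm_num
    rw [← Real.rpow_add hv, e3]
    norm_num
  rw [e, e2, mul_one_div]

theorem om_le {y : ℝ} {w : ℕ} (hI : Inv y w) :
    Real.log w ^ 4 / Real.log y ^ 6 ≤ 1 / Real.log y ^ 2 := by
  have hv := hI.log_y_pos
  have h1 := hI.two_log_le
  have h2 := hI.log_w_pos
  rw [div_le_div_iff₀ (by positivity) (by positivity), one_mul]
  have h3 := pow_le_pow_left₀ h2.le (by linarith : Real.log w ≤ Real.log y) 4
  calc Real.log w ^ 4 * Real.log y ^ 2 ≤ Real.log y ^ 4 * Real.log y ^ 2 :=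
        mul_le_mul_of_nonneg_right h3 (by positivity)
    _ = Real.log y ^ 6 := by ring

theorem xiH : Bridge.XiH := by
  obtain ⟨C, hC, h⟩ := mass_all
  refine ⟨C, fun y w hI => (h y w hI).trans ?_⟩
  rw [mul_assoc, quarter_Xi hI, div_eq_mul_one_div C]
  exact mul_le_mul_of_nonneg_left (om_le hI) hC.le

end Crest.Agent.R001.Mass
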