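import Mathlib
import Crest.Agent.R001.F1B

/-!
# R1, block F1, part C: asymptotics for the number of `w`-rough products of two primes
-/

open Finset ArithmeticFunction

namespace Crest.Agent.R001.F1

open Crest.Agent.Lib.Mertens

lemma pr_subset_Pq {x w : ℝ} (hw : 0 ≤ w) : pr w (Real.sqrt x) ⊆ Pq x w := by
  intro q hq
  rw [mem_pr hw (Real.sqrt_nonneg x)] at hq
  rw [mem_Pq]
  exact ⟨⟨hq.1.1.le, hq.1.2⟩, hq.2⟩

lemma sum_Pq_le {x w B : ℝ} (hw : 0 ≤ w) (hB : 0 ≤ B) (f : ℕ → ℝ)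
    (hf : ∀ q ∈ Pq x w, f q ≤ B) :
    ∑ q ∈ Pq x w, f q ≤ ∑ q ∈ pr w (Real.sqrt x), f q + B := by
  classical
  rw [← Finset.sum_sdiff (pr_subset_Pq hw), add_comm]
  have h1 : Pq x w \ pr w (Real.sqrt x) ⊆ {⌈w⌉₊} := by
    intro q hq
    rw [Finset.mem_sdiff, mem_Pq, mem_pr hw (Real.sqrt_nonneg x)] at hq
    obtain ⟨⟨⟨h1, h2⟩, h3⟩, h4⟩ := hq
    rw [Finset.mem_singleton]
    have h5 : ¬ w < q := fun h => h4 ⟨⟨h, h2⟩, h3⟩
    have h6 : w = q := le_antisymm h1 (not_lt.mp h5)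
    rw [h6, Nat.ceil_natCast]
  have h2 : ∑ q ∈ Pq x w \ pr w (Real.sqrt x), f q ≤ B := by
    calc ∑ q ∈ Pq x w \ pr w (Real.sqrt x), f q ≤ ∑ q ∈ Pq x w \ pr w (Real.sqrt x), B := by
          apply Finset.sum_le_sum
          intro q hq
          exact hf q (Finset.mem_sdiff.mp hq).1
      _ = (Pq x w \ pr w (Real.sqrt x)).card * B := by rw [Finset.sum_const, nsmul_eq_mul]
      _ ≤ 1 * B := by
          apply mul_le_mul_of_nonneg_right _ hB
          have := Finset.card_le_card h1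
          rw [Finset.card_singleton] at this
          exact_mod_cast this
      _ = B := one_mul B
  linarith

lemma recip_Pq {x w : ℝ} (hw : 2 ≤ w) (hx : w ^ 2 ≤ x) :
    ∑ q ∈ Pq x w, 1 / (q : ℝ) ≤ Real.log (Real.log (Real.sqrt x)) - Real.log (Real.log w) +
      19 / Real.log w := by
  have hw0 : 0 < w := by linarith
  have hws : w ≤ Real.sqrt x := Real.le_sqrt_of_sq_le hx
  have hlw : 0 < Real.log w := Real.log_pos (by linarith)
  have h1 := sum_Pq_le (x := x) (w := w) (B := 1 / w) hw0.le (by positivity)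
    (fun q => 1 / (q : ℝ)) (fun q hq => by
      rw [mem_Pq] at hq
      exact one_div_le_one_div_of_le hw0 hq.1.1)
  have h2 := (abs_le.mp (mertens_two w (Real.sqrt x) hw hws)).2
  have h3 : 1 / w ≤ 1 / Real.log w :=
    one_div_le_one_div_of_le hlw (by linarith [Real.log_le_sub_one_of_pos hw0])
  have e : 19 / Real.log w = 18 / Real.log w + 1 / Real.log w := by ring
  rw [e]
  linarith

lemma basic {x w : ℝ} (hw : 2 ≤ w) (hx : w ^ 2 ≤ x) :
    0 < x ∧ 2 ≤ Real.sqrt x ∧ 0 < Real.log w ∧ 0 < Real.log x ∧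
      Real.log (Real.sqrt x) = Real.log x / 2 ∧ w ≤ Real.sqrt x := by
  have hx4 : 4 ≤ x := by nlinarith
  have hx0 : 0 < x := by linarith
  have hws : w ≤ Real.sqrt x := Real.le_sqrt_of_sq_le hx
  exact ⟨hx0, hw.trans hws, Real.log_pos (by linarith), Real.log_pos (by linarith),
    Real.log_sqrt hx0.le, hws⟩

lemma Pq_facts {x w : ℝ} {q : ℕ} (hw : 2 ≤ w) (hx : w ^ 2 ≤ x) (hq : q ∈ Pq x w) :
    (0 : ℝ) < q ∧ Real.log w ≤ Real.log q ∧ Real.log x / 2 ≤ Real.log x - Real.log q ∧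
      2 ≤ x / q ∧ Real.log (x / q) = Real.log x - Real.log q ∧ q ≤ ⌊x / q⌋₊ := by
  obtain ⟨hx0, hs2, hlw, hlx, hls, hws⟩ := basic hw hx
  rw [mem_Pq] at hq
  obtain ⟨⟨h1, h2⟩, h3⟩ := hq
  have hq0 : (0 : ℝ) < q := by exact_mod_cast h3.pos
  have hlog : Real.log q ≤ Real.log x / 2 := by
    rw [← hls]; exact Real.log_le_log hq0 h2
  have hqx : (q : ℝ) ≤ x / q := by
    rw [le_div_iff₀ hq0]
    calc (q : ℝ) * q ≤ Real.sqrt x * Real.sqrt x :=
          mul_le_mul h2 h2 hq0.le (Real.sqrt_nonneg x)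
      _ = x := Real.mul_self_sqrt hx0.le
  refine ⟨hq0, Real.log_le_log (by linarith) h1, by linarith, by linarith, ?_, ?_⟩
  · rw [Real.log_div hx0.ne' hq0.ne']
  · exact Nat.le_floor hqx

lemma card_Pr {x w : ℝ} {q : ℕ} (hw : 2 ≤ w) (hx : w ^ 2 ≤ x) (hq : q ∈ Pq x w) :
    ((Pr x q).card : ℝ) = (Nat.primeCounting ⌊x / q⌋₊ : ℝ) - Nat.primeCounting (q - 1) := by
  obtain ⟨h1, h2, h3, h4, h5, h6⟩ := Pq_facts hw hx hq
  rw [mem_Pq] at hq
  unfold Pr
  rw [card_primes_Icc hq.2.pos (by omega)]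

/-- asymptotics for the number of products of two primes `≥ w` below `x` -/
theorem N2_asymp (h : PNT2) : ∃ C : ℝ, 0 < C ∧ ∀ x w : ℝ, 2 ≤ w → w ^ 2 ≤ x → x ≤ w ^ 5 →
    |((rk 2 x w).card : ℝ) / x -
      Real.log ((Real.log x - Real.log w) / Real.log w) / Real.log x| ≤
        C / Real.log x ^ 2 := by
  obtain ⟨C, hC⟩ := h
  obtain ⟨K, hK0, hK⟩ := cheb hC
  refine ⟨4 * |C| * 40 + 4 * K ^ 2 + 10 + 360, by positivity, ?_⟩
  intro x w hw hx hx5
  obtain ⟨hx0, hs2, hlw, hlx, hls, hws⟩ := basic hw hx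
  have hw0 : 0 < w := by linarith
  have hlx5 : Real.log x ≤ 5 * Real.log w := by
    have := Real.log_le_log hx0 hx5
    rw [Real.log_pow] at this
    exact_mod_cast this
  have hl2 : 0.6931471803 < Real.log 2 := Real.log_two_gt_d9
  have hlw2 : Real.log 2 ≤ Real.log w := Real.log_le_log (by norm_num) hw
  have hlogw : Real.log w ≤ w := by linarith [Real.log_le_sub_one_of_pos hw0]
  -- main sums
  set L := Real.log x with hL
  have hcard : ((rk 2 x w).card : ℝ) = ∑ q ∈ Pq x w,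
      ((Nat.primeCounting ⌊x / q⌋₊ : ℝ) - Nat.primeCounting (q - 1)) := by
    rw [card_rk_two hw hx0.le]
    push_cast
    exact Finset.sum_congr rfl (fun q hq => card_Pr hw hx hq)
  have hrec : ∑ q ∈ Pq x w, 1 / (q : ℝ) ≤ 40 := by
    refine (recip_Pq hw hx).trans ?_
    have h1 : Real.log (Real.log (Real.sqrt x)) - Real.log (Real.log w) ≤ 3 / 2 := by
      rw [hls, ← Real.log_div (by positivity) hlw.ne']
      refine (Real.log_le_sub_one_of_pos (by positivity)).trans ?_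
      have : Real.log x / 2 / Real.log w ≤ 5 / 2 := by
        rw [div_le_iff₀ hlw]; linarith
      linarith
    have h2 : 19 / Real.log w ≤ 28 := by
      rw [div_le_iff₀ hlw]; nlinarith
    linarith
  -- first error
  have herr1 : |((rk 2 x w).card : ℝ) - ∑ q ∈ Pq x w, x * (1 / ((q : ℝ) * (L - Real.log q)))| ≤
      (4 * |C| * 40 + 4 * K ^ 2) * x / L ^ 2 := by
    rw [hcard, ← Finset.sum_sub_distrib]
    refine (Finset.abs_sum_le_sum_abs _ _).trans ?_
    have hterm : ∀ q ∈ Pq x w, |(Nat.primeCounting ⌊x / q⌋₊ : ℝ) - Nat.primeCounting (q - 1) -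
        x * (1 / ((q : ℝ) * (L - Real.log q)))| ≤
        4 * |C| * x / L ^ 2 * (1 / (q : ℝ)) + Nat.primeCounting ⌊Real.sqrt x⌋₊ := by
      intro q hq
      obtain ⟨h1, h2, h3, h4, h5, h6⟩ := Pq_facts hw hx hq
      rw [mem_Pq] at hq
      have hC' := hC (x / q) h4
      have hpos : 0 < L - Real.log q := by
        have : 0 < L / 2 := by positivity
        linarith
      have e1 : x * (1 / ((q : ℝ) * (L - Real.log q))) = x / q / Real.log (x / q) := by
        rw [h5, ← hL]; field_simp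
      rw [e1]
      have h7 : C * (x / q) / Real.log (x / q) ^ 2 ≤ 4 * |C| * x / L ^ 2 * (1 / (q : ℝ)) := by
        rw [h5]
        calc C * (x / q) / (L - Real.log q) ^ 2 ≤ |C| * (x / q) / (L - Real.log q) ^ 2 := by
              apply div_le_div_of_nonneg_right _ (by positivity)
              exact mul_le_mul_of_nonneg_right (le_abs_self C) (by positivity)
          _ ≤ |C| * (x / q) / (L / 2) ^ 2 := by
              apply div_le_div_of_nonneg_left (by positivity) (by positivity)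
              exact pow_le_pow_left₀ (by positivity) h3 2
          _ = 4 * |C| * x / L ^ 2 * (1 / (q : ℝ)) := by
              field_simp
              ring
      have h8 : (Nat.primeCounting (q - 1) : ℝ) ≤ Nat.primeCounting ⌊Real.sqrt x⌋₊ := by
        have : q - 1 ≤ ⌊Real.sqrt x⌋₊ := by
          have := Nat.le_floor hq.1.2
          omega
        exact_mod_cast Nat.monotone_primeCounting this
      have h9 : (0 : ℝ) ≤ Nat.primeCounting (q - 1) := by positivity
      have h10 := abs_le.mp (hC'.trans h7)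
      rw [abs_le]
      constructor <;> linarith [h10.1, h10.2]
    refine (Finset.sum_le_sum hterm).trans ?_
    rw [Finset.sum_add_distrib, ← Finset.mul_sum, Finset.sum_const, nsmul_eq_mul]
    have hcardP : ((Pq x w).card : ℝ) ≤ Nat.primeCounting ⌊Real.sqrt x⌋₊ := by
      have h1 : Pq x w ⊆ (Icc 1 ⌊Real.sqrt x⌋₊).filter Nat.Prime := by
        intro q hq
        rw [mem_Pq] at hq
        rw [Finset.mem_filter, Finset.mem_Icc]
        exact ⟨⟨hq.2.pos, Nat.le_floor hq.1.2⟩, hq.2⟩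
      have h2 := Finset.card_le_card h1
      have h3 := card_primes_Icc (a := 1) (b := ⌊Real.sqrt x⌋₊) le_rfl (by omega)
      simp only [Nat.sub_self, Nat.primeCounting_zero, Nat.cast_zero, sub_zero] at h3
      rw [← h3]
      exact_mod_cast h2
    have hpi := hK (Real.sqrt x) hs2
    rw [hls] at hpi
    have hpi0 : (0 : ℝ) ≤ Nat.primeCounting ⌊Real.sqrt x⌋₊ := by positivity
    have h11 : (Pq x w).card * (Nat.primeCounting ⌊Real.sqrt x⌋₊ : ℝ) ≤ 4 * K ^ 2 * x / L ^ 2 := by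
      calc (Pq x w).card * (Nat.primeCounting ⌊Real.sqrt x⌋₊ : ℝ)
          ≤ (K * Real.sqrt x / (L / 2)) * (K * Real.sqrt x / (L / 2)) :=
            mul_le_mul (hcardP.trans hpi) hpi hpi0 (by positivity)
        _ = 4 * K ^ 2 * (Real.sqrt x * Real.sqrt x) / L ^ 2 := by
            field_simp
            ring
        _ = 4 * K ^ 2 * x / L ^ 2 := by rw [Real.mul_self_sqrt hx0.le]
    have h12 : 4 * |C| * x / L ^ 2 * ∑ q ∈ Pq x w, 1 / (q : ℝ) ≤ 4 * |C| * x / L ^ 2 * 40 :=
      mul_le_mul_of_nonneg_left hrec (by positivity)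
    have e : (4 * |C| * 40 + 4 * K ^ 2) * x / L ^ 2 =
        4 * |C| * x / L ^ 2 * 40 + 4 * K ^ 2 * x / L ^ 2 := by ring
    rw [e]
    linarith
  -- second error: the possible prime `q = w`
  have hG1 : ∑ q ∈ Pq x w, 1 / ((q : ℝ) * (L - Real.log q)) ≤ G x w + 10 / L ^ 2 := by
    apply sum_Pq_le hw0.le (by positivity)
    intro q hq
    obtain ⟨h1, h2, h3, h4, h5, h6⟩ := Pq_facts hw hx hq
    rw [mem_Pq] at hq
    have hpos : 0 < L / 2 := by positivity
    calc 1 / ((q : ℝ) * (L - Real.log q)) ≤ 1 / (w * (L / 2)) := by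
          apply one_div_le_one_div_of_le (by positivity)
          exact mul_le_mul hq.1.1 h3 hpos.le h1.le
      _ ≤ 10 / L ^ 2 := by
          rw [div_le_div_iff₀ (by positivity) (by positivity)]
          have : L ≤ 5 * w := by linarith
          nlinarith
  have hG2 : G x w ≤ ∑ q ∈ Pq x w, 1 / ((q : ℝ) * (L - Real.log q)) := by
    apply Finset.sum_le_sum_of_subset_of_nonneg (pr_subset_Pq hw0.le)
    intro q hq _
    obtain ⟨h1, h2, h3, h4, h5, h6⟩ := Pq_facts hw hx hq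
    have hpos : 0 < L / 2 := by positivity
    have : 0 < L - Real.log q := by linarith
    positivity
  have hG3 := G_bound hw hx
  have hG4 : 72 / (Real.log w * L) ≤ 360 / L ^ 2 := by
    rw [div_le_div_iff₀ (by positivity) (by positivity)]
    nlinarith
  rw [← Finset.mul_sum] at herr1
  have herr2 : |((rk 2 x w).card : ℝ) / x - ∑ q ∈ Pq x w, 1 / ((q : ℝ) * (L - Real.log q))| ≤
      (4 * |C| * 40 + 4 * K ^ 2) / L ^ 2 := by
    have e : ((rk 2 x w).card : ℝ) / x - ∑ q ∈ Pq x w, 1 / ((q : ℝ) * (L - Real.log q)) =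
        (((rk 2 x w).card : ℝ) - x * ∑ q ∈ Pq x w, 1 / ((q : ℝ) * (L - Real.log q))) / x := by
      field_simp
    rw [e, abs_div, abs_of_pos hx0, div_le_iff₀ hx0]
    refine herr1.trans (le_of_eq ?_)
    ring
  have h20 := abs_le.mp herr2
  have h21 := abs_le.mp (hG3.trans hG4)
  have e : (4 * |C| * 40 + 4 * K ^ 2 + 10 + 360) / L ^ 2 =
      (4 * |C| * 40 + 4 * K ^ 2) / L ^ 2 + 10 / L ^ 2 + 360 / L ^ 2 := by ring
  rw [e, abs_le]
  have h22 : 0 ≤ 10 / L ^ 2 := by positivity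
  constructor <;> linarith [h20.1, h20.2, h21.1, h21.2]

/-- upper bound for the number of products of two primes `≥ w` below `x` -/
theorem N2_upper (h : PNT2) : ∃ K : ℝ, 0 < K ∧ ∀ x w : ℝ, 2 ≤ w → w ^ 2 ≤ x →
    ((rk 2 x w).card : ℝ) ≤ K * x / Real.log x *
      (Real.log (Real.log (Real.sqrt x)) - Real.log (Real.log w) + 19 / Real.log w) := by
  obtain ⟨C, hC⟩ := h
  obtain ⟨K, hK0, hK⟩ := cheb hC
  refine ⟨2 * K, by positivity, ?_⟩
  intro x w hw hx
  obtain ⟨hx0, hs2, hlw, hlx, hls, hws⟩ := basic hw hx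
  have hcard : ((rk 2 x w).card : ℝ) = ∑ q ∈ Pq x w,
      ((Nat.primeCounting ⌊x / q⌋₊ : ℝ) - Nat.primeCounting (q - 1)) := by
    rw [card_rk_two hw hx0.le]
    push_cast
    exact Finset.sum_congr rfl (fun q hq => card_Pr hw hx hq)
  rw [hcard]
  calc ∑ q ∈ Pq x w, ((Nat.primeCounting ⌊x / q⌋₊ : ℝ) - Nat.primeCounting (q - 1))
      ≤ ∑ q ∈ Pq x w, 2 * K * x / Real.log x * (1 / (q : ℝ)) := by
        apply Finset.sum_le_sum
        intro q hq
        obtain ⟨h1, h2, h3, h4, h5, h6⟩ := Pq_facts hw hx hq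
        have h7 := hK (x / q) h4
        have h8 : (0 : ℝ) ≤ Nat.primeCounting (q - 1) := by positivity
        have h9 : K * (x / q) / Real.log (x / q) ≤ 2 * K * x / Real.log x * (1 / (q : ℝ)) := by
          rw [h5]
          calc K * (x / q) / (Real.log x - Real.log q) ≤ K * (x / q) / (Real.log x / 2) := by
                apply div_le_div_of_nonneg_left (by positivity) (by positivity) h3
            _ = 2 * K * x / Real.log x * (1 / (q : ℝ)) := by field_simp
        linarith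
    _ = 2 * K * x / Real.log x * ∑ q ∈ Pq x w, 1 / (q : ℝ) := by rw [Finset.mul_sum]
    _ ≤ _ := by
        apply mul_le_mul_of_nonneg_left (recip_Pq hw hx) (by positivity)

end Crest.Agent.R001.F1
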