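import Mathlib
import Crest.Agent.R001.F1D

/-!
# R1, block F1: the two inputs about `Rw x w = ∑_{m ≤ x, w-rough} (1 + λ m)`

* `F1a` : lower bound for `Rw x₂ w / x₂ - Rw x₁ w / x₁`, `w² ≤ x₁ < x₂ ≤ w^(4+η)`;
* `F1b` : upper bound for `Rw (D e^κ) w / (D e^κ)`, `w ≥ √D`;
* `F1c` : upper bound for `Rw x w / x` for `x` up to `w ^ 5`.
-/

open Finset ArithmeticFunction

namespace Crest.Agent.R001.F1

open Crest.Agent.Lib.Mertens

/-- the main term -/
noncomputable def fm (ω V : ℝ) : ℝ := Real.log ((V - ω) / ω) / V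

lemma log_bound {s : ℝ} (hs1 : 1 < s) (hs : s ≤ 41 / 10) :
    15 / 100 ≤ s / (s - 1) - Real.log (s - 1) := by
  have h1 : 41 / 31 ≤ s / (s - 1) := by
    rw [div_le_div_iff₀ (by norm_num) (by linarith)]
    linarith
  have h2 : Real.log (s - 1) ≤ Real.log (31 / 10) :=
    Real.log_le_log (by linarith) (by linarith)
  have h3 : Real.log (31 / 10) = 2 * Real.log 2 + Real.log (31 / 40) := by
    have : (31 / 10 : ℝ) = 2 ^ 2 * (31 / 40) := by norm_num
    rw [this, Real.log_mul (by norm_num) (by norm_num), Real.log_pow]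
    push_cast
    ring
  have h4 : Real.log (31 / 40) ≤ 31 / 40 - 1 := Real.log_le_sub_one_of_pos (by norm_num)
  have h5 : Real.log 2 < 0.6931471808 := Real.log_two_lt_d9
  have h6 : (41 / 31 : ℝ) ≥ 1.3225 := by norm_num
  linarith

lemma fm_deriv {ω V : ℝ} (hω : 0 < ω) (hV : ω < V) :
    HasDerivAt (fm ω) ((V / (V - ω) - Real.log ((V - ω) / ω)) / V ^ 2) V := by
  have hVω : 0 < V - ω := by linarith
  have hV0 : 0 < V := by linarith
  have h1 : HasDerivAt (fun V : ℝ => (V - ω) / ω) (1 / ω) V := by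
    simpa using ((hasDerivAt_id V).sub_const ω).div_const ω
  have h2 := h1.log (by positivity)
  have h3 := h2.div (hasDerivAt_id V) hV0.ne'
  unfold fm
  refine h3.congr_deriv ?_
  simp only [id]
  field_simp

lemma fm_diff {ω V₁ V₂ : ℝ} (hω : 0 < ω) (h1 : 2 * ω ≤ V₁) (h12 : V₁ ≤ V₂)
    (h2 : V₂ ≤ 41 / 10 * ω) :
    15 / 100 * (V₂ - V₁) / V₂ ^ 2 ≤ fm ω V₂ - fm ω V₁ := by
  have hV2 : 0 < V₂ := by linarith
  have key := Convex.mul_sub_le_image_sub_of_le_deriv (convex_Icc V₁ V₂) (f := fm ω)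
    (fun V hV => (fm_deriv hω (by linarith [hV.1])).continuousAt.continuousWithinAt)
    (fun V hV => by
      rw [interior_Icc] at hV
      exact (fm_deriv hω (by linarith [hV.1])).differentiableAt.differentiableWithinAt)
    (C := 15 / 100 / V₂ ^ 2)
    (fun V hV => by
      rw [interior_Icc] at hV
      rw [(fm_deriv hω (by linarith [hV.1])).deriv]
      have hV0 : 0 < V := by linarith [hV.1]
      have hs := log_bound (s := V / ω) (by rw [lt_div_iff₀ hω]; linarith [hV.1])
        (by rw [div_le_iff₀ hω]; linarith [hV.2])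
      have e1 : V / ω / (V / ω - 1) = V / (V - ω) := by
        have : V - ω ≠ 0 := by
          have := hV.1
          intro h0
          linarith
        field_simp
      have e2 : V / ω - 1 = (V - ω) / ω := by field_simp
      rw [e1, e2] at hs
      calc 15 / 100 / V₂ ^ 2 ≤ 15 / 100 / V ^ 2 := by
            apply div_le_div_of_nonneg_left (by norm_num) (by positivity)
            exact pow_le_pow_left₀ hV0.le hV.2.le 2
        _ ≤ _ := div_le_div_of_nonneg_right hs (by positivity))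
    V₁ ⟨le_rfl, h12⟩ V₂ ⟨h12, le_rfl⟩ h12
  calc 15 / 100 * (V₂ - V₁) / V₂ ^ 2 = 15 / 100 / V₂ ^ 2 * (V₂ - V₁) := by ring
    _ ≤ _ := key

lemma inv_le_log_sq {x : ℝ} (hx : 1 < x) : 1 / x ≤ 4 / Real.log x ^ 2 := by
  have hx0 : 0 < x := by linarith
  have hlx : 0 < Real.log x := Real.log_pos hx
  have h1 : Real.log x ≤ 2 * Real.sqrt x := by
    have h2 := Real.log_le_sub_one_of_pos (x := Real.sqrt x) (Real.sqrt_pos.mpr hx0)
    rw [Real.log_sqrt hx0.le] at h2
    linarith
  have h3 : Real.log x ^ 2 ≤ (2 * Real.sqrt x) ^ 2 := pow_le_pow_left₀ hlx.le h1 2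
  rw [mul_pow, Real.sq_sqrt hx0.le] at h3
  rw [div_le_div_iff₀ hx0 (by positivity)]
  linarith

/-- **F1a**. -/
theorem F1a (h : PNT2) : ∃ c η κ₀ : ℝ, 0 < c ∧ 0 < η ∧ 1 ≤ κ₀ ∧ ∀ x₁ x₂ w : ℝ, 2 ≤ w →
    w ^ 2 ≤ x₁ → x₁ ^ 2 ≤ w ^ 4 * x₂ → x₂ ≤ w ^ (4 + η) → κ₀ ≤ Real.log (x₂ / x₁) →
    c * Real.log (x₂ / x₁) / Real.log x₂ ^ 2 ≤ Rw x₂ w / x₂ - Rw x₁ w / x₁ := by
  obtain ⟨C, hC0, hC⟩ := N2_asymp h
  obtain ⟨K, hK0, hK⟩ := N4_upper h
  set η : ℝ := 1 / (10 ^ 7 * (K + 1)) with hη
  have hη0 : 0 < η := by positivity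
  have hη1 : η ≤ 1 / 10 := by
    rw [hη, div_le_div_iff₀ (by positivity) (by norm_num)]
    nlinarith
  refine ⟨1 / 10, η, (12 * C + 40) * 10, by norm_num, hη0, by linarith, ?_⟩
  intro x₁ x₂ w hw hx₁ hx12 hx₂ hκ₀
  have hw0 : 0 < w := by linarith
  have hx10 : 0 < x₁ := lt_of_lt_of_le (by positivity) hx₁
  have hx20 : 0 < x₂ := by
    by_contra h0
    push Not at h0
    have : x₁ ^ 2 ≤ 0 := hx12.trans (mul_nonpos_of_nonneg_of_nonpos (by positivity) h0)
    have h2 : 0 < x₁ ^ 2 := by positivity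
    linarith
  set V₁ := Real.log x₁ with hV1
  set V₂ := Real.log x₂ with hV2
  set ω := Real.log w with hωd
  have hω : 0 < ω := Real.log_pos (by linarith)
  have hdiff : Real.log (x₂ / x₁) = V₂ - V₁ := Real.log_div hx20.ne' hx10.ne'
  rw [hdiff] at hκ₀ ⊢
  set κ := V₂ - V₁ with hκ
  have hκ1 : 1 ≤ κ := by linarith
  have h1 : 2 * ω ≤ V₁ := by
    have := Real.log_le_log (by positivity) hx₁
    rw [Real.log_pow] at this
    exact_mod_cast this
  have h2 : V₂ ≤ (4 + η) * ω := by
    have := Real.log_le_log hx20 hx₂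
    rw [Real.log_rpow hw0] at this
    exact this
  have h2' : V₂ ≤ 41 / 10 * ω := by nlinarith
  have h12 : V₁ ≤ V₂ := by linarith
  have hV20 : 0 < V₂ := by linarith
  have hV10 : 0 < V₁ := by linarith
  have hxle : x₁ ≤ x₂ := by
    rw [← Real.exp_log hx10, ← Real.exp_log hx20]
    exact Real.exp_le_exp.mpr h12
  have hw1 : 1 < w := by linarith
  have hx25 : x₂ ≤ w ^ 5 := by
    refine hx₂.trans ?_
    rw [← Real.rpow_natCast w 5]
    apply Real.rpow_le_rpow_of_exponent_le hw1.le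
    push_cast
    linarith
  have hx15 : x₁ ≤ w ^ 5 := hxle.trans hx25
  have hx16 : x₁ < w ^ 6 := by
    refine lt_of_le_of_lt hx15 ?_
    exact pow_lt_pow_right₀ hw1 (by norm_num)
  -- main term
  have hA1 := abs_le.mp (hC x₁ w hw hx₁ hx15)
  have hA2 := abs_le.mp (hC x₂ w hw (hx₁.trans hxle) hx25)
  have hf := fm_diff hω h1 h12 h2'
  have hR2 : 2 * (((rk 2 x₂ w).card : ℝ) / x₂) ≤ Rw x₂ w / x₂ := by
    rw [← mul_div_assoc]
    exact div_le_div_of_nonneg_right Rw_ge hx20.le
  have hR1 : Rw x₁ w / x₁ ≤ 2 * (1 / x₁ + ((rk 2 x₁ w).card : ℝ) / x₁ +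
      ((rk 4 x₁ w).card : ℝ) / x₁) := by
    have h3 := div_le_div_of_nonneg_right (Rw_le hw hx10.le hx16) hx10.le
    refine h3.trans (le_of_eq ?_)
    ring
  -- comparison of logarithms
  have hVV : 1 / V₁ ^ 2 ≤ 5 / V₂ ^ 2 := by
    rw [div_le_div_iff₀ (by positivity) (by positivity)]
    have : V₂ ≤ 41 / 20 * V₁ := by linarith
    nlinarith
  have hωV : 1 / ω ^ 2 ≤ 17 / V₂ ^ 2 := by
    rw [div_le_div_iff₀ (by positivity) (by positivity)]
    nlinarith
  have hinv : 1 / x₁ ≤ 20 / V₂ ^ 2 := by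
    have hx11 : 1 < x₁ := by nlinarith
    refine (inv_le_log_sq hx11).trans ?_
    have e1 : 4 / Real.log x₁ ^ 2 = 4 * (1 / V₁ ^ 2) := by rw [← hV1]; ring
    have e2 : 20 / V₂ ^ 2 = 4 * (5 / V₂ ^ 2) := by ring
    rw [e1, e2]
    linarith
  -- the term with four prime factors
  have hN4 : ((rk 4 x₁ w).card : ℝ) / x₁ ≤ 1 / 100 * κ / V₂ ^ 2 := by
    by_cases hx14 : x₁ < w ^ 4
    · rw [rk_empty hw0.le hx10.le hx14]
      simp only [Finset.card_empty, Nat.cast_zero, zero_div]
      positivity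
    · push Not at hx14
      have h3 := hK x₁ w hw hx14
      rw [← hV1, ← hωd] at h3
      have h4 : V₁ - 4 * ω ≤ κ := by
        have h5 := Real.log_le_log (by positivity) hx12
        rw [Real.log_pow, Real.log_mul (by positivity) hx20.ne', Real.log_pow] at h5
        push_cast at h5
        linarith
      have h4' : 0 ≤ V₁ - 4 * ω := by
        have h5 := Real.log_le_log (by positivity) hx14
        rw [Real.log_pow] at h5
        push_cast at h5
        linarith
      have h6 : κ ≤ η * ω := by linarith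
      have h7 : (V₁ - 4 * ω + 19) ^ 3 ≤ (20 * κ) ^ 3 :=
        pow_le_pow_left₀ (by linarith) (by linarith) 3
      calc ((rk 4 x₁ w).card : ℝ) / x₁
          ≤ K * x₁ * (V₁ - 4 * ω + 19) ^ 3 / ω ^ 4 / x₁ :=
            div_le_div_of_nonneg_right h3 hx10.le
        _ = K * (V₁ - 4 * ω + 19) ^ 3 / ω ^ 4 := by field_simp
        _ ≤ K * (20 * κ) ^ 3 / ω ^ 4 := by
            apply div_le_div_of_nonneg_right _ (by positivity)
            exact mul_le_mul_of_nonneg_left h7 hK0.le
        _ = 8000 * K * κ * κ ^ 2 / ω ^ 4 := by ring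
        _ ≤ 8000 * K * κ * (η * ω) ^ 2 / ω ^ 4 := by
            apply div_le_div_of_nonneg_right _ (by positivity)
            apply mul_le_mul_of_nonneg_left _ (by positivity)
            exact pow_le_pow_left₀ (by linarith) h6 2
        _ = 8000 * K * η ^ 2 * κ * (1 / ω ^ 2) := by
            field_simp
        _ ≤ 8000 * K * η ^ 2 * κ * (17 / V₂ ^ 2) := by
            apply mul_le_mul_of_nonneg_left hωV (by positivity)
        _ = 136000 * (K * η) * η * κ / V₂ ^ 2 := by ring
        _ ≤ 1 / 100 * κ / V₂ ^ 2 := by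
            apply div_le_div_of_nonneg_right _ (by positivity)
            apply mul_le_mul_of_nonneg_right _ (by linarith)
            have h8 : K * η ≤ 1 / 10 ^ 7 := by
              rw [hη, mul_one_div, div_le_div_iff₀ (by positivity) (by norm_num)]
              nlinarith
            nlinarith
  -- put together
  have e1 : fm ω V₂ = Real.log ((Real.log x₂ - Real.log w) / Real.log w) / Real.log x₂ := rfl
  have e2 : fm ω V₁ = Real.log ((Real.log x₁ - Real.log w) / Real.log w) / Real.log x₁ := rfl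
  rw [← e1] at hA2
  rw [← e2] at hA1
  have e3 : C / Real.log x₁ ^ 2 ≤ 5 * C / V₂ ^ 2 := by
    have e4 : C / Real.log x₁ ^ 2 = C * (1 / V₁ ^ 2) := by rw [← hV1]; ring
    have e5 : 5 * C / V₂ ^ 2 = C * (5 / V₂ ^ 2) := by ring
    rw [e4, e5]
    exact mul_le_mul_of_nonneg_left hVV hC0.le
  have e6 : Real.log x₂ ^ 2 = V₂ ^ 2 := by rw [← hV2]
  rw [e6] at hA2
  have e7 : 1 / 10 * κ / V₂ ^ 2 ≤ 2 * (15 / 100 * κ / V₂ ^ 2) - 2 * (C / V₂ ^ 2) -
      2 * (5 * C / V₂ ^ 2) - 2 * (20 / V₂ ^ 2) - 2 * (1 / 100 * κ / V₂ ^ 2) := by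
    have e8 : 2 * (15 / 100 * κ / V₂ ^ 2) - 2 * (C / V₂ ^ 2) -
      2 * (5 * C / V₂ ^ 2) - 2 * (20 / V₂ ^ 2) - 2 * (1 / 100 * κ / V₂ ^ 2) =
      (2 * (15 / 100 * κ) - 2 * C - 2 * (5 * C) - 40 - 2 * (1 / 100 * κ)) / V₂ ^ 2 := by ring
    rw [e8]
    apply div_le_div_of_nonneg_right _ (by positivity)
    linarith
  linarith [hA1.1, hA1.2, hA2.1, hA2.2]

/-- **F1b**. -/
theorem F1b (h : PNT2) : ∃ C : ℝ, 0 < C ∧ ∀ D w κ : ℝ, 2 ≤ D → Real.sqrt D ≤ w → 1 ≤ κ →
    Real.exp κ ≤ D ^ (1 / 4 : ℝ) →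
    Rw (D * Real.exp κ) w / (D * Real.exp κ) ≤ C * κ / Real.log D ^ 2 := by
  obtain ⟨K, hK0, hK⟩ := N2_upper h
  refine ⟨78 * K + 8, by positivity, ?_⟩
  intro D w κ hD hDw hκ hκD
  have hD0 : 0 < D := by linarith
  have hlD : 0 < Real.log D := Real.log_pos (by linarith)
  have hκ4 : κ ≤ Real.log D / 4 := by
    have h1 := Real.log_le_log (Real.exp_pos κ) hκD
    rw [Real.log_exp, Real.log_rpow hD0] at h1
    linarith
  have hD16 : Real.exp 4 ≤ D := by
    rw [← Real.exp_log hD0]
    exact Real.exp_le_exp.mpr (by linarith)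
  have he4 : (16 : ℝ) ≤ Real.exp 4 := by
    have h1 := Real.add_one_le_exp (1 : ℝ)
    have h2 : Real.exp 4 = Real.exp 1 ^ 4 := by
      rw [← Real.exp_nat_mul]
      norm_num
    rw [h2]
    have h3 : (2 : ℝ) ≤ Real.exp 1 := by linarith
    calc (16 : ℝ) = 2 ^ 4 := by norm_num
      _ ≤ Real.exp 1 ^ 4 := pow_le_pow_left₀ (by norm_num) h3 4
  have hD16' : 16 ≤ D := he4.trans hD16
  have hw4 : 4 ≤ w := by
    refine le_trans ?_ hDw
    apply Real.le_sqrt_of_sq_le
    linarith
  have hw0 : 0 < w := by linarith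
  have hDw2 : D ≤ w ^ 2 := by
    have := pow_le_pow_left₀ (Real.sqrt_nonneg D) hDw 2
    rwa [Real.sq_sqrt hD0.le] at this
  set x := D * Real.exp κ with hx
  have hx0 : 0 < x := by positivity
  have hDx : D ≤ x := by
    rw [hx]
    have : 1 ≤ Real.exp κ := Real.one_le_exp (by linarith)
    nlinarith
  have hlx : Real.log x = Real.log D + κ := by
    rw [hx, Real.log_mul hD0.ne' (Real.exp_ne_zero _), Real.log_exp]
  have hlw : Real.log D / 2 ≤ Real.log w := by
    have h1 := Real.log_le_log hD0 hDw2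
    rw [Real.log_pow] at h1
    push_cast at h1
    linarith
  have hlw0 : 0 < Real.log w := by linarith
  have hxw4 : x < w ^ 4 := by
    have h1 : Real.log x < Real.log (w ^ 4) := by
      rw [hlx, Real.log_pow]
      push_cast
      linarith
    exact (Real.log_lt_log_iff hx0 (by positivity)).mp h1
  have hxw6 : x < w ^ 6 := by
    refine lt_of_lt_of_le hxw4 ?_
    exact pow_le_pow_right₀ (by linarith) (by norm_num)
  have hR := Rw_le (by linarith : (2 : ℝ) ≤ w) hx0.le hxw6
  rw [rk_empty hw0.le hx0.le hxw4] at hR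
  simp only [Finset.card_empty, Nat.cast_zero, add_zero] at hR
  have hlDx : Real.log D ≤ Real.log x := by rw [hlx]; linarith
  have h1x : 1 / x ≤ 4 / Real.log D ^ 2 := by
    refine (inv_le_log_sq (by linarith)).trans ?_
    apply div_le_div_of_nonneg_left (by norm_num) (by positivity)
    exact pow_le_pow_left₀ hlD.le hlDx 2
  have hN2 : ((rk 2 x w).card : ℝ) / x ≤ 39 * K * κ / Real.log D ^ 2 := by
    by_cases hwx : w ^ 2 ≤ x
    · have h2 := hK x w (by linarith) hwx
      have hx1 : 1 < x := by linarith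
      have hls : Real.log (Real.sqrt x) = (Real.log D + κ) / 2 := by
        rw [Real.log_sqrt hx0.le, hlx]
      have h3 : Real.log (Real.log (Real.sqrt x)) - Real.log (Real.log w) +
          19 / Real.log w ≤ 39 * κ / Real.log D := by
        rw [hls, ← Real.log_div (by positivity) hlw0.ne']
        have h4 : Real.log ((Real.log D + κ) / 2 / Real.log w) ≤ κ / Real.log D := by
          refine (Real.log_le_sub_one_of_pos (by positivity)).trans ?_
          have h5 : (Real.log D + κ) / 2 / Real.log w ≤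
              (Real.log D + κ) / 2 / (Real.log D / 2) := by
            apply div_le_div_of_nonneg_left (by positivity) (by positivity) hlw
          have h6 : (Real.log D + κ) / 2 / (Real.log D / 2) = 1 + κ / Real.log D := by
            field_simp
          linarith
        have h5 : 19 / Real.log w ≤ 38 * κ / Real.log D := by
          rw [div_le_div_iff₀ hlw0 hlD]
          nlinarith
        have e : 39 * κ / Real.log D = κ / Real.log D + 38 * κ / Real.log D := by ring
        rw [e]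
        linarith
      have h7 : ((rk 2 x w).card : ℝ) ≤ K * x / Real.log x * (39 * κ / Real.log D) := by
        refine h2.trans ?_
        apply mul_le_mul_of_nonneg_left h3
        have : 0 < Real.log x := Real.log_pos hx1
        positivity
      rw [div_le_iff₀ hx0]
      refine h7.trans ?_
      calc K * x / Real.log x * (39 * κ / Real.log D)
          ≤ K * x / Real.log D * (39 * κ / Real.log D) := by
            apply mul_le_mul_of_nonneg_right _ (by positivity)
            apply div_le_div_of_nonneg_left (by positivity) hlD hlDx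
        _ = _ := by field_simp
    · push Not at hwx
      rw [rk_empty hw0.le hx0.le hwx]
      simp only [Finset.card_empty, Nat.cast_zero, zero_div]
      positivity
  have h8 : Rw x w / x ≤ 2 * (1 / x + ((rk 2 x w).card : ℝ) / x) := by
    refine (div_le_div_of_nonneg_right hR hx0.le).trans (le_of_eq ?_)
    ring
  have h9 : 4 / Real.log D ^ 2 ≤ 4 * κ / Real.log D ^ 2 := by
    apply div_le_div_of_nonneg_right _ (by positivity)
    linarith
  have e : (78 * K + 8) * κ / Real.log D ^ 2 =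
      2 * (4 * κ / Real.log D ^ 2 + 39 * K * κ / Real.log D ^ 2) := by ring
  rw [e]
  linarith

end Crest.Agent.R001.F1
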