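import Mathlib
import Crest.Agent.R001.F1E

/-!
# R1, block F1: asymptotic formula for `Rw x w / x`

* `F1c` : for `w² ≤ x ≤ w⁵`,
  `2 log(log x / log w - 1) / log x - C / log² x ≤ Rw x w / x
      ≤ 2 log(log x / log w - 1) / log x + C / log² x + C (max 0 (log x - 4 log w))³ / log⁴ x`.
-/

open Finset ArithmeticFunction

namespace Crest.Agent.R001.F1

open Crest.Agent.Lib.Mertens

/-- **F1c**: asymptotics of `Rw x w / x`, `w² ≤ x ≤ w⁵`. -/
theorem F1c (h : PNT2) : ∃ C : ℝ, 0 < C ∧ ∀ x w : ℝ, 2 ≤ w → w ^ 2 ≤ x → x ≤ w ^ 5 →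
    2 * Real.log ((Real.log x - Real.log w) / Real.log w) / Real.log x - C / Real.log x ^ 2 ≤
      Rw x w / x ∧
    Rw x w / x ≤ 2 * Real.log ((Real.log x - Real.log w) / Real.log w) / Real.log x +
      C / Real.log x ^ 2 + C * (max 0 (Real.log x - 4 * Real.log w)) ^ 3 / Real.log x ^ 4 := by
  obtain ⟨C, hC0, hC⟩ := N2_asymp h
  obtain ⟨K, hK0, hK⟩ := N4_upper h
  refine ⟨2 * C + 8 + 2 * K * 10 ^ 10, by positivity, ?_⟩
  intro x w hw hx hx5
  obtain ⟨hx0, hs2, hlw, hlx, hls, hws⟩ := basic hw hx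
  have hw0 : 0 < w := by linarith
  have hA := abs_le.mp (hC x w hw hx hx5)
  set ω := Real.log w with hω
  set V := Real.log x with hV
  have hV5 : V ≤ 5 * ω := by
    have := Real.log_le_log hx0 hx5
    rw [Real.log_pow] at this
    exact_mod_cast this
  have e0 : 2 * Real.log ((V - ω) / ω) / V = 2 * (Real.log ((V - ω) / ω) / V) := by ring
  rw [e0]
  have hR2 : 2 * (((rk 2 x w).card : ℝ) / x) ≤ Rw x w / x := by
    rw [← mul_div_assoc]
    exact div_le_div_of_nonneg_right Rw_ge hx0.le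
  have hx6 : x < w ^ 6 := by
    refine lt_of_le_of_lt hx5 ?_
    exact pow_lt_pow_right₀ (by linarith) (by norm_num)
  have hR1 : Rw x w / x ≤ 2 * (1 / x + ((rk 2 x w).card : ℝ) / x +
      ((rk 4 x w).card : ℝ) / x) := by
    have h3 := div_le_div_of_nonneg_right (Rw_le hw hx0.le hx6) hx0.le
    refine h3.trans (le_of_eq ?_)
    ring
  have hx1 : 1 < x := by nlinarith
  have hinv : 1 / x ≤ 4 / V ^ 2 := inv_le_log_sq hx1
  have hV0 : 0 < V := hlx
  set κ := max 0 (V - 4 * ω) with hκ
  have hκ0 : 0 ≤ κ := le_max_left _ _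
  have hN4 : ((rk 4 x w).card : ℝ) / x ≤ K * 10 ^ 10 / V ^ 2 + K * 10 ^ 10 * κ ^ 3 / V ^ 4 := by
    by_cases hx14 : x < w ^ 4
    · rw [rk_empty hw0.le hx0.le hx14]
      simp only [Finset.card_empty, Nat.cast_zero, zero_div]
      positivity
    · push Not at hx14
      have h3 := hK x w hw hx14
      rw [← hV, ← hω] at h3
      have h4' : 0 ≤ V - 4 * ω := by
        have h5 := Real.log_le_log (by positivity) hx14
        rw [Real.log_pow] at h5
        push_cast at h5
        linarith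
      have hκe : V - 4 * ω = κ := by rw [hκ, max_eq_right h4']
      rw [hκe] at h3
      have h5 : (κ + 19) ^ 3 ≤ 4 * κ ^ 3 + 4 * 19 ^ 3 := by
        nlinarith [mul_nonneg (add_nonneg hκ0 (by norm_num : (0:ℝ) ≤ 19)) (sq_nonneg (κ - 19))]
      have hω4 : 1 / ω ^ 4 ≤ 625 / V ^ 4 := by
        rw [div_le_div_iff₀ (by positivity) (by positivity)]
        have := pow_le_pow_left₀ hV0.le hV5 4
        rw [mul_pow] at this
        linarith
      have hω2 : 1 / V ^ 4 ≤ 3 / V ^ 2 := by
        rw [div_le_div_iff₀ (by positivity) (by positivity)]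
        have hl2 : 0.6931471803 < Real.log 2 := Real.log_two_gt_d9
        have hlw2 : Real.log 2 ≤ ω := Real.log_le_log (by norm_num) hw
        have h6 : 1 ≤ V := by
          have := Real.log_le_log (by positivity) hx
          rw [Real.log_pow] at this
          push_cast at this
          linarith
        have h7 : V ^ 2 * 1 ≤ V ^ 2 * (V ^ 2) := by
          apply mul_le_mul_of_nonneg_left _ (by positivity)
          nlinarith
        nlinarith
      calc ((rk 4 x w).card : ℝ) / x
          ≤ K * x * (κ + 19) ^ 3 / ω ^ 4 / x :=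
            div_le_div_of_nonneg_right h3 hx0.le
        _ = K * (κ + 19) ^ 3 * (1 / ω ^ 4) := by field_simp
        _ ≤ K * (4 * κ ^ 3 + 4 * 19 ^ 3) * (625 / V ^ 4) := by
            apply mul_le_mul _ hω4 (by positivity) (by positivity)
            exact mul_le_mul_of_nonneg_left h5 hK0.le
        _ = K * 2500 * κ ^ 3 / V ^ 4 + K * (4 * 19 ^ 3 * 625) * (1 / V ^ 4) := by ring
        _ ≤ K * 2500 * κ ^ 3 / V ^ 4 + K * (4 * 19 ^ 3 * 625) * (3 / V ^ 2) := by
            have := mul_le_mul_of_nonneg_left hω2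
              (by positivity : 0 ≤ K * (4 * 19 ^ 3 * 625))
            linarith
        _ ≤ K * 10 ^ 10 / V ^ 2 + K * 10 ^ 10 * κ ^ 3 / V ^ 4 := by
            have h8 : K * 2500 * κ ^ 3 / V ^ 4 ≤ K * 10 ^ 10 * κ ^ 3 / V ^ 4 := by
              apply div_le_div_of_nonneg_right _ (by positivity)
              apply mul_le_mul_of_nonneg_right _ (by positivity)
              nlinarith
            have h9 : K * (4 * 19 ^ 3 * 625) * (3 / V ^ 2) ≤ K * 10 ^ 10 / V ^ 2 := by
              have e : K * (4 * 19 ^ 3 * 625) * (3 / V ^ 2) =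
                  K * (4 * 19 ^ 3 * 625 * 3) / V ^ 2 := by ring
              rw [e]
              apply div_le_div_of_nonneg_right _ (by positivity)
              apply mul_le_mul_of_nonneg_left _ hK0.le
              norm_num
            linarith
  constructor
  · have e1 : C / V ^ 2 * 2 ≤ (2 * C + 8 + 2 * K * 10 ^ 10) / V ^ 2 := by
      rw [div_mul_eq_mul_div]
      apply div_le_div_of_nonneg_right _ (by positivity)
      nlinarith
    linarith [hA.1, hA.2]
  · have e1 : (2 * C + 8 + 2 * K * 10 ^ 10) / V ^ 2 =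
        2 * (C / V ^ 2) + 2 * (4 / V ^ 2) + 2 * (K * 10 ^ 10 / V ^ 2) := by ring
    have e2 : 2 * (K * 10 ^ 10 * κ ^ 3 / V ^ 4) ≤
        (2 * C + 8 + 2 * K * 10 ^ 10) * κ ^ 3 / V ^ 4 := by
      rw [← mul_div_assoc]
      apply div_le_div_of_nonneg_right _ (by positivity)
      have : 0 ≤ κ ^ 3 := by positivity
      nlinarith
    rw [e1]
    linarith [hA.1, hA.2]

end Crest.Agent.R001.F1
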