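import Mathlib
import Crest.Agent.R001.TreeDefs
import Crest.Agent.R001.F1F
import Crest.Agent.SW.Princ

/-!
# R1, block PAR: the parity model on the Rosser tree

`Am M`, `Sm M` : the pair `(A, S)` of the weighted set `{m ≤ M}`, weight `1 + λ(m)`.
-/

namespace Crest.Agent.R001.Par

open Finset Classical ArithmeticFunction
open Crest.Agent.R001.Tree
open Crest.Agent.SW (lam lam_mul lam_apply abs_lam_le abs_lam lam_one Lsum Lsum_bound Lsum_trivial)
open Crest.Agent.R001.F1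

/-- the weight `1 + λ` -/
noncomputable def wt (m : ℕ) : ℝ := 1 + lam m

/-- the set `{1, …, ⌊M⌋}` -/
noncomputable def Om (M : ℝ) : Finset ℕ := Icc 1 ⌊M⌋₊

/-- weight of the multiples of `d` -/
noncomputable def Am (M : ℝ) (d : ℕ) : ℝ := Aw (Om M) (fun t : ℕ => (t : ℤ)) wt d

/-- weight of the multiples of `d` without prime factor `< w` -/
noncomputable def Sm (M : ℝ) (d w : ℕ) : ℝ := Sw (Om M) (fun t : ℕ => (t : ℤ)) wt d w

lemma wt_nonneg (m : ℕ) : 0 ≤ wt m := by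
  have := abs_le.mp (abs_lam_le m)
  unfold wt
  linarith [this.1]

theorem buch_m (M : ℝ) : Buch (Am M) (Sm M) := buch_w _ _ _

lemma Sm_nonneg (M : ℝ) (d w : ℕ) : 0 ≤ Sm M d w := Sw_nonneg _ _ _ (fun t _ => wt_nonneg t) d w

lemma lam_prime {p : ℕ} (hp : p.Prime) : lam p = -1 := by
  rw [lam_apply hp.ne_zero, cardFactors_apply_prime hp, pow_one]

/-- every node has `λ(d) = 1` -/
lemma Node_lam {stop : ℕ → ℕ → Prop} {d0 w0 d w : ℕ} (h0 : lam d0 = 1)
    (h : Node stop d0 w0 d w) : lam d = 1 := by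
  induction h with
  | root => exact h0
  | step _ hp hq _ ih =>
    rw [lam_mul, lam_mul, ih, lam_prime (prime_of_mem_pr hp), lam_prime (prime_of_mem_pr hq)]
    norm_num

lemma Leaf_lam {stop : ℕ → ℕ → Prop} {d0 w0 d w : ℕ} (h0 : lam d0 = 1)
    (h : Leaf stop d0 w0 d w) : lam d = 1 := by
  obtain ⟨d1, w1, p, hn, hp, hq, hd, _⟩ := h
  rw [hd, lam_mul, lam_mul, Node_lam h0 hn, lam_prime (prime_of_mem_pr hp),
    lam_prime (prime_of_mem_pr hq)]
  norm_num

lemma Leaf_pos {stop : ℕ → ℕ → Prop} {d0 w0 d w : ℕ} (h0 : 0 < d0)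
    (h : Leaf stop d0 w0 d w) : 0 < d := by
  obtain ⟨d1, w1, p, hn, hp, hq, hd, _⟩ := h
  rw [hd]
  exact Nat.mul_pos (Nat.mul_pos (hn.pos h0) (prime_of_mem_pr hp).pos) (prime_of_mem_pr hq).pos

lemma Leaf_rgh {stop : ℕ → ℕ → Prop} {d0 w0 d w : ℕ} (h0 : Rgh d0 w0)
    (h : Leaf stop d0 w0 d w) : Rgh d w := by
  obtain ⟨d1, w1, p, hn, hp, hq, hd, _⟩ := h
  rw [hd]
  exact (hn.rgh h0).child hp hq

lemma Leaf_two {stop : ℕ → ℕ → Prop} {d0 w0 d w : ℕ}
    (h : Leaf stop d0 w0 d w) : 2 ≤ w := by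
  obtain ⟨d1, w1, p, hn, hp, hq, hd, _⟩ := h
  exact (prime_of_mem_pr hq).two_le

/-- sum over the multiples of `d` up to `M` -/
lemma sum_mult (M : ℝ) {d : ℕ} (hd : 0 < d) (g : ℕ → ℝ) (P : ℕ → Prop) :
    ∑ t ∈ (Om M).filter (fun t : ℕ => (d : ℤ) ∣ (t : ℤ) ∧ P t), g t =
      ∑ m ∈ (Om (M / d)).filter (fun m => P (d * m)), g (d * m) := by
  have hfl : ⌊M / (d : ℝ)⌋₊ = ⌊M⌋₊ / d := Nat.floor_div_natCast M d
  symm
  apply Finset.sum_bij (fun m _ => d * m)
  · intro m hm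
    simp only [Om, Finset.mem_filter, Finset.mem_Icc, hfl] at hm ⊢
    obtain ⟨⟨h1, h2⟩, h3⟩ := hm
    refine ⟨⟨Nat.mul_pos hd h1, ?_⟩, ?_, h3⟩
    · calc d * m ≤ d * (⌊M⌋₊ / d) := Nat.mul_le_mul_left d h2
        _ ≤ ⌊M⌋₊ := Nat.mul_div_le _ _
    · exact_mod_cast Nat.dvd_mul_right d m
  · intro m1 _ m2 _ h
    exact Nat.eq_of_mul_eq_mul_left hd h
  · intro t ht
    simp only [Om, Finset.mem_filter, Finset.mem_Icc] at ht
    obtain ⟨⟨h1, h2⟩, h3, h4⟩ := ht
    obtain ⟨m, rfl⟩ := Int.natCast_dvd_natCast.mp h3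
    refine ⟨m, ?_, rfl⟩
    simp only [Om, Finset.mem_filter, Finset.mem_Icc, hfl]
    refine ⟨⟨?_, ?_⟩, h4⟩
    · rcases Nat.eq_zero_or_pos m with h | h
      · subst h; simp at h1
      · exact h
    · rw [Nat.le_div_iff_mul_le hd, mul_comm]; exact h2
  · intro m _; rfl

lemma Am_eq (M : ℝ) {d : ℕ} (hd : 0 < d) :
    Am M d = (⌊M / d⌋₊ : ℝ) + lam d * Lsum (M / d) := by
  unfold Am Aw
  have h := sum_mult M hd wt (fun _ => True)
  simp only [and_true, Finset.filter_true] at h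
  rw [h]
  unfold wt Lsum Om
  rw [Finset.sum_add_distrib, Finset.mul_sum]
  congr 1
  · simp
  · exact Finset.sum_congr rfl (fun m _ => lam_mul d m)

lemma abs_Am_sub_le {M : ℝ} (hM : 0 < M) {d : ℕ} (hd : 0 < d) :
    |Am M d / M - 1 / d| ≤ (1 + |Lsum (M / d)|) / M := by
  have hd0 : (0 : ℝ) < d := by exact_mod_cast hd
  have e : Am M d / M - 1 / d = (((⌊M / d⌋₊ : ℝ) - M / d) + lam d * Lsum (M / d)) / M := by
    rw [Am_eq M hd]
    field_simp
    ring
  rw [e, abs_div, abs_of_pos hM]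
  apply div_le_div_of_nonneg_right _ hM.le
  refine (abs_add_le _ _).trans ?_
  have h1 : |(⌊M / d⌋₊ : ℝ) - M / d| ≤ 1 := by
    rw [abs_le]
    have h2 := Nat.floor_le (show 0 ≤ M / (d : ℝ) by positivity)
    have h3 := (Nat.lt_floor_add_one (M / (d : ℝ))).le
    constructor <;> linarith
  have h2 : |lam d * Lsum (M / d)| ≤ |Lsum (M / d)| := by
    rw [abs_mul, abs_lam hd.ne', one_mul]
  linarith

/-- on even rough states the sieved weight is `Rw` -/
lemma Sm_eq (M : ℝ) (hM : 0 ≤ M) {d w : ℕ} (hd : 0 < d) (hr : Rgh d w) (hl : lam d = 1) :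
    Sm M d w = Rw (M / d) w := by
  unfold Sm Sw
  rw [sum_mult M hd wt (fun t => ∀ p : ℕ, p.Prime → p < w → ¬ (p : ℤ) ∣ (t : ℤ))]
  have hMd : 0 ≤ M / (d : ℝ) := by positivity
  have hset : (Om (M / d)).filter
      (fun m => ∀ p : ℕ, p.Prime → p < w → ¬ (p : ℤ) ∣ ((d * m : ℕ) : ℤ)) =
      roughN (M / d) w := by
    ext m
    rw [mem_roughN hMd]
    simp only [Om, Finset.mem_filter, Finset.mem_Icc, Nat.le_floor_iff hMd]
    constructor
    · rintro ⟨⟨h1, h2⟩, h3⟩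
      refine ⟨h1, h2, ?_⟩
      intro p hp hpm
      by_contra hlt
      push Not at hlt
      have hlt' : p < w := by exact_mod_cast hlt
      exact h3 p hp hlt' (Int.natCast_dvd_natCast.mpr (dvd_mul_of_dvd_right hpm d))
    · rintro ⟨h1, h2, h3⟩
      refine ⟨⟨h1, h2⟩, ?_⟩
      intro p hp hpw hdvd
      rcases hp.dvd_mul.mp (Int.natCast_dvd_natCast.mp hdvd) with h | h
      · exact hr p hp hpw h
      · have := h3 p hp h
        have h4 : (p : ℝ) < w := by exact_mod_cast hpw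
        linarith
  rw [hset]
  unfold Rw
  rw [Finset.card_filter]
  push_cast
  rw [Finset.mul_sum]
  apply Finset.sum_congr rfl
  intro m hm
  rw [mem_roughN hMd] at hm
  have hm0 : m ≠ 0 := by omega
  unfold wt
  rw [lam_mul, hl, one_mul, lam_apply hm0]
  split_ifs with h
  · rw [h.neg_one_pow]; norm_num
  · rw [Nat.not_even_iff_odd] at h
    rw [h.neg_one_pow]; norm_num

lemma Sm_one (M : ℝ) (hM : 0 ≤ M) (w : ℕ) : Sm M 1 w = Rw M w := by
  have := Sm_eq M hM (d := 1) (w := w) one_pos (rgh_one w) lam_one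
  simpa using this

lemma Sm_node (M : ℝ) (hM : 0 ≤ M) {stop : ℕ → ℕ → Prop} {w0 d w : ℕ}
    (h : Node stop 1 w0 d w) : Sm M d w = Rw (M / d) w :=
  Sm_eq M hM (h.pos one_pos) (h.rgh (rgh_one w0)) (Node_lam lam_one h)

lemma Sm_leaf (M : ℝ) (hM : 0 ≤ M) {stop : ℕ → ℕ → Prop} {w0 d w : ℕ}
    (h : Leaf stop 1 w0 d w) : Sm M d w = Rw (M / d) w :=
  Sm_eq M hM (Leaf_pos one_pos h) (Leaf_rgh (rgh_one w0) h) (Leaf_lam lam_one h)

lemma Rw_nonneg (x w : ℝ) : 0 ≤ Rw x w := by unfold Rw; positivity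

lemma Rw_of_lt_one {x w : ℝ} (hx : x < 1) : Rw x w = 0 := by
  unfold Rw roughN
  have : ⌊x⌋₊ = 0 := Nat.floor_eq_zero.mpr hx
  rw [this]
  simp

/-- below `w²` only `1` and `w²` count -/
lemma Rw_le_four {x w : ℝ} (hw : 2 ≤ w) (hx0 : 0 ≤ x) (hx : x ≤ w ^ 2) : Rw x w ≤ 4 := by
  unfold Rw
  have hsub : (roughN x w).filter (fun m => Even (cardFactors m)) ⊆ {1, ⌊w ^ 2⌋₊} := by
    intro m hm
    rw [Finset.mem_filter, mem_roughN hx0] at hm
    obtain ⟨⟨h1, h2, h3⟩, h4⟩ := hm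
    rw [Finset.mem_insert, Finset.mem_singleton]
    by_cases hm1 : m = 1
    · left; exact hm1
    · right
      have hpos : cardFactors m ≠ 0 := by
        intro h0
        rcases cardFactors_eq_zero_iff_eq_zero_or_one.mp h0 with h | h
        · omega
        · exact hm1 h
      have h5 : 2 ≤ cardFactors m := by
        obtain ⟨k, hk⟩ := h4
        omega
      have h6 := pow_le_of_rough (by linarith) h1 h3
      have h7 : w ^ 2 ≤ w ^ (cardFactors m) := pow_le_pow_right₀ (by linarith) h5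
      have h8 : (m : ℝ) = w ^ 2 := le_antisymm (h2.trans hx) (h7.trans h6)
      rw [← h8, Nat.floor_natCast]
  have h1 := Finset.card_le_card hsub
  have h2 : ((roughN x w).filter (fun m => Even (cardFactors m))).card ≤ 2 :=
    h1.trans (Finset.card_le_two)
  have h3 : ((((roughN x w).filter (fun m => Even (cardFactors m))).card : ℕ) : ℝ) ≤ 2 := by
    exact_mod_cast h2
  linarith

/-- BOUNDARY: stopped states of the Rosser rule at level `≥ M` -/
lemma Sm_boundary {M : ℝ} (hM : 0 ≤ M) {stop : ℕ → ℕ → Prop} {w0 d w : ℕ}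
    (h : Leaf stop 1 w0 d w) (hb : M ≤ d * w ^ 2) :
    Sm M d w ≤ if (d : ℝ) ≤ M then 4 else 0 := by
  have hd : 0 < d := Leaf_pos one_pos h
  have hd0 : (0 : ℝ) < d := by exact_mod_cast hd
  rw [Sm_leaf M hM h]
  split_ifs with h1
  · apply Rw_le_four
    · exact_mod_cast Leaf_two h
    · positivity
    · rw [div_le_iff₀ hd0]; linarith
  · push Not at h1
    rw [Rw_of_lt_one ((div_lt_one hd0).mpr h1)]

/-! ### the error terms -/

/-- the error function -/
noncomputable def errF (M : ℝ) (d w : ℕ) : ℝ :=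
  (1 + |Lsum (M / d)|) / M + ∑ p ∈ pr w, (1 + |Lsum (M / ((d * p : ℕ) : ℝ))|) / M

/-- the reciprocal function -/
noncomputable def rec (d : ℕ) : ℝ := 1 / (d : ℝ)

lemma errF_nonneg {M : ℝ} (hM : 0 < M) (d w : ℕ) : 0 ≤ errF M d w := by
  unfold errF
  apply add_nonneg (by positivity)
  exact Finset.sum_nonneg (fun p _ => by positivity)

lemma abs_intF_sub_le {M : ℝ} (hM : 0 < M) {d w : ℕ} (hd : 0 < d) :
    |intF (Am M) d w / M - intF rec d w| ≤ errF M d w := by
  unfold intF errF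
  have e : (Am M d - ∑ p ∈ pr w, Am M (d * p)) / M - (rec d - ∑ p ∈ pr w, rec (d * p)) =
      (Am M d / M - rec d) - ∑ p ∈ pr w, (Am M (d * p) / M - rec (d * p)) := by
    rw [Finset.sum_sub_distrib, sub_div, Finset.sum_div]
    ring
  rw [e]
  refine (abs_sub _ _).trans (add_le_add ?_ ?_)
  · exact abs_Am_sub_le hM hd
  · refine (Finset.abs_sum_le_sum_abs _ _).trans (Finset.sum_le_sum ?_)
    intro p hp
    exact abs_Am_sub_le hM (Nat.mul_pos hd (prime_of_mem_pr hp).pos)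

/-- IDENTITY at level `M`, for every stopping rule. -/
theorem identity_m {M : ℝ} (hM : 0 < M) (stop : ℕ → ℕ → Prop) (w0 : ℕ) :
    |T stop (intF rec) (fun d w => Rw (M / d) w / M) 1 w0 - Rw M w0 / M| ≤
      T stop (errF M) (fun _ _ => 0) 1 w0 := by
  have h1 := identity (buch_m M) stop (rgh_one w0)
  rw [Sm_one M hM.le] at h1
  have h2 : Rw M w0 / M = T stop (fun d w => intF (Am M) d w / M)
      (fun d w => Sm M d w / M) 1 w0 := by
    rw [h1]
    have := T_smul stop (1 / M) (intF (Am M)) (Sm M) 1 w0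
    rw [div_eq_mul_one_div, mul_comm, ← this]
    congr 1 <;> (funext a b; ring)
  have h3 : T stop (fun d w => intF (Am M) d w / M) (fun d w => Sm M d w / M) 1 w0 =
      T stop (fun d w => intF (Am M) d w / M) (fun d w => Rw (M / d) w / M) 1 w0 := by
    apply T_congr
    · intro d w _; rfl
    · intro d w h
      rw [Sm_leaf M hM.le h]
  rw [h2, h3, ← T_sub]
  apply abs_T_le
  · intro d w h
    rw [abs_sub_comm]
    exact abs_intF_sub_le hM (h.pos one_pos)
  · intro d w _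
    simp

end Crest.Agent.R001.Par
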