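import Mathlib
import Crest.Agent.R001.Par
import Crest.Agent.R001.TreeSize
import Crest.Agent.SW.PsiAP301
import Crest.Agent.SW.PNT774

/-!
# R1, block PAR, part 2: size of the error terms, and the formula for `ρ`

* `errF_le` : `errF M d w ≤ C / (d (log (M/d))^A)`;
* `rho_formula` : main term of the Rosser sieve of level `D`, `w² ≤ D ≤ w⁵`.
-/

namespace Crest.Agent.R001.Par

open Finset Classical ArithmeticFunction
open Crest.Agent.R001.Tree
open Crest.Agent.SW (lam lam_mul lam_apply abs_lam_le abs_lam lam_one Lsum Lsum_bound Lsum_trivial)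
open Crest.Agent.R001.F1

lemma sum_pr_inv_le (w : ℕ) (hw : 1 ≤ w) :
    ∑ p ∈ Tree.pr w, 1 / (p : ℝ) ≤ 1 + Real.log w := by
  have h1 : ∑ p ∈ Tree.pr w, 1 / (p : ℝ) ≤ ∑ i ∈ range (w - 1), ((i + 1 : ℕ) : ℝ)⁻¹ := by
    have h2 : ∑ i ∈ range (w - 1), ((i + 1 : ℕ) : ℝ)⁻¹ =
        ∑ p ∈ (range (w - 1)).image (fun i => i + 1), ((p : ℕ) : ℝ)⁻¹ := by
      rw [Finset.sum_image]
      intro a _ b _ h
      simpa using h
    rw [h2]
    simp only [one_div]
    apply Finset.sum_le_sum_of_subset_of_nonneg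
    · intro p hp
      rw [Tree.mem_pr] at hp
      rw [Finset.mem_image]
      refine ⟨p - 1, ?_, ?_⟩
      · rw [Finset.mem_range]; have := hp.2.two_le; omega
      · have := hp.2.two_le; omega
    · intro i _ _
      positivity
  refine h1.trans ?_
  have h3 := harmonic_le_one_add_log (w - 1)
  have h4 : ((harmonic (w - 1) : ℚ) : ℝ) = ∑ i ∈ range (w - 1), ((i + 1 : ℕ) : ℝ)⁻¹ := by
    unfold harmonic
    push_cast
    rfl
  rw [← h4]
  refine h3.trans ?_
  have h5 : Real.log ((w - 1 : ℕ) : ℝ) ≤ Real.log w := by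
    rcases Nat.eq_zero_or_pos (w - 1) with h | h
    · rw [h]
      simp only [Nat.cast_zero, Real.log_zero]
      exact Real.log_nonneg (by exact_mod_cast hw)
    · apply Real.log_le_log (by exact_mod_cast h)
      exact_mod_cast Nat.sub_le w 1
  linarith

/-- size of the error terms -/
theorem errF_le (A : ℝ) : ∃ C : ℝ, 0 < C ∧ ∀ (M : ℝ) (d w : ℕ), 0 < d → 2 ≤ w →
    (d : ℝ) * (w : ℝ) ^ 2 ≤ M → errF M d w ≤ C / ((d : ℝ) * (Real.log (M / d)) ^ A) := by
  obtain ⟨C₀, hC₀⟩ := Lsum_bound (|A| + 1)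
  obtain ⟨C₁, hC₁0, hC₁⟩ := Crest.Agent.SW.AP301.log_rpow_le (|A| + 1)
  set B := |A| + 1 with hB
  have hB1 : 1 ≤ B := by have := abs_nonneg A; linarith
  have hAB : A ≤ B - 1 := by have := le_abs_self A; linarith
  refine ⟨2 * (C₁ * 2 ^ B) + 5 * (|C₀| * 2 ^ B), by positivity, ?_⟩
  intro M d w hd hw hM
  have hd0 : (0 : ℝ) < d := by exact_mod_cast hd
  have hw2 : (2 : ℝ) ≤ w := by exact_mod_cast hw
  obtain ⟨x, hx⟩ : ∃ x, x = M / d := ⟨_, rfl⟩
  have hxw : (w : ℝ) ^ 2 ≤ x := by rw [hx, le_div_iff₀ hd0]; linarith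
  have hx4 : 4 ≤ x := by nlinarith
  have hx0 : 0 < x := by linarith
  have hMx : M = d * x := by rw [hx]; field_simp
  have hM0 : 0 < M := by rw [hMx]; positivity
  have hlx1 : 1 ≤ Real.log x := by
    have h1 : Real.log 4 ≤ Real.log x := Real.log_le_log (by norm_num) hx4
    have h2 : Real.log 4 = 2 * Real.log 2 := by
      have : (4 : ℝ) = 2 ^ 2 := by norm_num
      rw [this, Real.log_pow]; push_cast; ring
    have h3 : 0.6931471803 < Real.log 2 := Real.log_two_gt_d9
    linarith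
  have hlx0 : 0 < Real.log x := by linarith
  have hs0 : 0 < Real.sqrt x := Real.sqrt_pos.mpr hx0
  have hs2 : 2 ≤ Real.sqrt x := by
    apply Real.le_sqrt_of_sq_le; linarith
  have hws : (w : ℝ) ≤ Real.sqrt x := Real.le_sqrt_of_sq_le hxw
  have hls : Real.log (Real.sqrt x) = Real.log x / 2 := Real.log_sqrt hx0.le
  have hLB : 0 < (Real.log x) ^ B := Real.rpow_pos_of_pos hlx0 B
  have hLA : 0 < (Real.log x) ^ A := Real.rpow_pos_of_pos hlx0 A
  -- `(log x)^A ≤ (log x)^(B-1) ≤ (log x)^B`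
  have hAB' : (Real.log x) ^ A * Real.log x ≤ (Real.log x) ^ B := by
    have h1 : (Real.log x) ^ A ≤ (Real.log x) ^ (B - 1) :=
      Real.rpow_le_rpow_of_exponent_le hlx1 hAB
    have h2 : (Real.log x) ^ B = (Real.log x) ^ (B - 1) * Real.log x := by
      rw [← Real.rpow_add_one hlx0.ne']; congr 1; ring
    rw [h2]
    exact mul_le_mul_of_nonneg_right h1 hlx0.le
  have hinvB : 1 / (Real.log x) ^ B ≤ 1 / (Real.log x) ^ A / Real.log x := by
    rw [div_div]
    exact one_div_le_one_div_of_le (by positivity) hAB'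
  have hinvB' : 1 / (Real.log x) ^ B ≤ 1 / (Real.log x) ^ A := by
    refine hinvB.trans ?_
    apply div_le_self (by positivity) hlx1
  -- sqrt bound
  have hsB : 1 / Real.sqrt x ≤ C₁ * 2 ^ B / (Real.log x) ^ B := by
    have h1 := hC₁ (Real.sqrt x) hs2
    rw [hls, Real.div_rpow hlx0.le (by norm_num)] at h1
    rw [div_le_div_iff₀ hs0 hLB]
    rw [div_le_iff₀ (by positivity)] at h1
    linarith
  have hxs : 1 / x ≤ 1 / Real.sqrt x := by
    apply one_div_le_one_div_of_le hs0
    rw [Real.sqrt_le_left hx0.le]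
    nlinarith
  have h2B : (1 : ℝ) ≤ 2 ^ B := Real.one_le_rpow (by norm_num) (by linarith)
  -- first term
  have hT1 : (1 + |Lsum (M / d)|) / M ≤
      1 / d * (C₁ * 2 ^ B / (Real.log x) ^ B + |C₀| * 2 ^ B / (Real.log x) ^ B) := by
    rw [← hx]
    have h1 := hC₀ x (by linarith)
    have h2 : |Lsum x| ≤ |C₀| * 2 ^ B * x / (Real.log x) ^ B := by
      refine h1.trans ?_
      apply div_le_div_of_nonneg_right _ hLB.le
      apply mul_le_mul_of_nonneg_right _ hx0.le
      have := le_abs_self C₀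
      nlinarith [abs_nonneg C₀]
    calc (1 + |Lsum x|) / M ≤ (1 + |C₀| * 2 ^ B * x / (Real.log x) ^ B) / M := by
          apply div_le_div_of_nonneg_right _ hM0.le
          linarith
      _ = 1 / d * (1 / x + |C₀| * 2 ^ B / (Real.log x) ^ B) := by
          rw [hMx]; field_simp
      _ ≤ _ := by
          apply mul_le_mul_of_nonneg_left _ (by positivity)
          linarith
  -- second term
  have hT2 : ∑ p ∈ Tree.pr w, (1 + |Lsum (M / ((d * p : ℕ) : ℝ))|) / M ≤
      1 / d * (C₁ * 2 ^ B / (Real.log x) ^ B +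
        |C₀| * 2 ^ B / (Real.log x) ^ B * (2 * Real.log x)) := by
    have hterm : ∀ p ∈ Tree.pr w, (1 + |Lsum (M / ((d * p : ℕ) : ℝ))|) / M ≤
        1 / d * (1 / x + |C₀| * 2 ^ B / (Real.log x) ^ B * (1 / p)) := by
      intro p hp
      rw [Tree.mem_pr] at hp
      have hp0 : (0 : ℝ) < p := by exact_mod_cast hp.2.pos
      have hpw : (p : ℝ) ≤ w := by exact_mod_cast hp.1.le
      have e1 : M / ((d * p : ℕ) : ℝ) = x / p := by
        push_cast; rw [hMx]; field_simp
      rw [e1]
      have hxp : Real.sqrt x ≤ x / p := by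
        rw [le_div_iff₀ hp0]
        calc Real.sqrt x * p ≤ Real.sqrt x * Real.sqrt x :=
              mul_le_mul_of_nonneg_left (hpw.trans hws) hs0.le
          _ = x := Real.mul_self_sqrt hx0.le
      have hxp2 : 2 ≤ x / p := hs2.trans hxp
      have h1 := hC₀ (x / p) hxp2
      have h3 : (Real.log x / 2) ^ B ≤ (Real.log (x / p)) ^ B := by
        apply Real.rpow_le_rpow (by positivity) _ (by linarith)
        rw [← hls]
        exact Real.log_le_log hs0 hxp
      have h2 : |Lsum (x / p)| ≤ |C₀| * 2 ^ B * (x / p) / (Real.log x) ^ B := by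
        refine h1.trans ?_
        calc C₀ * (x / p) / (Real.log (x / p)) ^ B
            ≤ |C₀| * (x / p) / (Real.log (x / p)) ^ B := by
              apply div_le_div_of_nonneg_right _
                (Real.rpow_nonneg (Real.log_nonneg (by linarith)) B)
              exact mul_le_mul_of_nonneg_right (le_abs_self C₀) (by positivity)
          _ ≤ |C₀| * (x / p) / (Real.log x / 2) ^ B := by
              apply div_le_div_of_nonneg_left (by positivity) (by positivity) h3
          _ = |C₀| * 2 ^ B * (x / p) / (Real.log x) ^ B := by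
              rw [Real.div_rpow hlx0.le (by norm_num)]
              field_simp
      calc (1 + |Lsum (x / p)|) / M ≤ (1 + |C₀| * 2 ^ B * (x / p) / (Real.log x) ^ B) / M := by
            apply div_le_div_of_nonneg_right _ hM0.le
            linarith
        _ = 1 / d * (1 / x + |C₀| * 2 ^ B / (Real.log x) ^ B * (1 / p)) := by
            rw [hMx]; field_simp
    refine (Finset.sum_le_sum hterm).trans ?_
    rw [← Finset.mul_sum, Finset.sum_add_distrib, ← Finset.mul_sum, Finset.sum_const,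
      nsmul_eq_mul]
    apply mul_le_mul_of_nonneg_left _ (by positivity)
    have hcard : ((Tree.pr w).card : ℝ) ≤ w := by
      have : (Tree.pr w).card ≤ w := by
        unfold Tree.pr
        exact (Finset.card_filter_le _ _).trans (by simp)
      exact_mod_cast this
    have h1 : ((Tree.pr w).card : ℝ) * (1 / x) ≤ 1 / Real.sqrt x := by
      calc ((Tree.pr w).card : ℝ) * (1 / x) ≤ Real.sqrt x * (1 / x) := by
            apply mul_le_mul_of_nonneg_right (hcard.trans hws) (by positivity)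
        _ = 1 / Real.sqrt x := by
            have : x = Real.sqrt x * Real.sqrt x := (Real.mul_self_sqrt hx0.le).symm
            field_simp
            rw [sq]
            exact this.symm
    have h2 : ∑ p ∈ Tree.pr w, 1 / (p : ℝ) ≤ 2 * Real.log x := by
      refine (sum_pr_inv_le w (by omega)).trans ?_
      have h3 : Real.log w ≤ Real.log x / 2 := by
        rw [← hls]; exact Real.log_le_log (by linarith) hws
      linarith
    have h4 : |C₀| * 2 ^ B / (Real.log x) ^ B * ∑ p ∈ Tree.pr w, 1 / (p : ℝ) ≤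
        |C₀| * 2 ^ B / (Real.log x) ^ B * (2 * Real.log x) :=
      mul_le_mul_of_nonneg_left h2 (by positivity)
    linarith
  unfold errF
  refine (add_le_add hT1 hT2).trans ?_
  rw [← hx, ← mul_add]
  have e : (2 * (C₁ * 2 ^ B) + 5 * (|C₀| * 2 ^ B)) / ((d : ℝ) * (Real.log x) ^ A) =
      1 / d * ((2 * (C₁ * 2 ^ B) + 5 * (|C₀| * 2 ^ B)) * (1 / (Real.log x) ^ A)) := by
    field_simp
  rw [e]
  apply mul_le_mul_of_nonneg_left _ (by positivity)
  have h1 : C₁ * 2 ^ B / (Real.log x) ^ B ≤ C₁ * 2 ^ B * (1 / (Real.log x) ^ A) := by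
    rw [div_eq_mul_one_div]
    exact mul_le_mul_of_nonneg_left hinvB' (by positivity)
  have h2 : |C₀| * 2 ^ B / (Real.log x) ^ B ≤ |C₀| * 2 ^ B * (1 / (Real.log x) ^ A) := by
    rw [div_eq_mul_one_div]
    exact mul_le_mul_of_nonneg_left hinvB' (by positivity)
  have h3 : |C₀| * 2 ^ B / (Real.log x) ^ B * (2 * Real.log x) ≤
      2 * (|C₀| * 2 ^ B * (1 / (Real.log x) ^ A)) := by
    calc |C₀| * 2 ^ B / (Real.log x) ^ B * (2 * Real.log x)
        = |C₀| * 2 ^ B * (1 / (Real.log x) ^ B) * (2 * Real.log x) := by ring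
      _ ≤ |C₀| * 2 ^ B * (1 / (Real.log x) ^ A / Real.log x) * (2 * Real.log x) := by
          apply mul_le_mul_of_nonneg_right _ (by positivity)
          exact mul_le_mul_of_nonneg_left hinvB (by positivity)
      _ = 2 * (|C₀| * 2 ^ B * (1 / (Real.log x) ^ A)) := by field_simp
  have h4 : 0 ≤ |C₀| * 2 ^ B * (1 / (Real.log x) ^ A) := by positivity
  linarith

/-- main term of the Rosser sieve of level `D` for the primes `< w` (density `1`) -/
noncomputable def rho (D : ℝ) (w : ℕ) : ℝ := T (bd D) (intF rec) (fun _ _ => 0) 1 w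

/-- mass hypothesis -/
def MassH (A : ℝ) : Prop := ∃ C : ℝ, ∀ (D : ℝ) (w : ℕ), 2 ≤ w → (w : ℝ) ^ 2 ≤ D →
  T (bd D) (fun d _ => 1 / ((d : ℝ) * (Real.log (D / d)) ^ A)) (fun _ _ => 0) 1 w ≤
    C / Real.log D ^ 2

/-- boundary hypothesis -/
def BdH : Prop := ∃ C : ℝ, ∀ (D : ℝ) (w : ℕ), 2 ≤ w → (w : ℝ) ^ 2 ≤ D →
  T (bd D) (fun _ _ => 0) (fun b _ => if (b : ℝ) ≤ D then 1 / D else 0) 1 w ≤
    C / Real.log D ^ 2

/-- `ρ` and `Rw` -/
theorem rho_sub_Rw {A : ℝ} (hm : MassH A) (hb : BdH) : ∃ C : ℝ, 0 < C ∧ ∀ (D : ℝ) (w : ℕ),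
    2 ≤ w → (w : ℝ) ^ 2 ≤ D → |rho D w - Rw D w / D| ≤ C / Real.log D ^ 2 := by
  obtain ⟨Ce, hCe0, hCe⟩ := errF_le A
  obtain ⟨Cm, hCm⟩ := hm
  obtain ⟨Cb, hCb⟩ := hb
  refine ⟨Ce * |Cm| + 4 * |Cb| + 1, by positivity, ?_⟩
  intro D w hw hD
  have hw2 : (2 : ℝ) ≤ w := by exact_mod_cast hw
  have hD4 : 4 ≤ D := by nlinarith
  have hD0 : 0 < D := by linarith
  have hlD : 0 < Real.log D := Real.log_pos (by linarith)
  have hid := identity_m hD0 (bd D) w
  rw [T_split] at hid
  -- error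
  have h1 : T (bd D) (errF D) (fun _ _ => 0) 1 w ≤ Ce * |Cm| / Real.log D ^ 2 := by
    calc T (bd D) (errF D) (fun _ _ => 0) 1 w
        ≤ T (bd D) (fun d _ => Ce * (1 / ((d : ℝ) * (Real.log (D / d)) ^ A)))
            (fun _ _ => Ce * 0) 1 w := by
          apply T_mono
          · intro d w' h
            have hd : 0 < d := h.pos one_pos
            have hbnd : 2 ≤ w' ∧ (d : ℝ) * (w' : ℝ) ^ 2 ≤ D := by
              cases h with
              | root => exact ⟨hw, by simpa using hD⟩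
              | step _ hp hq hs =>
                exact ⟨(Tree.prime_of_mem_pr hq).two_le, (not_bd.mp hs).le⟩
            have := hCe D d w' hd hbnd.1 hbnd.2
            rw [mul_one_div]
            exact this
          · intro d w' _
            simp
      _ = Ce * T (bd D) (fun d _ => 1 / ((d : ℝ) * (Real.log (D / d)) ^ A))
            (fun _ _ => 0) 1 w :=
          T_smul (bd D) Ce (fun d _ => 1 / ((d : ℝ) * (Real.log (D / d)) ^ A)) (fun _ _ => 0) 1 w
      _ ≤ Ce * (|Cm| / Real.log D ^ 2) := by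
          apply mul_le_mul_of_nonneg_left _ hCe0.le
          refine (hCm D w hw hD).trans ?_
          exact div_le_div_of_nonneg_right (le_abs_self Cm) (by positivity)
      _ = Ce * |Cm| / Real.log D ^ 2 := by ring
  -- boundary
  have h2 : T (bd D) (fun _ _ => 0) (fun d w' => Rw (D / d) w' / D) 1 w ≤
      4 * |Cb| / Real.log D ^ 2 := by
    calc T (bd D) (fun _ _ => 0) (fun d w' => Rw (D / d) w' / D) 1 w
        ≤ T (bd D) (fun _ _ => 4 * 0) (fun b _ => 4 * (if (b : ℝ) ≤ D then 1 / D else 0)) 1 w := by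
          apply T_mono
          · intro d w' _
            simp
          · intro d w' h
            have hb' : D ≤ (d : ℝ) * (w' : ℝ) ^ 2 := by
              obtain ⟨_, _, _, _, _, _, _, hs⟩ := h
              exact hs
            have h3 := Sm_boundary hD0.le h hb'
            rw [Sm_leaf D hD0.le h] at h3
            have h4 := div_le_div_of_nonneg_right h3 hD0.le
            refine h4.trans (le_of_eq ?_)
            split_ifs
            · ring
            · simp
      _ = 4 * T (bd D) (fun _ _ => 0) (fun b _ => if (b : ℝ) ≤ D then 1 / D else 0) 1 w :=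
          T_smul (bd D) 4 (fun _ _ => 0) (fun b _ => if (b : ℝ) ≤ D then 1 / D else 0) 1 w
      _ ≤ 4 * (|Cb| / Real.log D ^ 2) := by
          apply mul_le_mul_of_nonneg_left _ (by norm_num)
          refine (hCb D w hw hD).trans ?_
          exact div_le_div_of_nonneg_right (le_abs_self Cb) (by positivity)
      _ = 4 * |Cb| / Real.log D ^ 2 := by ring
  have h3 : 0 ≤ T (bd D) (fun _ _ => 0) (fun d w' => Rw (D / d) w' / D) 1 w := by
    apply T_nonneg
    · intro _ _ _; exact le_rfl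
    · intro d w' _
      exact div_nonneg (Rw_nonneg _ _) hD0.le
  have h4 := abs_le.mp (hid.trans h1)
  have e : (Ce * |Cm| + 4 * |Cb| + 1) / Real.log D ^ 2 =
      Ce * |Cm| / Real.log D ^ 2 + 4 * |Cb| / Real.log D ^ 2 + 1 / Real.log D ^ 2 := by ring
  have h5 : 0 ≤ 1 / Real.log D ^ 2 := by positivity
  rw [e, abs_le]
  unfold rho
  constructor <;> linarith [h4.1, h4.2]

theorem pnt2_holds : PNT2 := Crest.Agent.SW.pnt2

/-- **RHO FORMULA** -/
theorem rho_formula {A : ℝ} (hm : MassH A) (hb : BdH) : ∃ C : ℝ, 0 < C ∧ ∀ (D : ℝ) (w : ℕ),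
    2 ≤ w → (w : ℝ) ^ 2 ≤ D → D ≤ (w : ℝ) ^ 5 →
    2 * Real.log ((Real.log D - Real.log w) / Real.log w) / Real.log D - C / Real.log D ^ 2 ≤
      rho D w ∧
    rho D w ≤ 2 * Real.log ((Real.log D - Real.log w) / Real.log w) / Real.log D +
      C / Real.log D ^ 2 + C * (max 0 (Real.log D - 4 * Real.log w)) ^ 3 / Real.log D ^ 4 := by
  obtain ⟨C₁, hC₁0, hC₁⟩ := rho_sub_Rw hm hb
  obtain ⟨C₂, hC₂0, hC₂⟩ := F1c pnt2_holds
  refine ⟨C₁ + C₂, by positivity, ?_⟩
  intro D w hw hD hD5
  have hw2 : (2 : ℝ) ≤ w := by exact_mod_cast hw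
  have h1 := abs_le.mp (hC₁ D w hw hD)
  have h2 := hC₂ D w hw2 hD hD5
  have hD4 : 4 ≤ D := by nlinarith
  have hlD : 0 < Real.log D := Real.log_pos (by linarith)
  have e : (C₁ + C₂) / Real.log D ^ 2 = C₁ / Real.log D ^ 2 + C₂ / Real.log D ^ 2 := by ring
  have h3 : C₂ * (max 0 (Real.log D - 4 * Real.log w)) ^ 3 / Real.log D ^ 4 ≤
      (C₁ + C₂) * (max 0 (Real.log D - 4 * Real.log w)) ^ 3 / Real.log D ^ 4 := by
    apply div_le_div_of_nonneg_right _ (by positivity)
    apply mul_le_mul_of_nonneg_right _ (pow_nonneg (le_max_left _ _) 3)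
    linarith
  rw [e]
  constructor <;> linarith [h1.1, h1.2, h2.1, h2.2]

end Crest.Agent.R001.Par
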