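import Mathlib
import Crest.Agent.R001.Par2
import Crest.Agent.R001.BdBound

/-!
# R1: `MassH`, `BdH` and the `ρ`-formula from the mass theorem `XiH`
-/

set_option autoImplicit false

namespace Crest.Agent.R001.Par

open Finset Classical
open Crest.Agent.R001
open Crest.Agent.R001.Bridge (XiH bridge0 BdOp)

lemma inv_root {D : ℝ} {w : ℕ} (hw : 2 ≤ w) (hD : (w : ℝ) ^ 2 ≤ D) : Mass.Inv (D / (1 : ℕ)) w := by
  refine ⟨hw, ?_⟩
  simpa using hD

theorem massH_of_XiH (hX : XiH) : MassH (25 / 4) := by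
  obtain ⟨C, hC⟩ := hX
  have hl2 : 0.6931471803 < Real.log 2 := Real.log_two_gt_d9
  have hl20 : 0 < Real.log 2 := by linarith
  refine ⟨|C| / Real.log 2 ^ 4, ?_⟩
  intro D w hw hD
  have hI := inv_root hw hD
  have h1 := bridge0 D (fun y _ => 1 / Real.log y ^ (25 / 4 : ℝ)) (fun _ _ => 0) w 1 one_pos
  have e1 : (fun (d : ℕ) (_ : ℕ) => 1 / ((d : ℝ) * (Real.log (D / d)) ^ (25 / 4 : ℝ))) =
      (fun (d : ℕ) (w : ℕ) => 1 / (d : ℝ) *
        (fun (y : ℝ) (_ : ℕ) => 1 / Real.log y ^ (25 / 4 : ℝ)) (D / d) w) := by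
    funext d w
    simp only
    rw [one_div_mul_one_div]
  have e2 : (fun (_ : ℕ) (_ : ℕ) => (0 : ℝ)) =
      (fun (d : ℕ) (w : ℕ) => 1 / (d : ℝ) * (fun (_ : ℝ) (_ : ℕ) => (0 : ℝ)) (D / d) w) := by
    funext d w
    simp
  rw [e1]
  rw [← e2] at h1
  rw [h1]
  have e3 : BdOp (fun _ _ => 0) = fun _ _ => 0 := by
    funext y w
    unfold BdOp
    simp
  rw [e3]
  simp only [add_zero, Nat.cast_one, div_one, one_mul]
  have hI' : Mass.Inv D w := ⟨hw, hD⟩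
  have hly := hI'.log_y_pos
  have h2 : Mass.T0 (fun y _ => 1 / Real.log y ^ (25 / 4 : ℝ)) D w ≤
      Mass.T0 (fun y w => 1 / Real.log 2 ^ 4 * Mass.Xi y w) D w := by
    apply Bridge.T0_mono' _ D w hI'
    intro y w h
    have hlw := h.log_two_le
    have hly := h.log_y_pos
    unfold Mass.Xi
    rw [Real.rpow_neg hly.le]
    have h3 : Real.log 2 ^ 4 ≤ Real.log w ^ 4 := pow_le_pow_left₀ hl20.le hlw 4
    have h4 : 0 < Real.log y ^ (25 / 4 : ℝ) := Real.rpow_pos_of_pos hly _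
    calc 1 / Real.log y ^ (25 / 4 : ℝ) = 1 * (Real.log y ^ (25 / 4 : ℝ))⁻¹ := by
          rw [one_mul, one_div]
      _ ≤ (1 / Real.log 2 ^ 4 * Real.log w ^ 4) * (Real.log y ^ (25 / 4 : ℝ))⁻¹ := by
          apply mul_le_mul_of_nonneg_right _ (by positivity)
          rw [one_div_mul_eq_div, le_div_iff₀ (by positivity), one_mul]
          exact h3
      _ = 1 / Real.log 2 ^ 4 * (Real.log w ^ 4 * (Real.log y ^ (25 / 4 : ℝ))⁻¹) := by ring
  rw [Bridge.T0_smul'] at h2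
  refine h2.trans ?_
  have h3 : Mass.T0 Mass.Xi D w ≤ |C| / Real.log D ^ 2 :=
    (hC D w hI').trans (div_le_div_of_nonneg_right (le_abs_self C) (by positivity))
  calc 1 / Real.log 2 ^ 4 * Mass.T0 Mass.Xi D w ≤ 1 / Real.log 2 ^ 4 * (|C| / Real.log D ^ 2) :=
        mul_le_mul_of_nonneg_left h3 (by positivity)
    _ = |C| / Real.log 2 ^ 4 / Real.log D ^ 2 := by ring

theorem bdH_of_XiH (hX : XiH) : BdH := by
  obtain ⟨C, hC0, hC⟩ := Bridge.T0_B_le hX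
  refine ⟨C, ?_⟩
  intro D w hw hD
  have hI' : Mass.Inv D w := ⟨hw, hD⟩
  have hD0 : 0 < D := by linarith [hI'.y_ge]
  have h1 := bridge0 D (fun _ _ => 0) Bridge.hb w 1 one_pos
  have e2 : (fun (d : ℕ) (w : ℕ) => 1 / (d : ℝ) * (fun (_ : ℝ) (_ : ℕ) => (0 : ℝ)) (D / d) w) =
      (fun (_ : ℕ) (_ : ℕ) => (0 : ℝ)) := by
    funext d w
    simp
  rw [e2] at h1
  have h2 : Tree.T (Tree.bd D) (fun _ _ => 0) (fun b _ => if (b : ℝ) ≤ D then 1 / D else 0) 1 w =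
      Tree.T (Tree.bd D) (fun _ _ => 0) (fun d w => 1 / (d : ℝ) * Bridge.hb (D / d) w) 1 w := by
    apply Tree.T_congr
    · intro _ _ _; rfl
    · intro d w' hl
      have hd : 0 < d := Leaf_pos one_pos hl
      have hd0 : (0 : ℝ) < d := by exact_mod_cast hd
      unfold Bridge.hb
      have e : (1 ≤ D / (d : ℝ)) ↔ ((d : ℝ) ≤ D) := one_le_div hd0
      by_cases h : (d : ℝ) ≤ D
      · rw [if_pos h, if_pos (e.mpr h)]
        field_simp
      · rw [if_neg h, if_neg (fun h' => h (e.mp h')), mul_zero]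
  rw [h2, h1]
  simp only [zero_add, Nat.cast_one, div_one, one_mul]
  exact hC D w hI'

/-- **RHO FORMULA** from the mass theorem -/
theorem rho_formula' (hX : XiH) : ∃ C : ℝ, 0 < C ∧ ∀ (D : ℝ) (w : ℕ),
    2 ≤ w → (w : ℝ) ^ 2 ≤ D → D ≤ (w : ℝ) ^ 5 →
    2 * Real.log ((Real.log D - Real.log w) / Real.log w) / Real.log D - C / Real.log D ^ 2 ≤
      rho D w ∧
    rho D w ≤ 2 * Real.log ((Real.log D - Real.log w) / Real.log w) / Real.log D +
      C / Real.log D ^ 2 + C * (max 0 (Real.log D - 4 * Real.log w)) ^ 3 / Real.log D ^ 4 :=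
  rho_formula (massH_of_XiH hX) (bdH_of_XiH hX)

theorem rho_sub_Rw' (hX : XiH) : ∃ C : ℝ, 0 < C ∧ ∀ (D : ℝ) (w : ℕ),
    2 ≤ w → (w : ℝ) ^ 2 ≤ D → |rho D w - F1.Rw D w / D| ≤ C / Real.log D ^ 2 :=
  rho_sub_Rw (massH_of_XiH hX) (bdH_of_XiH hX)

end Crest.Agent.R001.Par
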