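import Crest.Agent.R001.Asm2a
import Crest.Agent.R001.Par3
import Crest.Agent.R001.MassI664
import Crest.Agent.R001.HitU621
import Crest.Agent.R001.Fin10_571

/-!
# R1, top assembly, part 3 (helper571): `MainRough (21/10)` from SE, UNS and HIT
-/

set_option autoImplicit false

namespace Crest.Agent.R001.Asm

open Finset Crest.Agent.R001.Tree Crest.Agent.R001.End

open Classical in
/-- leaves of the line satisfy the window condition -/
lemma leaf_win {K4 K K1 : ℕ} {eta : ℝ} (hK : K = K4 + 4) (heta : (K1 : ℝ) ≤ eta * K4)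
    {X : ℕ} (hX : Big X) (hD1 : (Dlev X : ℝ) ≤ X / (Real.log X) ^ 3)
    (hD2 : (X : ℝ) / (Real.log X) ^ 3 ≤ 2 * (Dlev X : ℝ)) (hD16 : 16 ≤ Dlev X)
    {b : ℕ} (hb : b ∈ LS (Hit.stopL (Dlev X) (K4 * Real.log (Real.log X))) 1 (w0 X))
    (hbd : ¬ bd (Dlev X) b b.minFac)
    (hv : eta * (K4 * Real.log (Real.log X)) < Real.log ((Dlev X : ℝ) / b)) :
    Win X K K1 b := by
  have h8 := hX.L8
  have hX0 := hX.X0
  have hl1 := hX.l1
  have hL0 : 0 < Real.log (X : ℝ) := by linarith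
  obtain ⟨hsq, hb1, hmp, hlt, hst⟩ := leaf_facts hb
  have hb0 : (0 : ℝ) < b := by
    have : 0 < b := by omega
    exact_mod_cast this
  have hD0 : (0 : ℝ) < (Dlev X : ℝ) := by
    have : (16 : ℝ) ≤ (Dlev X : ℝ) := by exact_mod_cast hD16
    linarith
  have hstop : Hit.Stop (Dlev X) (K4 * Real.log (Real.log X)) b b.minFac := by
    rcases hst with h | h
    · exact absurd h hbd
    · exact h
  have hpow : ∀ n : ℕ, (Real.log (X : ℝ)) ^ n = Real.exp (n * Real.log (Real.log X)) := by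
    intro n
    rw [Real.exp_nat_mul, Real.exp_log hL0]
  have hDb : 0 < (Dlev X : ℝ) / b := by positivity
  refine ⟨hsq, ?_, ?_, ?_, ?_⟩
  · -- lower bound for b
    have h1 : Real.log ((Dlev X : ℝ) / b) ≤ K4 * Real.log (Real.log X) := hstop.2
    have h2 : (Dlev X : ℝ) / b ≤ (Real.log X) ^ K4 := by
      rw [hpow K4, ← Real.exp_log hDb]
      exact Real.exp_le_exp.2 h1
    rw [div_le_iff₀ hb0] at h2
    rw [hK, div_le_iff₀ (by positivity)]
    have h3 : (X : ℝ) ≤ 2 * (Dlev X : ℝ) * (Real.log X) ^ 3 := by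
      rw [div_le_iff₀ (by positivity)] at hD2
      exact hD2
    calc (X : ℝ) ≤ 2 * (Dlev X : ℝ) * (Real.log X) ^ 3 := h3
      _ ≤ 2 * ((Real.log X) ^ K4 * b) * (Real.log X) ^ 3 := by gcongr
      _ = 2 * (b * (Real.log X) ^ (K4 + 3)) := by ring
      _ ≤ Real.log X * (b * (Real.log X) ^ (K4 + 3)) := by
          have : 0 ≤ b * (Real.log (X : ℝ)) ^ (K4 + 3) := by positivity
          have : 2 ≤ Real.log (X : ℝ) := by linarith
          gcongr
      _ = b * (Real.log X) ^ (K4 + 4) := by ring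
  · -- upper bound for b
    have h1 : (K1 : ℝ) * Real.log (Real.log X) ≤ Real.log ((Dlev X : ℝ) / b) := by
      have h2 : (K1 : ℝ) * Real.log (Real.log X) ≤ eta * K4 * Real.log (Real.log X) :=
        mul_le_mul_of_nonneg_right heta (by linarith)
      have h3 : eta * K4 * Real.log (Real.log X) = eta * (K4 * Real.log (Real.log X)) := by ring
      linarith
    have h2 : (Real.log X) ^ K1 ≤ (Dlev X : ℝ) / b := by
      rw [hpow K1, ← Real.exp_log hDb]
      exact Real.exp_le_exp.2 h1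
    rw [le_div_iff₀ hb0] at h2
    rw [le_div_iff₀ (by positivity)]
    have h3 : (Dlev X : ℝ) ≤ X := by
      refine hD1.trans (div_le_self hX0.le ?_)
      exact one_le_pow₀ (by linarith)
    linarith
  · rw [not_bd] at hbd
    rw [le_div_iff₀ hb0]
    have h3 : 4 * (Dlev X : ℝ) ≤ X := by
      have h4 : X / (Real.log X) ^ 3 ≤ X / 4 := by
        apply div_le_div_of_nonneg_left hX0.le (by norm_num)
        calc (4 : ℝ) ≤ 8 ^ 3 := by norm_num
          _ ≤ (Real.log X) ^ 3 := by gcongr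
      linarith
    nlinarith
  · intro p hp hpb
    have h1 := hlt p hp hpb
    have h2 : (w0 X : ℝ) ^ 2 ≤ (Dlev X : ℝ) := by
      have : w0 X ^ 2 ≤ Dlev X := Nat.sqrt_le' _
      exact_mod_cast this
    have h3 : (Dlev X : ℝ) ≤ X := by
      refine hD1.trans (div_le_self hX0.le ?_)
      exact one_le_pow₀ (by linarith)
    have h4 : (w0 X : ℝ) ≤ (X : ℝ) ^ ((1 : ℝ) / 2) := by
      rw [← Real.sqrt_eq_rpow]
      apply Real.le_sqrt_of_sq_le
      linarith
    have h5 : (p : ℝ) < w0 X := by exact_mod_cast h1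
    linarith

open Classical in
/-- **TOP ASSEMBLY of R1**: the main theorem from the blocks SE and UNS. -/
theorem mainRough_of (hse : SEH) (huns : UNSH) : MainRough (21 / 10) := by
  obtain ⟨e0, he0, hfin⟩ := Fin571.fin'
  obtain ⟨C0, ε1, Ce, hC11, hε1, hCe, hh⟩ := Hit.hiti_holds (1 / 1000) (by norm_num) (by norm_num)
  have hC0 : 0 < C0 := by linarith
  obtain ⟨t, ht⟩ : ∃ t, t = min ε1 (e0 / (2 * C0)) := ⟨_, rfl⟩
  have ht0 : 0 < t := by rw [ht]; positivity
  have ht1 : t ≤ ε1 := by rw [ht]; exact min_le_left _ _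
  have ht2 : C0 * t ≤ e0 / 2 := by
    have h1 : t ≤ e0 / (2 * C0) := by rw [ht]; exact min_le_right _ _
    calc C0 * t ≤ C0 * (e0 / (2 * C0)) := by gcongr
      _ = e0 / 2 := by field_simp
  obtain ⟨eta, heta⟩ : ∃ eta, eta = min 1 (t / (2 * Ce)) := ⟨_, rfl⟩
  have heta0 : 0 < eta := by rw [heta]; positivity
  have heta1 : eta ≤ 1 := by rw [heta]; exact min_le_left _ _
  have heps0 : 0 < t / 4 := by positivity
  have hsmall : 2 * (t / 4) + Ce * eta ^ 2 ≤ t := by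
    have h1 : eta ≤ t / (2 * Ce) := by rw [heta]; exact min_le_right _ _
    have h2 : eta ^ 2 ≤ eta := by nlinarith
    have h3 : Ce * eta ^ 2 ≤ Ce * (t / (2 * Ce)) := by
      gcongr
      exact h2.trans h1
    have h4 : Ce * (t / (2 * Ce)) = t / 2 := by field_simp
    linarith
  obtain ⟨C, K0, hK0, X1, hut⟩ := UT.ut (Par.massH_of_XiH Mass.xiH) (Par.bdH_of_XiH Mass.xiH)
    (t / 4) heps0
  obtain ⟨K1s, hse⟩ := hse C 3
  obtain ⟨K1u, huns⟩ := huns C 3
  obtain ⟨K4, hK4⟩ := exists_nat_ge (((K1s : ℝ) + K1u + K0) / eta + 1)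
  have hK4' : (K1s : ℝ) + K1u + K0 ≤ eta * K4 := by
    have h1 : ((K1s : ℝ) + K1u + K0) / eta ≤ K4 := by linarith
    rw [div_le_iff₀ heta0] at h1
    linarith
  have hs0 : (0 : ℝ) ≤ K1s := Nat.cast_nonneg _
  have hu0 : (0 : ℝ) ≤ K1u := Nat.cast_nonneg _
  have hK4s : (K1s : ℝ) ≤ eta * K4 := by linarith
  have hK4u : (K1u : ℝ) ≤ eta * K4 := by linarith
  have hK40 : K0 ≤ eta * K4 := by linarith
  have hK4n : eta * K4 ≤ K4 := by
    have : (0 : ℝ) ≤ K4 := Nat.cast_nonneg _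
    nlinarith
  have hKs : K1s ≤ K4 + 4 := by
    have h1 : (K1s : ℝ) ≤ K4 := by linarith
    have h2 : K1s ≤ K4 := by exact_mod_cast h1
    omega
  have hKu : K1u ≤ K4 + 4 := by
    have h1 : (K1u : ℝ) ≤ K4 := by linarith
    have h2 : K1u ≤ K4 := by exact_mod_cast h1
    omega
  have hK41 : 1 ≤ K4 := by
    have h1 : (1 : ℝ) ≤ K4 := by
      have : 0 ≤ ((K1s : ℝ) + K1u + K0) / eta := by positivity
      linarith
    exact_mod_cast h1
  obtain ⟨CH, hse⟩ := hse (K4 + 4) hKs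
  obtain ⟨CL, huns⟩ := huns (K4 + 4) hKu
  obtain ⟨C1, hC1⟩ : ∃ C1 : ℕ, C1 = CL + 1 := ⟨_, rfl⟩
  obtain ⟨Xu, huns⟩ := huns C1 (by omega)
  obtain ⟨Xs, hse⟩ := hse CL
  obtain ⟨C2, hC2⟩ := exists_nat_ge (C0 * K4 + (2 * CL + 3) + CH)
  have hKp : (0 : ℝ) < K4 := by
    have : (1 : ℝ) ≤ K4 := by exact_mod_cast hK41
    linarith
  have hCLp : (0 : ℝ) ≤ CL := Nat.cast_nonneg _
  have hCHp : (0 : ℝ) ≤ CH := Nat.cast_nonneg _
  have hCKp : 0 < C0 * K4 := by positivity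
  have hCHC2n : CH ≤ C2 := by
    have : (CH : ℝ) ≤ C2 := by linarith
    exact_mod_cast this
  have hC1p : (0 : ℝ) < C1 := by rw [hC1]; positivity
  obtain ⟨Xh, hh⟩ := Filter.eventually_atTop.1 (hh eta (t / 4) heta0 heta1 heps0
    (hsmall.trans ht1) (K4 : ℝ) (C2 : ℝ) (CL : ℝ) (C1 : ℝ) hKp (by linarith) (by linarith) hC1p)
  obtain ⟨Xf, hfin⟩ := hfin (C2 : ℝ) (21 / 10)
  obtain ⟨Xd, hXd⟩ := Filter.eventually_atTop.1 UT.dlev_bounds
  obtain ⟨Xb, hXb⟩ := Filter.eventually_atTop.1 eventually_big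
  obtain ⟨Xl, hXl⟩ := Filter.eventually_atTop.1 (eventually_loglog_le (170 / e0) (by positivity))
  refine ⟨max (max (max X1 Xu) (max Xs (Xh : ℝ))) (max (max Xf Xd) (max Xb Xl)),
    fun X hX a z hz0 hz => ?_⟩
  have hXa := (le_max_left _ _).trans hX
  have hXb' := (le_max_right _ _).trans hX
  have hX1 := (le_max_left _ _).trans ((le_max_left _ _).trans hXa)
  have hXu := (le_max_right _ _).trans ((le_max_left _ _).trans hXa)
  have hXs := (le_max_left _ _).trans ((le_max_right _ _).trans hXa)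
  have hXh := (le_max_right _ _).trans ((le_max_right _ _).trans hXa)
  have hXhn : Xh ≤ X := by exact_mod_cast hXh
  have hXf := (le_max_left _ _).trans ((le_max_left _ _).trans hXb')
  have hXdd := (le_max_right _ _).trans ((le_max_left _ _).trans hXb')
  have hXbb := (le_max_left _ _).trans ((le_max_right _ _).trans hXb')
  have hXll := (le_max_right _ _).trans ((le_max_right _ _).trans hXb')
  have hB : Big X := hXb X hXbb
  obtain ⟨hDl, hD1, hD2, hD16⟩ := hXd X hXdd X rfl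
  have hll := hXl X hXll
  have h8 := hB.L8
  have hX0 := hB.X0
  have hl1 := hB.l1
  have hL0 : 0 < Real.log (X : ℝ) := by linarith
  have hX1' : (1 : ℝ) ≤ X := by have := hB.x2; linarith
  obtain ⟨LL, hFam, hunsX⟩ := huns X hXu a
  obtain ⟨V, hV⟩ : ∃ V, V = K4 * Real.log (Real.log X) := ⟨_, rfl⟩
  obtain ⟨Lf, hLf⟩ : ∃ Lf, Lf = LS (Hit.stopL (Dlev X) V) 1 (w0 X) := ⟨_, rfl⟩
  obtain ⟨good, hgood⟩ : ∃ S, S = Lf.filter (fun b => ¬ bd (Dlev X) b b.minFac ∧
    eta * V < Real.log ((Dlev X : ℝ) / b)) := ⟨_, rfl⟩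
  obtain ⟨DDu, hDDu⟩ : ∃ S, S = good.filter (fun b => ∃ g : ℕ, g.Prime ∧ g ∣ b ∧
    (Real.log X) ^ C1 ≤ g ∧ (g : ℝ) ≤ (X : ℝ) ^ ((1 : ℝ) / 1000) ∧
    ∀ τ ∈ LL, ¬ ((g : ℤ) ∣ τ.2 * a - τ.1 ∧ Capt X a τ (b / g))) := ⟨_, rfl⟩
  obtain ⟨DDs, hDDs⟩ : ∃ S, S = good.filter (fun b => ∃ τ ∈ LL, Capt X a τ b ∧
    ¬ Low X CH a τ b) := ⟨_, rfl⟩
  have hgoodm : ∀ b, b ∈ good ↔ b ∈ Lf ∧ ¬ bd (Dlev X) b b.minFac ∧
      eta * V < Real.log ((Dlev X : ℝ) / b) := by
    intro b; rw [hgood, Finset.mem_filter]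
  have hwin : ∀ K1 : ℕ, (K1 : ℝ) ≤ eta * K4 → ∀ b ∈ good, Win X (K4 + 4) K1 b := by
    intro K1 hK1 b hb
    obtain ⟨h1, h2, h3⟩ := (hgoodm b).1 hb
    rw [hLf, hV] at h1
    rw [hV] at h3
    exact leaf_win rfl hK1 hB hD1 hD2 hD16 h1 h2 h3
  obtain ⟨levu, hlevu, hsumu⟩ := hunsX DDu (by
    intro d hd
    rw [hDDu, Finset.mem_filter] at hd
    exact ⟨hwin K1u hK4u d hd.1, hd.2⟩)
  obtain ⟨levs, hlevs, hsums⟩ := hse X hXs a LL hFam DDs (by
    intro d hd
    rw [hDDs, Finset.mem_filter] at hd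
    exact ⟨hwin K1s hK4s d hd.1, hd.2⟩)
  have hsub : DDu ∪ DDs ⊆ good := by
    apply Finset.union_subset
    · rw [hDDu]; exact Finset.filter_subset _ _
    · rw [hDDs]; exact Finset.filter_subset _ _
  by_cases heavy : (t / 4) / (Real.log X) ^ 2 ≤
      ∑ b ∈ DDu ∪ DDs, 1 / ((b : ℝ) * (Real.log ((Dlev X : ℝ) / b)) ^ 2)
  · -- heavy: UT
    refine hut X hX1 a z hz0 hz (Hit.stopL (Dlev X) V) (fun d w h => Or.inl h) (DDu ∪ DDs) ?_
      (fun b => if b ∈ DDu then levu b else levs b) ?_ heavy ?_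
    · intro b hb
      rw [← hLf]
      exact ((hgoodm b).1 (hsub hb)).1
    · intro b hb
      obtain ⟨h1, h2, h3⟩ := (hgoodm b).1 (hsub hb)
      have hst := (leaf_facts (hLf ▸ h1)).2.2.2.2
      have hmp := (leaf_facts (hLf ▸ h1)).2.2.1
      have hb1 := (leaf_facts (hLf ▸ h1)).2.1
      have hst' : Hit.Stop (Dlev X) V b b.minFac := by
        rcases hst with h | h
        · exact absurd h h2
        · exact h
      have hb0 : (0 : ℝ) < b := by
        have : 0 < b := by omega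
        exact_mod_cast this
      have hD0 : (0 : ℝ) < (Dlev X : ℝ) := by
        have : (16 : ℝ) ≤ (Dlev X : ℝ) := by exact_mod_cast hD16
        linarith
      refine ⟨h2, ?_, ?_, ?_⟩
      · have h4 := hst'.1
        unfold Hit.vv at h4
        have hm0 : (0 : ℝ) < b.minFac := by exact_mod_cast hmp.pos
        have h5 : Real.log ((Dlev X : ℝ) / b) < Real.log ((b.minFac : ℝ) ^ 4) := by
          rw [Real.log_pow]
          push_cast
          exact h4
        have h6 : (Dlev X : ℝ) / b < (b.minFac : ℝ) ^ 4 :=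
          (Real.log_lt_log_iff (by positivity) (by positivity)).1 h5
        rw [div_lt_iff₀ hb0] at h6
        linarith
      · have h4 : K0 * Real.log (Real.log X) ≤ eta * K4 * Real.log (Real.log X) :=
          mul_le_mul_of_nonneg_right hK40 (by linarith)
        have h5 : eta * K4 * Real.log (Real.log X) = eta * V := by rw [hV]; ring
        linarith
      · rcases Finset.mem_union.1 hb with h | h
        · rw [if_pos h]; exact hlevu b h
        · by_cases h' : b ∈ DDu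
          · rw [if_pos h']; exact hlevu b h'
          · rw [if_neg h']; exact hlevs b h
    · have h1 : ∑ b ∈ DDu ∪ DDs, max 0 ((X : ℝ) / b *
          Th (bd (if b ∈ DDu then levu b else levs b)) 1 b.minFac - sI a X b b.minFac) ≤
          ∑ b ∈ DDu, max 0 ((X : ℝ) / b * Th (bd (levu b)) 1 b.minFac - sI a X b b.minFac) +
          ∑ b ∈ DDs, max 0 ((X : ℝ) / b * Th (bd (levs b)) 1 b.minFac - sI a X b b.minFac) := by
        rw [← Finset.union_sdiff_self_eq_union, Finset.sum_union Finset.disjoint_sdiff]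
        apply add_le_add
        · refine le_of_eq (Finset.sum_congr rfl fun b hb => ?_)
          rw [if_pos hb]
        · have e : ∑ b ∈ DDs \ DDu, max 0 ((X : ℝ) / b *
              Th (bd (if b ∈ DDu then levu b else levs b)) 1 b.minFac - sI a X b b.minFac) =
              ∑ b ∈ DDs \ DDu, max 0 ((X : ℝ) / b * Th (bd (levs b)) 1 b.minFac -
                sI a X b b.minFac) := by
            refine Finset.sum_congr rfl fun b hb => ?_
            rw [if_neg (Finset.mem_sdiff.1 hb).2]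
          rw [e]
          exact Finset.sum_le_sum_of_subset_of_nonneg Finset.sdiff_subset
            fun _ _ _ => le_max_left _ _
      have h2 : X / (Real.log (X : ℝ)) ^ 3 + X / (Real.log (X : ℝ)) ^ 3 ≤ X / (Real.log X) ^ 2 := by
        rw [← add_div, div_le_div_iff₀ (by positivity) (by positivity)]
        have h3 : 0 ≤ (X : ℝ) * (Real.log X) ^ 2 := by positivity
        calc (X + X : ℝ) * (Real.log X) ^ 2 = 2 * (X * (Real.log X) ^ 2) := by ring
          _ ≤ Real.log X * (X * (Real.log X) ^ 2) := by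
              apply mul_le_mul_of_nonneg_right (by linarith) h3
          _ = X * (Real.log X) ^ 3 := by ring
      linarith
  · -- light: HIT and FIN
    push Not at heavy
    have hpow : ∀ n : ℕ, (Real.log (X : ℝ)) ^ n = Real.exp (n * Real.log (Real.log X)) := by
      intro n
      rw [Real.exp_nat_mul, Real.exp_log hL0]
    have hCHC2 : (Real.log (X : ℝ)) ^ CH ≤ (Real.log X) ^ C2 :=
      pow_le_pow_right₀ (by linarith) hCHC2n
    obtain ⟨LL', hLL'⟩ : ∃ S, S = LL.filter (fun τ : ℤ × ℤ => (τ.2 : ℝ) ≤ (Real.log X) ^ CH ∧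
      |(τ.1 : ℝ)| ≤ X * (Real.log X) ^ CH) := ⟨_, rfl⟩
    have hLm : ∀ τ, τ ∈ LL' ↔ τ ∈ LL ∧ (τ.2 : ℝ) ≤ (Real.log X) ^ CH ∧
      |(τ.1 : ℝ)| ≤ X * (Real.log X) ^ CH := by
      intro τ; rw [hLL', Finset.mem_filter]
    -- cardinality
    have hcard : (LL'.card : ℝ) ≤ (Real.log X) ^ (CL : ℝ) := by
      rw [Real.rpow_natCast]
      refine le_trans ?_ hFam.1
      have : LL'.card ≤ LL.card := by
        rw [hLL']; exact Finset.card_le_card (Finset.filter_subset _ _)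
      exact_mod_cast this
    -- heights
    have hheight : ∀ τ ∈ LL', 1 ≤ τ.2 ∧ (τ.2 : ℝ) ≤ (X : ℝ) ^ 2 ∧ |(τ.1 : ℝ)| ≤ (X : ℝ) ^ 2 ∧
        IsCoprime τ.1 τ.2 := by
      intro τ hτ
      obtain ⟨hτL, -, -⟩ := (hLm τ).1 hτ
      obtain ⟨f1, f2, f3, f4⟩ := hFam.2 τ hτL
      have e2 : (X : ℝ) ^ (2 : ℝ) = (X : ℝ) ^ 2 := by
        rw [show (2 : ℝ) = ((2 : ℕ) : ℝ) by norm_num, Real.rpow_natCast]
      refine ⟨f1, f2.trans ?_, f3.trans ?_, f4⟩
      · rw [← e2]
        exact Real.rpow_le_rpow_of_exponent_le hX1' (by norm_num)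
      · rw [← e2]
        exact Real.rpow_le_rpow_of_exponent_le hX1' (by norm_num)
    -- captured leaves
    have hcap : ∀ b ∈ LS (Hit.stopL (Dlev X) (K4 * Real.log (Real.log X))) 1 (w0 X),
        ¬ bd (Dlev X : ℝ) b b.minFac → b ∉ DDu ∪ DDs →
        eta * (K4 * Real.log (Real.log X)) < Real.log ((Dlev X : ℝ) / b) →
        (∃ g : ℕ, g.Prime ∧ g ∣ b ∧ (Real.log X) ^ (C1 : ℝ) ≤ (g : ℝ) ∧
          (g : ℝ) ≤ (X : ℝ) ^ ((1 : ℝ) / 1000)) →
        (∃ p : ℕ, p.Prime ∧ p ∣ b ∧ Real.log (Dlev X) / 5 ≤ Real.log p) →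
        ∃ τ ∈ LL', ∀ p : ℕ, p.Prime → p ∣ b → (Real.log X) ^ (C2 : ℝ) < (p : ℝ) →
          (p : ℤ) ∣ τ.2 * a - τ.1 := by
      intro b hb hbd hbU hv hg _
      rw [← hV] at hb hv
      rw [← hLf] at hb
      have hbgood : b ∈ good := (hgoodm b).2 ⟨hb, hbd, hv⟩
      obtain ⟨g, hgp, hgb, hg1, hg2⟩ := hg
      rw [Real.rpow_natCast] at hg1
      have hbu : b ∉ DDu := fun h => hbU (Finset.mem_union_left _ h)
      have hbs : b ∉ DDs := fun h => hbU (Finset.mem_union_right _ h)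
      obtain ⟨hsq, hb1, hmp, hlt, hst⟩ := leaf_facts (hLf ▸ hb)
      have hex : ∃ τ ∈ LL, (g : ℤ) ∣ τ.2 * a - τ.1 ∧ Capt X a τ (b / g) := by
        by_contra hcon
        push Not at hcon
        apply hbu
        rw [hDDu, Finset.mem_filter]
        exact ⟨hbgood, g, hgp, hgb, hg1, hg2, fun τ hτ h => hcon τ hτ h.1 h.2⟩
      obtain ⟨τ, hτL, hgd, hcapt⟩ := hex
      have hcb := capt_of_div hsq hgb hgd hcapt
      have hlow : Low X CH a τ b := by
        by_contra hcon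
        apply hbs
        rw [hDDs, Finset.mem_filter]
        exact ⟨hbgood, τ, hτL, hcb, hcon⟩
      obtain ⟨f1, -, -, -⟩ := hFam.2 τ hτL
      refine ⟨τ, (hLm τ).2 ⟨hτL, low_den (by omega) f1 hlow, hlow.2⟩, fun p hp hpb hplog => ?_⟩
      apply low_dvd (by omega) f1 hlow hp hpb
      rw [Real.rpow_natCast] at hplog
      exact lt_of_le_of_lt hCHC2 hplog
    obtain ⟨τ, hτ, hsum⟩ := hh X hXhn a LL' hcard hheight (DDu ∪ DDs) heavy.le hcap
    -- FIN
    obtain ⟨hτL, hτ2, hτ1⟩ := (hLm τ).1 hτ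
    obtain ⟨f1, -, -, f4⟩ := hFam.2 τ hτL
    have hVn : ((τ.2.toNat : ℕ) : ℤ) = τ.2 := Int.toNat_of_nonneg (by omega)
    have hVr : ((τ.2.toNat : ℕ) : ℝ) = (τ.2 : ℝ) := by
      rw [← Int.cast_natCast, hVn]
    obtain ⟨S1, hS1⟩ : ∃ S, S = (Tree.pr (w0 X)).filter (fun p : ℕ =>
      (Real.log X) ^ (C2 : ℝ) < (p : ℝ) ∧ ¬ (p : ℤ) ∣ τ.2 * a - τ.1) := ⟨_, rfl⟩
    obtain ⟨S2, hS2⟩ : ∃ S, S = (range ⌈z⌉₊).filter (fun p : ℕ => p.Prime ∧
      w0 X ≤ p ∧ (p : ℝ) < z) := ⟨_, rfl⟩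
    have hsum' : ∑ p ∈ S1, (1 : ℝ) / p ≤ C0 * (2 * (t / 4) + Ce * eta ^ 2) := by
      rw [hS1]
      refine le_trans (le_of_eq ?_) hsum
      congr!
    have hm2 : ∑ p ∈ S2, (1 : ℝ) / p ≤ 85 * Real.log (Real.log X) / Real.log X := by
      apply hB.mertens hz
      intro p hp
      rw [hS2, Finset.mem_filter] at hp
      exact hp.2
    have hm3 : 85 * Real.log (Real.log (X : ℝ)) / Real.log X ≤ e0 / 2 := by
      rw [div_le_iff₀ hL0]
      have h1 : 170 * Real.log (Real.log (X : ℝ)) ≤ Real.log X * e0 := by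
        rw [div_mul_eq_mul_div, div_le_iff₀ he0] at hll
        exact hll
      linarith
    have hm1 : ∑ p ∈ S1, (1 : ℝ) / p ≤ e0 / 2 := by
      refine hsum'.trans (le_trans ?_ ht2)
      gcongr
    refine hfin X hXf a τ.1 τ.2.toNat (by omega) ?_ ?_ ?_ z hz (S1 ∪ S2) ?_ ?_ ?_
    · rw [hVr, Real.rpow_natCast]
      exact hτ2.trans hCHC2
    · rw [Real.rpow_natCast]
      refine hτ1.trans ?_
      gcongr
    · rw [hVn]; exact f4
    · intro p hp
      rcases Finset.mem_union.1 hp with h | h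
      · rw [hS1, Finset.mem_filter] at h; exact prime_of_mem_pr h.1
      · rw [hS2, Finset.mem_filter] at h; exact h.2.1
    · have h1 : ∑ p ∈ S1 ∪ S2, (1 : ℝ) / p ≤ ∑ p ∈ S1, (1 : ℝ) / p + ∑ p ∈ S2, (1 : ℝ) / p := by
        rw [← Finset.sum_union_inter]
        have : 0 ≤ ∑ p ∈ S1 ∩ S2, (1 : ℝ) / p := Finset.sum_nonneg fun _ _ => by positivity
        linarith
      linarith
    · intro p hp hpL hpz hpX
      rw [hVn]
      by_contra hcon
      apply hpX
      rw [Finset.mem_union]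
      by_cases hpw : p < w0 X
      · left
        rw [hS1, Finset.mem_filter, Tree.mem_pr]
        exact ⟨⟨hpw, hp⟩, hpL, hcon⟩
      · right
        rw [hS2, Finset.mem_filter, Finset.mem_range]
        exact ⟨Nat.lt_ceil.2 hpz, hp, not_lt.1 hpw, hpz⟩

end Crest.Agent.R001.Asm
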