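import Crest.Agent.R001.MassC664

/-! Row 1 (S0001), block (1), file D: the closing argument, part 1 (potential theory). -/

set_option autoImplicit false

namespace Crest.Agent.R001.Mass

open Finset Classical

/-- nodes with level at most `e^V` -/
def InvV (V : ℝ) (y : ℝ) (w : ℕ) : Prop := Inv y w ∧ Real.log y ≤ V

theorem invV_closed (V : ℝ) : Closed (InvV V) := by
  rintro y w p q ⟨hI, hV⟩ hc
  exact ⟨inv_closed y w p q hI hc, (hc.lt hI).le.trans hV⟩

/-- vanishing below a level -/
theorem T0_zero {f : ℝ → ℕ → ℝ} {V : ℝ} (hf : ∀ y w, InvV V y w → f y w = 0) :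
    ∀ y w, InvV V y w → T0 f y w = 0 := by
  refine tree_induction (invV_closed V) ?_
  intro y w h ih
  rw [T0_eq, hf y w h, zero_add]
  have : Op (T0 f) y w = Op (fun _ _ => 0) y w := Op_congr ih
  rw [this]
  unfold Op
  simp

theorem T0_nonneg {f : ℝ → ℕ → ℝ} (hf : ∀ y w, Inv y w → 0 ≤ f y w) :
    ∀ y w, Inv y w → 0 ≤ T0 f y w :=
  T_nonneg inv_closed hf (fun _ _ _ => le_rfl)

theorem T0_mono {f f' : ℝ → ℕ → ℝ} (hf : ∀ y w, Inv y w → f y w ≤ f' y w) :
    ∀ y w, Inv y w → T0 f y w ≤ T0 f' y w :=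
  T_mono inv_closed (fun y w h _ => hf y w h) (fun _ _ _ _ => le_rfl)

/-- small `w` -/
theorem small_w (W : ℕ) : ∃ C : ℝ, 0 < C ∧ ∀ y w, Inv y w → w < W → T0 Xi y w ≤ C * Xi y w := by
  obtain ⟨C1, hC1, h1⟩ := Op_Xi_le
  have key : ∀ y w, Inv y w → T0 Xi y w ≤ (1 + C1) ^ w * Xi y w := by
    refine tree_induction inv_closed ?_
    intro y w hI ih
    rw [T0_eq]
    have hw := hI.1
    have h2 : Op (T0 Xi) y w ≤ Op (fun y w' => (1 + C1) ^ (w - 1) * Xi y w') y w := by
      refine Op_mono fun p q hc => (ih p q hc).trans ?_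
      refine mul_le_mul_of_nonneg_right ?_ (Xi_pos (inv_closed y w p q hI hc)).le
      apply pow_le_pow_right₀ (by linarith)
      have := hc.q_lt
      omega
    rw [Op_smul] at h2
    have h3 := h1 y w hI
    have h4 : 0 ≤ (1 + C1) ^ (w - 1) := by positivity
    have h5 := mul_le_mul_of_nonneg_left h3 h4
    have h6 : (1 : ℝ) ≤ (1 + C1) ^ (w - 1) := one_le_pow₀ (by linarith)
    have h7 : (1 + C1) ^ w = (1 + C1) ^ (w - 1) * (1 + C1) := by
      rw [← pow_succ]; congr 1; omega
    have h8 := Xi_pos hI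
    rw [h7]
    nlinarith
  refine ⟨(1 + C1) ^ W, by positivity, ?_⟩
  intro y w hI hw
  refine (key y w hI).trans (mul_le_mul_of_nonneg_right ?_ (Xi_pos hI).le)
  exact pow_le_pow_right₀ (by linarith) hw.le

/-- the stopping rule: good nodes with level `≤ e^V` -/
def stopV (V : ℝ) (y : ℝ) (w : ℕ) : Prop := Good y w ∧ Real.log y ≤ V

/-- `Xi` on the nodes with level `> e^V` -/
noncomputable def XiV (V : ℝ) (y : ℝ) (w : ℕ) : ℝ := if V < Real.log y then Xi y w else 0

/-- `Xi` on the good nodes with level `> e^V` -/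
noncomputable def XiG (V : ℝ) (y : ℝ) (w : ℕ) : ℝ :=
  if V < Real.log y ∧ Good y w then Xi y w else 0

theorem XiB_nonneg {y : ℝ} {w : ℕ} (h : Inv y w) : 0 ≤ XiB y w := by
  unfold XiB
  split_ifs
  · exact le_rfl
  · exact (Xi_pos h).le

theorem XiB_le {y : ℝ} {w : ℕ} (h : Inv y w) : XiB y w ≤ Xi y w := by
  unfold XiB
  split_ifs
  · exact (Xi_pos h).le
  · exact le_rfl

theorem XiV_nonneg {V y : ℝ} {w : ℕ} (h : Inv y w) : 0 ≤ XiV V y w := by
  unfold XiV
  split_ifs
  · exact (Xi_pos h).le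
  · exact le_rfl

theorem XiG_nonneg {V y : ℝ} {w : ℕ} (h : Inv y w) : 0 ≤ XiG V y w := by
  unfold XiG
  split_ifs
  · exact (Xi_pos h).le
  · exact le_rfl

/-- package of constants -/
structure Consts where
  C1 : ℝ
  C3 : ℝ
  W : ℕ
  hC1 : 0 < C1
  hC3 : 50 ≤ C3
  op : ∀ y w, Inv y w → Op Xi y w ≤ C1 * Xi y w
  contr : ∀ y w, Inv y w → W ≤ w → ¬ Good y w → Op XiB y w ≤ 49 / 50 * Xi y w
  small : ∀ y w, Inv y w → w < W → T0 Xi y w ≤ C3 * Xi y w

theorem exists_consts : Nonempty Consts := by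
  obtain ⟨C1, hC1, h1⟩ := Op_Xi_le
  obtain ⟨W, -, h2⟩ := Op_XiB_le
  obtain ⟨C, -, h3⟩ := small_w W
  refine ⟨⟨C1, max 50 C, W, hC1, le_max_left _ _, h1, h2, ?_⟩⟩
  intro y w hI hw
  exact (h3 y w hI hw).trans (mul_le_mul_of_nonneg_right (le_max_right _ _) (Xi_pos hI).le)

variable (c : Consts)

/-- below the level `e^V` -/
theorem below (V : ℝ) : ∀ y w, InvV V y w →
    T (stopV V) Xi (fun _ _ => 0) y w ≤ c.C3 * XiB y w := by
  refine tree_induction (invV_closed V) ?_
  rintro y w ⟨hI, hV⟩ ih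
  have hC3 : 0 ≤ c.C3 := by linarith [c.hC3]
  by_cases hg : Good y w
  · rw [T_stop ⟨hg, hV⟩]
    exact mul_nonneg hC3 (XiB_nonneg hI)
  · have hns : ¬ stopV V y w := fun h => hg h.1
    have hB : XiB y w = Xi y w := by unfold XiB; rw [if_neg hg]
    rw [hB]
    rcases lt_or_ge w c.W with hw | hw
    · exact (T_le_T0 inv_closed (fun y w h => (Xi_pos h).le) y w hI).trans (c.small y w hI hw)
    · rw [T_not hns]
      have h1 : Op (T (stopV V) Xi (fun _ _ => 0)) y w ≤ Op (fun y w => c.C3 * XiB y w) y w :=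
        Op_mono ih
      rw [Op_smul] at h1
      have h2 := mul_le_mul_of_nonneg_left (c.contr y w hI hw hg) hC3
      have h3 := Xi_pos hI
      nlinarith [c.hC3]

/-- constant of `above` -/
def Consts.C5 : ℝ := 1 + c.C3 * c.C1

theorem Consts.C5_pos : 0 < c.C5 := by
  unfold Consts.C5
  have := c.hC1
  have := c.hC3
  positivity

/-- the nodes above the line are controlled by the nodes with level `> e^V` -/
theorem above (V : ℝ) : ∀ y w, Inv y w →
    T (stopV V) Xi (fun _ _ => 0) y w ≤
      c.C5 * T0 (XiV V) y w + (if Real.log y ≤ V then c.C3 * XiB y w else 0) := by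
  have hC3 : 0 ≤ c.C3 := by linarith [c.hC3]
  refine tree_induction inv_closed ?_
  intro y w hI ih
  by_cases hV : Real.log y ≤ V
  · rw [if_pos hV]
    have h1 := below c V y w ⟨hI, hV⟩
    have h2 : 0 ≤ T0 (XiV V) y w := T0_nonneg (fun y w h => XiV_nonneg h) y w hI
    have := c.C5_pos
    nlinarith [mul_nonneg this.le h2]
  · rw [if_neg hV, add_zero]
    have hns : ¬ stopV V y w := fun h => hV h.2
    rw [T_not hns, T0_eq]
    have h1 : Op (T (stopV V) Xi (fun _ _ => 0)) y w ≤
        Op (fun y w => c.C5 * T0 (XiV V) y w + c.C3 * Xi y w) y w := by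
      refine Op_mono fun p q hc => (ih p q hc).trans ?_
      have hIc := inv_closed y w p q hI hc
      refine add_le_add_right ?_ _
      split_ifs
      · exact mul_le_mul_of_nonneg_left (XiB_le hIc) hC3
      · exact mul_nonneg hC3 (Xi_pos hIc).le
    rw [Op_add (fun y w => c.C5 * T0 (XiV V) y w) (fun y w => c.C3 * Xi y w), Op_smul, Op_smul] at h1
    have h2 := mul_le_mul_of_nonneg_left (c.op y w hI) hC3
    have h3 : XiV V y w = Xi y w := by unfold XiV; rw [if_pos (not_le.1 hV)]
    rw [h3]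
    have h4 := Xi_pos hI
    unfold Consts.C5 at *
    nlinarith

/-- the nodes with level `> e^V` are controlled by the good ones -/
theorem by_good (V : ℝ) : ∀ y w, Inv y w →
    T0 (XiV V) y w ≤ c.C5 * T0 (XiG V) y w +
      (if V < Real.log y then c.C3 * XiB y w else 0) := by
  have hC3 : 0 ≤ c.C3 := by linarith [c.hC3]
  have hC5 := c.C5_pos
  refine tree_induction inv_closed ?_
  intro y w hI ih
  have hG0 : 0 ≤ T0 (XiG V) y w := T0_nonneg (fun y w h => XiG_nonneg h) y w hI
  by_cases hV : V < Real.log y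
  · rw [if_pos hV]
    have hX : XiV V y w = Xi y w := by unfold XiV; rw [if_pos hV]
    by_cases hg : Good y w
    · have hG : XiG V y w = Xi y w := by unfold XiG; rw [if_pos ⟨hV, hg⟩]
      rw [T0_eq, T0_eq, hX, hG]
      have h1 : Op (T0 (XiV V)) y w ≤
          Op (fun y w => c.C5 * T0 (XiG V) y w + c.C3 * Xi y w) y w := by
        refine Op_mono fun p q hc => (ih p q hc).trans ?_
        have hIc := inv_closed y w p q hI hc
        refine add_le_add_right ?_ _
        split_ifs
        · exact mul_le_mul_of_nonneg_left (XiB_le hIc) hC3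
        · exact mul_nonneg hC3 (Xi_pos hIc).le
      rw [Op_add (fun y w => c.C5 * T0 (XiG V) y w) (fun y w => c.C3 * Xi y w), Op_smul,
        Op_smul] at h1
      have h2 := mul_le_mul_of_nonneg_left (c.op y w hI) hC3
      have h4 := Xi_pos hI
      have h5 := mul_nonneg hC3 (XiB_nonneg hI)
      unfold Consts.C5 at *
      nlinarith
    · have hB : XiB y w = Xi y w := by unfold XiB; rw [if_neg hg]
      rw [hB]
      rcases lt_or_ge w c.W with hw | hw
      · have h1 : T0 (XiV V) y w ≤ T0 Xi y w := by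
          refine T0_mono (fun y w h => ?_) y w hI
          unfold XiV
          split_ifs
          · exact le_rfl
          · exact (Xi_pos h).le
        have h2 := c.small y w hI hw
        have h3 := mul_nonneg hC5.le hG0
        linarith
      · have hG : XiG V y w = 0 := by unfold XiG; rw [if_neg (fun h => hg h.2)]
        rw [T0_eq, T0_eq, hX, hG, zero_add]
        have h1 : Op (T0 (XiV V)) y w ≤
            Op (fun y w => c.C5 * T0 (XiG V) y w + c.C3 * XiB y w) y w := by
          refine Op_mono fun p q hc => (ih p q hc).trans ?_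
          have hIc := inv_closed y w p q hI hc
          refine add_le_add_right ?_ _
          split_ifs
          · exact le_rfl
          · exact mul_nonneg hC3 (XiB_nonneg hIc)
        rw [Op_add (fun y w => c.C5 * T0 (XiG V) y w) (fun y w => c.C3 * XiB y w), Op_smul,
          Op_smul] at h1
        have h2 := mul_le_mul_of_nonneg_left (c.contr y w hI hw hg) hC3
        have h3 := Xi_pos hI
        nlinarith [c.hC3]
  · rw [if_neg hV, add_zero]
    have h0 : T0 (XiV V) y w = 0 := by
      refine T0_zero (V := V) ?_ y w ⟨hI, not_lt.1 hV⟩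
      rintro y w ⟨-, h⟩
      unfold XiV
      rw [if_neg (not_lt.2 h)]
    rw [h0]
    exact mul_nonneg hC5.le hG0

end Crest.Agent.R001.Mass
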