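import Crest.Agent.R001.Hit621f
import Crest.Agent.R001.TreeSize
import Crest.Agent.R001.MassD664

/-!
# R1, block HIT: bridge to `Tree.T` (helper7) and `Mass.T` (helper664).  helper621
-/

set_option autoImplicit false

namespace Crest.Agent.R001.Hit

open Finset Classical

/-- `ls` is `Tree.T` for the rule `bd ∨ stop`. -/
theorem ls_eq_T (D : ℝ) (stop : ℕ → ℕ → Prop) (f : ℕ → ℕ → ℝ) (w : ℕ) :
    ∀ d : ℕ, ¬ stop d w →
    ls D stop f d w = Tree.T (fun d w => Tree.bd D d w ∨ stop d w) (fun _ _ => 0)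
      (fun d w => if Tree.bd D d w then 0 else f d w) d w := by
  induction w using Nat.strong_induction_on with
  | _ w ih =>
    intro d hs
    rw [ls_step hs, Tree.T_eq, zero_add, cs]
    change ∑ p ∈ Tree.pr w, ∑ q ∈ Tree.pr p, _ = _
    refine Finset.sum_congr rfl fun p hp => Finset.sum_congr rfl fun q hq => ?_
    have hqw : q < w := lt_trans (Tree.lt_of_mem_pr hq) (Tree.lt_of_mem_pr hp)
    have hbd : Tree.bd D (d * p * q) q ↔ ¬ (d : ℝ) * p * (q : ℝ) ^ 3 < D := by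
      unfold Tree.bd
      rw [not_lt]
      push_cast
      have : (d : ℝ) * p * q * (q : ℝ) ^ 2 = d * p * (q : ℝ) ^ 3 := by ring
      rw [this]
    by_cases ht : (d : ℝ) * p * (q : ℝ) ^ 3 < D
    · have hb : ¬ Tree.bd D (d * p * q) q := fun h => hbd.1 h ht
      rw [if_pos ht]
      by_cases hst : stop (d * p * q) q
      · rw [if_pos (Or.inr hst), if_neg hb, ls_stop hst]
      · rw [if_neg (fun h => h.elim hb hst)]
        exact ih q hqw _ hst
    · have hb : Tree.bd D (d * p * q) q := hbd.2 ht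
      rw [if_neg ht, if_pos (Or.inl hb), if_pos hb]

/-- `FF` in terms of the level-normalised functional. -/
theorem FF_eq (D V : ℝ) (w : ℕ) : ∀ d : ℕ, 0 < d →
    FF D V d w = 1 / (d : ℝ) * Mass.T (Mass.stopV V) (fun _ _ => 0) (fun _ _ => 1) (D / d) w := by
  induction w using Nat.strong_induction_on with
  | _ w ih =>
    intro d hd
    have hd0 : (0 : ℝ) < d := by exact_mod_cast hd
    by_cases hs : Stop D V d w
    · have hs' : Mass.stopV V (D / d) w := hs
      rw [Mass.T_stop hs', mul_one]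
      unfold FF
      rw [ls_stop hs]
    · have hs' : ¬ Mass.stopV V (D / d) w := hs
      rw [Mass.T_not hs', zero_add]
      have e : FF D V d w = cs D (FF D V) d w := ls_step hs
      rw [e, cs, Mass.Op, Finset.mul_sum]
      change ∑ p ∈ Mass.P w, ∑ q ∈ Mass.P p, _ = _
      refine Finset.sum_congr rfl fun p hp => ?_
      rw [Finset.mul_sum]
      refine Finset.sum_congr rfl fun q hq => ?_
      have hp' := (Mass.mem_P.1 hp).2.pos
      have hq' := (Mass.mem_P.1 hq).2.pos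
      have hp0 : (0 : ℝ) < p := by exact_mod_cast hp'
      have hq0 : (0 : ℝ) < q := by exact_mod_cast hq'
      have hqw : q < w := lt_trans (Mass.mem_P.1 hq).1 (Mass.mem_P.1 hp).1
      have e1 : D / ((d * p * q : ℕ) : ℝ) = D / d / ((p : ℝ) * q) := by
        push_cast; field_simp
      have hiff : (d : ℝ) * p * (q : ℝ) ^ 3 < D ↔ (p : ℝ) * (q : ℝ) ^ 3 < D / d := by
        rw [lt_div_iff₀ hd0]
        have : (d : ℝ) * p * (q : ℝ) ^ 3 = p * (q : ℝ) ^ 3 * d := by ring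
        rw [this]
      by_cases ht : (d : ℝ) * p * (q : ℝ) ^ 3 < D
      · rw [if_pos ht, if_pos (hiff.1 ht), ih q hqw _ (Nat.mul_pos (Nat.mul_pos hd hp') hq'), e1]
        push_cast
        field_simp
      · rw [if_neg ht, if_neg (fun h => ht (hiff.2 h)), mul_zero]

/-- helper664's (D1) -/
def MassUp : Prop := ∃ C V1 : ℝ, 0 < C ∧ 0 < V1 ∧ ∀ V : ℝ, V1 ≤ V → ∀ (y : ℝ) (w : ℕ), 2 ≤ w →
  (w : ℝ) ^ 2 ≤ y → V ≤ Real.log y →
  Mass.T (Mass.stopV V) (fun _ _ => 0) (fun _ _ => 1) y w ≤ C * V ^ 2 / Real.log y ^ 2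

/-- helper664's (D2) (without the lower bound for the level) -/
def MassLow : Prop := ∃ c V1 B : ℝ, 0 < c ∧ 0 < V1 ∧ 1 ≤ B ∧ ∀ V : ℝ, V1 ≤ V →
  ∀ (y : ℝ) (w : ℕ), 2 ≤ w → (w : ℝ) ^ 2 ≤ y → Real.log y < 4 * Real.log w → B * V ≤ Real.log y →
  c * V ^ 2 / Real.log y ^ 2 ≤ Mass.T (Mass.stopV V) (fun _ _ => 0) (fun _ _ => 1) y w

lemma inv_y {D : ℝ} {d w : ℕ} (hi : Inv D d w) : (w : ℝ) ^ 2 ≤ D / d := by
  have hd : (0 : ℝ) < d := by exact_mod_cast hi.one_le
  rw [le_div_iff₀ hd]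
  have := hi.sq_le
  linarith

theorem MassUp.up (h : MassUp) : ∃ C V1 : ℝ, 0 < C ∧ 0 < V1 ∧ UP C V1 := by
  obtain ⟨C, V1, hC, hV1, H⟩ := h
  refine ⟨C, V1, hC, hV1, ?_⟩
  intro D V hV d w hi hv
  have hd : (0 : ℝ) < d := by exact_mod_cast hi.one_le
  have hVp : 0 < V := by linarith
  have hvp : 0 < vv D d := by linarith
  by_cases hw : 2 ≤ w
  · rw [FF_eq D V w d hi.one_le]
    have h1 := H V hV (D / d) w hw (inv_y hi) hv
    calc 1 / (d : ℝ) * Mass.T (Mass.stopV V) (fun _ _ => 0) (fun _ _ => 1) (D / d) w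
        ≤ 1 / (d : ℝ) * (C * V ^ 2 / Real.log (D / d) ^ 2) := by gcongr
      _ = C * V ^ 2 / (d * vv D d ^ 2) := by
        unfold vv; field_simp
  · have hlog : Real.log w ≤ 0 := by
      have : w ≤ 1 := by omega
      interval_cases w <;> simp
    have hs : ¬ Stop D V d w := by
      intro hs
      have := hs.1
      linarith
    have e : FF D V d w = cs D (FF D V) d w := ls_step hs
    rw [e, cs]
    have h0 : pb w = ∅ := by
      apply Finset.eq_empty_of_forall_notMem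
      intro p hp
      rw [mem_pb] at hp
      have := hp.2.two_le
      omega
    rw [h0, Finset.sum_empty]
    positivity

theorem MassLow.low (h : MassLow) : ∃ c V1 B : ℝ, 0 < c ∧ 0 < V1 ∧ 1 ≤ B ∧ LOW 4 c V1 B := by
  obtain ⟨c, V1, B, hc, hV1, hB, H⟩ := h
  refine ⟨c, V1, B, hc, hV1, hB, ?_⟩
  intro D V hV d w hi hv hBv
  have hd : (0 : ℝ) < d := by exact_mod_cast hi.one_le
  have hVp : 0 < V := by linarith
  have hvp : 0 < vv D d := by nlinarith
  have hw : 2 ≤ w := by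
    by_contra hw
    have hlog : Real.log w ≤ 0 := by
      have : w ≤ 1 := by omega
      interval_cases w <;> simp
    linarith
  rw [FF_eq D V w d hi.one_le]
  have h1 := H V hV (D / d) w hw (inv_y hi) hv hBv
  calc c * V ^ 2 / (d * vv D d ^ 2) = 1 / (d : ℝ) * (c * V ^ 2 / Real.log (D / d) ^ 2) := by
        unfold vv; field_simp
    _ ≤ _ := by gcongr

/-- The stopping rule `stopL` of the assembly: Rosser rule or `line(V)`. -/
def stopL (D V : ℝ) (d w : ℕ) : Prop := Tree.bd D d w ∨ Stop D V d w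

/-- sum of `f` over `line(V)` of the tree of level `D` with root `(1, w0)` -/
noncomputable def lineSum (D V : ℝ) (f : ℕ → ℕ → ℝ) (w0 : ℕ) : ℝ :=
  Tree.T (stopL D V) (fun _ _ => 0) (fun d w => if Tree.bd D d w then 0 else f d w) 1 w0

/-- The part of `line(V)` with `v ≤ η V` has a small share. -/
theorem small_v {CU V1 : ℝ} (hCU : 0 < CU) (hV1 : 0 < V1) (hUP : UP CU V1) {D V η : ℝ}
    (hη0 : 0 < η) (hη : η ≤ 1) (hV : V1 ≤ η * V) (hVD : V < Real.log D) {w0 : ℕ}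
    (hw0 : (w0 : ℝ) ^ 2 ≤ D) :
    lineSum D V (fun d _ => if vv D d ≤ η * V then 1 / (d : ℝ) else 0) w0 ≤
      CU * η ^ 2 * (V ^ 2 / Real.log D ^ 2) := by
  have hVp : 0 < V := by
    by_contra hle
    push Not at hle
    nlinarith
  have hv1 : vv D 1 = Real.log D := by unfold vv; simp
  have hns : ¬ Stop D V 1 w0 := by
    intro hs
    have h4 := hs.2
    rw [hv1] at h4
    linarith
  have hi : Inv D 1 w0 := ⟨le_rfl, by push_cast; linarith⟩
  unfold lineSum stopL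
  rw [← ls_eq_T D (Stop D V) _ w0 1 hns]
  have key : ∀ d w, Inv D d w →
      ls D (Stop D V) (fun d _ => if vv D d ≤ η * V then 1 / (d : ℝ) else 0) d w ≤
        FF D (η * V) d w := by
    apply tree_ind
    intro d w hi ih
    by_cases hs : Stop D V d w
    · rw [ls_stop hs]
      split_ifs with h5
      · have hs2 : Stop D (η * V) d w := ⟨hs.1, h5⟩
        unfold FF
        rw [ls_stop hs2]
      · exact FF_nonneg _ _ hi
    · have hs2 : ¬ Stop D (η * V) d w := fun h => hs ⟨h.1, h.2.trans (by nlinarith)⟩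
      unfold FF
      rw [ls_step hs, ls_step hs2]
      exact cs_le_cs ih
  refine (key 1 w0 hi).trans ?_
  refine (hUP D (η * V) hV 1 w0 hi (by rw [hv1]; nlinarith)).trans (le_of_eq ?_)
  rw [hv1]
  push_cast
  ring

/-- **BLOCK HIT**: uniqueness of the class and first hit, in terms of `Tree.T`. -/
theorem hit_tree (hup : MassUp) (hlow : MassLow) :
    ∃ C0 ε0 V0 : ℝ, 11 ≤ C0 ∧ 0 < ε0 ∧ 0 < V0 ∧
      ∀ D V T0 : ℝ, V0 ≤ V → C0 * V ≤ T0 → C0 * T0 ≤ Real.log D →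
      ∀ w0 : ℕ, (w0 : ℝ) ^ 2 ≤ D → 9 / 20 * Real.log D ≤ Real.log w0 →
      ∀ {ι : Type*} (I : Finset ι) (P : ι → ℕ → Prop) (ε : ℝ), 0 ≤ ε → ε ≤ ε0 →
      ∑ p ∈ (pb w0).filter (fun p : ℕ => T0 < Real.log p ∧
        ∃ i ∈ I, ∃ j ∈ I, i ≠ j ∧ P i p ∧ P j p), 1 / (p : ℝ) ≤ ε →
      lineSum D V (fun d _ => if Unst T0 (Real.log D / 5) I P d then 1 / (d : ℝ) else 0) w0 ≤
        ε * (V ^ 2 / Real.log D ^ 2) →
      ∃ i ∈ I, ∑ p ∈ (pb w0).filter (fun p : ℕ => T0 < Real.log p ∧ ¬ P i p), 1 / (p : ℝ) ≤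
        C0 * ε := by
  obtain ⟨CU, Va, hCU, hVa, hUP⟩ := hup.up
  obtain ⟨c4, Vb, B, hc4, hVb, hB, hL4⟩ := hlow.low
  have hUP' : UP CU (max Va Vb) := hUP.mono (le_max_left _ _)
  have hL4' : LOW 4 c4 (max Va Vb) B := hL4.mono le_rfl le_rfl (le_max_right _ _) le_rfl
    (lt_max_of_lt_left hVa)
  obtain ⟨C0, ε0, V0, h1, h2, h3, H⟩ := hit_main hCU hc4 (lt_max_of_lt_left hVa) hB hUP' hL4'
  refine ⟨C0, ε0, V0, h1, h2, h3, ?_⟩
  intro D V T0 hV hCV hCT w0 hw0 hlw0 ι I P ε hε hεε0 hov hU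
  refine H D V T0 hV hCV hCT w0 hw0 hlw0 I P ε hε hεε0 hov ?_
  have hVp : 0 < V := by linarith
  have hT0 : 11 * V ≤ T0 := le_trans (by nlinarith) hCV
  have hL : 11 * T0 ≤ Real.log D := le_trans (by nlinarith) hCT
  have hns : ¬ Stop D V 1 w0 := by
    intro hs
    have h4 := hs.2
    unfold vv at h4
    rw [Nat.cast_one, div_one] at h4
    linarith
  unfold UU
  rw [ls_eq_T D (Stop D V) _ w0 1 hns]
  exact hU

end Crest.Agent.R001.Hit
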