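import Crest.Agent.R001.TreeHyb
import Crest.Agent.R001.Asm1
import Crest.Agent.R001.Par2

/-!
# R1, block UT (helper154): the controlled nodes of a line produce survivors

`ut`: if on a set `U` of good nodes of a stopping line (with `Σ_U 1/(b v²) ≥ ε/L²`) the sifted
counts are bounded below (in the mean) by the main term of the Rosser sieve of the higher level
`X (log X)^C`, then the interval contains at least `X / L²` numbers without prime factor `< z`.
-/

set_option autoImplicit false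

namespace Crest.Agent.R001.UT

open Finset Crest.Agent.R001.Tree Crest.Agent.R001.Par Crest.Agent.R001.Asm
open Crest.Agent.R001.End (rough mem_rough)

/-- main term of the Rosser sieve on the good range: `(2/x) log(x/W - 1)` -/
noncomputable def Phi (x W : ℝ) : ℝ := 2 / x * Real.log (x / W - 1)

lemma log_three_le : Real.log 3 ≤ 1.11 := by
  have h : (3 : ℝ) ^ 5 ≤ 2 ^ 8 := by norm_num
  have h1 := Real.log_le_log (by norm_num) h
  rw [Real.log_pow, Real.log_pow] at h1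
  have h2 := Real.log_two_lt_d9
  push_cast at h1
  linarith

/-- **gain**: raising the level by `e^y` gains `≥ 0.39 y / v²` on good nodes. -/
lemma gain {v W y : ℝ} (hW : 0 < W) (h2 : 2 * W ≤ v) (h4 : v ≤ 4 * W) (hy : 0 ≤ y)
    (hyv : 100 * y ≤ v) : (39 / 100) * y / v ^ 2 ≤ Phi (v + y) W - Phi v W := by
  have hv : 0 < v := by linarith
  have hvy : 0 < v + y := by linarith
  have hs : 0 < v / W - 1 := by
    have : 2 ≤ v / W := by rw [le_div_iff₀ hW]; exact h2
    linarith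
  have hs2 : 0 < (v + y) / W - 1 := by
    have : v / W ≤ (v + y) / W := div_le_div_of_nonneg_right (by linarith) hW.le
    linarith
  have hlog1 : Real.log (v / W - 1) ≤ 1.11 := by
    refine (Real.log_le_log hs ?_).trans log_three_le
    have : v / W ≤ 4 := by rw [div_le_iff₀ hW]; exact h4
    linarith
  have hlog0 : 0 ≤ Real.log (v / W - 1) := by
    apply Real.log_nonneg
    have : 2 ≤ v / W := by rw [le_div_iff₀ hW]; exact h2
    linarith
  have hden : 0 < v + y - W := by linarith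
  have hlog2 : y / (v + y - W) ≤ Real.log ((v + y) / W - 1) - Real.log (v / W - 1) := by
    rw [← Real.log_div hs2.ne' hs.ne']
    have e1 : ((v + y) / W - 1) / (v / W - 1) = (v + y - W) / (v - W) := by
      have : v - W ≠ 0 := by
        have : 0 < v - W := by linarith
        exact this.ne'
      field_simp
    rw [e1]
    have h3 : 0 < v - W := by linarith
    have h5 := Real.one_sub_inv_le_log_of_pos (show 0 < (v + y - W) / (v - W) by positivity)
    refine le_trans (le_of_eq ?_) h5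
    rw [inv_div]
    field_simp
    ring
  have hfrac : 1.31 / v ≤ 1 / (v + y - W) := by
    rw [div_le_div_iff₀ hv hden]
    nlinarith
  have e : Phi (v + y) W - Phi v W =
      2 / (v + y) * ((Real.log ((v + y) / W - 1) - Real.log (v / W - 1)) -
        Real.log (v / W - 1) * (y / v)) := by
    unfold Phi
    field_simp
    ring
  rw [e]
  have h6 : y / v * 0.2 ≤ (Real.log ((v + y) / W - 1) - Real.log (v / W - 1)) -
        Real.log (v / W - 1) * (y / v) := by
    have h7 : y * (1.31 / v) ≤ y / (v + y - W) := by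
      rw [div_eq_mul_one_div y (v + y - W)]
      exact mul_le_mul_of_nonneg_left hfrac hy
    have h8 : Real.log (v / W - 1) * (y / v) ≤ 1.11 * (y / v) :=
      mul_le_mul_of_nonneg_right hlog1 (by positivity)
    have e2 : y * (1.31 / v) = 1.31 * (y / v) := by ring
    linarith
  have h9 : 2 / (v + y) * (y / v * 0.2) ≤ 2 / (v + y) *
      ((Real.log ((v + y) / W - 1) - Real.log (v / W - 1)) -
        Real.log (v / W - 1) * (y / v)) := mul_le_mul_of_nonneg_left h6 (by positivity)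
  refine le_trans ?_ h9
  have e3 : 2 / (v + y) * (y / v * 0.2) = 0.4 * y / (v * (v + y)) := by
    field_simp
    ring
  rw [e3, div_le_div_iff₀ (by positivity) (by positivity)]
  have h10 : 0 ≤ y * v := by positivity
  nlinarith [mul_nonneg h10 (show (0 : ℝ) ≤ v - 100 * y by linarith), mul_nonneg hy (sq_nonneg v)]

/-- the two-sided rho formula in the form used here -/
lemma rho_bounds {A : ℝ} (hm : MassH A) (hb : BdH) : ∃ C : ℝ, 0 < C ∧ ∀ (D : ℝ) (w : ℕ),
    2 ≤ w → (w : ℝ) ^ 2 ≤ D → D ≤ (w : ℝ) ^ 5 →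
    Phi (Real.log D) (Real.log w) - C / Real.log D ^ 2 ≤ Th (bd D) 1 w ∧
    (D ≤ (w : ℝ) ^ 4 → Th (bd D) 1 w ≤ Phi (Real.log D) (Real.log w) + C / Real.log D ^ 2) := by
  obtain ⟨C, hC, h⟩ := rho_formula hm hb
  refine ⟨C, hC, fun D w hw h2 h5 => ?_⟩
  obtain ⟨h6, h7⟩ := h D w hw h2 h5
  have hw1 : (1 : ℝ) < w := by
    have : (2 : ℝ) ≤ w := by exact_mod_cast hw
    linarith
  have hlw : 0 < Real.log w := Real.log_pos hw1
  have e : 2 * Real.log ((Real.log D - Real.log w) / Real.log w) / Real.log D =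
      Phi (Real.log D) (Real.log w) := by
    unfold Phi
    rw [sub_div, div_self hlw.ne']
    ring
  have e2 : rho D w = Th (bd D) 1 w := rfl
  rw [e, e2] at h6 h7
  refine ⟨h6, fun h4 => ?_⟩
  have hD0 : 0 < D := lt_of_lt_of_le (by positivity) h2
  have h8 : Real.log D ≤ 4 * Real.log w := by
    have := Real.log_le_log hD0 h4
    rw [Real.log_pow] at this
    push_cast at this
    exact this
  rw [max_eq_left (by linarith)] at h7
  simpa using h7

/-- per-node estimate: gain of the level `lev` over `D/b`. -/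
lemma node_gain {Cr : ℝ} (hCr : 0 < Cr)
    (hrho : ∀ (D : ℝ) (w : ℕ), 2 ≤ w → (w : ℝ) ^ 2 ≤ D → D ≤ (w : ℝ) ^ 5 →
      Phi (Real.log D) (Real.log w) - Cr / Real.log D ^ 2 ≤ Th (bd D) 1 w ∧
      (D ≤ (w : ℝ) ^ 4 → Th (bd D) 1 w ≤ Phi (Real.log D) (Real.log w) + Cr / Real.log D ^ 2))
    {E lev y : ℝ} {w : ℕ} (hw : 2 ≤ w) (h2 : (w : ℝ) ^ 2 ≤ E) (h4 : E ≤ (w : ℝ) ^ 4)
    (hy0 : 0 ≤ y) (hlev : 0 < lev) (hy : Real.log lev = Real.log E + y)
    (hyv : 100 * y ≤ Real.log E) :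
    ((39 / 100) * y - 2 * Cr) / (Real.log E) ^ 2 ≤ Th (bd lev) 1 w - Th (bd E) 1 w := by
  have hw1 : (2 : ℝ) ≤ w := by exact_mod_cast hw
  have hlw : 0 < Real.log w := Real.log_pos (by linarith)
  have hE0 : 0 < E := lt_of_lt_of_le (by positivity) h2
  have hv2 : 2 * Real.log w ≤ Real.log E := by
    have := Real.log_le_log (by positivity) h2
    rw [Real.log_pow] at this
    push_cast at this
    exact this
  have hv4 : Real.log E ≤ 4 * Real.log w := by
    have := Real.log_le_log hE0 h4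
    rw [Real.log_pow] at this
    push_cast at this
    exact this
  have hE5 : E ≤ (w : ℝ) ^ 5 := h4.trans (pow_le_pow_right₀ (by linarith) (by norm_num))
  have hl2 : (w : ℝ) ^ 2 ≤ lev := by
    rw [← Real.log_le_log_iff (by positivity) hlev, Real.log_pow]
    push_cast
    linarith
  have hl5 : lev ≤ (w : ℝ) ^ 5 := by
    rw [← Real.log_le_log_iff hlev (by positivity), Real.log_pow]
    push_cast
    linarith
  obtain ⟨f1, -⟩ := hrho lev w hw hl2 hl5
  obtain ⟨-, g2⟩ := hrho E w hw h2 hE5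
  have g3 := g2 h4
  have hg := gain hlw hv2 hv4 hy0 hyv
  rw [hy] at f1
  have hv0 : 0 < Real.log E := by linarith
  have hc : Cr / (Real.log E + y) ^ 2 ≤ Cr / (Real.log E) ^ 2 := by
    apply div_le_div_of_nonneg_left hCr.le (by positivity)
    apply pow_le_pow_left₀ hv0.le
    linarith
  have e : ((39 / 100) * y - 2 * Cr) / (Real.log E) ^ 2 =
      (39 / 100) * y / (Real.log E) ^ 2 - Cr / (Real.log E) ^ 2 - Cr / (Real.log E) ^ 2 := by
    ring
  rw [e]
  linarith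

lemma sI_one_eq (a : ℤ) (X w : ℕ) :
    sI a X 1 w = ((rough (Finset.Ioc (a - X) a) (w : ℝ)).card : ℝ) := by
  rw [sI_eq]
  congr 2
  ext t
  simp only [Finset.mem_filter, mem_rough]
  constructor
  · rintro ⟨h1, -, h2⟩
    exact ⟨h1, fun p hp hpw => h2 p hp (by exact_mod_cast hpw)⟩
  · rintro ⟨h1, h2⟩
    exact ⟨h1, by simp, fun p hp hpw => h2 p hp (by exact_mod_cast hpw)⟩

/-- largeness used in `ut` -/
lemma dlev_bounds : ∀ᶠ x : ℝ in Filter.atTop, ∀ X : ℕ, (X : ℝ) = x →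
    (Real.log x) / 2 ≤ Real.log (Dlev X) ∧ (Dlev X : ℝ) ≤ x / (Real.log x) ^ 3 ∧
    x / (Real.log x) ^ 3 ≤ 2 * (Dlev X : ℝ) ∧ 16 ≤ Dlev X := by
  have h3 := eventually_log_rpow_le 3 (1 / 2) 32 (by norm_num) (by norm_num)
  filter_upwards [eventually_big, h3, Filter.eventually_ge_atTop (1 : ℝ)] with x hx h3 hx1 X hX
  subst hX
  have h8 := hx.L8
  have hX0 := hx.X0
  have e3 : (Real.log (X : ℝ)) ^ (3 : ℝ) = (Real.log X) ^ 3 := by
    rw [show (3 : ℝ) = ((3 : ℕ) : ℝ) by norm_num, Real.rpow_natCast]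
  rw [e3] at h3
  have hx12 : 1 ≤ (X : ℝ) ^ ((1 : ℝ) / 2) := Real.one_le_rpow hx1 (by norm_num)
  have hsq : (X : ℝ) ^ ((1 : ℝ) / 2) * (X : ℝ) ^ ((1 : ℝ) / 2) = X := by
    rw [← Real.rpow_add hX0]
    norm_num
  have hL3 : 0 < (Real.log (X : ℝ)) ^ 3 := by positivity
  have hbig : 32 * (X : ℝ) ^ ((1 : ℝ) / 2) ≤ X / (Real.log X) ^ 3 := by
    rw [le_div_iff₀ hL3]
    calc 32 * (X : ℝ) ^ ((1 : ℝ) / 2) * (Real.log X) ^ 3
        = (X : ℝ) ^ ((1 : ℝ) / 2) * (32 * (Real.log X) ^ 3) := by ring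
      _ ≤ (X : ℝ) ^ ((1 : ℝ) / 2) * (X : ℝ) ^ ((1 : ℝ) / 2) := by gcongr
      _ = X := hsq
  have hf1 : (Dlev X : ℝ) ≤ X / (Real.log X) ^ 3 := Nat.floor_le (by positivity)
  have hf2 : X / (Real.log X) ^ 3 < (Dlev X : ℝ) + 1 := Nat.lt_floor_add_one _
  have hD16 : (31 : ℝ) * (X : ℝ) ^ ((1 : ℝ) / 2) ≤ (Dlev X : ℝ) := by linarith
  refine ⟨?_, hf1, by linarith, ?_⟩
  · have : (X : ℝ) ^ ((1 : ℝ) / 2) ≤ (Dlev X : ℝ) := by linarith
    have h := Real.log_le_log (by positivity) this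
    rw [Real.log_rpow hX0] at h
    linarith
  · have : (16 : ℝ) ≤ (Dlev X : ℝ) := by linarith
    exact_mod_cast this

/-- **UT.** -/
theorem ut {A : ℝ} (hm : MassH A) (hb : BdH) (eps : ℝ) (heps : 0 < eps) :
    ∃ C : ℕ, ∃ K0 : ℝ, 0 < K0 ∧ ∃ X0 : ℝ, ∀ X : ℕ, X0 ≤ X → ∀ (a : ℤ) (z : ℝ), 0 ≤ z →
    z ^ 2 ≤ X * (Real.log X) ^ ((21 : ℝ) / 10) →
    ∀ (stop : ℕ → ℕ → Prop), (∀ d w, bd (Dlev X : ℝ) d w → stop d w) →
    ∀ (U : Finset ℕ), U ⊆ LS stop 1 (w0 X) → ∀ (lev : ℕ → ℝ),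
    (∀ b ∈ U, ¬ bd (Dlev X : ℝ) b b.minFac ∧ (Dlev X : ℝ) ≤ (b : ℝ) * (b.minFac : ℝ) ^ 4 ∧
      K0 * Real.log (Real.log X) ≤ Real.log ((Dlev X : ℝ) / b) ∧
      (Real.log X) ^ C * X / (3 * b) ≤ lev b ∧ lev b ≤ (Real.log X) ^ C * X / b) →
    eps / (Real.log X) ^ 2 ≤ ∑ b ∈ U, 1 / ((b : ℝ) * (Real.log ((Dlev X : ℝ) / b)) ^ 2) →
    ∑ b ∈ U, max 0 ((X : ℝ) / b * Th (bd (lev b)) 1 b.minFac - sI a X b b.minFac) ≤
      X / (Real.log X) ^ 2 →
    (X : ℝ) / (Real.log X) ^ 2 ≤ ((rough (Finset.Ioc (a - X) a) z).card : ℝ) := by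
  obtain ⟨Cr, hCr, hrho⟩ := rho_bounds hm hb
  obtain ⟨C0, hC0, hloss⟩ := loss
  obtain ⟨C, hC⟩ : ∃ C : ℕ, (C0 + 1) / (0.39 * eps) ≤ (C : ℝ) := exists_nat_ge _
  have hCe : C0 + 1 ≤ 0.39 * eps * C := by
    rw [div_le_iff₀ (by positivity)] at hC
    linarith
  obtain ⟨X1, hX1⟩ := Filter.eventually_atTop.1 dlev_bounds
  obtain ⟨X2, hX2⟩ := Filter.eventually_atTop.1 eventually_big
  have hloglog : ∀ᶠ x : ℝ in Filter.atTop,
      eps * (1 + 2 * Cr) + 4 * Cr + 3 ≤ Real.log (Real.log x) :=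
    tendsto_loglog.eventually_ge_atTop _
  obtain ⟨X3, hX3⟩ := Filter.eventually_atTop.1 hloglog
  refine ⟨C, 100 * (C + 4), by positivity, max X1 (max X2 X3), ?_⟩
  intro X hX a z hz0 hz stop hstop U hU lev hUb hmass herr
  have hB : Big X := hX2 X ((le_max_left _ _).trans ((le_max_right _ _).trans hX))
  obtain ⟨hD1, hD2, hD3, hD16⟩ := hX1 X ((le_max_left _ _).trans hX) X rfl
  have hl3 := hX3 X ((le_max_right _ _).trans ((le_max_right _ _).trans hX))
  have hlo := hloss X hB a z hz0 hz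
  have h8 := hB.L8
  have hX0 := hB.X0
  have hl1 := hB.l1
  obtain ⟨L, hL⟩ : ∃ L, L = Real.log (X : ℝ) := ⟨_, rfl⟩
  obtain ⟨l, hl⟩ : ∃ l, l = Real.log L := ⟨_, rfl⟩
  obtain ⟨D, hD⟩ : ∃ D : ℕ, D = Dlev X := ⟨_, rfl⟩
  obtain ⟨w, hw⟩ : ∃ w : ℕ, w = w0 X := ⟨_, rfl⟩
  have hww : w = Nat.sqrt D := by rw [hw, hD]; rfl
  rw [← hL] at hD1 hD2 hD3 hl3 hlo h8 hl1 hUb hmass herr ⊢
  rw [← hl] at hl3 hlo hl1 hUb
  rw [← hD] at hD1 hD2 hD3 hD16 hstop hUb hmass
  rw [← hw] at hlo hU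
  have hL0 : 0 < L := by linarith
  have hDr : (16 : ℝ) ≤ D := by exact_mod_cast hD16
  have hD0 : (0 : ℝ) < D := by linarith
  have hw2D : w ^ 2 ≤ D := by rw [hww]; exact Nat.sqrt_le' D
  have hw4 : 4 ≤ w := by
    rw [hww, Nat.le_sqrt']
    omega
  -- root
  have hadm : Adm (D : ℝ) 1 w := by
    intro p hp
    have hpw := lt_of_mem_pr hp
    have h1 : (p : ℝ) < w := by exact_mod_cast hpw
    have h2 : (w : ℝ) ^ 2 ≤ D := by exact_mod_cast hw2D
    have h3 : (p : ℝ) ^ 2 < (w : ℝ) ^ 2 := pow_lt_pow_left₀ h1 (by positivity) (by norm_num)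
    push_cast
    linarith
  have hyb := hybrid (A := cI a X) (S := sI a X) (X := X) (buch_I a X) (sI_nonneg a X)
    (D := D) (by linarith) (fun d hd => abs_cI_sub_le a X hd) hstop hadm U hU
    (fun b hb => (hUb b hb).1)
  -- the root value
  have hroot : -(4 * Cr / L ^ 2) ≤ Th (bd (D : ℝ)) 1 w := by
    have h2 : (w : ℝ) ^ 2 ≤ D := by exact_mod_cast hw2D
    have h5 : (D : ℝ) ≤ (w : ℝ) ^ 5 := by
      have h6 : D < (w + 1) ^ 2 := by
        rw [hww]
        exact Nat.lt_succ_sqrt' D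
      have h7 : (w + 1) ^ 2 ≤ w ^ 5 := by
        have h9 : (w + 1) ^ 2 ≤ (w * w) ^ 2 := Nat.pow_le_pow_left (by nlinarith) 2
        calc (w + 1) ^ 2 ≤ (w * w) ^ 2 := h9
          _ = w ^ 4 := by ring
          _ ≤ w ^ 5 := Nat.pow_le_pow_right (by omega) (by norm_num)
      exact_mod_cast (h6.le.trans h7)
    obtain ⟨f1, -⟩ := hrho D w (by omega) h2 h5
    have hPhi : 0 ≤ Phi (Real.log D) (Real.log w) := by
      have hlw : 0 < Real.log w := Real.log_pos (by
        have : (4 : ℝ) ≤ w := by exact_mod_cast hw4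
        linarith)
      have h10 : 2 * Real.log w ≤ Real.log D := by
        have := Real.log_le_log (by positivity) h2
        rw [Real.log_pow] at this
        push_cast at this
        exact this
      unfold Phi
      apply mul_nonneg (by positivity)
      apply Real.log_nonneg
      have : 2 ≤ Real.log D / Real.log w := by rw [le_div_iff₀ hlw]; exact h10
      linarith
    have h11 : Cr / Real.log D ^ 2 ≤ 4 * Cr / L ^ 2 := by
      have hlD : 0 < Real.log D := by linarith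
      rw [div_le_div_iff₀ (by positivity) (by positivity)]
      have : L ^ 2 ≤ 4 * Real.log D ^ 2 := by nlinarith
      nlinarith
    linarith
  -- per node
  have hnode : ∀ b ∈ U, (X : ℝ) * Th (bd (D : ℝ)) b b.minFac +
      X * ((0.39 * (C * l) - 1 - 2 * Cr) * (1 / ((b : ℝ) * (Real.log ((D : ℝ) / b)) ^ 2))) ≤
      (X : ℝ) / b * Th (bd (lev b)) 1 b.minFac := by
    intro b hbU
    obtain ⟨u1, u2, u3, u4, u5⟩ := hUb b hbU
    obtain ⟨wb, hlf⟩ := mem_LS.1 (hU hbU)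
    have hmf : b.minFac = wb := hlf.minFac (rgh_one w)
    have hbpos : 0 < b := by
      obtain ⟨d', w', p, hn, hp, hq, rfl, hs⟩ := hlf
      exact Nat.mul_pos (Nat.mul_pos (hn.pos one_pos) (prime_of_mem_pr hp).pos)
        (prime_of_mem_pr hq).pos
    have hwbp : wb.Prime := by
      obtain ⟨d', w', p, hn, hp, hq, rfl, hs⟩ := hlf
      exact prime_of_mem_pr hq
    rw [hmf] at u1 u2 ⊢
    have hb0 : (0 : ℝ) < b := by exact_mod_cast hbpos
    rw [not_bd] at u1
    have k2 : (wb : ℝ) ^ 2 ≤ (D : ℝ) / b := by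
      rw [le_div_iff₀ hb0]; linarith
    have k4 : (D : ℝ) / b ≤ (wb : ℝ) ^ 4 := by
      rw [div_le_iff₀ hb0]; linarith
    have hDb0 : 0 < (D : ℝ) / b := by positivity
    have hlev0 : 0 < lev b := lt_of_lt_of_le (by positivity) u4
    obtain ⟨y, hy⟩ : ∃ y, y = Real.log (lev b) - Real.log ((D : ℝ) / b) := ⟨_, rfl⟩
    -- size of `y`
    have hylow : ((C : ℝ) + 3) * l - Real.log 3 ≤ y := by
      have h1 := Real.log_le_log (by positivity) u4
      have h2 := Real.log_le_log hD0 hD2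
      rw [Real.log_div (by positivity) (by positivity), Real.log_mul (by positivity) (by positivity),
        Real.log_mul (by positivity) (by positivity), Real.log_pow, ← hl] at h1
      rw [Real.log_div (by positivity) (by positivity), Real.log_pow, ← hl] at h2
      rw [hy, Real.log_div hD0.ne' hb0.ne']
      push_cast at h1 h2
      linarith
    have hyup : y ≤ ((C : ℝ) + 3) * l + Real.log 2 := by
      have h1 := Real.log_le_log hlev0 u5
      have h2 := Real.log_le_log (by positivity) hD3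
      rw [Real.log_div (by positivity) (by positivity), Real.log_mul (by positivity) (by positivity),
        Real.log_pow, ← hl] at h1
      rw [Real.log_div (by positivity) (by positivity), Real.log_pow, ← hl,
        Real.log_mul (by positivity) (by positivity)] at h2
      rw [hy, Real.log_div hD0.ne' hb0.ne']
      push_cast at h1 h2
      linarith
    have hlog3 := log_three_le
    have hlog2 := Real.log_two_lt_d9
    have hCl : 0 ≤ (C : ℝ) * l := by positivity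
    have hy0 : 0 ≤ y := by nlinarith
    have hyv : 100 * y ≤ Real.log ((D : ℝ) / b) := by
      refine le_trans ?_ u3
      nlinarith
    have hg := node_gain hCr hrho hwbp.two_le k2 k4 hy0 hlev0 (by rw [hy]; ring) hyv
    have hv0 : 0 < Real.log ((D : ℝ) / b) := by
      have : 0 < 100 * ((C : ℝ) + 4) * l := by positivity
      linarith
    have hnum : 0.39 * (C * l) - 1 - 2 * Cr ≤ (39 / 100) * y - 2 * Cr := by
      nlinarith
    have hg2 : (0.39 * (C * l) - 1 - 2 * Cr) / (Real.log ((D : ℝ) / b)) ^ 2 ≤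
        Th (bd (lev b)) 1 wb - Th (bd ((D : ℝ) / b)) 1 wb :=
      (div_le_div_of_nonneg_right hnum (by positivity)).trans hg
    rw [Th_bd_scale hbpos]
    have h12 : (X : ℝ) / b * ((0.39 * (C * l) - 1 - 2 * Cr) / (Real.log ((D : ℝ) / b)) ^ 2) ≤
        (X : ℝ) / b * (Th (bd (lev b)) 1 wb - Th (bd ((D : ℝ) / b)) 1 wb) :=
      mul_le_mul_of_nonneg_left hg2 (by positivity)
    have e1 : (X : ℝ) * ((0.39 * (C * l) - 1 - 2 * Cr) *
        (1 / ((b : ℝ) * (Real.log ((D : ℝ) / b)) ^ 2))) =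
        (X : ℝ) / b * ((0.39 * (C * l) - 1 - 2 * Cr) / (Real.log ((D : ℝ) / b)) ^ 2) := by
      field_simp
    rw [e1]
    have e2 : (X : ℝ) * (1 / (b : ℝ) * Th (bd ((D : ℝ) / b)) 1 wb) =
        (X : ℝ) / b * Th (bd ((D : ℝ) / b)) 1 wb := by ring
    rw [e2]
    have e3 : (X : ℝ) / b * (Th (bd (lev b)) 1 wb - Th (bd ((D : ℝ) / b)) 1 wb) =
      (X : ℝ) / b * Th (bd (lev b)) 1 wb - (X : ℝ) / b * Th (bd ((D : ℝ) / b)) 1 wb := by ring
    rw [e3] at h12
    linarith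
  -- sum over nodes
  have hsum : X * ∑ b ∈ U, Th (bd (D : ℝ)) b b.minFac +
      X * ((0.39 * (C * l) - 1 - 2 * Cr) *
        ∑ b ∈ U, 1 / ((b : ℝ) * (Real.log ((D : ℝ) / b)) ^ 2)) - X / L ^ 2 ≤
      ∑ b ∈ U, sI a X b b.minFac := by
    have h1 := Finset.sum_le_sum hnode
    rw [Finset.sum_add_distrib, ← Finset.mul_sum, ← Finset.mul_sum, ← Finset.mul_sum] at h1
    have h2 : ∑ b ∈ U, (X : ℝ) / b * Th (bd (lev b)) 1 b.minFac ≤
        ∑ b ∈ U, sI a X b b.minFac +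
        ∑ b ∈ U, max 0 ((X : ℝ) / b * Th (bd (lev b)) 1 b.minFac - sI a X b b.minFac) := by
      rw [← Finset.sum_add_distrib]
      refine Finset.sum_le_sum fun b _ => ?_
      have := le_max_right 0 ((X : ℝ) / b * Th (bd (lev b)) 1 b.minFac - sI a X b b.minFac)
      linarith
    linarith
  have hcoef : 0 ≤ 0.39 * (C * l) - 1 - 2 * Cr := by
    -- `0.39 eps C l ≥ l`, so the coefficient is positive
    have h1 : eps * (0.39 * (C * l) - 1 - 2 * Cr) ≥ 0 := by
      have h2 : (C0 + 1) * l ≤ 0.39 * eps * C * l := mul_le_mul_of_nonneg_right hCe (by linarith)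
      nlinarith
    by_contra hcon
    push Not at hcon
    have : eps * (0.39 * (C * l) - 1 - 2 * Cr) < 0 := mul_neg_of_pos_of_neg heps hcon
    linarith
  have hfin1 : (0.39 * (C * l) - 1 - 2 * Cr) * (eps / L ^ 2) ≤
      (0.39 * (C * l) - 1 - 2 * Cr) *
        ∑ b ∈ U, 1 / ((b : ℝ) * (Real.log ((D : ℝ) / b)) ^ 2) :=
    mul_le_mul_of_nonneg_left hmass hcoef
  have hsI : (X : ℝ) * (-(4 * Cr / L ^ 2)) + X * ((0.39 * (C * l) - 1 - 2 * Cr) * (eps / L ^ 2)) -
      X / L ^ 2 - D ≤ sI a X 1 w := by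
    have h1 : (X : ℝ) * (-(4 * Cr / L ^ 2)) ≤ X * Th (bd (D : ℝ)) 1 w :=
      mul_le_mul_of_nonneg_left hroot hX0.le
    have h2 : (X : ℝ) * ((0.39 * (C * l) - 1 - 2 * Cr) * (eps / L ^ 2)) ≤
      X * ((0.39 * (C * l) - 1 - 2 * Cr) *
        ∑ b ∈ U, 1 / ((b : ℝ) * (Real.log ((D : ℝ) / b)) ^ 2)) :=
      mul_le_mul_of_nonneg_left hfin1 hX0.le
    rw [mul_sub] at hyb
    linarith
  rw [sI_one_eq] at hsI
  have hDX : (D : ℝ) ≤ X / L ^ 2 := by
    refine hD2.trans ?_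
    apply div_le_div_of_nonneg_left hX0.le (by positivity)
    calc L ^ 2 = L ^ 2 * 1 := by ring
      _ ≤ L ^ 2 * L := by gcongr; linarith
      _ = L ^ 3 := by ring
  have hfinal : (X : ℝ) / L ^ 2 + C0 * X * l / L ^ 2 ≤ (X : ℝ) * (-(4 * Cr / L ^ 2)) +
      X * ((0.39 * (C * l) - 1 - 2 * Cr) * (eps / L ^ 2)) - X / L ^ 2 - X / L ^ 2 := by
    have e : (X : ℝ) * (-(4 * Cr / L ^ 2)) +
      X * ((0.39 * (C * l) - 1 - 2 * Cr) * (eps / L ^ 2)) - X / L ^ 2 - X / L ^ 2 -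
      ((X : ℝ) / L ^ 2 + C0 * X * l / L ^ 2) =
      X / L ^ 2 * (-(4 * Cr) + (0.39 * (C * l) - 1 - 2 * Cr) * eps - 3 - C0 * l) := by
      field_simp
      ring
    have h1 : 0 ≤ -(4 * Cr) + (0.39 * (C * l) - 1 - 2 * Cr) * eps - 3 - C0 * l := by
      have h2 : (C0 + 1) * l ≤ 0.39 * eps * C * l := mul_le_mul_of_nonneg_right hCe (by linarith)
      nlinarith
    have h3 : 0 ≤ (X : ℝ) / L ^ 2 * (-(4 * Cr) + (0.39 * (C * l) - 1 - 2 * Cr) * eps - 3 - C0 * l) :=
      mul_nonneg (by positivity) h1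
    linarith
  linarith

end Crest.Agent.R001.UT
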