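import Crest.Agent.R001.AsmDefs
import Crest.Agent.R001.UT
import Crest.Agent.R001.Hit621g

/-!
# R1, top assembly, part 2 (helper571): from the blocks to `MainRough (21/10)`
-/

set_option autoImplicit false

namespace Crest.Agent.R001.Asm

open Finset Crest.Agent.R001.Tree

lemma node_sqfree {stop : ℕ → ℕ → Prop} {w0 d w : ℕ} (h : Node stop 1 w0 d w) :
    Squarefree d ∧ ∀ r : ℕ, r.Prime → r ∣ d → w ≤ r ∧ r < w0 := by
  induction h with
  | root =>
    exact ⟨squarefree_one, fun r hr h1 => absurd (Nat.dvd_one.1 h1) hr.one_lt.ne'⟩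
  | @step d w p q hn hp hq hs ih =>
    obtain ⟨h1, h2⟩ := ih
    have hpp := prime_of_mem_pr hp
    have hqp := prime_of_mem_pr hq
    have hqlt := lt_of_mem_pr hq
    have hplt := lt_of_mem_pr hp
    have hww0 : w ≤ w0 := hn.w_le
    have hpd : ¬ p ∣ d := fun hc => by have := (h2 p hpp hc).1; omega
    have hqd : ¬ q ∣ d * p := by
      intro hc
      rcases (Nat.Prime.dvd_mul hqp).1 hc with h3 | h3
      · have := (h2 q hqp h3).1; omega
      · have := (Nat.prime_dvd_prime_iff_eq hqp hpp).1 h3; omega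
    constructor
    · rw [Nat.squarefree_mul_iff, Nat.squarefree_mul_iff]
      refine ⟨?_, ⟨?_, h1, hpp.squarefree⟩, hqp.squarefree⟩
      · exact ((Nat.Prime.coprime_iff_not_dvd hqp).2 hqd).symm
      · exact ((Nat.Prime.coprime_iff_not_dvd hpp).2 hpd).symm
    · intro r hr hdvd
      rcases (Nat.Prime.dvd_mul hr).1 hdvd with h3 | h3
      · rcases (Nat.Prime.dvd_mul hr).1 h3 with h4 | h4
        · obtain ⟨h5, h6⟩ := h2 r hr h4
          omega
        · have := (Nat.prime_dvd_prime_iff_eq hr hpp).1 h4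
          omega
      · have := (Nat.prime_dvd_prime_iff_eq hr hqp).1 h3
        omega

lemma leaf_facts {stop : ℕ → ℕ → Prop} {w0 b : ℕ} (h : b ∈ LS stop 1 w0) :
    Squarefree b ∧ 1 < b ∧ b.minFac.Prime ∧ (∀ r : ℕ, r.Prime → r ∣ b → r < w0) ∧
      stop b b.minFac := by
  obtain ⟨w', hl⟩ := mem_LS.1 h
  have hmin := hl.minFac (rgh_one w0)
  obtain ⟨d, w, p, hn, hp, hq, rfl, hs⟩ := hl
  rw [hmin]
  obtain ⟨h1, h2⟩ := node_sqfree hn
  have hpp := prime_of_mem_pr hp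
  have hqp := prime_of_mem_pr hq
  have hqlt := lt_of_mem_pr hq
  have hplt := lt_of_mem_pr hp
  have hww0 : w ≤ w0 := hn.w_le
  have hpd : ¬ p ∣ d := fun hc => by have := (h2 p hpp hc).1; omega
  have hqd : ¬ w' ∣ d * p := by
    intro hc
    rcases (Nat.Prime.dvd_mul hqp).1 hc with h3 | h3
    · have := (h2 w' hqp h3).1; omega
    · have := (Nat.prime_dvd_prime_iff_eq hqp hpp).1 h3; omega
  have hd0 : 0 < d := hn.pos one_pos
  refine ⟨?_, ?_, hqp, ?_, hs⟩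
  · rw [Nat.squarefree_mul_iff, Nat.squarefree_mul_iff]
    refine ⟨?_, ⟨?_, h1, hpp.squarefree⟩, hqp.squarefree⟩
    · exact ((Nat.Prime.coprime_iff_not_dvd hqp).2 hqd).symm
    · exact ((Nat.Prime.coprime_iff_not_dvd hpp).2 hpd).symm
  · calc 1 < w' := hqp.one_lt
      _ ≤ d * p * w' := Nat.le_mul_of_pos_left _ (Nat.mul_pos hd0 hpp.pos)
  · intro r hr hdvd
    rcases (Nat.Prime.dvd_mul hr).1 hdvd with h3 | h3
    · rcases (Nat.Prime.dvd_mul hr).1 h3 with h4 | h4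
      · exact (h2 r hr h4).2
      · have := (Nat.prime_dvd_prime_iff_eq hr hpp).1 h4
        omega
    · have := (Nat.prime_dvd_prime_iff_eq hr hqp).1 h3
      omega

/-- a capture of `b / g` together with `g ∣ V a - U` is a capture of `b` -/
lemma capt_of_div {X : ℕ} {a : ℤ} {τ : ℤ × ℤ} {b g : ℕ} (hsq : Squarefree b) (hg : g ∣ b)
    (h1 : (g : ℤ) ∣ τ.2 * a - τ.1) (h2 : Capt X a τ (b / g)) : Capt X a τ b := by
  obtain ⟨h, hh1, hhX, hhd, hdv⟩ := h2
  obtain ⟨m, rfl⟩ := hg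
  have hg0 : 0 < g := by
    rcases Nat.eq_zero_or_pos g with h0 | h0
    · rw [h0, zero_mul] at hsq
      exact absurd hsq not_squarefree_zero
    · exact h0
  rw [Nat.mul_div_cancel_left _ hg0] at hhd hdv
  refine ⟨h, hh1, hhX, hhd.mul_left g, ?_⟩
  have hcop : g.Coprime m := Nat.coprime_of_squarefree_mul hsq
  push_cast
  exact IsCoprime.mul_dvd (Nat.isCoprime_iff_coprime.2 hcop) (h1.mul_left _) hdv

/-- low height: all large primes of `b` divide `V a - U` -/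
lemma low_dvd {X CH : ℕ} {a : ℤ} {τ : ℤ × ℤ} {b : ℕ} (hb : 0 < b) (hτ : 1 ≤ τ.2)
    (hlow : Low X CH a τ b) {p : ℕ} (hp : p.Prime) (hpb : p ∣ b)
    (hpL : (Real.log X) ^ CH < p) : (p : ℤ) ∣ τ.2 * a - τ.1 := by
  have hg0 : 0 < Int.gcd b (τ.2 * a - τ.1) :=
    Int.gcd_pos_of_ne_zero_left _ (by exact_mod_cast hb.ne')
  have hgb : Int.gcd b (τ.2 * a - τ.1) ∣ b := by
    have := Int.gcd_dvd_left (a := (b : ℤ)) (b := τ.2 * a - τ.1)
    exact_mod_cast this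
  have hgv : (Int.gcd b (τ.2 * a - τ.1) : ℤ) ∣ τ.2 * a - τ.1 := Int.gcd_dvd_right _ _
  obtain ⟨u, hu⟩ := hgb
  have hu0 : 0 < u := by
    rcases Nat.eq_zero_or_pos u with h0 | h0
    · rw [h0, mul_zero] at hu; omega
    · exact h0
  have h1 : b / Int.gcd b (τ.2 * a - τ.1) = u := Nat.div_eq_of_eq_mul_right hg0 hu
  have h2 := hlow.1
  rw [h1] at h2
  have h3 : (u : ℝ) ≤ (Real.log X) ^ CH := by
    have h4 : (1 : ℝ) ≤ (τ.2 : ℝ) := by exact_mod_cast hτ
    have h5 : (0 : ℝ) < u := by exact_mod_cast hu0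
    nlinarith
  rw [hu] at hpb
  rcases (Nat.Prime.dvd_mul hp).1 hpb with h4 | h4
  · exact (Int.natCast_dvd_natCast.2 h4).trans hgv
  · have h5 := Nat.le_of_dvd hu0 h4
    have h6 : (p : ℝ) ≤ u := by exact_mod_cast h5
    linarith

lemma low_den {X CH : ℕ} {a : ℤ} {τ : ℤ × ℤ} {b : ℕ} (hb : 0 < b) (hτ : 1 ≤ τ.2)
    (hlow : Low X CH a τ b) : (τ.2 : ℝ) ≤ (Real.log X) ^ CH := by
  have hg0 : 0 < Int.gcd b (τ.2 * a - τ.1) :=
    Int.gcd_pos_of_ne_zero_left _ (by exact_mod_cast hb.ne')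
  have hgb : Int.gcd b (τ.2 * a - τ.1) ∣ b := by
    have := Int.gcd_dvd_left (a := (b : ℤ)) (b := τ.2 * a - τ.1)
    exact_mod_cast this
  have h1 : 1 ≤ b / Int.gcd b (τ.2 * a - τ.1) :=
    Nat.div_pos (Nat.le_of_dvd hb hgb) hg0
  have h2 := hlow.1
  have h3 : (1 : ℝ) ≤ ((b / Int.gcd b (τ.2 * a - τ.1) : ℕ) : ℝ) := by exact_mod_cast h1
  have h4 : (1 : ℝ) ≤ (τ.2 : ℝ) := by exact_mod_cast hτ
  nlinarith

end Crest.Agent.R001.Asm
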