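import Crest.Agent.R001.TreeHyb
import Crest.Agent.R001.Asm1

/-!
# R1, top assembly, part 0 (helper301): the frozen texts of the blocks SE and UNS as `Prop`s

All heights: denominators `≤ X^(1/30)`, numerators `≤ X^(31/30)`, `h ≤ X^(1/30)`.
-/

set_option autoImplicit false

namespace Crest.Agent.R001.Asm

open Finset Crest.Agent.R001.Tree

/-- a small family of rational approximations `τ = (U, V)` -/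
def Fam (X CL : ℕ) (LL : Finset (ℤ × ℤ)) : Prop :=
  (LL.card : ℝ) ≤ (Real.log X) ^ CL ∧
    ∀ τ ∈ LL, 1 ≤ τ.2 ∧ (τ.2 : ℝ) ≤ (X : ℝ) ^ ((1 : ℝ) / 30) ∧
      |(τ.1 : ℝ)| ≤ (X : ℝ) ^ ((31 : ℝ) / 30) ∧ IsCoprime τ.1 τ.2

/-- `d` is captured by `τ` -/
def Capt (X : ℕ) (a : ℤ) (τ : ℤ × ℤ) (d : ℕ) : Prop :=
  ∃ h : ℕ, 1 ≤ h ∧ (h : ℝ) ≤ (X : ℝ) ^ ((1 : ℝ) / 30) ∧ h ∣ d ∧ (d : ℤ) ∣ h * (τ.2 * a - τ.1)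

/-- `τ` has small height (exponent `CH`) with respect to `d` -/
def Low (X CH : ℕ) (a : ℤ) (τ : ℤ × ℤ) (d : ℕ) : Prop :=
  (τ.2 : ℝ) * ((d / Int.gcd d (τ.2 * a - τ.1) : ℕ) : ℝ) ≤ (Real.log X) ^ CH ∧
    |(τ.1 : ℝ)| ≤ X * (Real.log X) ^ CH

/-- the nodes under consideration -/
def Win (X K K1 : ℕ) (d : ℕ) : Prop :=
  Squarefree d ∧ (X : ℝ) / (Real.log X) ^ K ≤ d ∧ (d : ℝ) ≤ X / (Real.log X) ^ K1 ∧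
    4 * (d.minFac : ℝ) ^ 2 ≤ X / d ∧ ∀ p : ℕ, p.Prime → p ∣ d → (p : ℝ) < (X : ℝ) ^ ((1 : ℝ) / 2)

/-- conclusion of both blocks: the nodes of `DD` are controlled -/
def Ctrl (X C A : ℕ) (a : ℤ) (DD : Finset ℕ) : Prop :=
  ∃ lev : ℕ → ℝ,
    (∀ d ∈ DD, (Real.log X) ^ C * X / (3 * d) ≤ lev d ∧ lev d ≤ (Real.log X) ^ C * X / d) ∧
    ∑ d ∈ DD, max 0 ((X : ℝ) / d * Th (bd (lev d)) 1 d.minFac - sI a X d d.minFac) ≤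
      X / (Real.log X) ^ A

/-- block SE (helper301, helper47): nodes captured with large height are controlled -/
def SEH : Prop := ∀ C A : ℕ, ∃ K1 : ℕ, ∀ K : ℕ, K1 ≤ K → ∃ CH : ℕ, ∀ CL : ℕ, ∃ X0 : ℝ,
  ∀ X : ℕ, X0 ≤ X → ∀ (a : ℤ) (LL : Finset (ℤ × ℤ)), Fam X CL LL → ∀ DD : Finset ℕ,
  (∀ d ∈ DD, Win X K K1 d ∧ ∃ τ ∈ LL, Capt X a τ d ∧ ¬ Low X CH a τ d) → Ctrl X C A a DD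

/-- block UNS (helper651): uncaptured nodes are controlled -/
def UNSH : Prop := ∀ C A : ℕ, ∃ K1 : ℕ, ∀ K : ℕ, K1 ≤ K → ∃ CL : ℕ, ∀ C1 : ℕ, CL ≤ C1 → ∃ X0 : ℝ,
  ∀ X : ℕ, X0 ≤ X → ∀ a : ℤ, ∃ LL : Finset (ℤ × ℤ), Fam X CL LL ∧ ∀ DD : Finset ℕ,
  (∀ d ∈ DD, Win X K K1 d ∧ ∃ g : ℕ, g.Prime ∧ g ∣ d ∧ (Real.log X) ^ C1 ≤ g ∧
    (g : ℝ) ≤ (X : ℝ) ^ ((1 : ℝ) / 1000) ∧
    ∀ τ ∈ LL, ¬ ((g : ℤ) ∣ τ.2 * a - τ.1 ∧ Capt X a τ (d / g))) → Ctrl X C A a DD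

/-- one class of block SE (helper301): `m` fixed, `n ∈ N ⊆ (P1, P2]` -/
def ClsSE : Prop := ∀ C A : ℕ, ∃ K1 : ℕ, ∀ K : ℕ, K1 ≤ K → ∃ CH : ℕ, ∀ C1 : ℕ, K ≤ C1 → ∃ X0 : ℝ,
  ∀ X : ℕ, X0 ≤ X → ∀ (a U : ℤ) (Q m P1 P2 : ℕ) (N : Finset ℕ),
  0 < Q → (Q : ℝ) ≤ (X : ℝ) ^ ((1 : ℝ) / 30) → |(U : ℝ)| ≤ (X : ℝ) ^ ((31 : ℝ) / 30) →
  IsCoprime U (Q : ℤ) →
  1 < m → (m : ℝ) ≤ (X : ℝ) ^ ((1 : ℝ) / 30) * (Int.gcd m (Q * a - U) : ℝ) →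
  ¬ ((Q : ℝ) * ((m / Int.gcd m (Q * a - U) : ℕ) : ℝ) ≤ (Real.log X) ^ CH ∧
    |(U : ℝ)| ≤ X * (Real.log X) ^ CH) →
  (X : ℝ) ^ ((1 : ℝ) / 5) ≤ P1 → P1 < P2 →
  ((P2 : ℝ) - P1) * (Real.log X) ^ (A + C + K + 1) ≤ P1 →
  (P1 : ℝ) ≤ ((P2 : ℝ) - P1) * (Real.log X) ^ (A + C + K + 3) →
  (∀ n ∈ N, P1 < n ∧ n ≤ P2 ∧ Nat.Coprime n m ∧
    (∀ p : ℕ, p.Prime → p ∣ n → (Real.log X) ^ C1 < p) ∧ (n : ℤ) ∣ Q * a - U ∧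
    (X : ℝ) / (Real.log X) ^ K ≤ m * n ∧ (m : ℝ) * n ≤ X / (Real.log X) ^ K1 ∧
    4 * (m.minFac : ℝ) ^ 2 ≤ X / (m * n)) →
  ∑ n ∈ N, max 0 ((X : ℝ) / (m * n) * Th (bd ((Real.log X) ^ C * (X / (m * P2)))) 1 m.minFac -
      sI a X (m * n) m.minFac) ≤
    ((P2 : ℝ) - P1) * (X / (m * P2)) / (Real.log X) ^ A

end Crest.Agent.R001.Asm
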