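import Crest.Agent.R001.LS.Real

/-! R001, block E2: second moment over residue classes mod `g` (large sieve) of window sums of a
linear form `w(t) = ∑_{D ∈ DD} lam D [D ∣ t]`. -/

set_option autoImplicit false

namespace Crest.Agent.R001.E2

open Finset Crest.Agent.R001.LS

/-- The linear form. -/
noncomputable def lin (DD : Finset ℕ) (lam : ℕ → ℝ) (t : ℤ) : ℝ :=
  ∑ D ∈ DD, if (D : ℤ) ∣ t then lam D else 0

/-- mean value -/
noncomputable def mean (DD : Finset ℕ) (lam : ℕ → ℝ) : ℝ := ∑ D ∈ DD, lam D / D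

/-- ℓ¹ norm of the coefficients -/
noncomputable def L1 (DD : Finset ℕ) (lam : ℕ → ℝ) : ℝ := ∑ D ∈ DD, |lam D|

/-- energy -/
noncomputable def energy (DD : Finset ℕ) (lam : ℕ → ℝ) : ℝ :=
  ∑ D ∈ DD, ∑ D' ∈ DD, |lam D| * |lam D'| / (Nat.lcm D D' : ℕ)

theorem L1_nonneg (DD : Finset ℕ) (lam : ℕ → ℝ) : 0 ≤ L1 DD lam :=
  sum_nonneg fun _ _ => abs_nonneg _

theorem energy_nonneg (DD : Finset ℕ) (lam : ℕ → ℝ) : 0 ≤ energy DD lam :=
  sum_nonneg fun _ _ => sum_nonneg fun _ _ => by positivity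

/-- number of multiples of `D` in an interval of integers -/
theorem card_dvd_Ioc (D : ℕ) (hD : 0 < D) (A : ℤ) (H : ℕ) :
    |(((Ioc A (A + H)).filter fun t => (D : ℤ) ∣ t).card : ℝ) - H / D| ≤ 1 := by
  have hD' : (0 : ℤ) < D := by exact_mod_cast hD
  have hDr : (0 : ℝ) < D := by exact_mod_cast hD
  have h1 : (((Ioc A (A + H)).filter fun t => (D : ℤ) ∣ t).card : ℤ) =
      (A + H) / D - A / D := by
    have h2 := Int.Ioc_filter_dvd_card A (A + H) hD'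
    rw [h2]
    have h3 : ∀ n : ℤ, ⌊((n : ℚ) / ((D : ℤ) : ℚ))⌋ = n / (D : ℤ) := by
      intro n
      exact Rat.floor_intCast_div_natCast n D
    rw [h3, h3]
    rw [max_eq_left]
    have := Int.ediv_le_ediv hD' (show A ≤ A + H by omega)
    omega
  have h4 : (((Ioc A (A + H)).filter fun t => (D : ℤ) ∣ t).card : ℝ) =
      (((A + H) / D : ℤ) : ℝ) - ((A / D : ℤ) : ℝ) := by
    have : ((((Ioc A (A + H)).filter fun t => (D : ℤ) ∣ t).card : ℤ) : ℝ) =
        (((A + H) / D - A / D : ℤ) : ℝ) := by rw [h1]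
    push_cast at this
    exact this
  rw [h4]
  have h5 : ∀ n : ℤ, (n : ℝ) / D - 1 < ((n / (D : ℤ) : ℤ) : ℝ) ∧
      ((n / (D : ℤ) : ℤ) : ℝ) ≤ (n : ℝ) / D := by
    intro n
    have h6 := Int.emod_add_mul_ediv n D
    have h7 := Int.emod_nonneg n hD'.ne'
    have h8 := Int.emod_lt_of_pos n hD'
    have h6' : ((n % (D : ℤ) : ℤ) : ℝ) + D * ((n / (D : ℤ) : ℤ) : ℝ) = n := by
      exact_mod_cast h6
    have h7' : (0 : ℝ) ≤ ((n % (D : ℤ) : ℤ) : ℝ) := by exact_mod_cast h7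
    have h8' : ((n % (D : ℤ) : ℤ) : ℝ) < D := by exact_mod_cast h8
    constructor
    · rw [sub_lt_iff_lt_add, div_lt_iff₀ hDr]
      nlinarith
    · rw [le_div_iff₀ hDr]
      nlinarith
  have h9 := h5 A
  have h10 := h5 (A + H)
  push_cast at h10
  rw [abs_le]
  constructor
  · have : ((A : ℝ) + H) / D = A / D + H / D := by ring
    linarith [h9.2, h10.1]
  · have : ((A : ℝ) + H) / D = A / D + H / D := by ring
    linarith [h9.1, h10.2]

theorem sum_lin (DD : Finset ℕ) (lam : ℕ → ℝ) (s : Finset ℤ) :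
    ∑ t ∈ s, lin DD lam t = ∑ D ∈ DD, lam D * ((s.filter fun t => (D : ℤ) ∣ t).card : ℝ) := by
  unfold lin
  rw [sum_comm]
  refine sum_congr rfl fun D _ => ?_
  rw [← sum_filter, sum_const, nsmul_eq_mul, mul_comm]

/-- first moment on an interval -/
theorem sum_lin_Ioc (DD : Finset ℕ) (lam : ℕ → ℝ) (hDD : ∀ D ∈ DD, 0 < D) (A : ℤ) (H : ℕ) :
    |∑ t ∈ Ioc A (A + H), lin DD lam t - H * mean DD lam| ≤ L1 DD lam := by
  rw [sum_lin]
  unfold mean L1
  rw [mul_sum, ← sum_sub_distrib]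
  refine (abs_sum_le_sum_abs _ _).trans ?_
  refine sum_le_sum fun D hD => ?_
  have h1 := card_dvd_Ioc D (hDD D hD) A H
  have h2 : lam D * (((Ioc A (A + H)).filter fun t => (D : ℤ) ∣ t).card : ℝ) - H * (lam D / D) =
      lam D * ((((Ioc A (A + H)).filter fun t => (D : ℤ) ∣ t).card : ℝ) - H / D) := by ring
  rw [h2, abs_mul]
  calc |lam D| * _ ≤ |lam D| * 1 := mul_le_mul_of_nonneg_left h1 (abs_nonneg _)
    _ = |lam D| := mul_one _

/-- second moment on an interval -/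
theorem sum_lin_sq (DD : Finset ℕ) (lam : ℕ → ℝ) (hDD : ∀ D ∈ DD, 0 < D) (A : ℤ) (H : ℕ) :
    ∑ t ∈ Ioc A (A + H), (lin DD lam t) ^ 2 ≤ H * energy DD lam + (L1 DD lam) ^ 2 := by
  have h1 : ∀ t : ℤ, (lin DD lam t) ^ 2 = ∑ D ∈ DD, ∑ D' ∈ DD,
      if ((Nat.lcm D D' : ℕ) : ℤ) ∣ t then lam D * lam D' else 0 := by
    intro t
    unfold lin
    rw [sq, sum_mul_sum]
    refine sum_congr rfl fun D _ => sum_congr rfl fun D' _ => ?_
    have h2 : ((Nat.lcm D D' : ℕ) : ℤ) ∣ t ↔ (D : ℤ) ∣ t ∧ (D' : ℤ) ∣ t := by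
      rw [Int.natCast_dvd, Int.natCast_dvd, Int.natCast_dvd, Nat.lcm_dvd_iff]
    by_cases h3 : (D : ℤ) ∣ t <;> by_cases h4 : (D' : ℤ) ∣ t <;> simp [h2, h3, h4]
  simp_rw [h1]
  rw [sum_comm]
  have h5 : ∀ D ∈ DD, ∑ t ∈ Ioc A (A + H), ∑ D' ∈ DD,
      (if ((Nat.lcm D D' : ℕ) : ℤ) ∣ t then lam D * lam D' else 0) ≤
      ∑ D' ∈ DD, (|lam D| * |lam D'| * (H / (Nat.lcm D D' : ℕ)) + |lam D| * |lam D'|) := by
    intro D hD
    rw [sum_comm]
    refine sum_le_sum fun D' hD' => ?_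
    rw [← sum_filter, sum_const, nsmul_eq_mul]
    have h6 := card_dvd_Ioc (Nat.lcm D D') (Nat.lcm_pos (hDD D hD) (hDD D' hD')) A H
    rw [abs_le] at h6
    have h7 : (((Ioc A (A + H)).filter fun t => ((Nat.lcm D D' : ℕ) : ℤ) ∣ t).card : ℝ) ≤
        H / (Nat.lcm D D' : ℕ) + 1 := by linarith [h6.2]
    calc (((Ioc A (A + H)).filter fun t => ((Nat.lcm D D' : ℕ) : ℤ) ∣ t).card : ℝ) *
          (lam D * lam D')
        ≤ (((Ioc A (A + H)).filter fun t => ((Nat.lcm D D' : ℕ) : ℤ) ∣ t).card : ℝ) *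
          |lam D * lam D'| := mul_le_mul_of_nonneg_left (le_abs_self _) (Nat.cast_nonneg _)
      _ ≤ (H / (Nat.lcm D D' : ℕ) + 1) * |lam D * lam D'| :=
          mul_le_mul_of_nonneg_right h7 (abs_nonneg _)
      _ = |lam D| * |lam D'| * (H / (Nat.lcm D D' : ℕ)) + |lam D| * |lam D'| := by
          rw [abs_mul]; ring
  refine (sum_le_sum h5).trans (le_of_eq ?_)
  unfold energy L1
  rw [sq, sum_mul_sum, mul_sum, ← sum_add_distrib]
  refine sum_congr rfl fun D _ => ?_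
  rw [mul_sum, ← sum_add_distrib]
  refine sum_congr rfl fun D' _ => ?_
  ring

/-- window sum in a residue class: `∑_{j < H, j ≡ r (g)} w(γ - j)` -/
noncomputable def Z (DD : Finset ℕ) (lam : ℕ → ℝ) (γ : ℤ) (H g r : ℕ) : ℝ :=
  ∑ j ∈ (range H).filter (fun j => j % g = r), lin DD lam (γ - j)

theorem Z_eq_cs (DD : Finset ℕ) (lam : ℕ → ℝ) (γ : ℤ) (H g r : ℕ) :
    Z DD lam γ H g r = cs (Ioc (-1) (-1 + (H : ℤ))) (fun j => lin DD lam (γ - j)) g r := by
  unfold Z cs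
  refine sum_bij (fun j _ => (j : ℤ)) ?_ ?_ ?_ ?_
  · intro j hj
    rw [mem_filter, mem_range] at hj
    rw [mem_filter, mem_Ioc]
    refine ⟨by omega, ?_⟩
    rw [← hj.2]
    exact_mod_cast rfl
  · intro a _ b _ h
    exact_mod_cast h
  · intro b hb
    rw [mem_filter, mem_Ioc] at hb
    refine ⟨b.toNat, ?_, by omega⟩
    rw [mem_filter, mem_range]
    refine ⟨by omega, ?_⟩
    have h1 : ((b.toNat : ℕ) : ℤ) = b := by omega
    have h2 : ((b.toNat % g : ℕ) : ℤ) = r := by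
      push_cast
      rw [h1]
      exact hb.2
    exact_mod_cast h2
  · intro j _
    rfl

theorem sum_shift (f : ℤ → ℝ) (γ : ℤ) (H : ℕ) :
    ∑ j ∈ Ioc (-1) (-1 + (H : ℤ)), f (γ - j) = ∑ t ∈ Ioc (γ - H) (γ - H + H), f t := by
  refine sum_bij (fun j _ => γ - j) ?_ ?_ ?_ ?_
  · intro j hj
    rw [mem_Ioc] at hj ⊢
    omega
  · intro a _ b _ h
    have h' : γ - a = γ - b := h
    omega
  · intro b hb
    rw [mem_Ioc] at hb
    refine ⟨γ - b, ?_, by omega⟩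
    rw [mem_Ioc]
    omega
  · intro j _
    rfl

/-- **E2**: second moment over all residue classes mod all `g ∈ GG`, for every position `γ`. -/
theorem second_moment (DD : Finset ℕ) (lam : ℕ → ℝ) (hDD : ∀ D ∈ DD, 0 < D) (γ : ℤ) (H : ℕ)
    (GG : Finset ℕ) (hGG : ∀ g ∈ GG, g.Prime) (Q : ℕ) (hQ : ∀ g ∈ GG, g ≤ Q) :
    ∑ g ∈ GG, (g : ℝ) * ∑ r ∈ range g, (Z DD lam γ H g r - H * mean DD lam / g) ^ 2 ≤
      2 * (2 * (H : ℝ) + 3 * (Q : ℝ) ^ 2) * (H * energy DD lam + (L1 DD lam) ^ 2) +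
        2 * (GG.card : ℝ) * (L1 DD lam) ^ 2 := by
  set w : ℤ → ℝ := fun j => lin DD lam (γ - j) with hw
  have h1 := large_sieve_real GG hGG Q hQ w (-1) H
  set S : ℝ := ∑ n ∈ Ioc (-1) (-1 + (H : ℤ)), w n with hS
  have hS1 : |S - H * mean DD lam| ≤ L1 DD lam := by
    rw [hS, hw]
    have h2 := sum_shift (lin DD lam) γ H
    rw [h2]
    exact sum_lin_Ioc DD lam hDD (γ - H) H
  have hS2 : ∑ n ∈ Ioc (-1) (-1 + (H : ℤ)), (w n) ^ 2 ≤ H * energy DD lam + (L1 DD lam) ^ 2 := by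
    have h2 := sum_shift (fun t => (lin DD lam t) ^ 2) γ H
    have h3 : ∑ n ∈ Ioc (-1) (-1 + (H : ℤ)), (w n) ^ 2 =
        ∑ n ∈ Ioc (-1) (-1 + (H : ℤ)), (lin DD lam (γ - n)) ^ 2 := rfl
    rw [h3, h2]
    exact sum_lin_sq DD lam hDD (γ - H) H
  have h3 : ∀ g ∈ GG, (g : ℝ) * ∑ r ∈ range g, (Z DD lam γ H g r - H * mean DD lam / g) ^ 2 ≤
      2 * ((g : ℝ) * ∑ r ∈ range g, (cs (Ioc (-1) (-1 + (H : ℤ))) w g r - S / g) ^ 2) +
        2 * (L1 DD lam) ^ 2 := by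
    intro g hg
    have hg0 : (0 : ℝ) < g := by exact_mod_cast (hGG g hg).pos
    have h4 : ∀ r ∈ range g, (Z DD lam γ H g r - H * mean DD lam / g) ^ 2 ≤
        2 * (cs (Ioc (-1) (-1 + (H : ℤ))) w g r - S / g) ^ 2 +
          2 * ((S - H * mean DD lam) / g) ^ 2 := by
      intro r _
      rw [Z_eq_cs]
      have h5 : cs (Ioc (-1) (-1 + (H : ℤ))) (fun j => lin DD lam (γ - j)) g r -
          H * mean DD lam / g = (cs (Ioc (-1) (-1 + (H : ℤ))) w g r - S / g) +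
            (S - H * mean DD lam) / g := by
        rw [hw]; ring
      rw [h5]
      nlinarith [sq_nonneg ((cs (Ioc (-1) (-1 + (H : ℤ))) w g r - S / g) -
            (S - H * mean DD lam) / g)]
    have h6 : (S - H * mean DD lam) ^ 2 ≤ (L1 DD lam) ^ 2 := by
      rw [← sq_abs]
      exact pow_le_pow_left₀ (abs_nonneg _) hS1 2
    calc (g : ℝ) * ∑ r ∈ range g, (Z DD lam γ H g r - H * mean DD lam / g) ^ 2
        ≤ (g : ℝ) * ∑ r ∈ range g, (2 * (cs (Ioc (-1) (-1 + (H : ℤ))) w g r - S / g) ^ 2 +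
          2 * ((S - H * mean DD lam) / g) ^ 2) :=
          mul_le_mul_of_nonneg_left (sum_le_sum h4) hg0.le
      _ = 2 * ((g : ℝ) * ∑ r ∈ range g, (cs (Ioc (-1) (-1 + (H : ℤ))) w g r - S / g) ^ 2) +
          2 * (S - H * mean DD lam) ^ 2 := by
          rw [sum_add_distrib, sum_const, card_range, nsmul_eq_mul, ← mul_sum]
          field_simp
      _ ≤ _ := by linarith
  calc ∑ g ∈ GG, (g : ℝ) * ∑ r ∈ range g, (Z DD lam γ H g r - H * mean DD lam / g) ^ 2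
      ≤ ∑ g ∈ GG, (2 * ((g : ℝ) * ∑ r ∈ range g,
          (cs (Ioc (-1) (-1 + (H : ℤ))) w g r - S / g) ^ 2) + 2 * (L1 DD lam) ^ 2) :=
        sum_le_sum h3
    _ = 2 * ∑ g ∈ GG, ((g : ℝ) * ∑ r ∈ range g,
          (cs (Ioc (-1) (-1 + (H : ℤ))) w g r - S / g) ^ 2) +
          2 * (GG.card : ℝ) * (L1 DD lam) ^ 2 := by
        rw [sum_add_distrib, sum_const, nsmul_eq_mul, ← mul_sum]
        ring
    _ ≤ 2 * ((2 * (H : ℝ) + 3 * (Q : ℝ) ^ 2) * (H * energy DD lam + (L1 DD lam) ^ 2)) +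
          2 * (GG.card : ℝ) * (L1 DD lam) ^ 2 := by
        have h7 : (2 * (H : ℝ) + 3 * (Q : ℝ) ^ 2) * ∑ n ∈ Ioc (-1) (-1 + (H : ℤ)), (w n) ^ 2 ≤
            (2 * (H : ℝ) + 3 * (Q : ℝ) ^ 2) * (H * energy DD lam + (L1 DD lam) ^ 2) :=
          mul_le_mul_of_nonneg_left hS2 (by positivity)
        linarith
    _ = _ := by ring

/-- right hand side of `second_moment` -/
noncomputable def rhs (DD : Finset ℕ) (lam : ℕ → ℝ) (H k Q : ℕ) : ℝ :=
  2 * (2 * (H : ℝ) + 3 * (Q : ℝ) ^ 2) * (H * energy DD lam + (L1 DD lam) ^ 2) +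
        2 * (k : ℝ) * (L1 DD lam) ^ 2

open Classical in
/-- bad residue classes mod `g` for the position `γ` and threshold `T` -/
noncomputable def bad (DD : Finset ℕ) (lam : ℕ → ℝ) (γ : ℤ) (H : ℕ) (T : ℝ) (g : ℕ) : Finset ℕ :=
  (range g).filter fun r => T < |Z DD lam γ H g r - H * mean DD lam / g|

theorem card_bad_le (DD : Finset ℕ) (lam : ℕ → ℝ) (γ : ℤ) (H : ℕ) (T : ℝ) (hT : 0 ≤ T) (g : ℕ) :
    ((bad DD lam γ H T g).card : ℝ) * T ^ 2 ≤
      ∑ r ∈ range g, (Z DD lam γ H g r - H * mean DD lam / g) ^ 2 := by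
  classical
  calc ((bad DD lam γ H T g).card : ℝ) * T ^ 2 = ∑ _r ∈ bad DD lam γ H T g, T ^ 2 := by
        rw [sum_const, nsmul_eq_mul]
    _ ≤ ∑ r ∈ bad DD lam γ H T g, (Z DD lam γ H g r - H * mean DD lam / g) ^ 2 := by
        refine sum_le_sum fun r hr => ?_
        unfold bad at hr
        rw [mem_filter] at hr
        rw [← sq_abs (Z DD lam γ H g r - H * mean DD lam / g)]
        exact pow_le_pow_left₀ hT hr.2.le 2
    _ ≤ _ := by
        apply sum_le_sum_of_subset_of_nonneg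
        · exact filter_subset _ _
        · intro _ _ _
          positivity

/-- total number of bad classes -/
theorem sum_card_bad (DD : Finset ℕ) (lam : ℕ → ℝ) (hDD : ∀ D ∈ DD, 0 < D) (γ : ℤ) (H : ℕ)
    (GG : Finset ℕ) (hGG : ∀ g ∈ GG, g.Prime) (Q G : ℕ) (hQ : ∀ g ∈ GG, g ≤ Q)
    (hG : ∀ g ∈ GG, G ≤ g) (T : ℝ) (hT : 0 ≤ T) :
    (∑ g ∈ GG, ((bad DD lam γ H T g).card : ℝ)) * (G * T ^ 2) ≤ rhs DD lam H GG.card Q := by
  refine le_trans ?_ (second_moment DD lam hDD γ H GG hGG Q hQ)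
  rw [sum_mul]
  refine sum_le_sum fun g hg => ?_
  have h1 := card_bad_le DD lam γ H T hT g
  have h2 : (G : ℝ) ≤ g := by exact_mod_cast hG g hg
  have h3 : 0 ≤ ((bad DD lam γ H T g).card : ℝ) * T ^ 2 := by positivity
  calc ((bad DD lam γ H T g).card : ℝ) * (G * T ^ 2)
      = G * (((bad DD lam γ H T g).card : ℝ) * T ^ 2) := by ring
    _ ≤ g * (((bad DD lam γ H T g).card : ℝ) * T ^ 2) := mul_le_mul_of_nonneg_right h2 h3
    _ ≤ _ := mul_le_mul_of_nonneg_left h1 (Nat.cast_nonneg g)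

open Classical in
/-- number of primes `g` with many bad classes -/
theorem card_heavy (DD : Finset ℕ) (lam : ℕ → ℝ) (hDD : ∀ D ∈ DD, 0 < D) (γ : ℤ) (H : ℕ)
    (GG : Finset ℕ) (hGG : ∀ g ∈ GG, g.Prime) (Q G : ℕ) (hQ : ∀ g ∈ GG, g ≤ Q)
    (hG : ∀ g ∈ GG, G ≤ g) (T : ℝ) (hT : 0 ≤ T) (B : ℝ) :
    ((GG.filter fun g => B < ((bad DD lam γ H T g).card : ℝ)).card : ℝ) * (B * (G * T ^ 2)) ≤
      rhs DD lam H GG.card Q := by
  refine le_trans ?_ (sum_card_bad DD lam hDD γ H GG hGG Q G hQ hG T hT)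
  rw [← mul_assoc]
  apply mul_le_mul_of_nonneg_right _ (by positivity)
  calc ((GG.filter fun g => B < ((bad DD lam γ H T g).card : ℝ)).card : ℝ) * B
      = ∑ _g ∈ GG.filter (fun g => B < ((bad DD lam γ H T g).card : ℝ)), B := by
        rw [sum_const, nsmul_eq_mul]
    _ ≤ ∑ g ∈ GG.filter (fun g => B < ((bad DD lam γ H T g).card : ℝ)),
          ((bad DD lam γ H T g).card : ℝ) :=
        sum_le_sum fun g hg => (mem_filter.1 hg).2.le
    _ ≤ _ := sum_le_sum_of_subset_of_nonneg (filter_subset _ _) fun _ _ _ => by positivity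

theorem lin_congr (DD : Finset ℕ) (lam : ℕ → ℝ) (s t : ℤ) (h : ∀ D ∈ DD, (D : ℤ) ∣ s - t) :
    lin DD lam s = lin DD lam t := by
  unfold lin
  refine sum_congr rfl fun D hD => ?_
  have h1 : (D : ℤ) ∣ s ↔ (D : ℤ) ∣ t := by
    have h2 := h D hD
    constructor
    · intro h3
      have := dvd_sub h3 h2
      simpa using this
    · intro h3
      have := dvd_add h2 h3
      simpa using this
  by_cases h3 : (D : ℤ) ∣ t
  · rw [if_pos h3, if_pos (h1.2 h3)]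
  · rw [if_neg h3, if_neg (fun h4 => h3 (h1.1 h4))]

theorem lin_mul (DD : Finset ℕ) (lam : ℕ → ℝ) (g : ℕ) (hg : ∀ D ∈ DD, Nat.Coprime D g) (t : ℤ) :
    lin DD lam (t * g) = lin DD lam t := by
  unfold lin
  refine sum_congr rfl fun D hD => ?_
  have h1 : (D : ℤ) ∣ t * g ↔ (D : ℤ) ∣ t := by
    constructor
    · intro h
      exact IsCoprime.dvd_of_dvd_mul_right (Nat.isCoprime_iff_coprime.2 (hg D hD)) h
    · intro h
      exact Dvd.dvd.mul_right h _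
  by_cases h3 : (D : ℤ) ∣ t
  · rw [if_pos h3, if_pos (h1.2 h3)]
  · rw [if_neg h3, if_neg (fun h4 => h3 (h1.1 h4))]

/-- The window sum of the node `e * g` is the sum over one residue class mod `g` of the window
of `e`; it depends only on `a / e` modulo the `D`'s and modulo `g`. -/
theorem node (DD : Finset ℕ) (lam : ℕ → ℝ) (a b γ : ℤ) (e g : ℕ) (he : 0 < e) (hg : 0 < g)
    (hab : b ≤ a) (hcop : ∀ D ∈ DD, Nat.Coprime D g) (hγ : ∀ D ∈ DD, (D : ℤ) ∣ a / e - γ) :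
    ∑ t ∈ Ioc (b / ((e * g : ℕ) : ℤ)) (a / ((e * g : ℕ) : ℤ)), lin DD lam t =
      Z DD lam γ (a / e - b / e).toNat g (a / (e : ℤ) % g).toNat := by
  have he' : (0 : ℤ) < e := by exact_mod_cast he
  have hg' : (0 : ℤ) < g := by exact_mod_cast hg
  set A : ℤ := a / e with hA
  set B : ℤ := b / e with hB
  have hBA : B ≤ A := Int.ediv_le_ediv he' hab
  have h1 : a / ((e * g : ℕ) : ℤ) = A / g := by
    rw [Nat.cast_mul, hA, Int.ediv_ediv_of_nonneg he'.le]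
  have h2 : b / ((e * g : ℕ) : ℤ) = B / g := by
    rw [Nat.cast_mul, hB, Int.ediv_ediv_of_nonneg he'.le]
  rw [h1, h2]
  have hdiv : ∀ j : ℕ, j % g = (A % g).toNat → (g : ℤ) ∣ A - j := by
    intro j hj
    have h3 := Int.emod_nonneg A hg'.ne'
    have h4 : ((j % g : ℕ) : ℤ) = A % g := by
      rw [hj]
      omega
    push_cast at h4
    exact Int.ModEq.dvd h4
  unfold Z
  refine sum_bij' (fun t _ => (A - t * g).toNat) (fun j _ => (A - j) / g) ?_ ?_ ?_ ?_ ?_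
  · intro t ht
    rw [mem_Ioc] at ht
    have h3 : t * g ≤ A := (Int.le_ediv_iff_mul_le hg').1 ht.2
    have h4 : B < t * g := (Int.ediv_lt_iff_lt_mul hg').1 ht.1
    rw [mem_filter, mem_range]
    refine ⟨by omega, ?_⟩
    have h5 : (((A - t * g).toNat % g : ℕ) : ℤ) = ((A % g).toNat : ℤ) := by
      push_cast
      have h6 : (((A - t * (g : ℤ)).toNat : ℕ) : ℤ) = A - t * g := by omega
      have h7 : (((A % (g : ℤ)).toNat : ℕ) : ℤ) = A % g := by
        have := Int.emod_nonneg A hg'.ne'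
        omega
      rw [h6, h7, Int.sub_mul_emod_self_right]
    exact_mod_cast h5
  · intro j hj
    rw [mem_filter, mem_range] at hj
    have h3 := Int.ediv_mul_cancel (hdiv j hj.2)
    rw [mem_Ioc, Int.ediv_lt_iff_lt_mul hg', Int.le_ediv_iff_mul_le hg', h3]
    omega
  · intro t ht
    rw [mem_Ioc] at ht
    have h3 : t * g ≤ A := (Int.le_ediv_iff_mul_le hg').1 ht.2
    have h4 : A - (((A - t * g).toNat : ℕ) : ℤ) = t * g := by omega
    rw [h4, Int.mul_ediv_cancel _ hg'.ne']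
  · intro j hj
    rw [mem_filter, mem_range] at hj
    have h3 := Int.ediv_mul_cancel (hdiv j hj.2)
    rw [h3]
    omega
  · intro t ht
    rw [mem_Ioc] at ht
    have h3 : t * g ≤ A := (Int.le_ediv_iff_mul_le hg').1 ht.2
    have h4 : γ - (((A - t * g).toNat : ℕ) : ℤ) = t * g - (A - γ) := by omega
    rw [h4, ← lin_mul DD lam g hcop t]
    apply lin_congr
    intro D hD
    have h5 : t * (g : ℤ) - (t * g - (A - γ)) = A - γ := by ring
    rw [h5]
    exact hγ D hD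

end Crest.Agent.R001.E2
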