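import Crest.Agent.R001.FL.Sieve

/-!
# R1, block E4 (helper154): the per-node sieve inequality

For a prefix-free family of nodes `δ` (chains of primes `B δ`, sifting limit `w δ`) the sum of the sifted
counts `S(A_δ, w_δ)` in a window `T` is at least `∑_R c R * #{s ∈ T : ∏ R ∣ s, s y-rough}` with `|c R| ≤ 1`,
and the main term is at least `(1 - η)` times the expected one.
-/

set_option autoImplicit false

open Finset

namespace Crest.Agent.R001.E4

open Crest.Agent.R001.FL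

/-- the primes `p` with `y ≤ p < w`. -/
def pr (y w : ℕ) : Finset ℕ := (Ico y w).filter Nat.Prime

lemma mem_pr {y w p : ℕ} : p ∈ pr y w ↔ p.Prime ∧ y ≤ p ∧ p < w := by
  simp [pr, and_comm]

/-- `s` has no prime factor `< w`. -/
def Rough (w : ℕ) (s : ℤ) : Prop := ∀ p : ℕ, p.Prime → p < w → ¬ (p : ℤ) ∣ s

/-- all primes of `R` divide `s`. -/
def Hits (R : Finset ℕ) (s : ℤ) : Prop := ∀ q ∈ R, (q : ℤ) ∣ s

open Classical in
/-- number of elements of the window hit by `R` and without prime factors `< y`. -/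
noncomputable def cnt (T : Finset ℤ) (R : Finset ℕ) (y : ℕ) : ℝ :=
  ((T.filter (fun s => Hits R s ∧ Rough y s)).card : ℝ)

lemma cnt_eq_sum (T : Finset ℤ) (R : Finset ℕ) (y : ℕ) :
    cnt T R y = ∑ s ∈ T, Set.indicator {s | Hits R s ∧ Rough y s} (fun _ => (1 : ℝ)) s := by
  classical
  unfold cnt
  rw [card_filter]
  push_cast
  refine sum_congr rfl fun s _ => ?_
  by_cases h : Hits R s ∧ Rough y s <;> simp [Set.indicator, h]

/-- one chain: lower bound by Brun-Hooley weights. -/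
lemma one_node {cu ct : Finset ℕ → ℝ} {D : ℝ} (y w : ℕ) (hw : IsW (pr y w) D cu ct)
    (B : Finset ℕ) (T : Finset ℤ) :
    ∑ C ∈ (pr y w).powerset, (cu C - ct C) * cnt T (B ∪ C) y ≤ cnt T B w := by
  classical
  simp_rw [cnt_eq_sum, mul_sum]
  rw [sum_comm]
  refine sum_le_sum fun s _ => ?_
  by_cases hB : Hits B s ∧ Rough y s
  · have h1 : ∀ C ∈ (pr y w).powerset, (cu C - ct C) *
        Set.indicator {s | Hits (B ∪ C) s ∧ Rough y s} (fun _ => (1 : ℝ)) s =
        (cu C - ct C) * ∏ q ∈ C, (if (q : ℤ) ∣ s then (1 : ℝ) else 0) := by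
      intro C _
      congr 1
      by_cases hC : Hits C s
      · rw [Set.indicator_of_mem, prod_eq_one]
        · intro q hq
          simp [hC q hq]
        · refine ⟨fun q hq => ?_, hB.2⟩
          rcases mem_union.1 hq with h | h
          · exact hB.1 q h
          · exact hC q h
      · rw [Set.indicator_of_notMem]
        · unfold Hits at hC
          push Not at hC
          obtain ⟨q, hq, hqs⟩ := hC
          rw [prod_eq_zero hq]
          simp [hqs]
        · intro h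
          exact hC fun q hq => h.1 q (mem_union_right _ hq)
    rw [sum_congr rfl h1]
    have hx : ∀ q ∈ pr y w, 0 ≤ (if (q : ℤ) ∣ s then (1 : ℝ) else 0) ∧
        (if (q : ℤ) ∣ s then (1 : ℝ) else 0) ≤ 1 := by
      intro q _
      split_ifs <;> norm_num
    have h2 := hw.lower (fun q => if (q : ℤ) ∣ s then (1 : ℝ) else 0) hx
    have h3 : ev (pr y w) cu (fun q => if (q : ℤ) ∣ s then (1 : ℝ) else 0) -
        ev (pr y w) ct (fun q => if (q : ℤ) ∣ s then (1 : ℝ) else 0) =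
        ∑ C ∈ (pr y w).powerset, (cu C - ct C) * ∏ q ∈ C, (if (q : ℤ) ∣ s then (1 : ℝ) else 0) := by
      unfold ev
      rw [← sum_sub_distrib]
      exact sum_congr rfl fun S _ => by ring
    rw [← h3]
    refine h2.trans ?_
    by_cases hr : ∀ q ∈ pr y w, ¬ (q : ℤ) ∣ s
    · rw [Set.indicator_of_mem]
      · refine prod_le_one (fun q hq => ?_) fun q hq => ?_
        · have := (hx q hq).2; linarith
        · have := (hx q hq).1; linarith
      · refine ⟨hB.1, fun p hp hpw => ?_⟩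
        by_cases hpy : p < y
        · exact hB.2 p hp hpy
        · exact hr p (mem_pr.2 ⟨hp, by omega, hpw⟩)
    · push Not at hr
      obtain ⟨q, hq, hqs⟩ := hr
      rw [prod_eq_zero hq (by simp [hqs])]
      exact Set.indicator_nonneg (fun _ _ => zero_le_one) _
  · have h1 : ∀ C ∈ (pr y w).powerset, (cu C - ct C) *
        Set.indicator {s | Hits (B ∪ C) s ∧ Rough y s} (fun _ => (1 : ℝ)) s = 0 := by
      intro C _
      rw [Set.indicator_of_notMem, mul_zero]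
      intro h
      exact hB ⟨fun q hq => h.1 q (mem_union_left _ hq), h.2⟩
    rw [sum_eq_zero h1]
    exact Set.indicator_nonneg (fun _ _ => zero_le_one) _

/-- one chain: main term. -/
lemma one_node_main {cu ct : Finset ℕ → ℝ} {D η : ℝ} (y w : ℕ) (hw : IsW (pr y w) D cu ct)
    (hct : ev (pr y w) ct (fun q => 1 / (q : ℝ)) ≤ η * ∏ q ∈ pr y w, (1 - 1 / (q : ℝ))) :
    (1 - η) * ∏ q ∈ pr y w, (1 - 1 / (q : ℝ)) ≤
      ∑ C ∈ (pr y w).powerset, (cu C - ct C) / ((∏ q ∈ C, q : ℕ) : ℝ) := by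
  have hx : ∀ q ∈ pr y w, 0 ≤ 1 / (q : ℝ) ∧ 1 / (q : ℝ) ≤ 1 := by
    intro q hq
    have h1 := (mem_pr.1 hq).1.one_lt
    have h2 : (1 : ℝ) < q := by exact_mod_cast h1
    exact ⟨by positivity, by rw [div_le_one (by linarith)]; linarith⟩
  have h1 := hw.upper (fun q => 1 / (q : ℝ)) hx
  have h3 : ev (pr y w) cu (fun q => 1 / (q : ℝ)) - ev (pr y w) ct (fun q => 1 / (q : ℝ)) =
      ∑ C ∈ (pr y w).powerset, (cu C - ct C) / ((∏ q ∈ C, q : ℕ) : ℝ) := by
    unfold ev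
    rw [← sum_sub_distrib]
    refine sum_congr rfl fun S _ => ?_
    rw [prod_div_distrib, prod_const_one, Nat.cast_prod]
    ring
  rw [← h3]
  linarith

/-- the condition that `R` determines the node: chains are prefix-free. -/
def PrefixFree {ι : Type*} (Del : Finset ι) (B : ι → Finset ℕ) (w : ι → ℕ) : Prop :=
  ∀ δ ∈ Del, ∀ δ' ∈ Del, ∀ C C' : Finset ℕ, (∀ q ∈ C, q < w δ) → (∀ q ∈ C', q < w δ') →
    B δ ∪ C = B δ' ∪ C' → δ = δ'

/-- **(E4) the per-node sieve inequality.** -/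
theorem node_ineq (η : ℝ) (hη : 0 < η) : ∃ s : ℕ, ∀ {ι : Type*} (Del : Finset ι)
    (B : ι → Finset ℕ) (w : ι → ℕ) (y : ℕ), (∀ δ ∈ Del, 1 ≤ w δ) →
    (∀ δ ∈ Del, ∀ q ∈ B δ, w δ ≤ q) → (∀ δ ∈ Del, ∀ q ∈ B δ, q.Prime) → PrefixFree Del B w →
    ∃ c : Finset ℕ → ℝ, (∀ R, |c R| ≤ 1) ∧
      (∀ R, c R ≠ 0 → ∃ δ ∈ Del, ∃ C ⊆ pr y (w δ), R = B δ ∪ C ∧
        ((∏ q ∈ C, q : ℕ) : ℝ) ≤ (w δ : ℝ) ^ s) ∧
      ∀ U : Finset ℕ, (∀ δ ∈ Del, B δ ∪ pr y (w δ) ⊆ U) →
        (∀ T : Finset ℤ, ∑ R ∈ U.powerset, c R * cnt T R y ≤ ∑ δ ∈ Del, cnt T (B δ) (w δ)) ∧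
        (1 - η) * ∑ δ ∈ Del, 1 / ((∏ q ∈ B δ, q : ℕ) : ℝ) * ∏ q ∈ pr y (w δ), (1 - 1 / (q : ℝ)) ≤
          ∑ R ∈ U.powerset, c R / ((∏ q ∈ R, q : ℕ) : ℝ) := by
  classical
  obtain ⟨s, hs⟩ := exists_weights 1 zero_le_one η hη
  refine ⟨s, fun {ι} Del B w y hw1 hBw hBp hpf => ?_⟩
  have hex : ∀ w : ℕ, ∃ cu ct : Finset ℕ → ℝ, 1 ≤ w → (IsW (pr y w) ((w : ℝ) ^ s) cu ct ∧
      ev (pr y w) ct (fun q => 1 / (q : ℝ)) ≤ η * ∏ q ∈ pr y w, (1 - 1 / (q : ℝ))) := by
    intro w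
    by_cases hw : 1 ≤ w
    · obtain ⟨cu, ct, h1, h2⟩ := hs (w : ℝ) (by exact_mod_cast hw) (pr y w) (fun p hp =>
        ⟨(mem_pr.1 hp).1, by exact_mod_cast (mem_pr.1 hp).2.2.le⟩)
      refine ⟨cu, ct, fun _ => ⟨h1, (h2 _ fun p hp => ?_).2⟩⟩
      have : (2 : ℝ) ≤ p := by exact_mod_cast (mem_pr.1 hp).1.two_le
      exact ⟨by positivity, one_div_le_one_div_of_le (by norm_num) this, le_rfl⟩
    · exact ⟨fun _ => 0, fun _ => 0, fun h => absurd h hw⟩
  choose cu ct hct using hex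
  -- the coefficient attached to a node and a set
  let f : ι → Finset ℕ → ℝ := fun δ R =>
    if B δ ⊆ R ∧ R \ B δ ⊆ pr y (w δ) then cu (w δ) (R \ B δ) - ct (w δ) (R \ B δ) else 0
  have hlt : ∀ δ, ∀ C, C ⊆ pr y (w δ) → ∀ q ∈ C, q < w δ := fun δ C hC q hq =>
    (mem_pr.1 (hC hq)).2.2
  -- at most one node contributes
  have huniq : ∀ R, ∀ δ ∈ Del, ∀ δ' ∈ Del, f δ R ≠ 0 → f δ' R ≠ 0 → δ = δ' := by
    intro R δ hδ δ' hδ' h h'
    have h1 : B δ ⊆ R ∧ R \ B δ ⊆ pr y (w δ) := by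
      by_contra hcon
      exact h (if_neg hcon)
    have h1' : B δ' ⊆ R ∧ R \ B δ' ⊆ pr y (w δ') := by
      by_contra hcon
      exact h' (if_neg hcon)
    refine hpf δ hδ δ' hδ' (R \ B δ) (R \ B δ') (hlt δ _ h1.2) (hlt δ' _ h1'.2) ?_
    rw [union_sdiff_of_subset h1.1, union_sdiff_of_subset h1'.1]
  have hf1 : ∀ δ ∈ Del, ∀ R, |f δ R| ≤ 1 := by
    intro δ hδ R
    simp only [f]
    split_ifs
    · exact (abs_sub _ _).trans ((hct (w δ) (hw1 δ hδ)).1.abs_le _)
    · simp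
  have hsumf : ∀ R, (∑ δ ∈ Del, f δ R = 0) ∨ ∃ δ ∈ Del, f δ R ≠ 0 ∧ ∑ δ ∈ Del, f δ R = f δ R := by
    intro R
    by_cases h : ∃ δ ∈ Del, f δ R ≠ 0
    · obtain ⟨δ, hδ, h⟩ := h
      refine Or.inr ⟨δ, hδ, h, sum_eq_single δ (fun δ' hδ' hne => ?_) fun hh => absurd hδ hh⟩
      by_contra hcon
      exact hne (huniq R δ' hδ' δ hδ hcon h)
    · push Not at h
      exact Or.inl (sum_eq_zero h)
  refine ⟨fun R => ∑ δ ∈ Del, f δ R, fun R => ?_, fun R hR => ?_, fun U hU => ?_⟩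
  · change |∑ δ ∈ Del, f δ R| ≤ 1
    rcases hsumf R with h | ⟨δ, hδ, _, h⟩
    · rw [h]; simp
    · rw [h]; exact hf1 δ hδ R
  · rcases hsumf R with h | ⟨δ, hδ, hne, h⟩
    · exact absurd h hR
    · have h1 : B δ ⊆ R ∧ R \ B δ ⊆ pr y (w δ) := by
        by_contra hcon
        exact hne (if_neg hcon)
      refine ⟨δ, hδ, R \ B δ, h1.2, (union_sdiff_of_subset h1.1).symm, ?_⟩
      refine (hct (w δ) (hw1 δ hδ)).1.lvl _ h1.2 ?_
      by_contra hcon
      push Not at hcon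
      apply hne
      simp only [f, if_pos h1, hcon.1, hcon.2, sub_zero]
  · -- reindexing
    have hre : ∀ (δ : ι), δ ∈ Del → ∀ F : Finset ℕ → ℝ,
        ∑ R ∈ U.powerset, f δ R * F R =
          ∑ C ∈ (pr y (w δ)).powerset, (cu (w δ) C - ct (w δ) C) * F (B δ ∪ C) := by
      intro δ hδ F
      have hdisj : ∀ C ∈ (pr y (w δ)).powerset, Disjoint C (B δ) := by
        intro C hC
        rw [disjoint_left]
        intro q hq hqB
        have h1 := hlt δ C (mem_powerset.1 hC) q hq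
        have h2 := hBw δ hδ q hqB
        omega
      have h1 : ∑ R ∈ U.powerset, f δ R * F R =
          ∑ R ∈ U.powerset.filter (fun R => B δ ⊆ R ∧ R \ B δ ⊆ pr y (w δ)),
            (cu (w δ) (R \ B δ) - ct (w δ) (R \ B δ)) * F R := by
        rw [sum_filter]
        refine sum_congr rfl fun R _ => ?_
        simp only [f]
        split_ifs <;> simp
      rw [h1]
      symm
      refine sum_bij' (fun C _ => B δ ∪ C) (fun R _ => R \ B δ) ?_ ?_ ?_ ?_ ?_
      · intro C hC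
        have hsd : (B δ ∪ C) \ B δ = C := by
          rw [union_sdiff_left]
          exact sdiff_eq_self_of_disjoint (hdisj C hC)
        rw [mem_filter, mem_powerset, hsd]
        refine ⟨?_, subset_union_left, mem_powerset.1 hC⟩
        exact (union_subset_union_right (mem_powerset.1 hC)).trans (hU δ hδ)
      · intro R hR
        rw [mem_powerset]
        exact (mem_filter.1 hR).2.2
      · intro C hC
        change (B δ ∪ C) \ B δ = C
        rw [union_sdiff_left]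
        exact sdiff_eq_self_of_disjoint (hdisj C hC)
      · intro R hR
        exact union_sdiff_of_subset (mem_filter.1 hR).2.1
      · intro C hC
        have hsd : (B δ ∪ C) \ B δ = C := by
          rw [union_sdiff_left]
          exact sdiff_eq_self_of_disjoint (hdisj C hC)
        simp only [hsd]
    constructor
    · intro T
      have h1 : ∑ R ∈ U.powerset, (∑ δ ∈ Del, f δ R) * cnt T R y =
          ∑ δ ∈ Del, ∑ R ∈ U.powerset, f δ R * cnt T R y := by
        rw [sum_comm]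
        exact sum_congr rfl fun R _ => by rw [sum_mul]
      rw [h1]
      refine sum_le_sum fun δ hδ => ?_
      rw [hre δ hδ (fun R => cnt T R y)]
      exact one_node y (w δ) (hct (w δ) (hw1 δ hδ)).1 (B δ) T
    · have h1 : ∑ R ∈ U.powerset, (∑ δ ∈ Del, f δ R) / ((∏ q ∈ R, q : ℕ) : ℝ) =
          ∑ δ ∈ Del, ∑ R ∈ U.powerset, f δ R * (1 / ((∏ q ∈ R, q : ℕ) : ℝ)) := by
        rw [sum_comm]
        refine sum_congr rfl fun R _ => ?_
        rw [← sum_mul, mul_one_div]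
      rw [h1, mul_sum]
      refine sum_le_sum fun δ hδ => ?_
      rw [hre δ hδ (fun R => 1 / ((∏ q ∈ R, q : ℕ) : ℝ))]
      have h2 := one_node_main (η := η) y (w δ) (hct (w δ) (hw1 δ hδ)).1 (hct (w δ) (hw1 δ hδ)).2
      have hBpos : (0 : ℝ) < ((∏ q ∈ B δ, q : ℕ) : ℝ) := by
        exact_mod_cast Finset.prod_pos fun q hq => (hBp δ hδ q hq).pos
      have h3 : ∑ C ∈ (pr y (w δ)).powerset, (cu (w δ) C - ct (w δ) C) *
          (1 / ((∏ q ∈ B δ ∪ C, q : ℕ) : ℝ)) =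
          1 / ((∏ q ∈ B δ, q : ℕ) : ℝ) *
            ∑ C ∈ (pr y (w δ)).powerset, (cu (w δ) C - ct (w δ) C) / ((∏ q ∈ C, q : ℕ) : ℝ) := by
        rw [mul_sum]
        refine sum_congr rfl fun C hC => ?_
        have hd : Disjoint (B δ) C := by
          rw [disjoint_left]
          intro q hqB hq
          have h1 := hlt δ C (mem_powerset.1 hC) q hq
          have h2 := hBw δ hδ q hqB
          omega
        rw [prod_union hd, Nat.cast_mul]
        field_simp
      rw [h3]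
      calc (1 - η) * (1 / ((∏ q ∈ B δ, q : ℕ) : ℝ) * ∏ q ∈ pr y (w δ), (1 - 1 / (q : ℝ)))
          = 1 / ((∏ q ∈ B δ, q : ℕ) : ℝ) * ((1 - η) * ∏ q ∈ pr y (w δ), (1 - 1 / (q : ℝ))) := by ring
        _ ≤ _ := mul_le_mul_of_nonneg_left h2 (by positivity)

end Crest.Agent.R001.E4
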