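import Mathlib

/-! R001, block EST, part 1: random sets of primes, unbiased estimator, second moment. -/

set_option autoImplicit false

namespace Crest.Agent.R001.EST

open Finset

/-- Probability of the subset `Q` of `S` when each `q` is included independently with
probability `p q`. -/
noncomputable def Pr (S : Finset ℕ) (p : ℕ → ℝ) (Q : Finset ℕ) : ℝ :=
  (∏ q ∈ Q, p q) * ∏ q ∈ S \ Q, (1 - p q)

lemma Pr_nonneg (S : Finset ℕ) (p : ℕ → ℝ) (h0 : ∀ q ∈ S, 0 ≤ p q) (h1 : ∀ q ∈ S, p q ≤ 1)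
    (Q : Finset ℕ) (hQ : Q ⊆ S) : 0 ≤ Pr S p Q := by
  unfold Pr
  refine mul_nonneg (prod_nonneg fun q hq => h0 q (hQ hq)) (prod_nonneg fun q hq => ?_)
  have := h1 q (mem_sdiff.1 hq).1
  linarith

/-- Expectation of a multiplicative functional. -/
lemma sum_Pr_mul (S : Finset ℕ) (p f : ℕ → ℝ) :
    ∑ Q ∈ S.powerset, Pr S p Q * ∏ q ∈ Q, f q = ∏ q ∈ S, (p q * f q + (1 - p q)) := by
  rw [prod_add]
  refine sum_congr rfl fun Q _ => ?_
  unfold Pr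
  rw [prod_mul_distrib]
  ring

lemma sum_Pr (S : Finset ℕ) (p : ℕ → ℝ) : ∑ Q ∈ S.powerset, Pr S p Q = 1 := by
  have h := sum_Pr_mul S p (fun _ => 1)
  simpa using h

lemma sum_Pr_superset (S : Finset ℕ) (p : ℕ → ℝ) (R : Finset ℕ) (hR : R ⊆ S) :
    ∑ Q ∈ S.powerset with R ⊆ Q, Pr S p Q = ∏ q ∈ R, p q := by
  classical
  -- use the product formula with `b q = (1 - p q) * [q ∉ R]`
  have h := prod_add (fun q => p q) (fun q => if q ∈ R then 0 else (1 - p q)) S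
  have h1 : ∏ q ∈ S, (p q + if q ∈ R then 0 else (1 - p q)) = ∏ q ∈ R, p q := by
    rw [← prod_sdiff hR]
    have h2 : ∏ q ∈ S \ R, (p q + if q ∈ R then 0 else (1 - p q)) = 1 := by
      refine prod_eq_one fun q hq => ?_
      rw [if_neg (mem_sdiff.1 hq).2]
      ring
    rw [h2, one_mul]
    refine prod_congr rfl fun q hq => ?_
    rw [if_pos hq, add_zero]
  rw [h1] at h
  rw [h, sum_filter]
  refine sum_congr rfl fun Q hQ => ?_
  have hQS := mem_powerset.1 hQ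
  split_ifs with hRQ
  · unfold Pr
    congr 1
    refine prod_congr rfl fun q hq => ?_
    rw [if_neg]
    intro hqR
    exact (mem_sdiff.1 hq).2 (hRQ hqR)
  · -- some element of `R` is outside `Q`
    obtain ⟨q, hqR, hqQ⟩ := not_subset.1 hRQ
    have : ∏ q ∈ S \ Q, (if q ∈ R then 0 else (1 - p q)) = 0 := by
      refine prod_eq_zero (mem_sdiff.2 ⟨hR hqR, hqQ⟩) ?_
      rw [if_pos hqR]
    rw [this, mul_zero]

/-- The estimator: weights `F R` are switched on when `R ⊆ Q`, with the factor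
`∏_{q ∈ R} (p q)⁻¹`. -/
noncomputable def est (RR : Finset (Finset ℕ)) (p : ℕ → ℝ) (F : Finset ℕ → ℤ → ℝ)
    (Q : Finset ℕ) (m : ℤ) : ℝ :=
  ∑ R ∈ RR with R ⊆ Q, (∏ q ∈ R, (p q)⁻¹) * F R m

/-- The total weight. -/
noncomputable def tot (RR : Finset (Finset ℕ)) (F : Finset ℕ → ℤ → ℝ) (m : ℤ) : ℝ :=
  ∑ R ∈ RR, F R m

/-- **(E1)** unbiasedness. -/
lemma sum_est (S : Finset ℕ) (p : ℕ → ℝ) (hp : ∀ q ∈ S, 0 < p q) (RR : Finset (Finset ℕ))
    (hRR : ∀ R ∈ RR, R ⊆ S) (F : Finset ℕ → ℤ → ℝ) (m : ℤ) :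
    ∑ Q ∈ S.powerset, Pr S p Q * est RR p F Q m = tot RR F m := by
  classical
  unfold est tot
  calc ∑ Q ∈ S.powerset, Pr S p Q * ∑ R ∈ RR with R ⊆ Q, (∏ q ∈ R, (p q)⁻¹) * F R m
      = ∑ Q ∈ S.powerset, ∑ R ∈ RR, if R ⊆ Q then
          Pr S p Q * ((∏ q ∈ R, (p q)⁻¹) * F R m) else 0 := by
        refine sum_congr rfl fun Q _ => ?_
        rw [mul_sum, sum_filter]
    _ = ∑ R ∈ RR, ∑ Q ∈ S.powerset, if R ⊆ Q then
          Pr S p Q * ((∏ q ∈ R, (p q)⁻¹) * F R m) else 0 := sum_comm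
    _ = ∑ R ∈ RR, F R m := by
        refine sum_congr rfl fun R hR => ?_
        rw [← sum_filter, ← sum_mul, sum_Pr_superset S p R (hRR R hR), ← mul_assoc,
          ← prod_mul_distrib]
        have : ∏ q ∈ R, (p q * (p q)⁻¹) = 1 :=
          prod_eq_one fun q hq => mul_inv_cancel₀ (hp q (hRR R hR hq)).ne'
        rw [this, one_mul]

/-- covariance factor -/
lemma cov_le (S : Finset ℕ) (p : ℕ → ℝ) (hp : ∀ q ∈ S, 0 < p q) (hp1 : ∀ q ∈ S, p q ≤ 1)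
    (R R' : Finset ℕ) (hR : R ⊆ S) (hR' : R' ⊆ S) :
    (∏ q ∈ R, (p q)⁻¹) * (∏ q ∈ R', (p q)⁻¹) * ∏ q ∈ R ∪ R', p q ≤ ∏ q ∈ R, (p q)⁻¹ := by
  classical
  have h1 : (∏ q ∈ R ∪ R', (p q)⁻¹) * ∏ q ∈ R ∩ R', (p q)⁻¹ =
      (∏ q ∈ R, (p q)⁻¹) * ∏ q ∈ R', (p q)⁻¹ := prod_union_inter
  have h2 : (∏ q ∈ R ∪ R', (p q)⁻¹) * ∏ q ∈ R ∪ R', p q = 1 := by
    rw [← prod_mul_distrib]
    exact prod_eq_one fun q hq => inv_mul_cancel₀ (hp q (union_subset hR hR' hq)).ne'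
  have h3 : ∏ q ∈ R ∩ R', (p q)⁻¹ ≤ ∏ q ∈ R, (p q)⁻¹ := by
    refine prod_le_prod_of_subset_of_one_le ?_ ?_ ?_
    · exact inter_subset_left
    · intro q hq
      exact (inv_pos.2 (hp q (hR (inter_subset_left hq)))).le
    · intro q hq _
      exact (one_le_inv₀ (hp q (hR hq))).2 (hp1 q (hR hq))
  calc (∏ q ∈ R, (p q)⁻¹) * (∏ q ∈ R', (p q)⁻¹) * ∏ q ∈ R ∪ R', p q
      = ((∏ q ∈ R ∪ R', (p q)⁻¹) * ∏ q ∈ R ∪ R', p q) * ∏ q ∈ R ∩ R', (p q)⁻¹ := by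
        rw [← h1]; ring
    _ = ∏ q ∈ R ∩ R', (p q)⁻¹ := by rw [h2, one_mul]
    _ ≤ _ := h3

/-- **(E2)** second moment of the estimator on a finite set of integers. -/
lemma second_moment (S : Finset ℕ) (p : ℕ → ℝ) (hp : ∀ q ∈ S, 0 < p q) (hp1 : ∀ q ∈ S, p q ≤ 1)
    (RR : Finset (Finset ℕ)) (hRR : ∀ R ∈ RR, R ⊆ S) (F : Finset ℕ → ℤ → ℝ)
    (Wt : ℝ) (hWt : ∀ R ∈ RR, ∏ q ∈ R, (p q)⁻¹ ≤ Wt) (I : Finset ℤ) :
    ∑ Q ∈ S.powerset, Pr S p Q * ∑ m ∈ I, est RR p F Q m ^ 2 ≤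
      Wt * ∑ m ∈ I, (∑ R ∈ RR, |F R m|) ^ 2 := by
  classical
  have key : ∀ m : ℤ, ∑ Q ∈ S.powerset, Pr S p Q * est RR p F Q m ^ 2 ≤
      Wt * (∑ R ∈ RR, |F R m|) ^ 2 := by
    intro m
    set u : Finset ℕ → ℝ := fun R => ∏ q ∈ R, (p q)⁻¹ with hu
    have e1 : ∀ Q ∈ S.powerset, Pr S p Q * est RR p F Q m ^ 2 =
        ∑ R ∈ RR, ∑ R' ∈ RR, if R ∪ R' ⊆ Q then
          Pr S p Q * (u R * u R' * (F R m * F R' m)) else 0 := by
      intro Q _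
      unfold est
      rw [sq, sum_mul_sum, mul_sum, sum_filter]
      refine sum_congr rfl fun R _ => ?_
      rw [mul_sum, sum_filter]
      split_ifs with h1
      · refine sum_congr rfl fun R' _ => ?_
        split_ifs with h2 h3 h3
        · simp only [hu]; ring
        · exact absurd (union_subset h1 h2) h3
        · exact absurd (subset_union_right.trans h3) h2
        · rfl
      · symm
        refine sum_eq_zero fun R' _ => ?_
        rw [if_neg]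
        exact fun h3 => h1 (subset_union_left.trans h3)
    rw [sum_congr rfl e1, sum_comm]
    have e2 : ∀ R ∈ RR, ∑ Q ∈ S.powerset, ∑ R' ∈ RR, (if R ∪ R' ⊆ Q then
          Pr S p Q * (u R * u R' * (F R m * F R' m)) else 0) ≤
        ∑ R' ∈ RR, Wt * (|F R m| * |F R' m|) := by
      intro R hR
      rw [sum_comm]
      refine sum_le_sum fun R' hR' => ?_
      rw [← sum_filter, ← sum_mul, sum_Pr_superset S p _ (union_subset (hRR R hR) (hRR R' hR'))]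
      have h1 := cov_le S p hp hp1 R R' (hRR R hR) (hRR R' hR')
      have h2 := hWt R hR
      have h3 : 0 ≤ (∏ q ∈ R, (p q)⁻¹) * (∏ q ∈ R', (p q)⁻¹) * ∏ q ∈ R ∪ R', p q := by
        refine mul_nonneg (mul_nonneg ?_ ?_) ?_
        · exact prod_nonneg fun q hq => (inv_pos.2 (hp q (hRR R hR hq))).le
        · exact prod_nonneg fun q hq => (inv_pos.2 (hp q (hRR R' hR' hq))).le
        · exact prod_nonneg fun q hq => (hp q (union_subset (hRR R hR) (hRR R' hR') hq)).le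
      calc (∏ q ∈ R ∪ R', p q) * (u R * u R' * (F R m * F R' m))
          = ((∏ q ∈ R, (p q)⁻¹) * (∏ q ∈ R', (p q)⁻¹) * ∏ q ∈ R ∪ R', p q) *
            (F R m * F R' m) := by simp only [hu]; ring
        _ ≤ ((∏ q ∈ R, (p q)⁻¹) * (∏ q ∈ R', (p q)⁻¹) * ∏ q ∈ R ∪ R', p q) *
            (|F R m| * |F R' m|) := by
            refine mul_le_mul_of_nonneg_left ?_ h3
            rw [← abs_mul]
            exact le_abs_self _
        _ ≤ Wt * (|F R m| * |F R' m|) :=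
            mul_le_mul_of_nonneg_right (h1.trans h2) (by positivity)
    refine (sum_le_sum e2).trans (le_of_eq ?_)
    rw [sq, sum_mul_sum, mul_sum]
    refine sum_congr rfl fun R _ => ?_
    rw [mul_sum]
  calc ∑ Q ∈ S.powerset, Pr S p Q * ∑ m ∈ I, est RR p F Q m ^ 2
      = ∑ m ∈ I, ∑ Q ∈ S.powerset, Pr S p Q * est RR p F Q m ^ 2 := by
        rw [sum_comm]
        refine sum_congr rfl fun Q _ => ?_
        rw [mul_sum]
    _ ≤ ∑ m ∈ I, Wt * (∑ R ∈ RR, |F R m|) ^ 2 := sum_le_sum fun m _ => key m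
    _ = _ := by rw [mul_sum]

/-- trivial bound for the estimator -/
lemma abs_est_le (S : Finset ℕ) (p : ℕ → ℝ) (hp : ∀ q ∈ S, 0 < p q) (RR : Finset (Finset ℕ))
    (hRR : ∀ R ∈ RR, R ⊆ S) (F : Finset ℕ → ℤ → ℝ) (Wt : ℝ)
    (hWt : ∀ R ∈ RR, ∏ q ∈ R, (p q)⁻¹ ≤ Wt) (Q : Finset ℕ) (m : ℤ) :
    |est RR p F Q m| ≤ Wt * ∑ R ∈ RR, |F R m| := by
  classical
  unfold est
  refine (abs_sum_le_sum_abs _ _).trans ?_
  have h0 : ∀ R ∈ RR, 0 ≤ ∏ q ∈ R, (p q)⁻¹ := fun R hR =>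
    prod_nonneg fun q hq => (inv_pos.2 (hp q (hRR R hR hq))).le
  rw [mul_sum]
  calc ∑ R ∈ RR with R ⊆ Q, |(∏ q ∈ R, (p q)⁻¹) * F R m|
      ≤ ∑ R ∈ RR, |(∏ q ∈ R, (p q)⁻¹) * F R m| :=
        sum_le_sum_of_subset_of_nonneg (filter_subset _ _) fun _ _ _ => abs_nonneg _
    _ ≤ ∑ R ∈ RR, Wt * |F R m| := by
        refine sum_le_sum fun R hR => ?_
        rw [abs_mul, abs_of_nonneg (h0 R hR)]
        exact mul_le_mul_of_nonneg_right (hWt R hR) (abs_nonneg _)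

/-- periodicity of the estimator -/
lemma est_periodic (RR : Finset (Finset ℕ)) (p : ℕ → ℝ) (F : Finset ℕ → ℤ → ℝ) (m0 : ℕ)
    (hper : ∀ R ∈ RR, ∀ m k : ℤ, F R (m + k * ((m0 : ℤ) * ∏ q ∈ R, (q : ℤ))) = F R m)
    (Q : Finset ℕ) (m k : ℤ) :
    est RR p F Q (m + k * ((m0 : ℤ) * ∏ q ∈ Q, (q : ℤ))) = est RR p F Q m := by
  classical
  unfold est
  refine sum_congr rfl fun R hR => ?_
  obtain ⟨hR1, hR2⟩ := mem_filter.1 hR
  congr 1
  have h : (m0 : ℤ) * ∏ q ∈ Q, (q : ℤ) = (∏ q ∈ Q \ R, (q : ℤ)) * ((m0 : ℤ) * ∏ q ∈ R, (q : ℤ)) := by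
    rw [← prod_sdiff hR2]; ring
  rw [h, ← mul_assoc]
  exact hper R hR1 m _

end Crest.Agent.R001.EST
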