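import Crest.Agent.R001.LS.Real

/-! R001, block EST, part 2: the deterministic level-set argument (large sieve + structure
theorem in list form => first moment bound over unstructured pairs). -/

set_option autoImplicit false

namespace Crest.Agent.R001.EST

open Finset
open Crest.Agent.R001.LS (cs)

/-- Structure theorem in list form, as a hypothesis: few `e` have many bad unstructured `g`. -/
def ListHyp (a : ℤ) (EE : Finset ℤ) (GG : Finset ℕ) (Str : ℤ → ℕ → Prop) (K0 : ℕ)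
    (Lf Thr : ℝ) : Prop :=
  ∀ (R : ∀ g : ℕ, Finset (ZMod g)) (K : ℕ), K0 ≤ K →
    Lf * ∑ g ∈ GG, ((R g).card : ℝ) ≤ (K : ℝ) ^ 2 →
    ∀ EE' ⊆ EE, (∀ e ∈ EE', ∃ T ⊆ GG, K ≤ T.card ∧
      ∀ g ∈ T, ((a / e : ℤ) : ZMod g) ∈ R g ∧ ¬ Str e g) → (EE'.card : ℝ) ≤ Thr

/-- deviation of the sum over the multiples of `g` in the window `(A - H, A]`. -/
noncomputable def dev (w : ℤ → ℝ) (A : ℤ) (H : ℕ) (g : ℕ) : ℝ :=
  (∑ m ∈ Ioc (A - H) A with (g : ℤ) ∣ m, w m) - (∑ m ∈ Ioc (A - H) A, w m) / g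

lemma sum_shift (w : ℤ → ℝ) (M0 : ℤ) (hper : ∀ m k : ℤ, w (m + k * M0) = w m) (A A0 k : ℤ)
    (hA : A = A0 + k * M0) (H : ℕ) :
    ∑ m ∈ Ioc (A - H) A, w m = ∑ m ∈ Ioc (A0 - H) A0, w m := by
  refine sum_nbij' (fun m => m - k * M0) (fun n => n + k * M0) ?_ ?_ ?_ ?_ ?_
  · intro m hm
    rw [mem_Ioc] at hm ⊢
    constructor <;> linarith [hm.1, hm.2]
  · intro m hm
    rw [mem_Ioc] at hm ⊢
    constructor <;> linarith [hm.1, hm.2]
  · intro m _; ring
  · intro m _; ring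
  · intro m _
    conv_lhs => rw [show m = (m - k * M0) + k * M0 by ring]
    exact hper _ _

lemma sum_shift_dvd (w : ℤ → ℝ) (M0 : ℤ) (hper : ∀ m k : ℤ, w (m + k * M0) = w m) (A A0 k : ℤ)
    (hA : A = A0 + k * M0) (H : ℕ) (g : ℕ) (hg : 0 < g) :
    ∑ m ∈ Ioc (A - H) A with (g : ℤ) ∣ m, w m =
      cs (Ioc (A0 - H) A0) w g (((A0 - A) % (g : ℤ)).toNat) := by
  unfold cs
  have hg' : (0 : ℤ) < g := by exact_mod_cast hg
  have hkey : (((((A0 - A) % (g : ℤ)).toNat : ℕ)) : ℤ) = (A0 - A) % (g : ℤ) :=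
    Int.toNat_of_nonneg (Int.emod_nonneg _ hg'.ne')
  rw [hkey]
  have hcond : ∀ m : ℤ, (g : ℤ) ∣ m ↔ (m - k * M0) % (g : ℤ) = (A0 - A) % (g : ℤ) := by
    intro m
    have h1 : (m - k * M0) % (g : ℤ) = (A0 - A) % (g : ℤ) ↔
        (m - k * M0) ≡ (A0 - A) [ZMOD (g : ℤ)] := Iff.rfl
    rw [h1, Int.modEq_iff_dvd]
    have h2 : A0 - A - (m - k * M0) = - m := by rw [hA]; ring
    rw [h2, dvd_neg]
  refine sum_nbij' (fun m => m - k * M0) (fun n => n + k * M0) ?_ ?_ ?_ ?_ ?_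
  · intro m hm
    rw [mem_filter, mem_Ioc] at hm ⊢
    exact ⟨⟨by linarith [hm.1.1], by linarith [hm.1.2]⟩, (hcond m).1 hm.2⟩
  · intro m hm
    rw [mem_filter, mem_Ioc] at hm ⊢
    refine ⟨⟨by linarith [hm.1.1], by linarith [hm.1.2]⟩, (hcond _).2 ?_⟩
    rw [add_sub_cancel_right]
    exact hm.2
  · intro m _; ring
  · intro m _; ring
  · intro m _
    conv_lhs => rw [show m = (m - k * M0) + k * M0 by ring]
    exact hper _ _

/-- layer-cake inequality -/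
lemma layer (x t0 : ℝ) (ht0 : 0 < t0) (n : ℕ) (hx : x ≤ 2 ^ n * t0) :
    x ≤ t0 + ∑ k ∈ range n, 2 ^ k * t0 * (if 2 ^ k * t0 < x then 1 else 0) := by
  induction n with
  | zero => simpa using hx
  | succ n ih =>
    rw [sum_range_succ]
    by_cases h : x ≤ 2 ^ n * t0
    · have h1 := ih h
      rw [if_neg (not_lt.2 h)]
      linarith
    · push Not at h
      rw [if_pos h]
      have h2 : ∀ k ∈ range n, (2 : ℝ) ^ k * t0 * (if 2 ^ k * t0 < x then (1 : ℝ) else 0) =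
          2 ^ k * t0 := by
        intro k hk
        rw [if_pos, mul_one]
        refine lt_of_le_of_lt ?_ h
        refine mul_le_mul_of_nonneg_right ?_ ht0.le
        exact pow_le_pow_right₀ (by norm_num) (mem_range.1 hk).le
      rw [sum_congr rfl h2, ← sum_mul]
      have h3 : ∑ k ∈ range n, (2 : ℝ) ^ k = 2 ^ n - 1 := by
        rw [geom_sum_eq (by norm_num)]; norm_num
      rw [h3]
      rw [pow_succ] at hx
      linarith

/-- residue classes of `A` with a large deviation -/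
noncomputable def badR (I : Finset ℤ) (w : ℤ → ℝ) (A0 : ℤ) (τ : ℝ) (g : ℕ) : Finset (ZMod g) :=
  if hg : g = 0 then ∅ else
    haveI : NeZero g := ⟨hg⟩
    univ.filter fun x : ZMod g =>
      τ < |cs I w g ((A0 : ZMod g) - x).val - (∑ m ∈ I, w m) / g|

lemma card_badR (I : Finset ℤ) (w : ℤ → ℝ) (A0 : ℤ) (τ : ℝ) (hτ : 0 ≤ τ) (g : ℕ) (hg : 0 < g) :
    ((badR I w A0 τ g).card : ℝ) * τ ^ 2 ≤
      ∑ r ∈ range g, (cs I w g r - (∑ m ∈ I, w m) / g) ^ 2 := by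
  have : NeZero g := ⟨hg.ne'⟩
  have e1 : badR I w A0 τ g = univ.filter fun x : ZMod g =>
      τ < |cs I w g ((A0 : ZMod g) - x).val - (∑ m ∈ I, w m) / g| := by
    unfold badR
    rw [dif_neg hg.ne']
  rw [← LS.sum_zmod_eq g (fun r => (cs I w g r - (∑ m ∈ I, w m) / g) ^ 2)]
  have e2 : ∑ x : ZMod g, (cs I w g x.val - (∑ m ∈ I, w m) / g) ^ 2 =
      ∑ x : ZMod g, (cs I w g ((A0 : ZMod g) - x).val - (∑ m ∈ I, w m) / g) ^ 2 :=
    (Equiv.sum_comp (Equiv.subLeft (A0 : ZMod g))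
      (fun x : ZMod g => (cs I w g x.val - (∑ m ∈ I, w m) / g) ^ 2)).symm
  rw [e2, e1]
  calc ((univ.filter fun x : ZMod g =>
      τ < |cs I w g ((A0 : ZMod g) - x).val - (∑ m ∈ I, w m) / g|).card : ℝ) * τ ^ 2
      = ∑ _x ∈ univ.filter (fun x : ZMod g =>
      τ < |cs I w g ((A0 : ZMod g) - x).val - (∑ m ∈ I, w m) / g|), τ ^ 2 := by
        rw [sum_const, nsmul_eq_mul]
    _ ≤ ∑ x ∈ univ.filter (fun x : ZMod g =>
      τ < |cs I w g ((A0 : ZMod g) - x).val - (∑ m ∈ I, w m) / g|),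
        (cs I w g ((A0 : ZMod g) - x).val - (∑ m ∈ I, w m) / g) ^ 2 := by
        refine sum_le_sum fun x hx => ?_
        rw [← sq_abs (cs I w g ((A0 : ZMod g) - x).val - (∑ m ∈ I, w m) / g)]
        exact pow_le_pow_left₀ hτ (mem_filter.1 hx).2.le 2
    _ ≤ _ := sum_le_sum_of_subset_of_nonneg (filter_subset _ _) fun _ _ _ => sq_nonneg _

lemma mem_badR (w : ℤ → ℝ) (M0 : ℤ) (hper : ∀ m k : ℤ, w (m + k * M0) = w m) (A A0 k : ℤ)
    (hA : A = A0 + k * M0) (H : ℕ) (g : ℕ) (hg : 0 < g) (τ : ℝ) (h : τ < |dev w A H g|) :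
    ((A : ℤ) : ZMod g) ∈ badR (Ioc (A0 - H) A0) w A0 τ g := by
  have : NeZero g := ⟨hg.ne'⟩
  unfold badR
  rw [dif_neg hg.ne', mem_filter]
  refine ⟨mem_univ _, ?_⟩
  unfold dev at h
  rw [sum_shift_dvd w M0 hper A A0 k hA H g hg, sum_shift w M0 hper A A0 k hA H] at h
  have h1 : ((A0 : ZMod g) - (A : ZMod g)).val = ((A0 - A) % (g : ℤ)).toNat := by
    have h2 : ((((A0 - A : ℤ) : ZMod g)).val : ℤ) = (A0 - A) % (g : ℤ) := ZMod.val_intCast _
    have h3 : ((A0 : ZMod g) - (A : ZMod g)) = ((A0 - A : ℤ) : ZMod g) := by push_cast; ring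
    rw [h3]
    omega
  rw [h1]
  exact h

/-- threshold function -/
noncomputable def theta (w : ℤ → ℝ) (H Qm G : ℕ) (Lf : ℝ) (A : ℤ) : ℝ :=
  Real.sqrt (Lf * (2 * (H : ℝ) + 3 * (Qm : ℝ) ^ 2) * (∑ m ∈ Ioc (A - H) A, w m ^ 2) / G)

lemma theta_nonneg (w : ℤ → ℝ) (H Qm G : ℕ) (Lf : ℝ) (A : ℤ) : 0 ≤ theta w H Qm G Lf A :=
  Real.sqrt_nonneg _

lemma theta_shift (w : ℤ → ℝ) (M0 : ℤ) (hper : ∀ m k : ℤ, w (m + k * M0) = w m) (A A0 k : ℤ)
    (hA : A = A0 + k * M0) (H Qm G : ℕ) (Lf : ℝ) :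
    theta w H Qm G Lf A = theta w H Qm G Lf A0 := by
  unfold theta
  rw [sum_shift (fun m => w m ^ 2) M0 (fun m k => by simp only [hper]) A A0 k hA H]

/-- one level, one residue class -/
lemma level_class (a : ℤ) (EE : Finset ℤ) (GG : Finset ℕ) (hGG : ∀ g ∈ GG, g.Prime) (G Qm : ℕ)
    (hG0 : 0 < G) (hG : ∀ g ∈ GG, G ≤ g) (hQ : ∀ g ∈ GG, g ≤ Qm) (Str : ℤ → ℕ → Prop) (K0 : ℕ)
    (Lf Thr : ℝ) (hLf : 0 ≤ Lf) (hL : ListHyp a EE GG Str K0 Lf Thr)
    (w : ℤ → ℝ) (M0 : ℤ) (hper : ∀ m k : ℤ, w (m + k * M0) = w m) (H : ℕ) (τ : ℝ) (hτ : 0 < τ)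
    (γ : ℤ) (EE' : Finset ℤ) (hEE' : EE' ⊆ EE) (hcl : ∀ e ∈ EE', ∃ k : ℤ, a / e = γ + k * M0)
    (hbad : ∀ e ∈ EE', ∃ T ⊆ GG, ⌈theta w H Qm G Lf γ / τ⌉₊ + K0 ≤ T.card ∧
      ∀ g ∈ T, τ < |dev w (a / e) H g| ∧ ¬ Str e g) :
    (EE'.card : ℝ) ≤ Thr := by
  refine hL (fun g => badR (Ioc (γ - H) γ) w γ τ g) (⌈theta w H Qm G Lf γ / τ⌉₊ + K0)
    (Nat.le_add_left _ _) ?_ EE' hEE' ?_
  · -- the average number of bad classes
    have h1 := LS.large_sieve_real GG hGG Qm hQ w (γ - H) H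
    rw [sub_add_cancel] at h1
    set I := Ioc (γ - (H : ℤ)) γ with hI
    set W2 : ℝ := ∑ m ∈ I, w m ^ 2 with hW2
    have hG0' : (0 : ℝ) < G := by exact_mod_cast hG0
    have h2 : (G : ℝ) * (τ ^ 2 * ∑ g ∈ GG, ((badR I w γ τ g).card : ℝ)) ≤
        (2 * (H : ℝ) + 3 * (Qm : ℝ) ^ 2) * W2 := by
      refine le_trans ?_ h1
      rw [mul_sum, mul_sum]
      refine sum_le_sum fun g hg => ?_
      have hg0 : 0 < g := (hGG g hg).pos
      have h3 := card_badR I w γ τ hτ.le g hg0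
      have h4 : (G : ℝ) ≤ g := by exact_mod_cast hG g hg
      have h5 : (0 : ℝ) ≤ ∑ r ∈ range g, (cs I w g r - (∑ m ∈ I, w m) / g) ^ 2 :=
        sum_nonneg fun _ _ => sq_nonneg _
      calc (G : ℝ) * (τ ^ 2 * ((badR I w γ τ g).card : ℝ))
          ≤ G * ∑ r ∈ range g, (cs I w g r - (∑ m ∈ I, w m) / g) ^ 2 := by
            refine mul_le_mul_of_nonneg_left ?_ hG0'.le
            rw [mul_comm]; exact h3
        _ ≤ _ := mul_le_mul_of_nonneg_right h4 h5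
    have hth : theta w H Qm G Lf γ ^ 2 = Lf * (2 * (H : ℝ) + 3 * (Qm : ℝ) ^ 2) * W2 / G := by
      unfold theta
      rw [Real.sq_sqrt]
      have : 0 ≤ W2 := sum_nonneg fun _ _ => sq_nonneg _
      positivity
    have h6 : Lf * ∑ g ∈ GG, ((badR I w γ τ g).card : ℝ) ≤ (theta w H Qm G Lf γ / τ) ^ 2 := by
      rw [div_pow, hth, div_div, le_div_iff₀ (by positivity)]
      calc (Lf * ∑ g ∈ GG, ((badR I w γ τ g).card : ℝ)) * (G * τ ^ 2)
          = Lf * (G * (τ ^ 2 * ∑ g ∈ GG, ((badR I w γ τ g).card : ℝ))) := by ring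
        _ ≤ Lf * ((2 * (H : ℝ) + 3 * (Qm : ℝ) ^ 2) * W2) := mul_le_mul_of_nonneg_left h2 hLf
        _ = _ := by ring
    refine h6.trans ?_
    have h7 : 0 ≤ theta w H Qm G Lf γ / τ := div_nonneg (theta_nonneg _ _ _ _ _ _) hτ.le
    have h8 : theta w H Qm G Lf γ / τ ≤ ((⌈theta w H Qm G Lf γ / τ⌉₊ + K0 : ℕ) : ℝ) := by
      push_cast
      have := Nat.le_ceil (theta w H Qm G Lf γ / τ)
      have h9 : (0 : ℝ) ≤ K0 := Nat.cast_nonneg _
      linarith
    exact pow_le_pow_left₀ h7 h8 2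
  · intro e he
    obtain ⟨T, hT1, hT2, hT3⟩ := hbad e he
    refine ⟨T, hT1, hT2, fun g hg => ⟨?_, (hT3 g hg).2⟩⟩
    obtain ⟨k, hk⟩ := hcl e he
    exact mem_badR w M0 hper (a / e) γ k hk H g (hGG g (hT1 hg)).pos τ (hT3 g hg).1

/-- one level -/
lemma level (a : ℤ) (EE : Finset ℤ) (GG : Finset ℕ) (hGG : ∀ g ∈ GG, g.Prime) (G Qm : ℕ)
    (hG0 : 0 < G) (hG : ∀ g ∈ GG, G ≤ g) (hQ : ∀ g ∈ GG, g ≤ Qm) (Str : ℤ → ℕ → Prop) (K0 : ℕ)
    (Lf Thr : ℝ) (hLf : 0 ≤ Lf) (hL : ListHyp a EE GG Str K0 Lf Thr)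
    (w : ℤ → ℝ) (M0 : ℕ) (hM0 : 0 < M0) (hper : ∀ m k : ℤ, w (m + k * (M0 : ℤ)) = w m) (H : ℕ)
    (τ : ℝ) (hτ : 0 < τ) (N : ℤ → ℕ)
    (hN : ∀ e ∈ EE, ∃ T ⊆ GG, N e = T.card ∧ ∀ g ∈ T, τ < |dev w (a / e) H g| ∧ ¬ Str e g) :
    ∑ e ∈ EE, (N e : ℝ) ≤ ∑ e ∈ EE, (theta w H Qm G Lf (a / e) / τ + (K0 + 1)) +
      M0 * Thr * GG.card := by
  classical
  have hM0' : (0 : ℤ) < M0 := by exact_mod_cast hM0
  set kap : ℤ → ℕ := fun γ => ⌈theta w H Qm G Lf γ / τ⌉₊ + K0 with hkap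
  -- exceptional elements
  set X : Finset ℤ := EE.filter (fun e => kap ((a / e) % M0) ≤ N e) with hX
  have hXc : (X.card : ℝ) ≤ M0 * Thr := by
    have h1 : X.card = ∑ γ ∈ range M0, (X.filter (fun e => ((a / e) % (M0 : ℤ)).toNat = γ)).card := by
      refine card_eq_sum_card_fiberwise fun e _ => ?_
      rw [coe_range, Set.mem_Iio]
      have h2 := Int.emod_nonneg (a / e) hM0'.ne'
      have h3 := Int.emod_lt_of_pos (a / e) hM0'
      omega
    rw [h1]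
    push_cast
    calc ∑ γ ∈ range M0, ((X.filter (fun e => ((a / e) % (M0 : ℤ)).toNat = γ)).card : ℝ)
        ≤ ∑ _γ ∈ range M0, Thr := by
          refine sum_le_sum fun γ _ => ?_
          refine level_class a EE GG hGG G Qm hG0 hG hQ Str K0 Lf Thr hLf hL w M0 hper H τ hτ
            (γ : ℤ) _ ((filter_subset _ _).trans (filter_subset _ _)) ?_ ?_
          · intro e he
            have h2 := (mem_filter.1 he).2
            have h3 := Int.emod_nonneg (a / e) hM0'.ne'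
            refine ⟨(a / e) / M0, ?_⟩
            have h4 := Int.emod_add_mul_ediv (a / e) (M0 : ℤ)
            have h5 : (γ : ℤ) = (a / e) % (M0 : ℤ) := by omega
            rw [h5]
            linarith
          · intro e he
            obtain ⟨he1, he2⟩ := mem_filter.1 he
            obtain ⟨he3, he4⟩ := mem_filter.1 he1
            have h3 := Int.emod_nonneg (a / e) hM0'.ne'
            have h5 : (γ : ℤ) = (a / e) % (M0 : ℤ) := by omega
            obtain ⟨T, hT1, hT2, hT3⟩ := hN e he3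
            refine ⟨T, hT1, ?_, hT3⟩
            rw [← hT2, h5]
            exact he4
      _ = M0 * Thr := by rw [sum_const, card_range, nsmul_eq_mul]
  have hpt : ∀ e ∈ EE, (N e : ℝ) ≤ (theta w H Qm G Lf (a / e) / τ + (K0 + 1)) +
      (if e ∈ X then (GG.card : ℝ) else 0) := by
    intro e he
    have h0 : 0 ≤ theta w H Qm G Lf (a / e) / τ := div_nonneg (theta_nonneg _ _ _ _ _ _) hτ.le
    by_cases heX : e ∈ X
    · rw [if_pos heX]
      obtain ⟨T, hT1, hT2, _⟩ := hN e he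
      have h1 : (N e : ℝ) ≤ GG.card := by
        rw [hT2]; exact_mod_cast card_le_card hT1
      have h2 : (0 : ℝ) ≤ K0 := Nat.cast_nonneg _
      linarith
    · rw [if_neg heX, add_zero]
      have h1 : N e < kap ((a / e) % M0) := by
        by_contra hcon
        exact heX (mem_filter.2 ⟨he, not_lt.1 hcon⟩)
      have h2 : theta w H Qm G Lf (a / e) = theta w H Qm G Lf ((a / e) % M0) := by
        refine theta_shift w M0 hper (a / e) ((a / e) % M0) ((a / e) / M0) ?_ H Qm G Lf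
        have h4 := Int.emod_add_mul_ediv (a / e) (M0 : ℤ)
        linarith
      rw [h2] at h0 ⊢
      have h3 := (Nat.ceil_lt_add_one h0).le
      have h4 : (N e : ℝ) ≤ (kap ((a / e) % M0) : ℝ) := by exact_mod_cast h1.le
      simp only [hkap] at h4
      push_cast at h4
      linarith
  calc ∑ e ∈ EE, (N e : ℝ)
      ≤ ∑ e ∈ EE, ((theta w H Qm G Lf (a / e) / τ + (K0 + 1)) +
        (if e ∈ X then (GG.card : ℝ) else 0)) := sum_le_sum hpt
    _ = ∑ e ∈ EE, (theta w H Qm G Lf (a / e) / τ + (K0 + 1)) + X.card * GG.card := by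
        have hXX : EE.filter (fun e => e ∈ X) = X := by
          rw [filter_mem_eq_inter]
          exact inter_eq_right.2 (filter_subset _ _)
        rw [sum_add_distrib, ← sum_filter, sum_const, nsmul_eq_mul, hXX]
    _ ≤ _ := by
        have h1 : (0 : ℝ) ≤ GG.card := Nat.cast_nonneg _
        linarith [mul_le_mul_of_nonneg_right hXc h1]

open Classical in
/-- **(E3)** deterministic form: first moment over unstructured pairs. -/
theorem det (a : ℤ) (EE : Finset ℤ) (GG : Finset ℕ) (hGG : ∀ g ∈ GG, g.Prime) (G Qm : ℕ)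
    (hG0 : 0 < G) (hG : ∀ g ∈ GG, G ≤ g) (hQ : ∀ g ∈ GG, g ≤ Qm) (Str : ℤ → ℕ → Prop) (K0 : ℕ)
    (Lf Thr : ℝ) (hLf : 0 ≤ Lf) (hThr : 0 ≤ Thr) (hL : ListHyp a EE GG Str K0 Lf Thr)
    (w : ℤ → ℝ) (M0 : ℕ) (hM0 : 0 < M0) (hper : ∀ m k : ℤ, w (m + k * (M0 : ℤ)) = w m) (H : ℕ)
    (t0 : ℝ) (ht0 : 0 < t0) (n : ℕ)
    (hT : ∀ e ∈ EE, ∀ g ∈ GG, |dev w (a / e) H g| ≤ 2 ^ n * t0) :
    ∑ e ∈ EE, ∑ g ∈ GG with ¬ Str e g, |dev w (a / e) H g| ≤
      EE.card * GG.card * t0 +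
      n * ∑ e ∈ EE, (theta w H Qm G Lf (a / e) + 2 ^ n * t0 * (K0 + 1)) +
      2 ^ n * t0 * (M0 * Thr * GG.card) := by
  set Nk : ℕ → ℤ → Finset ℕ := fun k e =>
    GG.filter (fun g => ¬ Str e g ∧ 2 ^ k * t0 < |dev w (a / e) H g|) with hNk
  have h1 : ∀ e ∈ EE, ∑ g ∈ GG with ¬ Str e g, |dev w (a / e) H g| ≤
      GG.card * t0 + ∑ k ∈ range n, 2 ^ k * t0 * ((Nk k e).card : ℝ) := by
    intro e he
    calc ∑ g ∈ GG with ¬ Str e g, |dev w (a / e) H g|
        ≤ ∑ g ∈ GG with ¬ Str e g, (t0 + ∑ k ∈ range n, 2 ^ k * t0 *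
            (if 2 ^ k * t0 < |dev w (a / e) H g| then 1 else 0)) :=
          sum_le_sum fun g hg => layer _ t0 ht0 n (hT e he g (mem_filter.1 hg).1)
      _ = (GG.filter (fun g => ¬ Str e g)).card * t0 +
          ∑ k ∈ range n, 2 ^ k * t0 * ((Nk k e).card : ℝ) := by
          rw [sum_add_distrib, sum_const, nsmul_eq_mul, sum_comm]
          congr 1
          refine sum_congr rfl fun k _ => ?_
          rw [← mul_sum, ← sum_filter, filter_filter, sum_const, nsmul_eq_mul, mul_one]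
      _ ≤ _ := by
          have : ((GG.filter (fun g => ¬ Str e g)).card : ℝ) ≤ GG.card := by
            exact_mod_cast card_filter_le _ _
          have h2 := mul_le_mul_of_nonneg_right this ht0.le
          linarith
  have h2 : ∀ k ∈ range n, ∑ e ∈ EE, ((Nk k e).card : ℝ) ≤
      ∑ e ∈ EE, (theta w H Qm G Lf (a / e) / (2 ^ k * t0) + (K0 + 1)) + M0 * Thr * GG.card := by
    intro k _
    refine level a EE GG hGG G Qm hG0 hG hQ Str K0 Lf Thr hLf hL w M0 hM0 hper H (2 ^ k * t0)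
      (by positivity) (fun e => (Nk k e).card) ?_
    intro e _
    refine ⟨Nk k e, filter_subset _ _, rfl, fun g hg => ?_⟩
    have h3 := (mem_filter.1 hg).2
    exact ⟨h3.2, h3.1⟩
  calc ∑ e ∈ EE, ∑ g ∈ GG with ¬ Str e g, |dev w (a / e) H g|
      ≤ ∑ e ∈ EE, (GG.card * t0 + ∑ k ∈ range n, 2 ^ k * t0 * ((Nk k e).card : ℝ)) :=
        sum_le_sum h1
    _ = EE.card * GG.card * t0 + ∑ k ∈ range n, 2 ^ k * t0 * ∑ e ∈ EE, ((Nk k e).card : ℝ) := by
        rw [sum_add_distrib, sum_const, nsmul_eq_mul, sum_comm, mul_assoc]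
        congr 1
        refine sum_congr rfl fun k _ => ?_
        rw [mul_sum]
    _ ≤ EE.card * GG.card * t0 + ∑ k ∈ range n, 2 ^ k * t0 *
        (∑ e ∈ EE, (theta w H Qm G Lf (a / e) / (2 ^ k * t0) + (K0 + 1)) +
          M0 * Thr * GG.card) := by
        gcongr with k hk
        exact h2 k hk
    _ = EE.card * GG.card * t0 + (∑ k ∈ range n, ∑ e ∈ EE,
        (theta w H Qm G Lf (a / e) + 2 ^ k * t0 * (K0 + 1)) +
          (∑ k ∈ range n, 2 ^ k * t0) * (M0 * Thr * GG.card)) := by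
        rw [sum_mul, ← sum_add_distrib]
        congr 1
        refine sum_congr rfl fun k _ => ?_
        rw [mul_add, mul_sum]
        congr 1
        refine sum_congr rfl fun e _ => ?_
        rw [mul_add]
        congr 1
        field_simp
    _ ≤ EE.card * GG.card * t0 +
      (n * ∑ e ∈ EE, (theta w H Qm G Lf (a / e) + 2 ^ n * t0 * (K0 + 1)) +
      2 ^ n * t0 * (M0 * Thr * GG.card)) := by
        have h3 : ∑ k ∈ range n, ∑ e ∈ EE,
            (theta w H Qm G Lf (a / e) + 2 ^ k * t0 * (K0 + 1)) ≤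
            n * ∑ e ∈ EE, (theta w H Qm G Lf (a / e) + 2 ^ n * t0 * (K0 + 1)) := by
          calc ∑ k ∈ range n, ∑ e ∈ EE,
            (theta w H Qm G Lf (a / e) + 2 ^ k * t0 * (K0 + 1))
              ≤ ∑ _k ∈ range n, ∑ e ∈ EE,
                (theta w H Qm G Lf (a / e) + 2 ^ n * t0 * (K0 + 1)) := by
                refine sum_le_sum fun k hk => sum_le_sum fun e _ => ?_
                have : (2 : ℝ) ^ k ≤ 2 ^ n :=
                  pow_le_pow_right₀ (by norm_num) (mem_range.1 hk).le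
                gcongr
            _ = _ := by rw [sum_const, card_range, nsmul_eq_mul]
        have h4 : ∑ k ∈ range n, (2 : ℝ) ^ k * t0 ≤ 2 ^ n * t0 := by
          rw [← sum_mul, geom_sum_eq (by norm_num)]
          have : ((2 : ℝ) ^ n - 1) / (2 - 1) = 2 ^ n - 1 := by norm_num
          rw [this]
          nlinarith
        have h5 : 0 ≤ (M0 : ℝ) * Thr * GG.card := by positivity
        have h6 := mul_le_mul_of_nonneg_right h4 h5
        linarith
    _ = _ := by ring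

end Crest.Agent.R001.EST
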