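import Crest.Agent.R001.EST1
import Crest.Agent.R001.EST2

/-! R001, block EST, part 3: the abstract unstructured first-moment theorem. -/

set_option autoImplicit false

namespace Crest.Agent.R001.EST

open Finset
open Crest.Agent.R001.LS (cs)

lemma card_mult_le (A : ℤ) (H g : ℕ) (hg : 0 < g) :
    (((Ioc (A - H) A).filter (fun m => (g : ℤ) ∣ m)).card : ℝ) ≤ H / g + 1 := by
  have hg' : (0 : ℤ) < g := by exact_mod_cast hg
  have h1 := Int.Ioc_filter_dvd_card (A - H) A hg'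
  have h2 : ((((Ioc (A - H) A).filter (fun m => (g : ℤ) ∣ m)).card : ℤ) : ℚ) ≤ H / g + 1 := by
    rw [h1]
    push_cast
    rw [max_le_iff]
    constructor
    · have h3 := Int.floor_le ((A : ℚ) / ((g : ℤ) : ℚ))
      have h4 := Int.lt_floor_add_one (((A : ℚ) - (H : ℚ)) / ((g : ℤ) : ℚ))
      have h5 : ((A : ℚ) - (H : ℚ)) / ((g : ℤ) : ℚ) = (A : ℚ) / ((g : ℤ) : ℚ) - H / g := by
        push_cast; ring
      push_cast at *
      linarith
    · positivity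
  have h6 : ((((Ioc (A - H) A).filter (fun m => (g : ℤ) ∣ m)).card : ℚ) : ℝ) ≤
      ((H / g + 1 : ℚ) : ℝ) := by exact_mod_cast h2
  push_cast at h6
  exact h6

lemma abs_dev_le (w : ℤ → ℝ) (wm : ℝ) (hw : ∀ m, |w m| ≤ wm) (A : ℤ) (H g G : ℕ) (hG : 0 < G)
    (hGg : G ≤ g) : |dev w A H g| ≤ wm * (2 * (H / G) + 1) := by
  have hg : 0 < g := lt_of_lt_of_le hG hGg
  have hwm : 0 ≤ wm := (abs_nonneg _).trans (hw 0)
  have hgr : (0 : ℝ) < g := by exact_mod_cast hg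
  have hGr : (0 : ℝ) < G := by exact_mod_cast hG
  have hGgr : (G : ℝ) ≤ g := by exact_mod_cast hGg
  have hH : (0 : ℝ) ≤ H := Nat.cast_nonneg _
  unfold dev
  have h1 : |∑ m ∈ Ioc (A - H) A with (g : ℤ) ∣ m, w m| ≤ wm * (H / g + 1) := by
    refine (abs_sum_le_sum_abs _ _).trans ?_
    calc ∑ m ∈ Ioc (A - H) A with (g : ℤ) ∣ m, |w m|
        ≤ ∑ _m ∈ Ioc (A - H) A with (g : ℤ) ∣ _m, wm := sum_le_sum fun m _ => hw m
      _ = (((Ioc (A - H) A).filter (fun m => (g : ℤ) ∣ m)).card : ℝ) * wm := by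
          rw [sum_const, nsmul_eq_mul]
      _ ≤ (H / g + 1) * wm := mul_le_mul_of_nonneg_right (card_mult_le A H g hg) hwm
      _ = _ := by ring
  have h2 : |(∑ m ∈ Ioc (A - H) A, w m) / g| ≤ wm * (H / g) := by
    rw [abs_div, abs_of_pos hgr, div_le_iff₀ hgr]
    refine (abs_sum_le_sum_abs _ _).trans ?_
    calc ∑ m ∈ Ioc (A - H) A, |w m| ≤ ∑ _m ∈ Ioc (A - H) A, wm := sum_le_sum fun m _ => hw m
      _ = H * wm := by
          rw [sum_const, nsmul_eq_mul, Int.card_Ioc]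
          congr 1
          rw [sub_sub_cancel]
          simp
      _ = wm * (H / g) * g := by field_simp
  have h3 : (H : ℝ) / g ≤ H / G := div_le_div_of_nonneg_left hH hGr hGgr
  calc |∑ m ∈ Ioc (A - H) A with (g : ℤ) ∣ m, w m - (∑ m ∈ Ioc (A - H) A, w m) / g|
      ≤ |∑ m ∈ Ioc (A - H) A with (g : ℤ) ∣ m, w m| + |(∑ m ∈ Ioc (A - H) A, w m) / g| :=
        abs_sub _ _
    _ ≤ wm * (H / g + 1) + wm * (H / g) := add_le_add h1 h2
    _ = wm * (2 * (H / g) + 1) := by ring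
    _ ≤ _ := by gcongr

/-- the deviation of the total weight is the expectation of the deviation of the estimator -/
lemma dev_tot (S : Finset ℕ) (p : ℕ → ℝ) (hp : ∀ q ∈ S, 0 < p q)
    (RR : Finset (Finset ℕ)) (hRR : ∀ R ∈ RR, R ⊆ S) (F : Finset ℕ → ℤ → ℝ)
    (A : ℤ) (H g : ℕ) :
    dev (tot RR F) A H g = ∑ Q ∈ S.powerset, Pr S p Q * dev (est RR p F Q) A H g := by
  unfold dev
  have h1 : ∀ I : Finset ℤ, ∑ m ∈ I, tot RR F m =
      ∑ Q ∈ S.powerset, Pr S p Q * ∑ m ∈ I, est RR p F Q m := by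
    intro I
    calc ∑ m ∈ I, tot RR F m = ∑ m ∈ I, ∑ Q ∈ S.powerset, Pr S p Q * est RR p F Q m :=
          sum_congr rfl fun m _ => (sum_est S p hp RR hRR F m).symm
      _ = _ := by
          rw [sum_comm]
          refine sum_congr rfl fun Q _ => ?_
          rw [mul_sum]
  rw [h1, h1, sum_div, ← sum_sub_distrib]
  refine sum_congr rfl fun Q _ => ?_
  ring

open Classical in
/-- **EST**, abstract form. -/
theorem est_main (S : Finset ℕ) (hS : ∀ q ∈ S, 0 < q) (p : ℕ → ℝ) (hp : ∀ q ∈ S, 0 < p q)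
    (hp1 : ∀ q ∈ S, p q ≤ 1)
    (RR : Finset (Finset ℕ)) (hRR : ∀ R ∈ RR, R ⊆ S) (F : Finset ℕ → ℤ → ℝ)
    (m0 : ℕ) (hm0 : 0 < m0)
    (hper : ∀ R ∈ RR, ∀ m k : ℤ, F R (m + k * ((m0 : ℤ) * ∏ q ∈ R, (q : ℤ))) = F R m)
    (Wt : ℝ) (hWt0 : 0 ≤ Wt) (hWt : ∀ R ∈ RR, ∏ q ∈ R, (p q)⁻¹ ≤ Wt)
    (Fm : ℝ) (hFm : ∀ m, ∑ R ∈ RR, |F R m| ≤ Fm)
    (a : ℤ) (EE : Finset ℤ) (GG : Finset ℕ) (hGG : ∀ g ∈ GG, g.Prime) (G Qm : ℕ)
    (hG0 : 0 < G) (hG : ∀ g ∈ GG, G ≤ g) (hQm : ∀ g ∈ GG, g ≤ Qm) (Str : ℤ → ℕ → Prop) (K0 : ℕ)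
    (Lf Thr : ℝ) (hLf : 0 ≤ Lf) (hThr : 0 ≤ Thr) (hL : ListHyp a EE GG Str K0 Lf Thr)
    (H : ℕ) (S2 : ℝ)
    (hS2 : ∀ e ∈ EE, ∑ m ∈ Ioc (a / e - H) (a / e), (∑ R ∈ RR, |F R m|) ^ 2 ≤ S2)
    (Mmax : ℕ) (pt : ℝ)
    (hpt : ∑ Q ∈ S.powerset with Mmax < m0 * ∏ q ∈ Q, q, Pr S p Q ≤ pt)
    (t0 : ℝ) (ht0 : 0 < t0) (n : ℕ) (hT : Wt * Fm * (2 * ((H : ℝ) / G) + 1) ≤ 2 ^ n * t0)
    (lam : ℝ) (hlam : 0 < lam) :
    ∑ e ∈ EE, ∑ g ∈ GG with ¬ Str e g, |dev (tot RR F) (a / e) H g| ≤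
      EE.card * GG.card * t0 +
      n * (EE.card * ((Lf * (2 * (H : ℝ) + 3 * (Qm : ℝ) ^ 2) * (Wt * S2) / G) / lam + lam +
        2 ^ n * t0 * (K0 + 1))) +
      2 ^ n * t0 * (Mmax * Thr * GG.card) + pt * (EE.card * GG.card * (2 ^ n * t0)) := by
  have hPr0 : ∀ Q ∈ S.powerset, 0 ≤ Pr S p Q := fun Q hQ =>
    Pr_nonneg S p (fun q hq => (hp q hq).le) hp1 Q (mem_powerset.1 hQ)
  -- bound of the deviations of the estimators
  have hwm : ∀ Q ∈ S.powerset, ∀ m, |est RR p F Q m| ≤ Wt * Fm := fun Q _ m =>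
    (abs_est_le S p hp RR hRR F Wt hWt Q m).trans (mul_le_mul_of_nonneg_left (hFm m) hWt0)
  have hTQ : ∀ Q ∈ S.powerset, ∀ e ∈ EE, ∀ g ∈ GG,
      |dev (est RR p F Q) (a / e) H g| ≤ 2 ^ n * t0 := fun Q hQ e _ g hg =>
    (abs_dev_le _ _ (hwm Q hQ) (a / e) H g G hG0 (hG g hg)).trans hT
  set D : Finset ℕ → ℝ := fun Q =>
    ∑ e ∈ EE, ∑ g ∈ GG with ¬ Str e g, |dev (est RR p F Q) (a / e) H g| with hD
  -- step 1: pass to the expectation
  have step1 : ∑ e ∈ EE, ∑ g ∈ GG with ¬ Str e g, |dev (tot RR F) (a / e) H g| ≤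
      ∑ Q ∈ S.powerset, Pr S p Q * D Q := by
    calc ∑ e ∈ EE, ∑ g ∈ GG with ¬ Str e g, |dev (tot RR F) (a / e) H g|
        ≤ ∑ e ∈ EE, ∑ g ∈ GG with ¬ Str e g, ∑ Q ∈ S.powerset,
            Pr S p Q * |dev (est RR p F Q) (a / e) H g| := by
          refine sum_le_sum fun e _ => sum_le_sum fun g _ => ?_
          rw [dev_tot S p hp RR hRR F]
          refine (abs_sum_le_sum_abs _ _).trans (le_of_eq ?_)
          refine sum_congr rfl fun Q hQ => ?_
          rw [abs_mul, abs_of_nonneg (hPr0 Q hQ)]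
      _ = ∑ Q ∈ S.powerset, Pr S p Q * D Q := by
          simp only [hD]
          rw [sum_congr rfl (fun e _ => sum_comm), sum_comm]
          refine sum_congr rfl fun Q _ => ?_
          rw [mul_sum]
          refine sum_congr rfl fun e _ => ?_
          rw [mul_sum]
  -- step 2: pointwise bounds of `D Q`
  set c1 : ℝ := EE.card * GG.card * t0 with hc1
  set c2 : ℝ := 2 ^ n * t0 * (K0 + 1) with hc2
  set c3 : ℝ := 2 ^ n * t0 * (Mmax * Thr * GG.card) with hc3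
  set c4 : ℝ := EE.card * GG.card * (2 ^ n * t0) with hc4
  have hc1' : 0 ≤ c1 := by positivity
  have hc2' : 0 ≤ c2 := by positivity
  have hc3' : 0 ≤ c3 := by positivity
  have hc4' : 0 ≤ c4 := by positivity
  set B : ℝ := Lf * (2 * (H : ℝ) + 3 * (Qm : ℝ) ^ 2) with hB
  have hB0 : 0 ≤ B := by positivity
  have hG0' : (0 : ℝ) < G := by exact_mod_cast hG0
  set V : Finset ℕ → ℤ → ℝ := fun Q e =>
    ∑ m ∈ Ioc (a / e - H) (a / e), est RR p F Q m ^ 2 with hV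
  have hV0 : ∀ Q e, 0 ≤ V Q e := fun Q e => sum_nonneg fun _ _ => sq_nonneg _
  have hth : ∀ Q e, theta (est RR p F Q) H Qm G Lf (a / e) ≤ B * V Q e / G / lam + lam := by
    intro Q e
    have h0 : 0 ≤ B * V Q e / G := div_nonneg (mul_nonneg hB0 (hV0 Q e)) hG0'.le
    have h1 : theta (est RR p F Q) H Qm G Lf (a / e) = Real.sqrt (B * V Q e / G) := rfl
    rw [h1]
    have h2 := Real.sq_sqrt h0
    set s := Real.sqrt (B * V Q e / G) with hs
    have hs0 : 0 ≤ s := Real.sqrt_nonneg _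
    rw [← h2, ← sub_nonneg]
    have h3 : s ^ 2 / lam + lam - s = (s ^ 2 + lam ^ 2 - s * lam) / lam := by
      field_simp
    rw [h3]
    refine div_nonneg ?_ hlam.le
    nlinarith [sq_nonneg (s - lam), mul_nonneg hs0 hlam.le]
  have step2 : ∀ Q ∈ S.powerset, D Q ≤ c1 + n * ∑ e ∈ EE, (B * V Q e / G / lam + lam + c2) + c3 +
      (if Mmax < m0 * ∏ q ∈ Q, q then c4 else 0) := by
    intro Q hQ
    have hsum0 : 0 ≤ (n : ℝ) * ∑ e ∈ EE, (B * V Q e / G / lam + lam + c2) := by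
      refine mul_nonneg (Nat.cast_nonneg _) (sum_nonneg fun e _ => ?_)
      have := hV0 Q e
      positivity
    split_ifs with hM
    · have h1 : D Q ≤ c4 := by
        simp only [hD, hc4]
        calc ∑ e ∈ EE, ∑ g ∈ GG with ¬ Str e g, |dev (est RR p F Q) (a / e) H g|
            ≤ ∑ _e ∈ EE, (GG.card : ℝ) * (2 ^ n * t0) := by
              refine sum_le_sum fun e he => ?_
              calc ∑ g ∈ GG with ¬ Str e g, |dev (est RR p F Q) (a / e) H g|
                  ≤ ∑ g ∈ GG, |dev (est RR p F Q) (a / e) H g| :=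
                    sum_le_sum_of_subset_of_nonneg (filter_subset _ _) fun _ _ _ => abs_nonneg _
                _ ≤ ∑ _g ∈ GG, 2 ^ n * t0 := sum_le_sum fun g hg => hTQ Q hQ e he g hg
                _ = _ := by rw [sum_const, nsmul_eq_mul]
          _ = _ := by rw [sum_const, nsmul_eq_mul]; ring
      linarith
    · push Not at hM
      have hQS := mem_powerset.1 hQ
      have hpos : 0 < m0 * ∏ q ∈ Q, q := Nat.mul_pos hm0 (prod_pos fun q hq => hS q (hQS hq))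
      have h1 := det a EE GG hGG G Qm hG0 hG hQm Str K0 Lf Thr hLf hThr hL (est RR p F Q)
        (m0 * ∏ q ∈ Q, q) hpos (by
          intro m k
          push_cast
          exact est_periodic RR p F m0 hper Q m k) H t0 ht0 n (hTQ Q ‹_›)
      have h2 : ∑ e ∈ EE, (theta (est RR p F Q) H Qm G Lf (a / e) + 2 ^ n * t0 * (K0 + 1)) ≤
          ∑ e ∈ EE, (B * V Q e / G / lam + lam + c2) :=
        sum_le_sum fun e _ => by
          have := hth Q e
          simp only [hc2]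
          linarith
      have h3 : (2 : ℝ) ^ n * t0 * (((m0 * ∏ q ∈ Q, q : ℕ) : ℝ) * Thr * GG.card) ≤ c3 := by
        simp only [hc3]
        have : ((m0 * ∏ q ∈ Q, q : ℕ) : ℝ) ≤ Mmax := by exact_mod_cast hM
        gcongr
      have h4 : (n : ℝ) * ∑ e ∈ EE,
          (theta (est RR p F Q) H Qm G Lf (a / e) + 2 ^ n * t0 * (K0 + 1)) ≤
          n * ∑ e ∈ EE, (B * V Q e / G / lam + lam + c2) :=
        mul_le_mul_of_nonneg_left h2 (Nat.cast_nonneg _)
      have h5 : D Q ≤ c1 + n * ∑ e ∈ EE,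
          (theta (est RR p F Q) H Qm G Lf (a / e) + 2 ^ n * t0 * (K0 + 1)) +
          2 ^ n * t0 * (((m0 * ∏ q ∈ Q, q : ℕ) : ℝ) * Thr * GG.card) := h1
      linarith
  -- step 3: average
  have hEV : ∀ e ∈ EE, ∑ Q ∈ S.powerset, Pr S p Q * V Q e ≤ Wt * S2 := fun e he =>
    (second_moment S p hp hp1 RR hRR F Wt hWt _).trans
      (mul_le_mul_of_nonneg_left (hS2 e he) hWt0)
  have hone := sum_Pr S p
  calc ∑ e ∈ EE, ∑ g ∈ GG with ¬ Str e g, |dev (tot RR F) (a / e) H g|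
      ≤ ∑ Q ∈ S.powerset, Pr S p Q * D Q := step1
    _ ≤ ∑ Q ∈ S.powerset, Pr S p Q * (c1 + n * ∑ e ∈ EE, (B * V Q e / G / lam + lam + c2) + c3 +
      (if Mmax < m0 * ∏ q ∈ Q, q then c4 else 0)) :=
        sum_le_sum fun Q hQ => mul_le_mul_of_nonneg_left (step2 Q hQ) (hPr0 Q hQ)
    _ = c1 + c3 + n * ∑ e ∈ EE, (B * (∑ Q ∈ S.powerset, Pr S p Q * V Q e) / G / lam + lam + c2) +
        (∑ Q ∈ S.powerset with Mmax < m0 * ∏ q ∈ Q, q, Pr S p Q) * c4 := by
        have e1 : ∀ Q ∈ S.powerset, Pr S p Q * (c1 + n * ∑ e ∈ EE,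
            (B * V Q e / G / lam + lam + c2) + c3 +
            (if Mmax < m0 * ∏ q ∈ Q, q then c4 else 0)) =
            Pr S p Q * (c1 + c3) + n * ∑ e ∈ EE, (B * (Pr S p Q * V Q e) / G / lam +
              Pr S p Q * (lam + c2)) +
            (if Mmax < m0 * ∏ q ∈ Q, q then Pr S p Q * c4 else 0) := by
          intro Q _
          have e2 : ∑ e ∈ EE, (B * (Pr S p Q * V Q e) / G / lam + Pr S p Q * (lam + c2)) =
              Pr S p Q * ∑ e ∈ EE, (B * V Q e / G / lam + lam + c2) := by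
            rw [mul_sum]
            refine sum_congr rfl fun e _ => ?_
            ring
          rw [e2]
          split_ifs <;> ring
        rw [sum_congr rfl e1, sum_add_distrib, sum_add_distrib, ← sum_mul, hone, one_mul,
          ← sum_filter, ← sum_mul, ← mul_sum, sum_comm]
        congr 3
        refine sum_congr rfl fun e _ => ?_
        rw [sum_add_distrib, ← sum_mul, hone, one_mul, ← sum_div, ← sum_div, ← mul_sum]
        ring
    _ ≤ c1 + c3 + n * ∑ _e ∈ EE, (B * (Wt * S2) / G / lam + lam + c2) + pt * c4 := by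
        have h1 : ∑ e ∈ EE, (B * (∑ Q ∈ S.powerset, Pr S p Q * V Q e) / G / lam + lam + c2) ≤
            ∑ _e ∈ EE, (B * (Wt * S2) / G / lam + lam + c2) := by
          refine sum_le_sum fun e he => ?_
          have := hEV e he
          gcongr
        have h2 := mul_le_mul_of_nonneg_left h1 (Nat.cast_nonneg (α := ℝ) n)
        have h3 := mul_le_mul_of_nonneg_right hpt hc4'
        linarith
    _ = _ := by
        rw [sum_const, nsmul_eq_mul]
        simp only [hB]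
        ring

end Crest.Agent.R001.EST
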