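import Mathlib
import Crest.Agent.Lib.LinSieve.Main

/-! R1, block END: Brun--Titchmarsh for rough numbers in intervals at arbitrary position. -/

set_option autoImplicit false

namespace Crest.Agent.R001.End

open Finset Crest.Agent.Lib Crest.Agent.Lib.LinSieve

/-- coprimality count for `n + b`, `0 < n ≤ N`. -/
theorem coprime_count : ∃ C : ℝ, 0 < C ∧ ∀ (b N : ℕ), 2 ≤ N →
    (((Finset.Ioc 0 N).filter (fun n => Nat.Coprime
      (∏ p ∈ siftPrimes 1 1 ((N : ℝ) ^ ((1 : ℝ) / 56)), p) (n + b))).card : ℝ) ≤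
      C * (N / Real.log N) := by
  obtain ⟨C₁, hC₁, hsift⟩ := prod_sift_le 1 le_rfl
  refine ⟨112 * C₁ + 2 + 56, by positivity, ?_⟩
  intro b N hN2
  have hN0 : (0 : ℝ) < N := by
    have : 0 < N := by omega
    exact_mod_cast this
  have hN1 : (1 : ℝ) ≤ N := by
    have : 1 ≤ N := by omega
    exact_mod_cast this
  have hlN : 0 < Real.log N := Real.log_pos (by
    have : (2 : ℝ) ≤ N := by exact_mod_cast hN2
    linarith)
  have hNl : 0 < (N : ℝ) / Real.log N := by positivity
  have hcardN : (((Finset.Ioc 0 N).filter (fun n => Nat.Coprime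
      (∏ p ∈ siftPrimes 1 1 ((N : ℝ) ^ ((1 : ℝ) / 56)), p) (n + b))).card : ℝ) ≤ N := by
    have h1 := Finset.card_filter_le (Finset.Ioc 0 N) (fun n => Nat.Coprime
      (∏ p ∈ siftPrimes 1 1 ((N : ℝ) ^ ((1 : ℝ) / 56)), p) (n + b))
    rw [Nat.card_Ioc] at h1
    exact_mod_cast h1
  by_cases hsmall : N < 2 ^ 56
  · have h1 : Real.log N ≤ 56 := by
      have h2 : (N : ℝ) ≤ (2 : ℝ) ^ 56 := by exact_mod_cast hsmall.le
      have h3 := Real.log_le_log hN0 h2
      rw [Real.log_pow] at h3
      have h4 : Real.log 2 ≤ 1 := by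
        have := Real.log_two_lt_d9
        linarith
      push_cast at h3
      nlinarith
    have h3 : (N : ℝ) ≤ 56 * (N / Real.log N) := by
      rw [mul_div_assoc', le_div_iff₀ hlN]
      nlinarith
    calc _ ≤ (N : ℝ) := hcardN
      _ ≤ 56 * (N / Real.log N) := h3
      _ ≤ _ := by
          apply mul_le_mul_of_nonneg_right _ hNl.le
          have : 0 < 112 * C₁ + 2 := by positivity
          linarith
  · push Not at hsmall
    set y : ℝ := (N : ℝ) ^ ((1 : ℝ) / 56) with hy
    have hy2 : 2 ≤ y := by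
      have h1 : (2 : ℝ) = ((2 : ℝ) ^ 56) ^ ((1 : ℝ) / 56) := by
        rw [← Real.rpow_natCast, ← Real.rpow_mul (by norm_num)]
        norm_num
      rw [h1, hy]
      apply Real.rpow_le_rpow (by positivity) _ (by positivity)
      exact_mod_cast hsmall
    have hy0 : 0 < y := by linarith
    have hly : 0 < Real.log y := Real.log_pos (by linarith)
    have hlogy : Real.log y = Real.log N / 56 := by
      rw [hy, Real.log_rpow hN0]
      ring
    have hyv : y ^ 7 = (N : ℝ) ^ ((1 : ℝ) / 8) := by
      rw [hy, ← Real.rpow_natCast, ← Real.rpow_mul hN0.le]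
      norm_num
    set z := ⌊y ^ 7⌋₊ with hz
    have hz1 : 1 ≤ z := by
      apply Nat.le_floor
      push_cast
      exact one_le_pow₀ (by linarith)
    have hzlt : y ^ 7 < z + 1 := Nat.lt_floor_add_one _
    have hzle : (z : ℝ) ≤ y ^ 7 := Nat.floor_le (by positivity)
    have hz4 : (z : ℝ) ^ 4 ≤ (N : ℝ) ^ ((1 : ℝ) / 2) := by
      calc (z : ℝ) ^ 4 ≤ (y ^ 7) ^ 4 := pow_le_pow_left₀ (Nat.cast_nonneg _) hzle 4
        _ = _ := by
          rw [hyv, ← Real.rpow_natCast, ← Real.rpow_mul hN0.le]
          norm_num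
    set P := ∏ p ∈ siftPrimes 1 1 y, p with hP
    have hPsq : Squarefree P := prod_siftPrimes_squarefree 1 1 y
    have hPf : P.primeFactors = siftPrimes 1 1 y := primeFactors_prod_siftPrimes 1 1 y
    have hmemP : ∀ p, p.Prime → p ∣ P → p ∈ siftPrimes 1 1 y := by
      intro p hp hpP
      rw [← hPf, Nat.mem_primeFactors]
      exact ⟨hp, hpP, hPsq.ne_zero⟩
    have hg : ∀ p, p.Prime → p ∣ P → Good (fun _ : Fin 1 => 1) (fun _ => b) p := by
      intro p hp hpP
      have h1 := mem_siftPrimes.1 (hmemP p hp hpP)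
      refine ⟨hp, by rw [Fintype.card_fin]; exact h1.2.1, fun i hi => h1.2.2 hi,
        fun i j hij => absurd (Subsingleton.elim i j) hij⟩
    set s := theSieve le_rfl (fun _ : Fin 1 => 1) (fun _ => b) N P hPsq hg with hs
    have hsP : s.prodPrimes = P := rfl
    have hsnu : s.nu = nuk 1 := rfl
    have hnup : ∀ p ∈ P.primeFactors, s.nu p = ((1 : ℕ) : ℝ) / p := by
      intro p hp
      rw [hsnu, nuk_prime 1 p (Nat.prime_of_mem_primeFactors hp)]
    have hG := selG_ge s y hy2 7 z hzlt (by
      intro p hp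
      rw [hsP, hPf, mem_siftPrimes] at hp
      have h1 : (p : ℝ) ≤ ⌊y⌋₊ := by exact_mod_cast hp.1.1
      exact h1.trans (Nat.floor_le hy0.le)) (by
      rw [hsP]
      have h1 : ∀ p ∈ P.primeFactors, s.nu p * (2 * Real.log p / Real.log y) =
          (2 / Real.log y) * (Real.log p / p) := by
        intro p hp
        rw [hnup p hp]
        push_cast
        ring
      rw [Finset.sum_congr rfl h1, ← Finset.mul_sum]
      have h2 : ∑ p ∈ P.primeFactors, Real.log p / (p : ℝ) ≤ Real.log y + Real.log 4 := by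
        have h3 : ∑ p ∈ P.primeFactors, Real.log p / (p : ℝ) ≤
            ∑ p ∈ Nat.primesLE ⌊y⌋₊, Real.log p / (p : ℝ) := by
          apply Finset.sum_le_sum_of_subset_of_nonneg
          · rw [hPf]; exact Finset.filter_subset _ _
          · intro p _ _
            exact div_nonneg (Real.log_natCast_nonneg p) (Nat.cast_nonneg p)
        have hfl : 1 ≤ ⌊y⌋₊ := Nat.le_floor (by push_cast; linarith)
        have h4 := Mertens.A_le ⌊y⌋₊ hfl
        have h5 : Real.log (⌊y⌋₊ : ℝ) ≤ Real.log y := by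
          apply Real.log_le_log
          · exact_mod_cast hfl
          · exact Nat.floor_le hy0.le
        unfold Mertens.A at h4
        linarith
      have h3 : Real.log 4 ≤ 2 * Real.log y := by
        have h4 : Real.log 4 = 2 * Real.log 2 := by
          rw [show (4 : ℝ) = 2 ^ 2 by norm_num, Real.log_pow]
          norm_num
        have h5 := Real.log_le_log (by norm_num) hy2
        linarith
      have h4 : (2 / Real.log y) * (∑ p ∈ P.primeFactors, Real.log p / (p : ℝ)) ≤
          (2 / Real.log y) * (3 * Real.log y) :=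
        mul_le_mul_of_nonneg_left (by linarith) (by positivity)
      have h5 : (2 / Real.log y) * (3 * Real.log y) = 6 := by
        field_simp
        ring
      rw [h5] at h4
      push_cast
      linarith)
    rw [hsP] at hG
    have hbound := selberg_bound s hz1
    rw [hs, theSieve_siftedSum] at hbound
    have herr := error_le le_rfl (fun _ : Fin 1 => 1) (fun _ => b) N P hPsq hg z
    have hprodpos : 0 < ∏ p ∈ P.primeFactors, (1 - s.nu p) := by
      apply Finset.prod_pos
      intro p hp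
      have h1 := s.nu_lt_one_of_prime p (Nat.prime_of_mem_primeFactors hp)
        (Nat.dvd_of_mem_primeFactors hp)
      linarith
    have hGinv : (selG s z)⁻¹ ≤ 2 * ∏ p ∈ P.primeFactors, (1 - s.nu p) := by
      rw [Finset.prod_inv_distrib] at hG
      have h1 : 0 < (1 / 2) * (∏ p ∈ P.primeFactors, (1 - s.nu p))⁻¹ := by positivity
      have h2 := inv_anti₀ h1 hG
      refine h2.trans (le_of_eq ?_)
      rw [mul_inv, inv_inv]
      norm_num
    have hprod : ∏ p ∈ P.primeFactors, (1 - s.nu p) ≤ C₁ * (56 / Real.log N) := by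
      have h1 : ∏ p ∈ P.primeFactors, (1 - s.nu p) =
          ∏ p ∈ siftPrimes 1 1 y, (1 - ((1 : ℕ) : ℝ) / p) := by
        rw [← hPf]
        exact Finset.prod_congr rfl fun p hp => by rw [hnup p hp]
      rw [h1]
      refine (hsift 1 y one_ne_zero hy2).trans (le_of_eq ?_)
      rw [hlogy]
      simp
    have hmain : s.totalMass * (selG s z)⁻¹ ≤ 112 * C₁ * (N / Real.log N) := by
      have h0 : s.totalMass = (N : ℝ) := rfl
      rw [h0]
      calc (N : ℝ) * (selG s z)⁻¹
          ≤ N * (2 * (C₁ * (56 / Real.log N))) := by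
            apply mul_le_mul_of_nonneg_left _ hN0.le
            refine hGinv.trans ?_
            apply mul_le_mul_of_nonneg_left _ (by norm_num)
            exact hprod
        _ = _ := by ring
    have hTh : (N : ℝ) ^ ((1 : ℝ) / 2) ≤ 2 * (N / Real.log N) := by
      have := T_half_le 1 le_rfl (N : ℝ) (by exact_mod_cast hN2)
      simpa using this
    have e1 : (theSieve le_rfl (fun _ : Fin 1 => 1) (fun _ => b) N P hPsq hg).prodPrimes = P := rfl
    rw [e1] at hbound
    have e2 : ∀ n, lform (fun _ : Fin 1 => 1) (fun _ => b) n = n + b := by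
      intro n
      unfold lform
      simp
    simp only [e2] at hbound
    have hfin : (((Finset.Ioc 0 N).filter (fun n => Nat.Coprime P (n + b))).card : ℝ) ≤
        112 * C₁ * (N / Real.log N) + 2 * (N / Real.log N) := by
      linarith
    refine hfin.trans ?_
    have : 0 ≤ 56 * ((N : ℝ) / Real.log N) := by positivity
    nlinarith

/-- elements of `s` without prime factor `< w` -/
noncomputable def rough (s : Finset ℤ) (w : ℝ) : Finset ℤ := by
  classical
  exact s.filter (fun t : ℤ => ∀ p : ℕ, p.Prime → (p : ℝ) < w → ¬ (p : ℤ) ∣ t)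

lemma mem_rough {s : Finset ℤ} {w : ℝ} {t : ℤ} :
    t ∈ rough s w ↔ t ∈ s ∧ ∀ p : ℕ, p.Prime → (p : ℝ) < w → ¬ (p : ℤ) ∣ t := by
  classical
  unfold rough
  rw [Finset.mem_filter]

/-- **Brun–Titchmarsh for rough numbers** in an arbitrary interval. -/
theorem bt : ∃ C : ℝ, 0 < C ∧ ∀ (a : ℤ) (N : ℕ), 2 ≤ N → ∀ w : ℝ,
    (N : ℝ) ^ ((1 : ℝ) / 56) < w →
    ((rough (Finset.Ioc a (a + N)) w).card : ℝ) ≤ C * (N / Real.log N) := by
  obtain ⟨C, hC, h⟩ := coprime_count
  refine ⟨C, hC, fun a N hN w hw => ?_⟩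
  set y : ℝ := (N : ℝ) ^ ((1 : ℝ) / 56) with hy
  set P := ∏ p ∈ siftPrimes 1 1 y, p with hP
  have hP0 : 0 < P := Nat.pos_of_ne_zero (prod_siftPrimes_squarefree 1 1 y).ne_zero
  have hPf : P.primeFactors = siftPrimes 1 1 y := primeFactors_prod_siftPrimes 1 1 y
  -- natural shift
  set b : ℕ := (a + P * a.natAbs).toNat with hb
  have hb0 : 0 ≤ a + P * a.natAbs := by
    have h1 : -(a.natAbs : ℤ) ≤ a := by
      have := neg_abs_le a
      rwa [Int.abs_eq_natAbs] at this
    have h2 : (1 : ℤ) ≤ P := by exact_mod_cast hP0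
    have h3 : (0 : ℤ) ≤ a.natAbs := by positivity
    nlinarith
  have hbc : (b : ℤ) = a + P * a.natAbs := by
    rw [hb, Int.toNat_of_nonneg hb0]
  refine le_trans ?_ (h b N hN)
  rw [← hP]
  have hinj : (rough (Finset.Ioc a (a + N)) w).card ≤
      ((Finset.Ioc 0 N).filter (fun n => Nat.Coprime P (n + b))).card := by
    apply Finset.card_le_card_of_injOn (fun t : ℤ => (t - a).toNat)
    · intro t ht
      rw [Finset.mem_coe, mem_rough, Finset.mem_Ioc] at ht
      obtain ⟨⟨h1, h2⟩, h3⟩ := ht
      have h4 : ((t - a).toNat : ℤ) = t - a := Int.toNat_of_nonneg (by omega)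
      show (t - a).toNat ∈ ((Finset.Ioc 0 N).filter (fun n => Nat.Coprime P (n + b)) : Set ℕ)
      rw [Finset.mem_coe, Finset.mem_filter, Finset.mem_Ioc]
      refine ⟨⟨by omega, by omega⟩, ?_⟩
      by_contra hco
      obtain ⟨p, hp, hpP, hpd⟩ := Nat.Prime.not_coprime_iff_dvd.1 hco
      have h5 : p ∈ siftPrimes 1 1 y := by
        rw [← hPf, Nat.mem_primeFactors]
        exact ⟨hp, hpP, hP0.ne'⟩
      have h6 := (mem_siftPrimes.1 h5).1.1
      have h7 : (p : ℝ) < w := by
        have h8 : (p : ℝ) ≤ ⌊y⌋₊ := by exact_mod_cast h6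
        have h9 : (⌊y⌋₊ : ℝ) ≤ y := Nat.floor_le (by positivity)
        linarith
      apply h3 p hp h7
      have h10 : (p : ℤ) ∣ ((t - a).toNat + b : ℕ) := by exact_mod_cast hpd
      push_cast at h10
      rw [h4, hbc] at h10
      have h11 : (p : ℤ) ∣ (P : ℤ) * a.natAbs := by
        apply Dvd.dvd.mul_right
        exact_mod_cast hpP
      have h12 : t = (t - a + (a + P * a.natAbs)) - P * a.natAbs := by ring
      rw [h12]
      exact dvd_sub h10 h11
    · intro t ht t' ht' he
      rw [Finset.mem_coe, mem_rough, Finset.mem_Ioc] at ht ht'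
      simp only at he
      omega
  exact_mod_cast hinj

end Crest.Agent.R001.End
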