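import Crest.Agent.R001.FLMain
import Crest.Agent.Lib.Mertens

/-!
# Fundamental lemma: dimension criterion, weighted sieve, sieve for intervals.  helper571
-/

set_option autoImplicit false

namespace Crest.Agent.R001.FL

open Finset Crest.Agent.Lib.Mertens

lemma sum_inv_sq_le (S : Finset ℕ) (hS : ∀ p ∈ S, 2 ≤ p) : ∑ p ∈ S, (1 : ℝ) / (p : ℝ) ^ 2 ≤ 1 := by
  rcases S.eq_empty_or_nonempty with h | h
  · subst h; simp
  · set n := S.sup id with hn
    have hsub : S ⊆ Finset.Ioc 1 (max n 1) := by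
      intro p hp
      have h1 : p ≤ n := Finset.le_sup (f := id) hp
      have h2 := hS p hp
      rw [Finset.mem_Ioc]
      omega
    have h1 : ∑ p ∈ S, (1 : ℝ) / (p : ℝ) ^ 2 ≤ ∑ p ∈ Finset.Ioc 1 (max n 1), ((p : ℝ) ^ 2)⁻¹ := by
      simp only [one_div]
      apply Finset.sum_le_sum_of_subset_of_nonneg hsub
      intro p _ _
      positivity
    have h2 := sum_Ioc_inv_sq_le_sub (α := ℝ) (k := 1) (n := max n 1) one_ne_zero (le_max_right _ _)
    have h3 : (0 : ℝ) ≤ ((max n 1 : ℕ) : ℝ)⁻¹ := by positivity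
    have h4 : ((1 : ℕ) : ℝ)⁻¹ = 1 := by norm_num
    rw [h4] at h2
    linarith

/-- Sufficient condition for the dimension hypothesis. -/
theorem dim_of (κ C c : ℝ) (hκ : 0 ≤ κ) (hC : 0 ≤ C) (hc : 0 < c) :
    ∃ K : ℝ, 1 ≤ K ∧ ∀ (P : Finset ℕ) (g : ℕ → ℝ), (∀ p ∈ P, p.Prime) →
      (∀ p ∈ P, 0 ≤ g p) → (∀ p ∈ P, g p ≤ 1 - c) →
      (∀ p ∈ P, g p ≤ κ / p + C / (p : ℝ) ^ 2) → Dim κ K P g := by
  set C2 := C + (κ + C) ^ 2 / c with hC2
  have hC20 : 0 ≤ C2 := by positivity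
  set A := κ * (1 + 18 / Real.log 2) + C2 with hA
  have hl2 : 0 < Real.log 2 := Real.log_pos (by norm_num)
  have hA0 : 0 ≤ A := by positivity
  refine ⟨Real.exp A, Real.one_le_exp hA0, fun P g hP h0 h1 hg u v hu huv => ?_⟩
  set Q := P.filter (fun p : ℕ => u ≤ (p : ℝ) ∧ (p : ℝ) ≤ v) with hQ
  have hlu : 0 < Real.log u := Real.log_pos (by linarith)
  have hlv : 0 < Real.log v := Real.log_pos (by linarith)
  have hmem : ∀ p ∈ Q, p ∈ P ∧ u ≤ (p : ℝ) ∧ (p : ℝ) ≤ v := fun p hp => by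
    rw [hQ, Finset.mem_filter] at hp; exact hp
  have hterm : ∀ p ∈ Q, -Real.log (1 - g p) ≤ κ * (1 / p) + C2 * (1 / (p : ℝ) ^ 2) := by
    intro p hp
    have hpP := (hmem p hp).1
    have hp1 : (1 : ℝ) ≤ p := by
      have := (hP p hpP).one_lt
      exact_mod_cast this.le
    have h2 := h0 p hpP
    have h3 := h1 p hpP
    have h4 := hg p hpP
    have h5 : 0 < 1 - g p := by linarith
    have h6 : -Real.log (1 - g p) ≤ g p + (g p) ^ 2 / c := by
      have h7 := Real.one_sub_inv_le_log_of_pos h5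
      have h8 : -Real.log (1 - g p) ≤ (1 - g p)⁻¹ - 1 := by linarith
      have h9 : (1 - g p)⁻¹ - 1 = g p + (g p) ^ 2 * (1 - g p)⁻¹ := by
        field_simp
        ring
      have h10 : (1 - g p)⁻¹ ≤ c⁻¹ := inv_anti₀ hc (by linarith)
      rw [h9] at h8
      have h11 : (g p) ^ 2 * (1 - g p)⁻¹ ≤ (g p) ^ 2 * c⁻¹ :=
        mul_le_mul_of_nonneg_left h10 (by positivity)
      rw [div_eq_mul_inv]
      linarith
    have h7 : g p ≤ (κ + C) / p := by
      refine h4.trans ?_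
      rw [add_div]
      have : C / (p : ℝ) ^ 2 ≤ C / p := by
        apply div_le_div_of_nonneg_left hC (by linarith)
        nlinarith
      linarith
    have h8 : (g p) ^ 2 ≤ ((κ + C) / p) ^ 2 := pow_le_pow_left₀ h2 h7 2
    have h9 : (g p) ^ 2 / c ≤ ((κ + C) / p) ^ 2 / c := div_le_div_of_nonneg_right h8 hc.le
    calc -Real.log (1 - g p) ≤ g p + (g p) ^ 2 / c := h6
      _ ≤ (κ / p + C / (p : ℝ) ^ 2) + ((κ + C) / p) ^ 2 / c := add_le_add h4 h9
      _ = _ := by rw [hC2]; field_simp; ring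
  have hsum1 : ∑ p ∈ Q, (1 : ℝ) / p ≤
      (1 + 18 / Real.log 2) + (Real.log (Real.log v) - Real.log (Real.log u)) := by
    have h2 := (abs_le.1 (mertens_two u v hu huv)).2
    have h3 : 18 / Real.log u ≤ 18 / Real.log 2 :=
      div_le_div_of_nonneg_left (by norm_num) hl2 (Real.log_le_log (by norm_num) hu)
    have h4 : Q ⊆ insert ⌊u⌋₊ (pr u v) := by
      intro p hp
      have h5 := hmem p hp
      rw [Finset.mem_insert]
      rcases eq_or_lt_of_le h5.2.1 with h6 | h6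
      · left
        rw [h6, Nat.floor_natCast]
      · right
        rw [mem_pr (by linarith) (by linarith)]
        exact ⟨⟨h6, h5.2.2⟩, hP p h5.1⟩
    have h5 : ∑ p ∈ Q, (1 : ℝ) / p ≤ ∑ p ∈ insert ⌊u⌋₊ (pr u v), (1 : ℝ) / p :=
      Finset.sum_le_sum_of_subset_of_nonneg h4 fun _ _ _ => by positivity
    have h6 : ∑ p ∈ insert ⌊u⌋₊ (pr u v), (1 : ℝ) / p ≤
        (1 : ℝ) / (⌊u⌋₊ : ℕ) + ∑ p ∈ pr u v, (1 : ℝ) / p := by
      by_cases h7 : ⌊u⌋₊ ∈ pr u v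
      · rw [Finset.insert_eq_of_mem h7]
        have : (0 : ℝ) ≤ 1 / (⌊u⌋₊ : ℕ) := by positivity
        linarith
      · rw [Finset.sum_insert h7]
    have h7 : (1 : ℝ) / (⌊u⌋₊ : ℕ) ≤ 1 := by
      have h8 : 1 ≤ ⌊u⌋₊ := Nat.le_floor (by push_cast; linarith)
      have h9 : (1 : ℝ) ≤ (⌊u⌋₊ : ℕ) := by exact_mod_cast h8
      rw [div_le_one (by linarith)]
      exact h9
    linarith
  have hsum2 : ∑ p ∈ Q, (1 : ℝ) / (p : ℝ) ^ 2 ≤ 1 :=
    sum_inv_sq_le Q fun p hp => (hP p (hmem p hp).1).two_le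
  have hlog : ∑ p ∈ Q, -Real.log (1 - g p) ≤
      A + κ * (Real.log (Real.log v) - Real.log (Real.log u)) := by
    refine (Finset.sum_le_sum hterm).trans ?_
    rw [Finset.sum_add_distrib, ← Finset.mul_sum, ← Finset.mul_sum, hA]
    have h2 := mul_le_mul_of_nonneg_left hsum1 hκ
    have h3 := mul_le_mul_of_nonneg_left hsum2 hC20
    linarith
  have hprod : ∏ p ∈ Q, (1 - g p)⁻¹ = Real.exp (∑ p ∈ Q, -Real.log (1 - g p)) := by
    rw [Real.exp_sum]
    apply Finset.prod_congr rfl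
    intro p hp
    have h5 : 0 < 1 - g p := by linarith [h1 p (hmem p hp).1]
    rw [Real.exp_neg, Real.exp_log h5]
  rw [hprod]
  have hfin : Real.exp A * (Real.log v / Real.log u) ^ κ =
      Real.exp (A + κ * (Real.log (Real.log v) - Real.log (Real.log u))) := by
    have e1 : (Real.log v / Real.log u) ^ κ =
        Real.exp (Real.log (Real.log v / Real.log u) * κ) :=
      Real.rpow_def_of_pos (div_pos hlv hlu) κ
    rw [e1, ← Real.exp_add, ← Real.log_div hlv.ne' hlu.ne', mul_comm κ]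
  rw [hfin]
  exact Real.exp_le_exp.2 hlog

/-- Weighted sieve, two-sided, from the fundamental lemma. -/
theorem sieve_weighted (κ K η : ℝ) (hκ : 0 ≤ κ) (hK : 1 ≤ K) (hη : 0 < η) :
    ∃ s : ℕ, 1 ≤ s ∧ ∀ z : ℝ, 2 ≤ z → ∀ (P : Finset ℕ) (g : ℕ → ℝ),
      (∀ p ∈ P, 2 ≤ p ∧ (p : ℝ) ≤ z) → (∀ p ∈ P, 0 ≤ g p) → (∀ p ∈ P, g p < 1) →
      Dim κ K P g →
      ∀ {α : Type} (Ω : Finset α) (w : α → ℝ) (T : α → Finset ℕ) (Y : ℝ) (R : Finset ℕ → ℝ),
        (∀ a ∈ Ω, 0 ≤ w a) → (∀ a ∈ Ω, T a ⊆ P) → 0 ≤ Y →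
        (∀ D ⊆ P, ∏ p ∈ D, (p : ℝ) ≤ z ^ s →
          |∑ a ∈ Ω.filter (fun a => D ⊆ T a), w a - (∏ p ∈ D, g p) * Y| ≤ R D) →
        (1 - η) * (∏ p ∈ P, (1 - g p)) * Y -
            ∑ D ∈ P.powerset.filter (fun D : Finset ℕ => ∏ p ∈ D, (p : ℝ) ≤ z ^ s), R D ≤
          ∑ a ∈ Ω.filter (fun a => T a = ∅), w a ∧
        ∑ a ∈ Ω.filter (fun a => T a = ∅), w a ≤
          (1 + η) * (∏ p ∈ P, (1 - g p)) * Y +
            ∑ D ∈ P.powerset.filter (fun D : Finset ℕ => ∏ p ∈ D, (p : ℝ) ≤ z ^ s), R D := by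
  classical
  obtain ⟨s, hs, H⟩ := fundamental κ K η hκ hK hη
  refine ⟨s, hs, fun z hz P g hP h0 h1 hdim α Ω w T Y R hw hT hY hR => ?_⟩
  obtain ⟨lp, lm, hlp, hlm, hlps, hlms, hsand, hmain⟩ := H z hz
  obtain ⟨m1, m2⟩ := hmain P g hP h0 h1 hdim
  -- exchange of summation
  have exch : ∀ lam : Finset ℕ → ℝ, ∑ a ∈ Ω, w a * ∑ D ∈ (T a).powerset, lam D =
      ∑ D ∈ P.powerset, lam D * ∑ a ∈ Ω.filter (fun a => D ⊆ T a), w a := by
    intro lam
    have h2 : ∀ a ∈ Ω, w a * ∑ D ∈ (T a).powerset, lam D =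
        ∑ D ∈ P.powerset, if D ⊆ T a then w a * lam D else 0 := by
      intro a ha
      rw [← Finset.sum_filter, Finset.mul_sum]
      apply Finset.sum_congr _ fun _ _ => rfl
      ext D
      rw [Finset.mem_powerset, Finset.mem_filter, Finset.mem_powerset]
      exact ⟨fun h => ⟨h.trans (hT a ha), h⟩, fun h => h.2⟩
    rw [Finset.sum_congr rfl h2, Finset.sum_comm]
    apply Finset.sum_congr rfl
    intro D _
    rw [Finset.mul_sum, Finset.sum_filter]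
    apply Finset.sum_congr rfl
    intro a _
    split_ifs <;> ring
  -- error bound
  have err : ∀ lam : Finset ℕ → ℝ, (∀ D, |lam D| ≤ 1) →
      (∀ D : Finset ℕ, (∀ p ∈ D, 2 ≤ p ∧ (p : ℝ) ≤ z) → lam D ≠ 0 →
        ∏ p ∈ D, (p : ℝ) ≤ z ^ s) →
      |∑ D ∈ P.powerset, lam D * ∑ a ∈ Ω.filter (fun a => D ⊆ T a), w a -
        (∑ D ∈ P.powerset, lam D * ∏ p ∈ D, g p) * Y| ≤
        ∑ D ∈ P.powerset.filter (fun D : Finset ℕ => ∏ p ∈ D, (p : ℝ) ≤ z ^ s), R D := by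
    intro lam hl1 hl2
    rw [Finset.sum_mul, ← Finset.sum_sub_distrib, Finset.sum_filter]
    refine (Finset.abs_sum_le_sum_abs _ _).trans (Finset.sum_le_sum ?_)
    intro D hD
    rw [Finset.mem_powerset] at hD
    have hDz : ∀ p ∈ D, 2 ≤ p ∧ (p : ℝ) ≤ z := fun p hp => hP p (hD hp)
    have h3 : lam D * ∑ a ∈ Ω.filter (fun a => D ⊆ T a), w a - lam D * (∏ p ∈ D, g p) * Y =
        lam D * (∑ a ∈ Ω.filter (fun a => D ⊆ T a), w a - (∏ p ∈ D, g p) * Y) := by ring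
    rw [h3, abs_mul]
    by_cases hz0 : lam D = 0
    · rw [hz0, abs_zero, zero_mul]
      split_ifs with hc
      · exact (abs_nonneg _).trans (hR D hD hc)
      · exact le_rfl
    · have hc := hl2 D hDz hz0
      rw [if_pos hc]
      calc |lam D| * |∑ a ∈ Ω.filter (fun a => D ⊆ T a), w a - (∏ p ∈ D, g p) * Y|
          ≤ 1 * |∑ a ∈ Ω.filter (fun a => D ⊆ T a), w a - (∏ p ∈ D, g p) * Y| :=
            mul_le_mul_of_nonneg_right (hl1 D) (abs_nonneg _)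
        _ ≤ R D := by rw [one_mul]; exact hR D hD hc
  have hind : ∑ a ∈ Ω.filter (fun a => T a = ∅), w a =
      ∑ a ∈ Ω, w a * (if T a = ∅ then 1 else 0) := by
    rw [Finset.sum_filter]
    apply Finset.sum_congr rfl
    intro a _
    split_ifs <;> ring
  have hTz : ∀ a ∈ Ω, ∀ p ∈ T a, 2 ≤ p ∧ (p : ℝ) ≤ z := fun a ha p hp => hP p (hT a ha hp)
  constructor
  · have h2 : ∑ a ∈ Ω, w a * ∑ D ∈ (T a).powerset, lm D ≤
        ∑ a ∈ Ω, w a * (if T a = ∅ then 1 else 0) :=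
      Finset.sum_le_sum fun a ha =>
        mul_le_mul_of_nonneg_left (hsand (T a) (hTz a ha)).1 (hw a ha)
    rw [exch] at h2
    have h3 := (abs_le.1 (err lm hlm hlms)).1
    have h4 : (1 - η) * (∏ p ∈ P, (1 - g p)) * Y ≤
        (∑ D ∈ P.powerset, lm D * ∏ p ∈ D, g p) * Y := mul_le_mul_of_nonneg_right m1 hY
    rw [hind]
    linarith
  · have h2 : ∑ a ∈ Ω, w a * (if T a = ∅ then 1 else 0) ≤
        ∑ a ∈ Ω, w a * ∑ D ∈ (T a).powerset, lp D :=
      Finset.sum_le_sum fun a ha =>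
        mul_le_mul_of_nonneg_left (hsand (T a) (hTz a ha)).2 (hw a ha)
    rw [exch] at h2
    have h3 := (abs_le.1 (err lp hlp hlps)).2
    have h4 : (∑ D ∈ P.powerset, lp D * ∏ p ∈ D, g p) * Y ≤
        (1 + η) * (∏ p ∈ P, (1 - g p)) * Y := mul_le_mul_of_nonneg_right m2 hY
    rw [hind]
    linarith

/-- number of squarefree products up to a bound -/
lemma card_level (P : Finset ℕ) (hP : ∀ p ∈ P, p.Prime) (B : ℝ) (hB : 0 ≤ B) :
    ((P.powerset.filter (fun D : Finset ℕ => ∏ p ∈ D, (p : ℝ) ≤ B)).card : ℝ) ≤ B := by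
  classical
  have h1 : (P.powerset.filter (fun D : Finset ℕ => ∏ p ∈ D, (p : ℝ) ≤ B)).card ≤
      (Finset.Icc 1 ⌊B⌋₊).card := by
    apply Finset.card_le_card_of_injOn (fun D => ∏ p ∈ D, p)
    · intro D hD
      rw [Finset.mem_coe, Finset.mem_filter, Finset.mem_powerset] at hD
      rw [Finset.mem_coe, Finset.mem_Icc]
      constructor
      · exact Nat.one_le_iff_ne_zero.2 (Finset.prod_ne_zero_iff.2 fun p hp =>
          (hP p (hD.1 hp)).ne_zero)
      · apply Nat.le_floor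
        push_cast
        exact hD.2
    · intro D hD E hE h
      rw [Finset.mem_coe, Finset.mem_filter, Finset.mem_powerset] at hD hE
      have h2 : ∀ F : Finset ℕ, F ⊆ P → (∏ p ∈ F, p).primeFactors = F := by
        intro F hF
        exact Nat.primeFactors_prod fun p hp => hP p (hF hp)
      have h3 := h2 D hD.1
      have h4 := h2 E hE.1
      simp only at h
      rw [h] at h3
      rw [← h3, h4]
  calc ((P.powerset.filter (fun D : Finset ℕ => ∏ p ∈ D, (p : ℝ) ≤ B)).card : ℝ)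
      ≤ ((Finset.Icc 1 ⌊B⌋₊).card : ℝ) := by exact_mod_cast h1
    _ = (⌊B⌋₊ : ℝ) := by rw [Nat.card_Icc]; simp
    _ ≤ B := Nat.floor_le hB

/-- trivial lower bound for the Euler product -/
lemma prod_ge_inv (P : Finset ℕ) (hP : ∀ p ∈ P, 2 ≤ p) (z : ℝ) (hz : 2 ≤ z)
    (hPz : ∀ p ∈ P, (p : ℝ) ≤ z) : 1 / z ≤ ∏ p ∈ P, (1 - 1 / (p : ℝ)) := by
  have h1 : ∀ n : ℕ, 1 ≤ n → ∏ p ∈ Finset.Icc 2 n, (1 - 1 / (p : ℝ)) = 1 / n := by
    intro n hn
    induction n, hn using Nat.le_induction with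
    | base => simp
    | succ n hn ih =>
      rw [Finset.prod_Icc_succ_top (by omega), ih]
      have : (n : ℝ) ≠ 0 := by positivity
      push_cast
      field_simp
      ring
  have hfl : 1 ≤ ⌊z⌋₊ := Nat.le_floor (by push_cast; linarith)
  have hsub : P ⊆ Finset.Icc 2 ⌊z⌋₊ := fun p hp =>
    Finset.mem_Icc.2 ⟨hP p hp, Nat.le_floor (hPz p hp)⟩
  have hfac : ∀ p : ℕ, 2 ≤ p → 0 ≤ 1 - 1 / (p : ℝ) ∧ 1 - 1 / (p : ℝ) ≤ 1 := by
    intro p hp
    have h2 : (2 : ℝ) ≤ p := by exact_mod_cast hp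
    constructor
    · rw [sub_nonneg, div_le_one (by linarith)]; linarith
    · have : (0 : ℝ) ≤ 1 / p := by positivity
      linarith
  calc 1 / z ≤ 1 / (⌊z⌋₊ : ℝ) := by
        apply one_div_le_one_div_of_le
        · exact_mod_cast hfl
        · exact Nat.floor_le (by linarith)
    _ = ∏ p ∈ Finset.Icc 2 ⌊z⌋₊, (1 - 1 / (p : ℝ)) := (h1 _ hfl).symm
    _ ≤ ∏ p ∈ P, (1 - 1 / (p : ℝ)) := by
        rw [← Finset.prod_sdiff hsub]
        have h3 : ∏ x ∈ Finset.Icc 2 ⌊z⌋₊ \ P, (1 - 1 / (x : ℝ)) ≤ 1 :=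
          Finset.prod_le_one
            (fun p hp => (hfac p (Finset.mem_Icc.1 (Finset.mem_sdiff.1 hp).1).1).1)
            (fun p hp => (hfac p (Finset.mem_Icc.1 (Finset.mem_sdiff.1 hp).1).1).2)
        have h4 : 0 ≤ ∏ p ∈ P, (1 - 1 / (p : ℝ)) :=
          Finset.prod_nonneg fun p hp => (hfac p (hP p hp)).1
        nlinarith

/-- counting integers of an interval in one class modulo `d` -/
lemma card_class_Ioc (x : ℤ) (H : ℕ) (d : ℕ) (hd : 0 < d) (v : ℤ) :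
    |(((Finset.Ioc x (x + H)).filter (fun m => m ≡ v [ZMOD d])).card : ℝ) - (H : ℝ) / d| ≤ 1 := by
  have hd' : (0 : ℤ) < d := by exact_mod_cast hd
  have h1 := Int.Ioc_filter_modEq_card x (x + H) hd' v
  have h2 : ((((Finset.Ioc x (x + H)).filter (fun m => m ≡ v [ZMOD d])).card : ℤ) : ℝ) =
      ((max (⌊((x + H : ℤ) - v) / (d : ℚ)⌋ - ⌊((x : ℤ) - v) / (d : ℚ)⌋) 0 : ℤ) : ℝ) := by
    rw [h1]
    push_cast
    rfl
  have hdq : (0 : ℚ) < d := by exact_mod_cast hd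
  set A := ⌊((x + H : ℤ) - v) / (d : ℚ)⌋ with hA
  set B := ⌊((x : ℤ) - v) / (d : ℚ)⌋ with hB
  have e : (((x + H : ℤ) : ℚ) - v) / (d : ℚ) = ((x : ℚ) - v) / d + (H : ℚ) / d := by
    push_cast
    field_simp
    ring
  have a1 : (A : ℚ) ≤ ((x + H : ℤ) - v) / (d : ℚ) := Int.floor_le _
  have a2 : ((x + H : ℤ) - v) / (d : ℚ) < A + 1 := Int.lt_floor_add_one _
  have b1 : (B : ℚ) ≤ ((x : ℤ) - v) / (d : ℚ) := Int.floor_le _
  have b2 : ((x : ℤ) - v) / (d : ℚ) < B + 1 := Int.lt_floor_add_one _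
  rw [e] at a1 a2
  have hAB : B ≤ A := by
    apply Int.floor_le_floor
    rw [e]
    have : (0 : ℚ) ≤ (H : ℚ) / d := by positivity
    linarith
  have h3 : |((A - B : ℤ) : ℚ) - (H : ℚ) / d| ≤ 1 := by
    push_cast
    rw [abs_le]
    constructor <;> linarith
  have h4 : |((A - B : ℤ) : ℝ) - (H : ℝ) / d| ≤ 1 := by
    have h3' := (Rat.cast_le (K := ℝ)).2 h3
    push_cast at h3' ⊢
    exact h3'
  have h5 : (((Finset.Ioc x (x + H)).filter (fun m => m ≡ v [ZMOD d])).card : ℝ) =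
      ((A - B : ℤ) : ℝ) := by
    have h6 : max (A - B) 0 = A - B := max_eq_left (by omega)
    rw [h6] at h2
    rw [← h2]
    push_cast
    rfl
  rw [h5]
  exact h4

/-- simultaneous classes modulo a set of primes -/
lemma exists_crt (D : Finset ℕ) (hD : ∀ p ∈ D, p.Prime) (r : ℕ → ℤ) :
    ∃ v : ℤ, ∀ m : ℤ, (∀ p ∈ D, m ≡ r p [ZMOD p]) ↔ m ≡ v [ZMOD (∏ p ∈ D, p : ℕ)] := by
  classical
  induction D using Finset.induction_on with
  | empty =>
    refine ⟨0, fun m => ?_⟩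
    simp [Int.modEq_one]
  | insert p D hp ih =>
    obtain ⟨v, hv⟩ := ih fun q hq => hD q (Finset.mem_insert_of_mem hq)
    have hpp := hD p (Finset.mem_insert_self p D)
    have hc : Nat.Coprime p (∏ q ∈ D, q) := by
      apply Nat.Coprime.prod_right
      intro q hq
      rw [Nat.coprime_primes hpp (hD q (Finset.mem_insert_of_mem hq))]
      rintro rfl
      exact hp hq
    have hcop : IsCoprime (p : ℤ) ((∏ q ∈ D, q : ℕ) : ℤ) := Nat.isCoprime_iff_coprime.2 hc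
    obtain ⟨a, b, hab⟩ := hcop
    -- v' = r p * (b * Q) + v * (a * p)
    refine ⟨r p * (b * ((∏ q ∈ D, q : ℕ) : ℤ)) + v * (a * p), fun m => ?_⟩
    rw [Finset.prod_insert hp]
    have key1 : r p * (b * ((∏ q ∈ D, q : ℕ) : ℤ)) + v * (a * p) ≡ r p [ZMOD p] := by
      apply Int.ModEq.symm
      rw [Int.modEq_iff_dvd]
      refine ⟨a * v - a * r p, ?_⟩
      have : b * ((∏ q ∈ D, q : ℕ) : ℤ) = 1 - a * p := by linarith
      rw [this]; ring
    have key2 : r p * (b * ((∏ q ∈ D, q : ℕ) : ℤ)) + v * (a * p) ≡ v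
        [ZMOD ((∏ q ∈ D, q : ℕ) : ℤ)] := by
      apply Int.ModEq.symm
      rw [Int.modEq_iff_dvd]
      refine ⟨b * r p - b * v, ?_⟩
      have : a * (p : ℤ) = 1 - b * ((∏ q ∈ D, q : ℕ) : ℤ) := by linarith
      rw [this]; ring
    have key3 : ∀ w : ℤ, (m ≡ w [ZMOD ((p * ∏ q ∈ D, q : ℕ) : ℤ)]) ↔
        (m ≡ w [ZMOD p] ∧ m ≡ w [ZMOD ((∏ q ∈ D, q : ℕ) : ℤ)]) := by
      intro w
      rw [Int.modEq_iff_dvd, Int.modEq_iff_dvd, Int.modEq_iff_dvd, Nat.cast_mul]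
      constructor
      · intro h
        exact ⟨(Dvd.intro _ rfl).trans h, (Dvd.intro_left _ rfl).trans h⟩
      · rintro ⟨h, h'⟩
        exact IsCoprime.mul_dvd (Nat.isCoprime_iff_coprime.2 hc) h h'
    rw [key3]
    constructor
    · intro h
      refine ⟨(h p (Finset.mem_insert_self p D)).trans key1.symm, ?_⟩
      exact ((hv m).1 fun q hq => h q (Finset.mem_insert_of_mem hq)).trans key2.symm
    · rintro ⟨h, h'⟩ q hq
      rcases Finset.mem_insert.1 hq with rfl | hq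
      · exact h.trans key1
      · exact (hv m).2 (h'.trans key2) q hq

/-- **Sieve of an interval by one class per prime**, all primes `≤ z`, two-sided, relative accuracy
`η` as soon as the interval is longer than `z ^ s`. -/
theorem sieve_interval (η : ℝ) (hη : 0 < η) : ∃ s : ℕ, 1 ≤ s ∧ ∀ z : ℝ, 2 ≤ z →
    ∀ (P : Finset ℕ), (∀ p ∈ P, p.Prime ∧ (p : ℝ) ≤ z) → ∀ (r : ℕ → ℤ) (x : ℤ) (H : ℕ),
      z ^ s ≤ (H : ℝ) →
      |(((Finset.Ioc x (x + H)).filter (fun m => ∀ p ∈ P, ¬ m ≡ r p [ZMOD p])).card : ℝ) -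
        H * ∏ p ∈ P, (1 - 1 / (p : ℝ))| ≤ η * (H * ∏ p ∈ P, (1 - 1 / (p : ℝ))) := by
  classical
  obtain ⟨K, hK, hdim⟩ := dim_of 1 0 (1 / 2) (by norm_num) le_rfl (by norm_num)
  obtain ⟨s, hs, H0⟩ := sieve_weighted 1 K (η / 2) (by norm_num) hK (by linarith)
  obtain ⟨e, he⟩ := pow_unbounded_of_one_lt (2 / η) (by norm_num : (1 : ℝ) < 2)
  refine ⟨s + 1 + e, by omega, fun z hz P hP r x H hH => ?_⟩
  have hP2 : ∀ p ∈ P, 2 ≤ p := fun p hp => (hP p hp).1.two_le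
  have hPz : ∀ p ∈ P, 2 ≤ p ∧ (p : ℝ) ≤ z := fun p hp => ⟨hP2 p hp, (hP p hp).2⟩
  set g : ℕ → ℝ := fun p => 1 / (p : ℝ) with hg
  have hg0 : ∀ p ∈ P, 0 ≤ g p := fun p _ => by simp only [hg]; positivity
  have hgh : ∀ p ∈ P, g p ≤ 1 - 1 / 2 := by
    intro p hp
    have : (2 : ℝ) ≤ p := by exact_mod_cast hP2 p hp
    simp only [hg]
    rw [div_le_iff₀ (by linarith)]
    linarith
  have hg1 : ∀ p ∈ P, g p < 1 := fun p hp => by linarith [hgh p hp]
  have hd := hdim P g (fun p hp => (hP p hp).1) hg0 hgh (fun p _ => by simp [hg])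
  have h2 := H0 z hz P g hPz hg0 hg1 hd (Finset.Ioc x (x + H)) (fun _ => 1)
    (fun m => P.filter (fun p : ℕ => m ≡ r p [ZMOD p])) (H : ℝ) (fun _ => 1)
    (fun _ _ => zero_le_one) (fun _ _ => Finset.filter_subset _ _) (Nat.cast_nonneg H) ?_
  · have hcard : ∑ a ∈ (Finset.Ioc x (x + H)).filter
        (fun m => P.filter (fun p : ℕ => m ≡ r p [ZMOD p]) = ∅), (1 : ℝ) =
        (((Finset.Ioc x (x + H)).filter (fun m => ∀ p ∈ P, ¬ m ≡ r p [ZMOD p])).card : ℝ) := by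
      rw [Finset.sum_const, nsmul_eq_mul, mul_one]
      congr 2
      apply Finset.filter_congr
      intro m _
      rw [Finset.filter_eq_empty_iff]
    rw [hcard] at h2
    have hlev := card_level P (fun p hp => (hP p hp).1) (z ^ s) (by positivity)
    have hsum : ∑ D ∈ P.powerset.filter (fun D : Finset ℕ => ∏ p ∈ D, (p : ℝ) ≤ z ^ s), (1 : ℝ) ≤ z ^ s := by
      rw [Finset.sum_const, nsmul_eq_mul, mul_one]
      exact hlev
    have hV := prod_ge_inv P hP2 z hz fun p hp => (hP p hp).2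
    have hbig : z ^ s ≤ η / 2 * (H * ∏ p ∈ P, (1 - 1 / (p : ℝ))) := by
      have h3 : z ^ (s + 1 + e) = z ^ s * (z * z ^ e) := by ring
      have h4 : (2 : ℝ) ^ e ≤ z ^ e := pow_le_pow_left₀ (by norm_num) hz e
      have h5 : z ^ s * (z * z ^ e) * (1 / z) = z ^ s * z ^ e := by field_simp
      calc z ^ s = η / 2 * (z ^ s * (2 / η)) := by field_simp
        _ ≤ η / 2 * (z ^ s * z ^ e) := by gcongr; exact he.le.trans h4
        _ = η / 2 * (z ^ (s + 1 + e) * (1 / z)) := by rw [h3, h5]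
        _ ≤ η / 2 * (H * ∏ p ∈ P, (1 - 1 / (p : ℝ))) := by gcongr
    have hgV : ∏ p ∈ P, (1 - g p) = ∏ p ∈ P, (1 - 1 / (p : ℝ)) := rfl
    rw [hgV] at h2
    rw [abs_le]
    constructor
    · nlinarith [h2.1]
    · nlinarith [h2.2]
  · intro D hD _
    obtain ⟨v, hv⟩ := exists_crt D (fun p hp => (hP p (hD hp)).1) r
    have hpos : 0 < ∏ p ∈ D, p := Finset.prod_pos fun p hp => (hP p (hD hp)).1.pos
    have h3 := card_class_Ioc x H (∏ p ∈ D, p) hpos v
    have h4 : ∑ a ∈ (Finset.Ioc x (x + H)).filter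
        (fun m => D ⊆ P.filter (fun p : ℕ => m ≡ r p [ZMOD p])), (1 : ℝ) =
        (((Finset.Ioc x (x + H)).filter (fun m => m ≡ v [ZMOD (∏ p ∈ D, p : ℕ)])).card : ℝ) := by
      rw [Finset.sum_const, nsmul_eq_mul, mul_one]
      congr 2
      apply Finset.filter_congr
      intro m _
      rw [← hv m]
      constructor
      · intro h p hp
        exact (Finset.mem_filter.1 (h hp)).2
      · intro h p hp
        exact Finset.mem_filter.2 ⟨hD hp, h p hp⟩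
    rw [h4]
    have h5 : (∏ p ∈ D, g p) * (H : ℝ) = (H : ℝ) / (∏ p ∈ D, p : ℕ) := by
      simp only [hg, one_div]
      rw [Finset.prod_inv_distrib]
      push_cast
      rw [div_eq_mul_inv, mul_comm]
    rw [h5]
    exact h3

end Crest.Agent.R001.FL
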