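import Mathlib

/-!
# Fundamental lemma of the sieve, combinatorial core (Brun-Hooley).  helper571
-/

set_option autoImplicit false

namespace Crest.Agent.R001.FL

open Finset

/-- truncated signed weight -/
noncomputable def sg (m : ℕ) (D : Finset ℕ) : ℝ := if D.card ≤ m then (-1) ^ D.card else 0

/-- exact-size weight -/
noncomputable def ex (m : ℕ) (D : Finset ℕ) : ℝ := if D.card = m then 1 else 0

/-- weight product -/
noncomputable def gp (g : ℕ → ℝ) (D : Finset ℕ) : ℝ := ∏ p ∈ D, g p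

/-- truncated alternating sum -/
noncomputable def Bm (g : ℕ → ℝ) (m : ℕ) (S : Finset ℕ) : ℝ := ∑ D ∈ S.powerset, sg m D * gp g D

/-- elementary symmetric sum -/
noncomputable def em (g : ℕ → ℝ) (m : ℕ) (S : Finset ℕ) : ℝ := ∑ D ∈ S.powerset, ex m D * gp g D

/-- full product -/
noncomputable def Vp (g : ℕ → ℝ) (S : Finset ℕ) : ℝ := ∏ p ∈ S, (1 - g p)

lemma gp_insert (g : ℕ → ℝ) {p : ℕ} {D : Finset ℕ} (h : p ∉ D) :
    gp g (insert p D) = g p * gp g D := by
  simp [gp, Finset.prod_insert h]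

lemma gp_nonneg (g : ℕ → ℝ) (D : Finset ℕ) (h : ∀ p ∈ D, 0 ≤ g p) : 0 ≤ gp g D :=
  Finset.prod_nonneg h

lemma Bm_insert_succ (g : ℕ → ℝ) (m : ℕ) {p : ℕ} {S : Finset ℕ} (h : p ∉ S) :
    Bm g (m + 1) (insert p S) = Bm g (m + 1) S - g p * Bm g m S := by
  rw [Bm, Finset.sum_powerset_insert h, Bm, Bm, Finset.mul_sum, sub_eq_add_neg,
    ← Finset.sum_neg_distrib]
  congr 1
  apply Finset.sum_congr rfl
  intro D hD
  have hpD : p ∉ D := fun hp => h (Finset.mem_powerset.1 hD hp)
  rw [gp_insert g hpD]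
  simp only [sg, Finset.card_insert_of_notMem hpD]
  by_cases hc : D.card ≤ m
  · simp [hc, pow_succ]
    ring
  · simp [hc]

lemma Bm_zero (g : ℕ → ℝ) (S : Finset ℕ) : Bm g 0 S = 1 := by
  rw [Bm, Finset.sum_eq_single ∅]
  · simp [sg, gp]
  · intro D _ hD
    have : D.card ≠ 0 := by simpa using hD
    simp [sg, this]
  · intro h
    exact absurd (Finset.empty_mem_powerset S) h

lemma em_insert_succ (g : ℕ → ℝ) (m : ℕ) {p : ℕ} {S : Finset ℕ} (h : p ∉ S) :
    em g (m + 1) (insert p S) = em g (m + 1) S + g p * em g m S := by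
  rw [em, Finset.sum_powerset_insert h, em, em, Finset.mul_sum]
  congr 1
  apply Finset.sum_congr rfl
  intro D hD
  have hpD : p ∉ D := fun hp => h (Finset.mem_powerset.1 hD hp)
  rw [gp_insert g hpD]
  simp only [ex, Finset.card_insert_of_notMem hpD]
  by_cases hc : D.card = m
  · simp [hc]
  · simp [hc]

lemma em_zero (g : ℕ → ℝ) (S : Finset ℕ) : em g 0 S = 1 := by
  rw [em, Finset.sum_eq_single ∅]
  · simp [ex, gp]
  · intro D _ hD
    have : D.card ≠ 0 := by simpa using hD
    simp [ex, this]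
  · intro h
    exact absurd (Finset.empty_mem_powerset S) h

lemma em_empty_succ (g : ℕ → ℝ) (m : ℕ) : em g (m + 1) ∅ = 0 := by
  simp [em, ex]

lemma em_nonneg (g : ℕ → ℝ) (m : ℕ) (S : Finset ℕ) (h : ∀ p ∈ S, 0 ≤ g p) : 0 ≤ em g m S := by
  apply Finset.sum_nonneg
  intro D hD
  apply mul_nonneg
  · unfold ex; split_ifs <;> norm_num
  · exact gp_nonneg g D fun p hp => h p (Finset.mem_powerset.1 hD hp)

lemma Vp_insert (g : ℕ → ℝ) {p : ℕ} {S : Finset ℕ} (h : p ∉ S) :
    Vp g (insert p S) = Vp g S - g p * Vp g S := by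
  rw [Vp, Finset.prod_insert h, Vp]; ring

lemma Vp_nonneg (g : ℕ → ℝ) (S : Finset ℕ) (h : ∀ p ∈ S, g p ≤ 1) : 0 ≤ Vp g S :=
  Finset.prod_nonneg fun p hp => by linarith [h p hp]

lemma Vp_le_one (g : ℕ → ℝ) (S : Finset ℕ) (h0 : ∀ p ∈ S, 0 ≤ g p) (h : ∀ p ∈ S, g p ≤ 1) :
    Vp g S ≤ 1 :=
  Finset.prod_le_one (fun p hp => by linarith [h p hp]) fun p hp => by linarith [h0 p hp]

/-- Bonferroni with weights. -/
theorem bonferroni (g : ℕ → ℝ) (S : Finset ℕ) (h0 : ∀ p ∈ S, 0 ≤ g p) (h1 : ∀ p ∈ S, g p ≤ 1) :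
    ∀ m : ℕ, 0 ≤ (-1 : ℝ) ^ m * (Bm g m S - Vp g S) ∧
      (-1 : ℝ) ^ m * (Bm g m S - Vp g S) ≤ em g (m + 1) S := by
  classical
  induction S using Finset.induction_on with
  | empty =>
    intro m
    have hB : Bm g m ∅ = 1 := by simp [Bm, sg, gp]
    have hV : Vp g ∅ = 1 := by simp [Vp]
    rw [hB, hV, em_empty_succ]
    simp
  | insert p S hp ih =>
    have h0' : ∀ q ∈ S, 0 ≤ g q := fun q hq => h0 q (Finset.mem_insert_of_mem hq)
    have h1' : ∀ q ∈ S, g q ≤ 1 := fun q hq => h1 q (Finset.mem_insert_of_mem hq)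
    have ih' := ih h0' h1'
    have hgp := h0 p (Finset.mem_insert_self p S)
    intro m
    cases m with
    | zero =>
      have h2 := ih' 0
      rw [Bm_zero] at h2
      rw [Bm_zero, Vp_insert g hp, em_insert_succ g 0 hp, em_zero]
      simp only [pow_zero, one_mul] at h2 ⊢
      have h3 := Vp_nonneg g S h1'
      have h4 := Vp_le_one g S h0' h1'
      constructor
      · nlinarith [mul_nonneg hgp h3]
      · nlinarith [mul_le_mul_of_nonneg_left h4 hgp]
    | succ m =>
      have h2 := ih' (m + 1)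
      have h3 := ih' m
      rw [Bm_insert_succ g m hp, Vp_insert g hp, em_insert_succ g (m + 1) hp]
      have h4 : (-1 : ℝ) ^ (m + 1) * (Bm g (m + 1) S - g p * Bm g m S - (Vp g S - g p * Vp g S)) =
          (-1 : ℝ) ^ (m + 1) * (Bm g (m + 1) S - Vp g S) +
            g p * ((-1 : ℝ) ^ m * (Bm g m S - Vp g S)) := by
        rw [pow_succ]; ring
      rw [h4]
      constructor
      · exact add_nonneg h2.1 (mul_nonneg hgp h3.1)
      · exact add_le_add h2.2 (mul_le_mul_of_nonneg_left h3.2 hgp)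

lemma pow_add_ge (x y : ℝ) (hx : 0 ≤ x) (hy : 0 ≤ y) (m : ℕ) :
    x ^ (m + 1) + (m + 1 : ℕ) * x ^ m * y ≤ (x + y) ^ (m + 1) := by
  induction m with
  | zero => simp
  | succ m ih =>
    have h1 : (x + y) ^ (m + 1 + 1) = (x + y) ^ (m + 1) * (x + y) := pow_succ _ _
    rw [h1]
    have h2 : (x ^ (m + 1) + (m + 1 : ℕ) * x ^ m * y) * (x + y) ≤ (x + y) ^ (m + 1) * (x + y) :=
      mul_le_mul_of_nonneg_right ih (by positivity)
    refine le_trans ?_ h2
    push_cast
    have h3 : 0 ≤ ((m : ℝ) + 1) * x ^ m * y * y := by positivity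
    have h4 : (x ^ (m + 1) + ((m : ℝ) + 1) * x ^ m * y) * (x + y) =
      x ^ (m + 1 + 1) + ((m : ℝ) + 1 + 1) * x ^ (m + 1) * y + ((m : ℝ) + 1) * x ^ m * y * y := by
      ring
    rw [h4]
    linarith

theorem em_le (g : ℕ → ℝ) (S : Finset ℕ) (h0 : ∀ p ∈ S, 0 ≤ g p) :
    ∀ m : ℕ, em g m S ≤ (∑ p ∈ S, g p) ^ m / m.factorial := by
  classical
  induction S using Finset.induction_on with
  | empty =>
    intro m
    cases m with
    | zero => rw [em_zero]; simp
    | succ m => rw [em_empty_succ]; positivity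
  | insert p S hp ih =>
    have h0' : ∀ q ∈ S, 0 ≤ g q := fun q hq => h0 q (Finset.mem_insert_of_mem hq)
    have ih' := ih h0'
    have hgp := h0 p (Finset.mem_insert_self p S)
    have hs : 0 ≤ ∑ q ∈ S, g q := Finset.sum_nonneg h0'
    intro m
    cases m with
    | zero => rw [em_zero]; simp
    | succ m =>
      rw [em_insert_succ g m hp, Finset.sum_insert hp]
      have h1 := pow_add_ge (∑ q ∈ S, g q) (g p) hs hgp m
      have h2 := ih' (m + 1)
      have h3 := mul_le_mul_of_nonneg_left (ih' m) hgp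
      calc em g (m + 1) S + g p * em g m S
          ≤ (∑ q ∈ S, g q) ^ (m + 1) / (m + 1).factorial +
            g p * ((∑ q ∈ S, g q) ^ m / m.factorial) := add_le_add h2 h3
        _ = ((∑ q ∈ S, g q) ^ (m + 1) + (m + 1 : ℕ) * (∑ q ∈ S, g q) ^ m * g p) /
            (m + 1).factorial := by
          rw [Nat.factorial_succ]
          have h4 : (m.factorial : ℝ) ≠ 0 := by exact_mod_cast m.factorial_ne_zero
          have h5 : ((m + 1 : ℕ) : ℝ) ≠ 0 := by positivity
          push_cast
          push_cast at h5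
          field_simp
        _ ≤ _ := by
          apply div_le_div_of_nonneg_right _ (by positivity)
          rw [add_comm (g p)]
          exact h1

/-! ### block decomposition -/

lemma sum_powerset_split (T : Finset ℕ) (q : ℕ → Prop) [DecidablePred q]
    (F G : Finset ℕ → ℝ) :
    ∑ D ∈ T.powerset, F (D.filter q) * G (D.filter fun p => ¬ q p) =
      (∑ D ∈ (T.filter q).powerset, F D) * ∑ D ∈ (T.filter fun p => ¬ q p).powerset, G D := by
  classical
  rw [Finset.sum_mul_sum, ← Finset.sum_product']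
  refine Finset.sum_bij' (fun D _ => (D.filter q, D.filter fun p => ¬ q p))
    (fun AB _ => AB.1 ∪ AB.2) ?_ ?_ ?_ ?_ ?_
  · intro D hD
    rw [Finset.mem_product, Finset.mem_powerset, Finset.mem_powerset]
    rw [Finset.mem_powerset] at hD
    exact ⟨Finset.filter_subset_filter _ hD, Finset.filter_subset_filter _ hD⟩
  · intro AB hAB
    rw [Finset.mem_product, Finset.mem_powerset, Finset.mem_powerset] at hAB
    rw [Finset.mem_powerset]
    exact Finset.union_subset (hAB.1.trans (Finset.filter_subset _ _))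
      (hAB.2.trans (Finset.filter_subset _ _))
  · intro D _
    exact Finset.filter_union_filter_not_eq _ _
  · intro AB hAB
    rw [Finset.mem_product, Finset.mem_powerset, Finset.mem_powerset] at hAB
    have h1 : ∀ p ∈ AB.1, q p := fun p hp => (Finset.mem_filter.1 (hAB.1 hp)).2
    have h2 : ∀ p ∈ AB.2, ¬ q p := fun p hp => (Finset.mem_filter.1 (hAB.2 hp)).2
    ext p
    · simp only [Finset.mem_filter, Finset.mem_union]
      constructor
      · rintro ⟨h | h, h'⟩
        · exact h
        · exact absurd h' (h2 p h)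
      · intro h
        exact ⟨Or.inl h, h1 p h⟩
    · simp only [Finset.mem_filter, Finset.mem_union]
      constructor
      · rintro ⟨h | h, h'⟩
        · exact absurd (h1 p h) h'
        · exact h
      · intro h
        exact ⟨Or.inr h, h2 p h⟩
  · intro D _
    rfl

/-- the `j`-th block of `D` -/
def blk (c : ℕ → ℕ) (j : ℕ) (D : Finset ℕ) : Finset ℕ := D.filter fun p => c p = j

lemma sum_blocks (c : ℕ → ℕ) (F : ℕ → Finset ℕ → ℝ) (t : ℕ) : ∀ T : Finset ℕ,
    (∀ p ∈ T, c p < t) →
    ∑ D ∈ T.powerset, ∏ j ∈ range t, F j (blk c j D) =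
      ∏ j ∈ range t, ∑ D ∈ (blk c j T).powerset, F j D := by
  induction t with
  | zero =>
    intro T hT
    have : T = ∅ := Finset.eq_empty_of_forall_notMem fun p hp => absurd (hT p hp) (Nat.not_lt_zero _)
    subst this
    simp
  | succ t ih =>
    intro T hT
    have h1 := sum_powerset_split T (fun p => c p < t)
      (fun D => ∏ j ∈ range t, F j (blk c j D)) (fun D => F t D)
    have h2 : ∑ D ∈ T.powerset, ∏ j ∈ range (t + 1), F j (blk c j D) =
        ∑ D ∈ T.powerset, (∏ j ∈ range t, F j (blk c j (D.filter fun p => c p < t))) *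
          F t (D.filter fun p => ¬ c p < t) := by
      apply Finset.sum_congr rfl
      intro D hD
      rw [Finset.prod_range_succ]
      congr 1
      · apply Finset.prod_congr rfl
        intro j hj
        congr 1
        ext p
        simp only [blk, Finset.mem_filter]
        have := Finset.mem_range.1 hj
        constructor
        · rintro ⟨h, h'⟩; exact ⟨⟨h, by omega⟩, h'⟩
        · rintro ⟨⟨h, _⟩, h'⟩; exact ⟨h, h'⟩
      · congr 1
        ext p
        simp only [blk, Finset.mem_filter]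
        constructor
        · rintro ⟨h, h'⟩; exact ⟨h, by omega⟩
        · rintro ⟨h, h'⟩
          have := hT p (Finset.mem_powerset.1 hD h)
          exact ⟨h, by omega⟩
    rw [h2, h1, Finset.prod_range_succ, ih _ (fun p hp => (Finset.mem_filter.1 hp).2)]
    congr 1
    · apply Finset.prod_congr rfl
      intro j hj
      apply Finset.sum_congr _ fun _ _ => rfl
      congr 1
      ext p
      simp only [blk, Finset.mem_filter]
      have := Finset.mem_range.1 hj
      constructor
      · rintro ⟨⟨h, _⟩, h'⟩; exact ⟨h, h'⟩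
      · rintro ⟨h, h'⟩; exact ⟨⟨h, by omega⟩, h'⟩
    · apply Finset.sum_congr _ fun _ _ => rfl
      congr 1
      ext p
      simp only [blk, Finset.mem_filter]
      constructor
      · rintro ⟨h, h'⟩
        have := hT p h
        exact ⟨h, by omega⟩
      · rintro ⟨h, h'⟩; exact ⟨h, by omega⟩

lemma gp_blocks (c : ℕ → ℕ) (g : ℕ → ℝ) (t : ℕ) : ∀ D : Finset ℕ, (∀ p ∈ D, c p < t) →
    gp g D = ∏ j ∈ range t, gp g (blk c j D) := by
  intro D hD
  unfold gp blk
  rw [Finset.prod_fiberwise_of_maps_to (fun p hp => Finset.mem_range.2 (hD p hp))]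

/-- upper weights -/
noncomputable def lamp (c : ℕ → ℕ) (k : ℕ → ℕ) (t : ℕ) (D : Finset ℕ) : ℝ :=
  ∏ j ∈ range t, sg (2 * k j) (blk c j D)

/-- correction weights with special block `l` -/
noncomputable def lamc (c : ℕ → ℕ) (k : ℕ → ℕ) (t : ℕ) (l : ℕ) (D : Finset ℕ) : ℝ :=
  ∏ j ∈ range t, (if j = l then ex (2 * k j + 1) (blk c j D) else sg (2 * k j) (blk c j D))

/-- lower weights -/
noncomputable def lamm (c : ℕ → ℕ) (k : ℕ → ℕ) (t : ℕ) (D : Finset ℕ) : ℝ :=
  lamp c k t D - ∑ l ∈ range t, lamc c k t l D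

/-- weighted sum of upper weights -/
lemma sum_lamp (c : ℕ → ℕ) (k : ℕ → ℕ) (t : ℕ) (g : ℕ → ℝ) (T : Finset ℕ)
    (hT : ∀ p ∈ T, c p < t) :
    ∑ D ∈ T.powerset, lamp c k t D * gp g D =
      ∏ j ∈ range t, Bm g (2 * k j) (blk c j T) := by
  have h1 := sum_blocks c (fun j D => sg (2 * k j) D * gp g D) t T hT
  unfold Bm
  rw [← h1]
  apply Finset.sum_congr rfl
  intro D hD
  rw [gp_blocks c g t D fun p hp => hT p (Finset.mem_powerset.1 hD hp), lamp,
    ← Finset.prod_mul_distrib]

lemma sum_lamc (c : ℕ → ℕ) (k : ℕ → ℕ) (t : ℕ) (g : ℕ → ℝ) (T : Finset ℕ) (l : ℕ)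
    (hT : ∀ p ∈ T, c p < t) :
    ∑ D ∈ T.powerset, lamc c k t l D * gp g D =
      ∏ j ∈ range t, (if j = l then em g (2 * k j + 1) (blk c j T)
        else Bm g (2 * k j) (blk c j T)) := by
  have h1 := sum_blocks c (fun j D => (if j = l then ex (2 * k j + 1) D else sg (2 * k j) D) *
    gp g D) t T hT
  have h2 : ∀ j ∈ range t, (if j = l then em g (2 * k j + 1) (blk c j T)
        else Bm g (2 * k j) (blk c j T)) =
      ∑ D ∈ (blk c j T).powerset, (if j = l then ex (2 * k j + 1) D else sg (2 * k j) D) *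
        gp g D := by
    intro j _
    split_ifs <;> rfl
  rw [Finset.prod_congr rfl h2, ← h1]
  apply Finset.sum_congr rfl
  intro D hD
  rw [gp_blocks c g t D fun p hp => hT p (Finset.mem_powerset.1 hD hp), lamc,
    ← Finset.prod_mul_distrib]

/-- product lower bound: `∏ (y_j)` vs perturbation, `0 ≤ x_j ≤ y_j`, `y_j - x_j ≤ e_j`. -/
lemma prod_lower (t : ℕ) (x y e : ℕ → ℝ) (hx : ∀ j ∈ range t, 0 ≤ x j)
    (hxy : ∀ j ∈ range t, x j ≤ y j) (he : ∀ j ∈ range t, y j - x j ≤ e j) :
    ∏ j ∈ range t, y j - ∑ l ∈ range t, ∏ j ∈ range t, (if j = l then e j else y j) ≤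
      ∏ j ∈ range t, x j := by
  induction t with
  | zero => simp
  | succ t ih =>
    have hx' : ∀ j ∈ range t, 0 ≤ x j := fun j hj =>
      hx j (Finset.mem_range.2 ((Finset.mem_range.1 hj).trans (Nat.lt_succ_self _)))
    have hxy' : ∀ j ∈ range t, x j ≤ y j := fun j hj =>
      hxy j (Finset.mem_range.2 ((Finset.mem_range.1 hj).trans (Nat.lt_succ_self _)))
    have he' : ∀ j ∈ range t, y j - x j ≤ e j := fun j hj =>
      he j (Finset.mem_range.2 ((Finset.mem_range.1 hj).trans (Nat.lt_succ_self _)))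
    have ih' := ih hx' hxy' he'
    have ht : t ∈ range (t + 1) := Finset.self_mem_range_succ t
    have h1 := hx t ht
    have h2 := hxy t ht
    have h3 := he t ht
    rw [Finset.prod_range_succ, Finset.prod_range_succ (fun j => x j), Finset.sum_range_succ]
    have h4 : ∑ l ∈ range t, ∏ j ∈ range (t + 1), (if j = l then e j else y j) =
        (∑ l ∈ range t, ∏ j ∈ range t, (if j = l then e j else y j)) * y t := by
      rw [Finset.sum_mul]
      apply Finset.sum_congr rfl
      intro l hl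
      rw [Finset.prod_range_succ]
      have : t ≠ l := by
        have := Finset.mem_range.1 hl
        omega
      rw [if_neg this]
    have h5 : ∏ j ∈ range (t + 1), (if j = t then e j else y j) = (∏ j ∈ range t, y j) * e t := by
      rw [Finset.prod_range_succ, if_pos rfl]
      congr 1
      apply Finset.prod_congr rfl
      intro j hj
      have : j ≠ t := by
        have := Finset.mem_range.1 hj
        omega
      rw [if_neg this]
    rw [h4, h5]
    have h6 : 0 ≤ ∏ j ∈ range t, y j :=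
      Finset.prod_nonneg fun j hj => (hx' j hj).trans (hxy' j hj)
    have h7 : 0 ≤ ∏ j ∈ range t, x j := Finset.prod_nonneg hx'
    have h8 : 0 ≤ ∑ l ∈ range t, ∏ j ∈ range t, (if j = l then e j else y j) := by
      apply Finset.sum_nonneg
      intro l _
      apply Finset.prod_nonneg
      intro j hj
      split_ifs
      · linarith [hxy' j hj, he' j hj]
      · exact (hx' j hj).trans (hxy' j hj)
    have h9 : ∏ j ∈ range t, x j ≤ ∏ j ∈ range t, y j :=
      Finset.prod_le_prod hx' hxy'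
    nlinarith [mul_nonneg h6 (sub_nonneg.2 h3), mul_nonneg h8 h1,
      mul_nonneg h8 (h1.trans h2), mul_nonneg (sub_nonneg.2 h9) (sub_nonneg.2 h2),
      mul_le_mul_of_nonneg_right ih' (h1.trans h2),
      mul_le_mul_of_nonneg_left h3 h6, mul_le_mul_of_nonneg_left h2 h7]

end Crest.Agent.R001.FL
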