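import Crest.Agent.R001.FLCore

/-!
# Fundamental lemma of the sieve (Brun-Hooley), all dimensions, weights form.  helper571
-/

set_option autoImplicit false

namespace Crest.Agent.R001.FL

open Finset

/-- block index -/
noncomputable def cz (z : ℝ) (p : ℕ) : ℕ := Nat.log 2 ⌊Real.log z / Real.log p⌋₊

/-- number of blocks -/
noncomputable def tz (z : ℝ) : ℕ := Nat.log 2 ⌊Real.log z / Real.log 2⌋₊ + 1

lemma cz_lt {z : ℝ} {p : ℕ} (hp : 2 ≤ p) (hpz : (p : ℝ) ≤ z) : cz z p < tz z := by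
  unfold cz tz
  have h2 : (2 : ℝ) ≤ p := by exact_mod_cast hp
  have h3 : Real.log 2 ≤ Real.log p := Real.log_le_log (by norm_num) h2
  have h4 : 0 < Real.log 2 := Real.log_pos (by norm_num)
  have h5 : 0 ≤ Real.log z := Real.log_nonneg (by linarith)
  have h6 : ⌊Real.log z / Real.log p⌋₊ ≤ ⌊Real.log z / Real.log 2⌋₊ := by
    apply Nat.floor_le_floor
    exact div_le_div_of_nonneg_left h5 h4 h3
  exact Nat.lt_succ_of_le (Nat.log_mono_right h6)

lemma cz_bounds {z : ℝ} {p : ℕ} (hp : 2 ≤ p) (hpz : (p : ℝ) ≤ z) :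
    Real.log p ≤ Real.log z / 2 ^ (cz z p) ∧ Real.log z / 2 ^ (cz z p) / 2 < Real.log p := by
  have h2 : (2 : ℝ) ≤ p := by exact_mod_cast hp
  have hlp : 0 < Real.log p := Real.log_pos (by linarith)
  have hzp : Real.log p ≤ Real.log z := Real.log_le_log (by linarith) hpz
  set r := Real.log z / Real.log p with hr
  have hr1 : 1 ≤ r := by rw [hr, le_div_iff₀ hlp]; linarith
  have hn0 : ⌊r⌋₊ ≠ 0 := by
    have : 1 ≤ ⌊r⌋₊ := Nat.le_floor (by exact_mod_cast hr1)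
    omega
  have hc : cz z p = Nat.log 2 ⌊r⌋₊ := rfl
  have h3 : 2 ^ (cz z p) ≤ ⌊r⌋₊ := by rw [hc]; exact Nat.pow_log_le_self 2 hn0
  have h4 : ⌊r⌋₊ < 2 ^ (cz z p + 1) := by rw [hc]; exact Nat.lt_pow_succ_log_self (by norm_num) _
  have h5 : (2 : ℝ) ^ (cz z p) ≤ r := by
    calc (2 : ℝ) ^ (cz z p) = ((2 ^ (cz z p) : ℕ) : ℝ) := by push_cast; rfl
      _ ≤ (⌊r⌋₊ : ℝ) := by exact_mod_cast h3
      _ ≤ r := Nat.floor_le (by linarith)
  have h6 : r < (2 : ℝ) ^ (cz z p + 1) := by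
    calc r < (⌊r⌋₊ : ℝ) + 1 := Nat.lt_floor_add_one r
      _ ≤ ((2 ^ (cz z p + 1) : ℕ) : ℝ) := by exact_mod_cast h4
      _ = _ := by push_cast; rfl
  have h7 : Real.log z = r * Real.log p := by rw [hr]; field_simp
  constructor
  · rw [le_div_iff₀ (by positivity), h7]
    nlinarith
  · rw [div_div, div_lt_iff₀ (by positivity), h7, ← pow_succ]
    nlinarith

lemma abs_sg_le (m : ℕ) (D : Finset ℕ) : |sg m D| ≤ 1 := by
  unfold sg
  split_ifs
  · rw [abs_pow, abs_neg, abs_one, one_pow]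
  · simp

lemma abs_ex_le (m : ℕ) (D : Finset ℕ) : |ex m D| ≤ 1 := by
  unfold ex
  split_ifs <;> simp

lemma abs_lamp_le (c k : ℕ → ℕ) (t : ℕ) (D : Finset ℕ) : |lamp c k t D| ≤ 1 := by
  unfold lamp
  rw [Finset.abs_prod]
  exact Finset.prod_le_one (fun _ _ => abs_nonneg _) fun _ _ => abs_sg_le _ _

lemma abs_lamc_le (c k : ℕ → ℕ) (t l : ℕ) (D : Finset ℕ) : |lamc c k t l D| ≤ 1 := by
  unfold lamc
  rw [Finset.abs_prod]
  apply Finset.prod_le_one (fun _ _ => abs_nonneg _)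
  intro j _
  split_ifs
  · exact abs_ex_le _ _
  · exact abs_sg_le _ _

lemma lamc_eq_zero_of_ne (c k : ℕ → ℕ) (t l : ℕ) (D : Finset ℕ) (hl : l ∈ range t)
    (h : (blk c l D).card ≠ 2 * k l + 1) : lamc c k t l D = 0 := by
  unfold lamc
  apply Finset.prod_eq_zero hl
  rw [if_pos rfl, ex, if_neg h]

lemma lamm_cases (c k : ℕ → ℕ) (t : ℕ) (D : Finset ℕ) :
    (lamm c k t D = lamp c k t D) ∨
      (lamp c k t D = 0 ∧ ∃ l ∈ range t, lamm c k t D = - lamc c k t l D) := by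
  by_cases h : ∃ l ∈ range t, (blk c l D).card = 2 * k l + 1
  · right
    obtain ⟨l, hl, hc⟩ := h
    have h1 : lamp c k t D = 0 := by
      unfold lamp
      apply Finset.prod_eq_zero hl
      rw [sg, if_neg (by omega)]
    refine ⟨h1, l, hl, ?_⟩
    unfold lamm
    rw [h1, Finset.sum_eq_single l]
    · ring
    · intro m hm hml
      unfold lamc
      apply Finset.prod_eq_zero hl
      rw [if_neg (fun h => hml h.symm), sg, if_neg (by omega)]
    · intro h; exact absurd hl h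
  · left
    push Not at h
    unfold lamm
    rw [Finset.sum_eq_zero fun l hl => lamc_eq_zero_of_ne c k t l D hl (h l hl)]
    ring

lemma abs_lamm_le (c k : ℕ → ℕ) (t : ℕ) (D : Finset ℕ) : |lamm c k t D| ≤ 1 := by
  rcases lamm_cases c k t D with h | ⟨_, l, _, h⟩
  · rw [h]; exact abs_lamp_le _ _ _ _
  · rw [h, abs_neg]; exact abs_lamc_le _ _ _ _ _

lemma card_of_lamp_ne (c k : ℕ → ℕ) (t : ℕ) (D : Finset ℕ) (h : lamp c k t D ≠ 0) :
    ∀ j ∈ range t, (blk c j D).card ≤ 2 * k j + 1 := by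
  intro j hj
  by_contra h1
  apply h
  unfold lamp
  apply Finset.prod_eq_zero hj
  rw [sg, if_neg (by omega)]

lemma card_of_lamc_ne (c k : ℕ → ℕ) (t l : ℕ) (D : Finset ℕ) (h : lamc c k t l D ≠ 0) :
    ∀ j ∈ range t, (blk c j D).card ≤ 2 * k j + 1 := by
  intro j hj
  by_contra h1
  apply h
  unfold lamc
  apply Finset.prod_eq_zero hj
  split_ifs
  · rw [ex, if_neg (by omega)]
  · rw [sg, if_neg (by omega)]

lemma card_of_lamm_ne (c k : ℕ → ℕ) (t : ℕ) (D : Finset ℕ) (h : lamm c k t D ≠ 0) :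
    ∀ j ∈ range t, (blk c j D).card ≤ 2 * k j + 1 := by
  rcases lamm_cases c k t D with h1 | ⟨_, l, _, h1⟩
  · rw [h1] at h; exact card_of_lamp_ne c k t D h
  · rw [h1, neg_ne_zero] at h; exact card_of_lamc_ne c k t l D h

lemma level_sum (k0 t : ℕ) :
    ∑ j ∈ range t, ((2 * (k0 + j) + 1 : ℕ) : ℝ) / 2 ^ j =
      4 * k0 + 6 - (4 * k0 + 4 * t + 6) / 2 ^ t := by
  induction t with
  | zero => simp
  | succ t ih =>
    rw [Finset.sum_range_succ, ih, pow_succ]
    push_cast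
    field_simp
    ring

lemma level_le (k0 : ℕ) {z : ℝ} (hz : 1 ≤ z) (D : Finset ℕ)
    (hD : ∀ p ∈ D, 2 ≤ p ∧ (p : ℝ) ≤ z)
    (hc : ∀ j ∈ range (tz z), (blk (cz z) j D).card ≤ 2 * (k0 + j) + 1) :
    ∏ p ∈ D, (p : ℝ) ≤ z ^ ((4 * k0 + 6 : ℕ) : ℝ) := by
  have hpos : ∀ p ∈ D, (0 : ℝ) < p := fun p hp => by
    have := (hD p hp).1
    exact_mod_cast (by omega : 0 < p)
  have hlz : 0 ≤ Real.log z := Real.log_nonneg hz
  rw [← Real.log_le_log_iff (Finset.prod_pos hpos) (Real.rpow_pos_of_pos (by linarith) _),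
    Real.log_rpow (by linarith), Real.log_prod (fun p hp => (hpos p hp).ne')]
  have h1 : ∑ p ∈ D, Real.log p = ∑ j ∈ range (tz z), ∑ p ∈ blk (cz z) j D, Real.log p := by
    unfold blk
    rw [Finset.sum_fiberwise_of_maps_to]
    intro p hp
    exact Finset.mem_range.2 (cz_lt (hD p hp).1 (hD p hp).2)
  rw [h1]
  have h2 : ∀ j ∈ range (tz z), ∑ p ∈ blk (cz z) j D, Real.log p ≤
      ((2 * (k0 + j) + 1 : ℕ) : ℝ) / 2 ^ j * Real.log z := by
    intro j hj
    have h3 : ∀ p ∈ blk (cz z) j D, Real.log p ≤ Real.log z / 2 ^ j := by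
      intro p hp
      rw [blk, Finset.mem_filter] at hp
      have h4 := (cz_bounds (hD p hp.1).1 (hD p hp.1).2).1
      rw [hp.2] at h4
      exact h4
    calc ∑ p ∈ blk (cz z) j D, Real.log p
        ≤ (blk (cz z) j D).card • (Real.log z / 2 ^ j) := Finset.sum_le_card_nsmul _ _ _ h3
      _ = ((blk (cz z) j D).card : ℝ) * (Real.log z / 2 ^ j) := by rw [nsmul_eq_mul]
      _ ≤ ((2 * (k0 + j) + 1 : ℕ) : ℝ) * (Real.log z / 2 ^ j) := by
          apply mul_le_mul_of_nonneg_right _ (by positivity)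
          exact_mod_cast hc j hj
      _ = _ := by ring
  refine (Finset.sum_le_sum h2).trans ?_
  rw [← Finset.sum_mul, level_sum]
  apply mul_le_mul_of_nonneg_right _ hlz
  push_cast
  have : (0 : ℝ) ≤ (4 * k0 + 4 * (tz z) + 6) / 2 ^ (tz z) := by positivity
  linarith

lemma Vp_one_empty (S : Finset ℕ) : Vp (fun _ => 1) S = if S = ∅ then 1 else 0 := by
  unfold Vp
  split_ifs with h
  · subst h; simp
  · obtain ⟨p, hp⟩ := Finset.nonempty_iff_ne_empty.2 h
    exact Finset.prod_eq_zero hp (by simp)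

lemma prod_Vp_blocks (c : ℕ → ℕ) (g : ℕ → ℝ) (t : ℕ) (T : Finset ℕ) (hT : ∀ p ∈ T, c p < t) :
    ∏ j ∈ range t, Vp g (blk c j T) = Vp g T := by
  unfold Vp blk
  rw [Finset.prod_fiberwise_of_maps_to (fun p hp => Finset.mem_range.2 (hT p hp))]

/-- weights sandwich the indicator -/
theorem sandwich (c k : ℕ → ℕ) (t : ℕ) (T : Finset ℕ) (hT : ∀ p ∈ T, c p < t) :
    ∑ D ∈ T.powerset, lamm c k t D ≤ (if T = ∅ then 1 else 0) ∧
      (if T = ∅ then (1 : ℝ) else 0) ≤ ∑ D ∈ T.powerset, lamp c k t D := by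
  have hg1 : ∀ D : Finset ℕ, gp (fun _ => 1) D = 1 := fun D => by simp [gp]
  have h1 := sum_lamp c k t (fun _ => 1) T hT
  have h2 := fun l => sum_lamc c k t (fun _ => 1) T l hT
  have hV := prod_Vp_blocks c (fun _ => 1) t T hT
  rw [Vp_one_empty] at hV
  simp only [hg1, mul_one] at h1 h2
  have hb : ∀ j, 0 ≤ Bm (fun _ => 1) (2 * k j) (blk c j T) - Vp (fun _ => 1) (blk c j T) ∧
      Bm (fun _ => 1) (2 * k j) (blk c j T) - Vp (fun _ => 1) (blk c j T) ≤
        em (fun _ => 1) (2 * k j + 1) (blk c j T) := by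
    intro j
    have h3 := bonferroni (fun _ => 1) (blk c j T) (fun _ _ => zero_le_one) (fun _ _ => le_rfl)
      (2 * k j)
    have h4 : (-1 : ℝ) ^ (2 * k j) = 1 := by rw [pow_mul]; norm_num
    rw [h4, one_mul] at h3
    exact h3
  have hV0 : ∀ j, 0 ≤ Vp (fun _ => 1) (blk c j T) := fun j => Vp_nonneg _ _ fun _ _ => le_rfl
  constructor
  · have h5 := prod_lower t (fun j => Vp (fun _ => 1) (blk c j T))
      (fun j => Bm (fun _ => 1) (2 * k j) (blk c j T))
      (fun j => em (fun _ => 1) (2 * k j + 1) (blk c j T))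
      (fun j _ => hV0 j) (fun j _ => by linarith [(hb j).1]) (fun j _ => (hb j).2)
    rw [hV] at h5
    refine le_trans (le_of_eq ?_) h5
    unfold lamm
    rw [Finset.sum_sub_distrib, h1, Finset.sum_comm]
    congr 1
    exact Finset.sum_congr rfl fun l _ => h2 l
  · rw [h1, ← hV]
    exact Finset.prod_le_prod (fun j _ => hV0 j) (fun j _ => by linarith [(hb j).1])

/-- main terms, abstract version. -/
theorem main_terms (c k : ℕ → ℕ) (t : ℕ) (g : ℕ → ℝ) (P : Finset ℕ) (hP : ∀ p ∈ P, c p < t)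
    (h0 : ∀ p ∈ P, 0 ≤ g p) (h1 : ∀ p ∈ P, g p < 1) (ε : ℕ → ℝ) (hε0 : ∀ j, 0 ≤ ε j)
    (hε : ∀ j ∈ range t, em g (2 * k j + 1) (blk c j P) ≤ ε j * Vp g (blk c j P))
    (E : ℝ) (hE : ∑ j ∈ range t, ε j ≤ E) (hE1 : E ≤ 1 / 2) :
    (1 - E) * Vp g P ≤ ∑ D ∈ P.powerset, lamm c k t D * gp g D ∧
      ∑ D ∈ P.powerset, lamp c k t D * gp g D ≤ (1 + 2 * E) * Vp g P := by
  have hb : ∀ j, 0 ≤ Bm g (2 * k j) (blk c j P) - Vp g (blk c j P) ∧
      Bm g (2 * k j) (blk c j P) - Vp g (blk c j P) ≤ em g (2 * k j + 1) (blk c j P) := by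
    intro j
    have h3 := bonferroni g (blk c j P)
      (fun p hp => h0 p (Finset.mem_of_mem_filter p hp))
      (fun p hp => (h1 p (Finset.mem_of_mem_filter p hp)).le) (2 * k j)
    have h4 : (-1 : ℝ) ^ (2 * k j) = 1 := by rw [pow_mul]; norm_num
    rw [h4, one_mul] at h3
    exact h3
  have hVpos : ∀ j, 0 < Vp g (blk c j P) := fun j =>
    Finset.prod_pos fun p hp => by linarith [h1 p (Finset.mem_of_mem_filter p hp)]
  have hV : ∏ j ∈ range t, Vp g (blk c j P) = Vp g P := prod_Vp_blocks c g t P hP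
  have hVP : 0 < Vp g P := Finset.prod_pos fun p hp => by linarith [h1 p hp]
  have hE0 : 0 ≤ E := (Finset.sum_nonneg fun j _ => hε0 j).trans hE
  constructor
  · have h5 : ∑ D ∈ P.powerset, lamm c k t D * gp g D =
        ∏ j ∈ range t, Bm g (2 * k j) (blk c j P) -
          ∑ l ∈ range t, ∏ j ∈ range t, (if j = l then em g (2 * k j + 1) (blk c j P)
            else Bm g (2 * k j) (blk c j P)) := by
      unfold lamm
      simp only [sub_mul, Finset.sum_mul]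
      rw [Finset.sum_sub_distrib, sum_lamp c k t g P hP, Finset.sum_comm]
      congr 1
      exact Finset.sum_congr rfl fun l _ => sum_lamc c k t g P l hP
    rw [h5]
    have h6 : ∀ l ∈ range t, ∏ j ∈ range t, (if j = l then em g (2 * k j + 1) (blk c j P)
            else Bm g (2 * k j) (blk c j P)) ≤
        ε l * ∏ j ∈ range t, Bm g (2 * k j) (blk c j P) := by
      intro l hl
      rw [← Finset.mul_prod_erase (range t) _ hl, if_pos rfl,
        ← Finset.mul_prod_erase (range t) (fun j => Bm g (2 * k j) (blk c j P)) hl, ← mul_assoc]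
      have h7 : ∏ x ∈ (range t).erase l, (if x = l then em g (2 * k x + 1) (blk c x P)
            else Bm g (2 * k x) (blk c x P)) =
          ∏ x ∈ (range t).erase l, Bm g (2 * k x) (blk c x P) := by
        apply Finset.prod_congr rfl
        intro j hj
        rw [if_neg (Finset.ne_of_mem_erase hj)]
      rw [h7]
      apply mul_le_mul_of_nonneg_right
      · calc em g (2 * k l + 1) (blk c l P) ≤ ε l * Vp g (blk c l P) := hε l hl
          _ ≤ ε l * Bm g (2 * k l) (blk c l P) :=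
            mul_le_mul_of_nonneg_left (by linarith [(hb l).1]) (hε0 l)
      · exact Finset.prod_nonneg fun j _ => by linarith [(hb j).1, hVpos j]
    have h8 : ∏ j ∈ range t, Vp g (blk c j P) ≤ ∏ j ∈ range t, Bm g (2 * k j) (blk c j P) :=
      Finset.prod_le_prod (fun j _ => (hVpos j).le) fun j _ => by linarith [(hb j).1]
    rw [hV] at h8
    have h9 := Finset.sum_le_sum h6
    rw [← Finset.sum_mul] at h9
    have h10 : (∑ l ∈ range t, ε l) * ∏ j ∈ range t, Bm g (2 * k j) (blk c j P) ≤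
        E * ∏ j ∈ range t, Bm g (2 * k j) (blk c j P) :=
      mul_le_mul_of_nonneg_right hE (hVP.le.trans h8)
    have h11 : (1 - E) * Vp g P ≤ (1 - E) * ∏ j ∈ range t, Bm g (2 * k j) (blk c j P) :=
      mul_le_mul_of_nonneg_left h8 (by linarith)
    linarith
  · rw [sum_lamp c k t g P hP]
    have h6 : ∀ j ∈ range t, Bm g (2 * k j) (blk c j P) ≤ Vp g (blk c j P) * Real.exp (ε j) := by
      intro j hj
      have h7 : 1 + ε j ≤ Real.exp (ε j) := by linarith [Real.add_one_le_exp (ε j)]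
      have h8 : Bm g (2 * k j) (blk c j P) ≤ Vp g (blk c j P) * (1 + ε j) := by
        have := hε j hj
        have := (hb j).2
        linarith
      exact h8.trans (mul_le_mul_of_nonneg_left h7 (hVpos j).le)
    have h7 := Finset.prod_le_prod (s := range t)
      (fun j _ => by linarith [(hb j).1, hVpos j]) h6
    rw [Finset.prod_mul_distrib, hV, ← Real.exp_sum] at h7
    refine h7.trans ?_
    rw [mul_comm]
    apply mul_le_mul_of_nonneg_right _ hVP.le
    have h8 : Real.exp (∑ j ∈ range t, ε j) ≤ Real.exp E := Real.exp_le_exp.2 hE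
    have h9 : Real.exp E ≤ 1 / (1 - E) := by
      have h10 : 1 - E ≤ Real.exp (-E) := by linarith [Real.add_one_le_exp (-E)]
      rw [Real.exp_neg] at h10
      rw [le_div_iff₀ (by linarith)]
      have h11 := Real.exp_pos E
      calc Real.exp E * (1 - E) ≤ Real.exp E * (Real.exp E)⁻¹ :=
            mul_le_mul_of_nonneg_left h10 h11.le
        _ = 1 := mul_inv_cancel₀ h11.ne'
    have h10 : 1 / (1 - E) ≤ 1 + 2 * E := by
      rw [div_le_iff₀ (by linarith)]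
      nlinarith
    linarith

/-- dimension hypothesis -/
def Dim (κ K : ℝ) (P : Finset ℕ) (g : ℕ → ℝ) : Prop :=
  ∀ u v : ℝ, 2 ≤ u → u ≤ v →
    ∏ p ∈ P.filter (fun p : ℕ => u ≤ (p : ℝ) ∧ (p : ℝ) ≤ v), (1 - g p)⁻¹ ≤
      K * (Real.log v / Real.log u) ^ κ

lemma block_bound {κ K : ℝ} (hκ : 0 ≤ κ) (hK : 1 ≤ K) {z : ℝ} (hz : 2 ≤ z) (P : Finset ℕ)
    (g : ℕ → ℝ) (hP : ∀ p ∈ P, 2 ≤ p ∧ (p : ℝ) ≤ z) (h0 : ∀ p ∈ P, 0 ≤ g p)
    (h1 : ∀ p ∈ P, g p < 1) (hdim : Dim κ K P g) (j : ℕ) :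
    ∏ p ∈ blk (cz z) j P, (1 - g p)⁻¹ ≤ K * 2 ^ κ := by
  have h2κ : (1 : ℝ) ≤ 2 ^ κ := Real.one_le_rpow (by norm_num) hκ
  rcases Finset.eq_empty_or_nonempty (blk (cz z) j P) with he | ⟨p0, hp0⟩
  · rw [he, Finset.prod_empty]
    nlinarith
  · have hlz : 0 < Real.log z := Real.log_pos (by linarith)
    set lv := Real.log z / 2 ^ j with hlv
    have hlv0 : 0 < lv := by positivity
    have hmem : ∀ p ∈ blk (cz z) j P, 2 ≤ p ∧ Real.log p ≤ lv ∧ lv / 2 < Real.log p := by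
      intro p hp
      rw [blk, Finset.mem_filter] at hp
      have h4 := cz_bounds (hP p hp.1).1 (hP p hp.1).2
      rw [hp.2] at h4
      exact ⟨(hP p hp.1).1, h4⟩
    set u := max 2 (Real.exp (lv / 2)) with hu
    have hu2 : 2 ≤ u := le_max_left _ _
    have hv2 : 2 ≤ Real.exp lv := by
      have h5 := hmem p0 hp0
      have h6 : (2 : ℝ) ≤ p0 := by exact_mod_cast h5.1
      calc (2 : ℝ) ≤ p0 := h6
        _ = Real.exp (Real.log p0) := (Real.exp_log (by linarith)).symm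
        _ ≤ Real.exp lv := Real.exp_le_exp.2 h5.2.1
    have huv : u ≤ Real.exp lv := max_le hv2 (Real.exp_le_exp.2 (by linarith))
    have h5 := hdim u (Real.exp lv) hu2 huv
    have hlu : lv / 2 ≤ Real.log u := by
      have h6 := Real.log_le_log (Real.exp_pos _) (le_max_right 2 (Real.exp (lv / 2)))
      rwa [Real.log_exp] at h6
    have h7 : Real.log (Real.exp lv) / Real.log u ≤ 2 := by
      rw [Real.log_exp, div_le_iff₀ (by linarith)]
      linarith
    have h8 : (Real.log (Real.exp lv) / Real.log u) ^ κ ≤ 2 ^ κ := by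
      apply Real.rpow_le_rpow _ h7 hκ
      rw [Real.log_exp]
      apply div_nonneg hlv0.le
      linarith
    have h9 : K * (Real.log (Real.exp lv) / Real.log u) ^ κ ≤ K * 2 ^ κ :=
      mul_le_mul_of_nonneg_left h8 (by linarith)
    refine le_trans ?_ (h5.trans h9)
    have hsub : blk (cz z) j P ⊆ P.filter (fun p : ℕ => u ≤ (p : ℝ) ∧ (p : ℝ) ≤ Real.exp lv) := by
      intro p hp
      have h10 := hmem p hp
      have hp2 : (2 : ℝ) ≤ p := by exact_mod_cast h10.1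
      rw [Finset.mem_filter]
      refine ⟨Finset.mem_of_mem_filter p hp, ?_, ?_⟩
      · apply max_le hp2
        rw [← Real.exp_log (by linarith : (0 : ℝ) < p)]
        exact Real.exp_le_exp.2 h10.2.2.le
      · rw [← Real.exp_log (by linarith : (0 : ℝ) < p)]
        exact Real.exp_le_exp.2 h10.2.1
    rw [← Finset.prod_sdiff hsub]
    have h11 : ∀ p ∈ P, 1 ≤ (1 - g p)⁻¹ := by
      intro p hp
      rw [le_inv_comm₀ one_pos (by linarith [h1 p hp])]
      simp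
      exact h0 p hp
    have h12 : (1 : ℝ) ≤ ∏ x ∈ P.filter (fun p : ℕ => u ≤ (p : ℝ) ∧ (p : ℝ) ≤ Real.exp lv) \
        blk (cz z) j P, (1 - g x)⁻¹ := by
      calc (1 : ℝ) = ∏ _x ∈ P.filter (fun p : ℕ => u ≤ (p : ℝ) ∧ (p : ℝ) ≤ Real.exp lv) \
            blk (cz z) j P, (1 : ℝ) := by rw [Finset.prod_const_one]
        _ ≤ _ := by
          apply Finset.prod_le_prod (fun _ _ => zero_le_one)
          intro p hp
          exact h11 p (Finset.mem_of_mem_filter p (Finset.mem_sdiff.1 hp).1)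
    have h13 : 0 ≤ ∏ x ∈ blk (cz z) j P, (1 - g x)⁻¹ := by
      apply Finset.prod_nonneg
      intro p hp
      exact zero_le_one.trans (h11 p (Finset.mem_of_mem_filter p hp))
    nlinarith [mul_le_mul_of_nonneg_right h12 h13]

lemma em_block_le {κ K : ℝ} (hκ : 0 ≤ κ) (hK : 1 ≤ K) {z : ℝ} (hz : 2 ≤ z) (P : Finset ℕ)
    (g : ℕ → ℝ) (hP : ∀ p ∈ P, 2 ≤ p ∧ (p : ℝ) ≤ z) (h0 : ∀ p ∈ P, 0 ≤ g p)
    (h1 : ∀ p ∈ P, g p < 1) (hdim : Dim κ K P g) (j m : ℕ) :
    em g m (blk (cz z) j P) ≤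
      (K * 2 ^ κ) * (Real.log (K * 2 ^ κ)) ^ m / m.factorial * Vp g (blk (cz z) j P) := by
  have hb := block_bound hκ hK hz P g hP h0 h1 hdim j
  have h2κ : (1 : ℝ) ≤ 2 ^ κ := Real.one_le_rpow (by norm_num) hκ
  have hM : 1 ≤ K * 2 ^ κ := by nlinarith
  have h0' : ∀ p ∈ blk (cz z) j P, 0 ≤ g p := fun p hp => h0 p (Finset.mem_of_mem_filter p hp)
  have h1' : ∀ p ∈ blk (cz z) j P, g p < 1 := fun p hp => h1 p (Finset.mem_of_mem_filter p hp)
  have hV : 0 < Vp g (blk (cz z) j P) := Finset.prod_pos fun p hp => by linarith [h1' p hp]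
  have hVi : 1 ≤ (K * 2 ^ κ) * Vp g (blk (cz z) j P) := by
    have h3 : (Vp g (blk (cz z) j P))⁻¹ ≤ K * 2 ^ κ := by
      rw [Vp, ← Finset.prod_inv_distrib]; exact hb
    calc (1 : ℝ) = (Vp g (blk (cz z) j P))⁻¹ * Vp g (blk (cz z) j P) :=
          (inv_mul_cancel₀ hV.ne').symm
      _ ≤ _ := mul_le_mul_of_nonneg_right h3 hV.le
  have hsum : ∑ p ∈ blk (cz z) j P, g p ≤ Real.log (K * 2 ^ κ) := by
    have h4 : ∑ p ∈ blk (cz z) j P, g p ≤
        Real.log (∏ p ∈ blk (cz z) j P, (1 - g p)⁻¹) := by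
      rw [Real.log_prod (fun p hp => by
        have := h1' p hp
        exact inv_ne_zero (by linarith))]
      apply Finset.sum_le_sum
      intro p hp
      rw [Real.log_inv]
      have h5 : Real.log (1 - g p) ≤ (1 - g p) - 1 :=
        Real.log_le_sub_one_of_pos (by linarith [h1' p hp])
      linarith
    refine h4.trans (Real.log_le_log ?_ hb)
    exact Finset.prod_pos fun p hp => inv_pos.2 (by linarith [h1' p hp])
  have hs0 : 0 ≤ ∑ p ∈ blk (cz z) j P, g p := Finset.sum_nonneg h0'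
  calc em g m (blk (cz z) j P)
      ≤ (∑ p ∈ blk (cz z) j P, g p) ^ m / m.factorial := em_le g _ h0' m
    _ ≤ (Real.log (K * 2 ^ κ)) ^ m / m.factorial :=
        div_le_div_of_nonneg_right (pow_le_pow_left₀ hs0 hsum m) (by positivity)
    _ = (Real.log (K * 2 ^ κ)) ^ m / m.factorial * 1 := (mul_one _).symm
    _ ≤ (Real.log (K * 2 ^ κ)) ^ m / m.factorial * ((K * 2 ^ κ) * Vp g (blk (cz z) j P)) :=
        mul_le_mul_of_nonneg_left hVi (div_nonneg (pow_nonneg (Real.log_nonneg hM) _)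
          (by positivity))
    _ = _ := by ring

lemma tail_small (M Λ E : ℝ) (hM : 0 ≤ M) (hE : 0 < E) :
    ∃ k0 : ℕ, ∀ t : ℕ, ∑ j ∈ range t, M * Λ ^ (2 * (k0 + j) + 1) /
      ((2 * (k0 + j) + 1).factorial : ℝ) ≤ E := by
  have h1 := FloorSemiring.tendsto_pow_div_factorial_atTop (2 * Λ)
  have hδ : 0 < E / (2 * (M + 1)) := by positivity
  have h2 := (h1.eventually (Metric.ball_mem_nhds (0 : ℝ) hδ))
  rw [Filter.eventually_atTop] at h2
  obtain ⟨N, hN⟩ := h2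
  refine ⟨N, fun t => ?_⟩
  have h3 : ∀ j ∈ range t, M * Λ ^ (2 * (N + j) + 1) / ((2 * (N + j) + 1).factorial : ℝ) ≤
      E / 2 * (1 / 2) ^ j := by
    intro j _
    set n := 2 * (N + j) + 1 with hn
    have h4 := hN n (by omega)
    rw [dist_zero_right, Real.norm_eq_abs] at h4
    have h5 : Λ ^ n / (n.factorial : ℝ) = (2 * Λ) ^ n / (n.factorial : ℝ) * (1 / 2) ^ n := by
      rw [mul_pow, one_div, inv_pow]
      field_simp
    have h6 : Λ ^ n / (n.factorial : ℝ) ≤ E / (2 * (M + 1)) * (1 / 2) ^ n := by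
      rw [h5]
      exact mul_le_mul_of_nonneg_right ((le_abs_self _).trans h4.le) (by positivity)
    have h7 : ((1 : ℝ) / 2) ^ n ≤ (1 / 2) ^ j :=
      pow_le_pow_of_le_one (by norm_num) (by norm_num) (by omega)
    calc M * Λ ^ n / (n.factorial : ℝ) = M * (Λ ^ n / (n.factorial : ℝ)) := by ring
      _ ≤ M * (E / (2 * (M + 1)) * (1 / 2) ^ n) := mul_le_mul_of_nonneg_left h6 hM
      _ ≤ M * (E / (2 * (M + 1)) * (1 / 2) ^ j) := by gcongr
      _ ≤ (M + 1) * (E / (2 * (M + 1)) * (1 / 2) ^ j) := by gcongr; linarith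
      _ = E / 2 * (1 / 2) ^ j := by field_simp
  refine (Finset.sum_le_sum h3).trans ?_
  rw [← Finset.mul_sum]
  have h8 : ∑ i ∈ range t, ((1 : ℝ) / 2) ^ i ≤ 2 := by
    have := geom_sum_eq (by norm_num : (1 / 2 : ℝ) ≠ 1) t
    rw [this]
    have h9 : (0 : ℝ) ≤ (1 / 2) ^ t := by positivity
    rw [div_le_iff_of_neg (by norm_num)]
    linarith
  nlinarith

/-- **Fundamental lemma of the sieve** (two-sided, any dimension, weights form). The weights
depend only on `z` (and the accuracy parameter), not on `g` or `P`. -/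
theorem fundamental (κ K η : ℝ) (hκ : 0 ≤ κ) (hK : 1 ≤ K) (hη : 0 < η) :
    ∃ s : ℕ, 1 ≤ s ∧ ∀ z : ℝ, 2 ≤ z → ∃ lp lm : Finset ℕ → ℝ,
      (∀ D, |lp D| ≤ 1) ∧ (∀ D, |lm D| ≤ 1) ∧
      (∀ D : Finset ℕ, (∀ p ∈ D, 2 ≤ p ∧ (p : ℝ) ≤ z) → lp D ≠ 0 → ∏ p ∈ D, (p : ℝ) ≤ z ^ s) ∧
      (∀ D : Finset ℕ, (∀ p ∈ D, 2 ≤ p ∧ (p : ℝ) ≤ z) → lm D ≠ 0 → ∏ p ∈ D, (p : ℝ) ≤ z ^ s) ∧
      (∀ T : Finset ℕ, (∀ p ∈ T, 2 ≤ p ∧ (p : ℝ) ≤ z) →
        ∑ D ∈ T.powerset, lm D ≤ (if T = ∅ then 1 else 0) ∧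
        (if T = ∅ then (1 : ℝ) else 0) ≤ ∑ D ∈ T.powerset, lp D) ∧
      (∀ (P : Finset ℕ) (g : ℕ → ℝ), (∀ p ∈ P, 2 ≤ p ∧ (p : ℝ) ≤ z) → (∀ p ∈ P, 0 ≤ g p) →
        (∀ p ∈ P, g p < 1) → Dim κ K P g →
        (1 - η) * ∏ p ∈ P, (1 - g p) ≤ ∑ D ∈ P.powerset, lm D * ∏ p ∈ D, g p ∧
        ∑ D ∈ P.powerset, lp D * ∏ p ∈ D, g p ≤ (1 + η) * ∏ p ∈ P, (1 - g p)) := by
  set M := K * 2 ^ κ with hM
  have h2κ : (1 : ℝ) ≤ 2 ^ κ := Real.one_le_rpow (by norm_num) hκ
  have hM1 : 1 ≤ M := by rw [hM]; nlinarith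
  set E := min (η / 2) (1 / 2) with hE
  have hE0 : 0 < E := lt_min (by linarith) (by norm_num)
  have hE1 : E ≤ 1 / 2 := min_le_right _ _
  have hE2 : E ≤ η / 2 := min_le_left _ _
  obtain ⟨k0, hk0⟩ := tail_small M (Real.log M) E (by linarith) hE0
  refine ⟨4 * k0 + 6, by omega, fun z hz => ?_⟩
  have hcz : ∀ T : Finset ℕ, (∀ p ∈ T, 2 ≤ p ∧ (p : ℝ) ≤ z) → ∀ p ∈ T, cz z p < tz z :=
    fun T hT p hp => cz_lt (hT p hp).1 (hT p hp).2
  refine ⟨lamp (cz z) (fun j => k0 + j) (tz z), lamm (cz z) (fun j => k0 + j) (tz z),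
    abs_lamp_le _ _ _, abs_lamm_le _ _ _, ?_, ?_, ?_, ?_⟩
  · intro D hD h
    have := level_le k0 (by linarith : (1 : ℝ) ≤ z) D hD (card_of_lamp_ne _ _ _ D h)
    rwa [Real.rpow_natCast] at this
  · intro D hD h
    have := level_le k0 (by linarith : (1 : ℝ) ≤ z) D hD (card_of_lamm_ne _ _ _ D h)
    rwa [Real.rpow_natCast] at this
  · intro T hT
    exact sandwich _ _ _ T (hcz T hT)
  · intro P g hP h0 h1 hdim
    have h5 := main_terms (cz z) (fun j => k0 + j) (tz z) g P (hcz P hP) h0 h1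
      (fun j => M * (Real.log M) ^ (2 * (k0 + j) + 1) / ((2 * (k0 + j) + 1).factorial : ℝ))
      (fun j => by
        have := Real.log_nonneg hM1
        positivity)
      (fun j _ => em_block_le hκ hK hz P g hP h0 h1 hdim j _)
      E (hk0 _) hE1
    have hV : 0 ≤ Vp g P := Vp_nonneg g P fun p hp => (h1 p hp).le
    constructor
    · refine le_trans ?_ h5.1
      apply mul_le_mul_of_nonneg_right _ hV
      linarith
    · refine h5.2.trans ?_
      apply mul_le_mul_of_nonneg_right _ hV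
      linarith

end Crest.Agent.R001.FL
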