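import Mathlib
import Crest.Agent.Lib.LinSieve.Cor

/-!
# R1, block FIN (3): prime counting in one progression
-/

set_option autoImplicit false

namespace Crest.Agent.R001.Fin

open Finset ArithmeticFunction

/-- Siegel–Walfisz for the von Mangoldt function in progressions. -/
def SWprog : Prop := ∀ A B : ℝ, ∃ C : ℝ, ∀ x : ℝ, 2 ≤ x → ∀ q : ℕ, 1 ≤ q →
  (q : ℝ) ≤ (Real.log x) ^ B → ∀ b : ℕ, Nat.Coprime b q →
  |(∑ n ∈ (Finset.Ioc 0 ⌊x⌋₊).filter (fun n => n ≡ b [MOD q]), vonMangoldt n) -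
    x / (Nat.totient q : ℝ)| ≤ C * x / (Real.log x) ^ A

lemma prog_set (q b H : ℕ) (hq : 1 ≤ q) (hb : 1 ≤ b) (hH : 1 ≤ H) :
    (Finset.Ioc (b - 1) (b + q * (H - 1))).filter (fun n => n ≡ b [MOD q]) =
      (Finset.range H).image (fun j => b + q * j) := by
  ext n
  simp only [Finset.mem_filter, Finset.mem_Ioc, Finset.mem_image, Finset.mem_range]
  constructor
  · rintro ⟨⟨h1, h2⟩, h3⟩
    have hbn : b ≤ n := by omega
    have h4 : q ∣ n - b := (Nat.modEq_iff_dvd' hbn).1 h3.symm
    obtain ⟨j, hj⟩ := h4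
    refine ⟨j, ?_, by omega⟩
    have h5 : q * j ≤ q * (H - 1) := by omega
    have h6 := Nat.le_of_mul_le_mul_left h5 (by omega)
    omega
  · rintro ⟨j, hj, rfl⟩
    refine ⟨⟨by omega, ?_⟩, ?_⟩
    · have : q * j ≤ q * (H - 1) := Nat.mul_le_mul_left q (by omega)
      omega
    · have : b + q * j ≡ b + 0 [MOD q] := Nat.ModEq.add_left b
        ((Nat.modEq_zero_iff_dvd).2 (Dvd.intro _ rfl))
      simpa using this

lemma sum_prog (q b H : ℕ) (hq : 1 ≤ q) (hb : 1 ≤ b) (hH : 1 ≤ H) :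
    (∑ n ∈ (Finset.Ioc 0 (b + q * (H - 1))).filter (fun n => n ≡ b [MOD q]), vonMangoldt n) =
      (∑ n ∈ (Finset.Ioc 0 (b - 1)).filter (fun n => n ≡ b [MOD q]), vonMangoldt n) +
      ∑ j ∈ Finset.range H, vonMangoldt (b + q * j) := by
  have h1 : Finset.Ioc 0 (b + q * (H - 1)) = Finset.Ioc 0 (b - 1) ∪
      Finset.Ioc (b - 1) (b + q * (H - 1)) :=
    (Finset.Ioc_union_Ioc_eq_Ioc (by omega) (by omega)).symm
  rw [h1, Finset.filter_union, Finset.sum_union, prog_set q b H hq hb hH, Finset.sum_image]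
  · intro i _ j _ hij
    have : q * i = q * j := by simpa using hij
    exact Nat.eq_of_mul_eq_mul_left (by omega) this
  · apply Finset.disjoint_filter_filter
    rw [Finset.disjoint_left]
    intro x hx hx2
    rw [Finset.mem_Ioc] at hx hx2
    omega

/-- lower bound for the number of primes in one progression -/
theorem nprime_lower {q b H : ℕ} {Y E : ℝ} (hq : 1 ≤ q) (hb : 1 ≤ b) (hH : 1 ≤ H)
    (hY : ((b + q * (H - 1) : ℕ) : ℝ) ≤ Y) (hY1 : 1 ≤ Y)
    (hE : ∀ n : ℕ, (n : ℝ) ≤ Y →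
      |(∑ m ∈ (Finset.Ioc 0 n).filter (fun m => m ≡ b [MOD q]), vonMangoldt m) -
        n / (Nat.totient q : ℝ)| ≤ E) :
    (q : ℝ) * ((H : ℝ) - 1) / Nat.totient q - 2 * E - 2 * Real.sqrt Y * Real.log Y ≤
      (((Finset.range H).filter (fun j => (b + q * j).Prime)).card : ℝ) * Real.log Y := by
  have hφ : (0 : ℝ) < Nat.totient q := by exact_mod_cast Nat.totient_pos.2 (by omega)
  have hY0 : 0 ≤ Y := by linarith
  -- the `Λ`-sum
  have h1 : (q : ℝ) * ((H : ℝ) - 1) / Nat.totient q - 2 * E ≤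
      ∑ j ∈ Finset.range H, vonMangoldt (b + q * j) := by
    have e1 := hE (b + q * (H - 1)) hY
    have hb1 : ((b - 1 : ℕ) : ℝ) ≤ Y := by
      refine le_trans ?_ hY
      exact_mod_cast (by omega : b - 1 ≤ b + q * (H - 1))
    have e2 := hE (b - 1) hb1
    rw [sum_prog q b H hq hb hH] at e1
    have e3 := (abs_le.1 e1).1
    have e4 := (abs_le.1 e2).2
    have e5 : (((b + q * (H - 1) : ℕ) : ℝ)) / Nat.totient q - ((b - 1 : ℕ) : ℝ) / Nat.totient q ≥
        (q : ℝ) * ((H : ℝ) - 1) / Nat.totient q := by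
      rw [ge_iff_le, ← sub_div]
      apply div_le_div_of_nonneg_right _ hφ.le
      have : ((b + q * (H - 1) : ℕ) : ℝ) = ((b : ℝ) + q * ((H : ℝ) - 1)) := by
        push_cast [Nat.cast_sub hH]; ring
      rw [this]
      have : ((b - 1 : ℕ) : ℝ) = (b : ℝ) - 1 := by push_cast [Nat.cast_sub hb]; ring
      rw [this]
      linarith
    linarith
  -- remove the prime powers
  have h2 : ∑ j ∈ Finset.range H, vonMangoldt (b + q * j) ≤
      (((Finset.range H).filter (fun j => (b + q * j).Prime)).card : ℝ) * Real.log Y +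
        2 * Real.sqrt Y * Real.log Y := by
    rw [← Finset.sum_filter_add_sum_filter_not (Finset.range H) (fun j => (b + q * j).Prime)]
    refine add_le_add ?_ ?_
    · rw [← nsmul_eq_mul]
      refine Finset.sum_le_card_nsmul _ _ _ fun j hj => ?_
      rw [Finset.mem_filter, Finset.mem_range] at hj
      rw [vonMangoldt_apply_prime hj.2]
      apply Real.log_le_log
      · exact_mod_cast hj.2.pos
      · refine le_trans ?_ hY
        have : b + q * j ≤ b + q * (H - 1) := Nat.add_le_add_left (Nat.mul_le_mul_left q (by omega)) b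
        exact_mod_cast this
    · refine le_trans ?_ (Chebyshev.psi_sub_theta_le hY1)
      rw [Chebyshev.psi_sub_theta_eq_sum_not_prime]
      rw [← Finset.sum_image (f := fun n => vonMangoldt n) (g := fun j => b + q * j)
        (s := (Finset.range H).filter (fun j => ¬ (b + q * j).Prime))]
      · refine Finset.sum_le_sum_of_subset_of_nonneg ?_ fun n _ _ => vonMangoldt_nonneg
        intro n hn
        rw [Finset.mem_image] at hn
        obtain ⟨j, hj, rfl⟩ := hn
        rw [Finset.mem_filter, Finset.mem_range] at hj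
        rw [Finset.mem_filter, Finset.mem_Ioc]
        refine ⟨⟨by omega, Nat.le_floor ?_⟩, hj.2⟩
        refine le_trans ?_ hY
        have : b + q * j ≤ b + q * (H - 1) := Nat.add_le_add_left (Nat.mul_le_mul_left q (by omega)) b
        exact_mod_cast this
      · intro i _ j _ hij
        have : q * i = q * j := by simpa using hij
        exact Nat.eq_of_mul_eq_mul_left (by omega) this
  linarith

/-- the error bound extracted from Siegel–Walfisz, uniform for all `n ≤ Y` -/
theorem sw_error {A B C Y y0 : ℝ} (hA : 0 ≤ A) (hB : 0 ≤ B) (hC : 0 ≤ C) (hy0 : 3 ≤ y0)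
    {q b : ℕ} (hq : 1 ≤ q) (hbq : Nat.Coprime b q) (hqB : (q : ℝ) ≤ (Real.log y0) ^ B)
    (hSW : ∀ x : ℝ, 2 ≤ x → ∀ q : ℕ, 1 ≤ q →
      (q : ℝ) ≤ (Real.log x) ^ B → ∀ b : ℕ, Nat.Coprime b q →
      |(∑ n ∈ (Finset.Ioc 0 ⌊x⌋₊).filter (fun n => n ≡ b [MOD q]), vonMangoldt n) -
        x / (Nat.totient q : ℝ)| ≤ C * x / (Real.log x) ^ A) (n : ℕ) (hn : (n : ℝ) ≤ Y) :
    |(∑ m ∈ (Finset.Ioc 0 n).filter (fun m => m ≡ b [MOD q]), vonMangoldt m) -
        n / (Nat.totient q : ℝ)| ≤ C * Y / (Real.log y0) ^ A + 6 * y0 := by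
  have hly0 : 1 < Real.log y0 := by
    rw [Real.lt_log_iff_exp_lt (by linarith)]
    have := Real.exp_one_lt_d9
    linarith
  have hlA : 0 < (Real.log y0) ^ A := Real.rpow_pos_of_pos (by linarith) A
  have hφ : (1 : ℝ) ≤ Nat.totient q := by exact_mod_cast Nat.totient_pos.2 (by omega)
  by_cases h : y0 ≤ n
  · have hn2 : (2 : ℝ) ≤ n := by linarith
    have hlog : Real.log y0 ≤ Real.log n := Real.log_le_log (by linarith) h
    have h1 := hSW n hn2 q hq (hqB.trans (Real.rpow_le_rpow (by linarith) hlog hB)) b hbq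
    rw [Nat.floor_natCast] at h1
    refine h1.trans ?_
    have h2 : C * n / (Real.log n) ^ A ≤ C * Y / (Real.log y0) ^ A := by
      apply div_le_div₀ (mul_nonneg hC (by linarith)) (mul_le_mul_of_nonneg_left hn hC) hlA
      exact Real.rpow_le_rpow (by linarith) hlog hA
    linarith
  · have hn' : (n : ℝ) ≤ y0 := by linarith [not_le.1 h]
    have h1 : 0 ≤ (∑ m ∈ (Finset.Ioc 0 n).filter (fun m => m ≡ b [MOD q]), vonMangoldt m) :=
      Finset.sum_nonneg fun _ _ => vonMangoldt_nonneg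
    have h2 : (∑ m ∈ (Finset.Ioc 0 n).filter (fun m => m ≡ b [MOD q]), vonMangoldt m) ≤ 6 * y0 := by
      have h3 : (∑ m ∈ (Finset.Ioc 0 n).filter (fun m => m ≡ b [MOD q]), vonMangoldt m) ≤
          Chebyshev.psi n := by
        unfold Chebyshev.psi
        rw [Nat.floor_natCast]
        exact Finset.sum_le_sum_of_subset_of_nonneg (Finset.filter_subset _ _)
          fun _ _ _ => vonMangoldt_nonneg
      have h4 := Chebyshev.psi_le_const_mul_self (x := (n : ℝ)) (Nat.cast_nonneg n)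
      have h5 : Real.log 4 + 4 ≤ 6 := by
        have : Real.log 4 = 2 * Real.log 2 := by
          rw [show (4 : ℝ) = 2 ^ (2 : ℕ) by norm_num, Real.log_pow]; norm_num
        have := Real.log_two_lt_d9
        linarith
      have h6 : (Real.log 4 + 4) * (n : ℝ) ≤ 6 * y0 := by
        have hn0 : (0 : ℝ) ≤ n := Nat.cast_nonneg n
        nlinarith
      linarith
    have h3 : 0 ≤ (n : ℝ) / Nat.totient q := by positivity
    have h4 : (n : ℝ) / Nat.totient q ≤ 6 * y0 := by
      have : (n : ℝ) / Nat.totient q ≤ n := div_le_self (Nat.cast_nonneg n) hφ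
      have hn0 : (0 : ℝ) ≤ n := Nat.cast_nonneg n
      linarith
    have h5 : 0 ≤ C * Y / (Real.log y0) ^ A := by
      have : 0 ≤ Y := le_trans (Nat.cast_nonneg n) hn
      positivity
    rw [abs_le]
    constructor <;> linarith

/-- the number of `j < H` with `p ∣ a - s_j` and `b + q j` prime -/
theorem bad_count : ∃ C : ℝ, 0 < C ∧ ∀ (q b W p H : ℕ) (e s1 a : ℤ) (lam : ℝ), p.Prime →
    ¬ p ∣ W → (e = 1 ∨ e = -1) → 1 ≤ q → 2 ≤ H / p → 0 < lam →
    lam ≤ Real.log ((H / p : ℕ) : ℝ) →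
    (((Finset.range H).filter (fun j : ℕ => (p : ℤ) ∣ a - (s1 + e * W * j) ∧
      (b + q * j).Prime)).card : ℝ) ≤
      1 + C * ((q : ℝ) / Nat.totient q) * ((H : ℝ) / p) / lam := by
  classical
  obtain ⟨C, hC, hs⟩ := Crest.Agent.Lib.LinSieve.sieve_one
  refine ⟨2 * C, by positivity, ?_⟩
  intro q b W p H e s1 a lam hp hpW he hq hHp hlam hlamle
  have hφq : (0 : ℝ) < Nat.totient q := by exact_mod_cast Nat.totient_pos.2 (by omega)
  have hφp : (0 : ℝ) < Nat.totient p := by exact_mod_cast Nat.totient_pos.2 hp.pos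
  have hq0 : (0 : ℝ) < q := by exact_mod_cast hq
  have hp0 : (0 : ℝ) < p := by exact_mod_cast hp.pos
  set S := (Finset.range H).filter (fun j : ℕ => (p : ℤ) ∣ a - (s1 + e * W * j) ∧
      (b + q * j).Prime) with hS
  rcases S.eq_empty_or_nonempty with hemp | hne
  · rw [hemp, Finset.card_empty]
    push_cast
    positivity
  set j0 := S.min' hne with hj0
  have hj0S : j0 ∈ S := Finset.min'_mem _ _
  have hj0' := Finset.mem_filter.1 hj0S
  -- all elements are `≡ j0 (mod p)`
  have hcong : ∀ j ∈ S, ∃ i : ℕ, j = j0 + p * i ∧ i ≤ H / p := by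
    intro j hj
    have hj' := Finset.mem_filter.1 hj
    have hle : j0 ≤ j := Finset.min'_le _ _ hj
    have h1 : (p : ℤ) ∣ e * W * ((j : ℤ) - j0) := by
      have := dvd_sub hj0'.2.1 hj'.2.1
      have e1 : a - (s1 + e * W * (j0 : ℤ)) - (a - (s1 + e * W * (j : ℤ))) =
        e * W * ((j : ℤ) - j0) := by ring
      rwa [e1] at this
    have h2 : (p : ℤ) ∣ (W : ℤ) * ((j : ℤ) - j0) := by
      rcases he with rfl | rfl
      · simpa using h1
      · have : (-1 : ℤ) * W * ((j : ℤ) - j0) = -(W * ((j : ℤ) - j0)) := by ring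
        rw [this] at h1
        exact (dvd_neg.1 h1)
    have h3 : (p : ℤ) ∣ (j : ℤ) - j0 := by
      rcases (Nat.prime_iff_prime_int.1 hp).dvd_mul.1 h2 with h | h
      · exact absurd (Int.natCast_dvd_natCast.1 h) hpW
      · exact h
    have h4 : p ∣ j - j0 := by
      have : ((j - j0 : ℕ) : ℤ) = (j : ℤ) - j0 := by push_cast [Nat.cast_sub hle]; ring
      rw [← this] at h3
      exact_mod_cast h3
    obtain ⟨i, hi⟩ := h4
    refine ⟨i, by omega, ?_⟩
    rw [Nat.le_div_iff_mul_le hp.pos]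
    have := Finset.mem_range.1 hj'.1
    have e2 : i * p = p * i := Nat.mul_comm _ _
    omega
  -- injection of `S \ {j0}` into the sieved set
  have hcard : S.card ≤ 1 + ((Finset.Ioc 0 (H / p)).filter
      (fun m => ((q * p) * m + (b + q * j0)).Prime)).card := by
    have h1 : S ⊆ {j0} ∪ ((Finset.Ioc 0 (H / p)).filter
      (fun m => ((q * p) * m + (b + q * j0)).Prime)).image (fun i => j0 + p * i) := by
      intro j hj
      obtain ⟨i, hi, hiH⟩ := hcong j hj
      rw [Finset.mem_union, Finset.mem_singleton, Finset.mem_image]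
      rcases Nat.eq_zero_or_pos i with h0 | h0
      · left; rw [hi, h0]; ring
      · right
        refine ⟨i, ?_, hi.symm⟩
        rw [Finset.mem_filter, Finset.mem_Ioc]
        refine ⟨⟨h0, hiH⟩, ?_⟩
        have := (Finset.mem_filter.1 hj).2.2
        rw [hi] at this
        have e3 : b + q * (j0 + p * i) = q * p * i + (b + q * j0) := by ring
        rwa [e3] at this
    refine (Finset.card_le_card h1).trans ((Finset.card_union_le _ _).trans ?_)
    rw [Finset.card_singleton]
    exact Nat.add_le_add_left Finset.card_image_le 1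
  have h2 := hs (q * p) (b + q * j0) (Nat.mul_pos (by omega) hp.pos) (H / p) hHp
  have h3 : ((q * p : ℕ) : ℝ) / Nat.totient (q * p) ≤ 2 * ((q : ℝ) / Nat.totient q) := by
    have e1 : (Nat.totient q : ℝ) * Nat.totient p ≤ Nat.totient (q * p) := by
      exact_mod_cast Nat.totient_super_multiplicative q p
    have e2 : (p : ℝ) / Nat.totient p ≤ 2 := by
      rw [div_le_iff₀ hφp, Nat.totient_prime hp]
      have := hp.two_le
      have h5 : p ≤ 2 * (p - 1) := by omega
      exact_mod_cast h5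
    calc ((q * p : ℕ) : ℝ) / Nat.totient (q * p) ≤ ((q * p : ℕ) : ℝ) / (Nat.totient q * Nat.totient p) :=
          div_le_div_of_nonneg_left (by positivity) (by positivity) e1
      _ = ((q : ℝ) / Nat.totient q) * ((p : ℝ) / Nat.totient p) := by push_cast; field_simp
      _ ≤ ((q : ℝ) / Nat.totient q) * 2 := mul_le_mul_of_nonneg_left e2 (by positivity)
      _ = _ := by ring
  have h4 : ((H / p : ℕ) : ℝ) ≤ (H : ℝ) / p := Nat.cast_div_le
  have h5 : (((Finset.Ioc 0 (H / p)).filter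
      (fun m => ((q * p) * m + (b + q * j0)).Prime)).card : ℝ) ≤
      2 * C * ((q : ℝ) / Nat.totient q) * ((H : ℝ) / p) / lam := by
    refine h2.trans ?_
    have e1 : C * (((q * p : ℕ) : ℝ) / Nat.totient (q * p)) ≤
        C * (2 * ((q : ℝ) / Nat.totient q)) := mul_le_mul_of_nonneg_left h3 hC.le
    have e2 : ((H / p : ℕ) : ℝ) / Real.log ((H / p : ℕ) : ℝ) ≤ ((H : ℝ) / p) / lam :=
      div_le_div₀ (by positivity) h4 hlam hlamle
    have e3 : 0 ≤ ((H / p : ℕ) : ℝ) / Real.log ((H / p : ℕ) : ℝ) :=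
      div_nonneg (Nat.cast_nonneg _) (by linarith)
    calc C * (((q * p : ℕ) : ℝ) / Nat.totient (q * p)) *
          (((H / p : ℕ) : ℝ) / Real.log ((H / p : ℕ) : ℝ))
        ≤ C * (2 * ((q : ℝ) / Nat.totient q)) * (((H : ℝ) / p) / lam) :=
          mul_le_mul e1 e2 e3 (by positivity)
      _ = _ := by ring
  have h6 : (S.card : ℝ) ≤ 1 + (((Finset.Ioc 0 (H / p)).filter
      (fun m => ((q * p) * m + (b + q * j0)).Prime)).card : ℝ) := by exact_mod_cast hcard
  linarith

end Crest.Agent.R001.Fin
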