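import Mathlib

/-!
# R1, block FIN (1): the residue class modulo the small primes
-/

set_option autoImplicit false

namespace Crest.Agent.R001.Fin

open Finset

/-- local moduli: `4` at `2`, `p` at odd primes -/
def lm (p : ℕ) : ℕ := if p = 2 then 4 else p

/-- the modulus of the small primes -/
def Wd (T : ℕ) : ℕ := ∏ p ∈ (Finset.Icc 2 T).filter Nat.Prime, lm p

lemma lm_pos {p : ℕ} (hp : p.Prime) : 0 < lm p := by
  unfold lm; split_ifs
  · norm_num
  · exact hp.pos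

lemma Wd_pos (T : ℕ) : 0 < Wd T :=
  Finset.prod_pos fun p hp => lm_pos (Finset.mem_filter.1 hp).2

lemma dvd_lm {p : ℕ} : p ∣ lm p := by
  unfold lm; split_ifs with h
  · subst h; norm_num
  · exact dvd_rfl

lemma dvd_Wd {T p : ℕ} (hp : p.Prime) (hpT : p ≤ T) : p ∣ Wd T := by
  have : lm p ∣ Wd T := Finset.dvd_prod_of_mem _ (by
    rw [Finset.mem_filter, Finset.mem_Icc]; exact ⟨⟨hp.two_le, hpT⟩, hp⟩)
  exact dvd_lm.trans this

lemma le_of_dvd_Wd {T p : ℕ} (hp : p.Prime) (h : p ∣ Wd T) : p ≤ T := by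
  unfold Wd at h
  obtain ⟨i, hi, hpi⟩ := (Prime.dvd_finsetProd_iff hp.prime _).1 h
  rw [Finset.mem_filter, Finset.mem_Icc] at hi
  unfold lm at hpi
  split_ifs at hpi with h2
  · have : p ∣ 2 := by
      have h4 : p ∣ 2 ^ 2 := by simpa using hpi
      exact hp.dvd_of_dvd_pow h4
    have := (Nat.prime_dvd_prime_iff_eq hp Nat.prime_two).1 this
    omega
  · have := (Nat.prime_dvd_prime_iff_eq hp hi.2).1 hpi
    omega

lemma Wd_le (T : ℕ) : Wd T ≤ 2 * 4 ^ T := by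
  have h1 : Wd T ≤ 2 * primorial T := by
    unfold Wd primorial
    have hset : (Finset.range (T + 1)).filter Nat.Prime = (Finset.Icc 2 T).filter Nat.Prime := by
      ext p
      simp only [Finset.mem_filter, Finset.mem_range, Finset.mem_Icc]
      constructor
      · rintro ⟨h1, h2⟩; exact ⟨⟨h2.two_le, by omega⟩, h2⟩
      · rintro ⟨h1, h2⟩; exact ⟨by omega, h2⟩
    rw [hset]
    by_cases h2 : 2 ∈ (Finset.Icc 2 T).filter Nat.Prime
    · rw [← Finset.mul_prod_erase _ _ h2, ← Finset.mul_prod_erase _ (fun p => p) h2]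
      have : ∏ x ∈ ((Finset.Icc 2 T).filter Nat.Prime).erase 2, lm x =
          ∏ x ∈ ((Finset.Icc 2 T).filter Nat.Prime).erase 2, x := by
        refine Finset.prod_congr rfl fun x hx => ?_
        have := (Finset.mem_erase.1 hx).1
        simp [lm, this]
      rw [this]
      simp [lm]
      apply le_of_eq; ring
    · have : ∏ x ∈ ((Finset.Icc 2 T).filter Nat.Prime), lm x =
          ∏ x ∈ ((Finset.Icc 2 T).filter Nat.Prime), x := by
        refine Finset.prod_congr rfl fun x hx => ?_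
        have : x ≠ 2 := fun h => h2 (h ▸ hx)
        simp [lm, this]
      rw [this]
      omega
  refine h1.trans (Nat.mul_le_mul_left 2 (primorial_le_four_pow T))

lemma local_two (a U : ℤ) (V : ℕ) (hUV : Int.gcd U V = 1) :
    ∃ r : ℕ, ¬ (2 : ℤ) ∣ a - r ∧
      (¬ (2 : ℤ) ∣ U - V * r ∨ (¬ (2 : ℤ) ∣ (V : ℤ) ∧ (4 : ℤ) ∣ (U - V * r) - 2)) := by
  have hpar : ¬ ((2 : ℤ) ∣ U ∧ (2 : ℤ) ∣ (V : ℤ)) := by
    rintro ⟨h1, h2⟩
    have := Int.dvd_gcd h1 h2
    rw [hUV] at this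
    norm_num at this
  set v : ℤ := (V : ℤ) with hv
  rcases Int.even_or_odd a with ha | ha
  · by_cases h1 : (2 : ℤ) ∣ U - v
    · by_cases h2 : (4 : ℤ) ∣ (U - v) - 2
      · refine ⟨1, by push_cast; obtain ⟨k, hk⟩ := ha; omega, Or.inr ⟨by omega, by push_cast; omega⟩⟩
      · refine ⟨3, by push_cast; obtain ⟨k, hk⟩ := ha; omega, Or.inr ⟨by omega, by push_cast; omega⟩⟩
    · exact ⟨1, by push_cast; obtain ⟨k, hk⟩ := ha; omega, Or.inl (by push_cast; omega)⟩
  · by_cases h1 : (2 : ℤ) ∣ U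
    · by_cases h2 : (4 : ℤ) ∣ U - 2
      · refine ⟨0, by push_cast; obtain ⟨k, hk⟩ := ha; omega, Or.inr ⟨by omega, by push_cast; omega⟩⟩
      · refine ⟨2, by push_cast; obtain ⟨k, hk⟩ := ha; omega, Or.inr ⟨by omega, by push_cast; omega⟩⟩
    · exact ⟨0, by push_cast; obtain ⟨k, hk⟩ := ha; omega, Or.inl (by push_cast; omega)⟩

lemma local_odd (p : ℕ) (hp : p.Prime) (hp2 : p ≠ 2) (a U : ℤ) (V : ℕ) (hUV : Int.gcd U V = 1) :
    ∃ r : ℕ, ¬ (p : ℤ) ∣ a - r ∧ ¬ (p : ℤ) ∣ U - V * r := by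
  haveI : Fact p.Prime := ⟨hp⟩
  haveI : NeZero p := ⟨hp.ne_zero⟩
  by_cases hV : ((V : ℤ) : ZMod p) = 0
  · -- `p ∣ V`, hence `p ∤ U`
    have hpV : (p : ℤ) ∣ (V : ℤ) := (ZMod.intCast_zmod_eq_zero_iff_dvd _ _).1 hV
    refine ⟨((a : ZMod p) + 1).val, ?_, ?_⟩
    · intro h
      have h1 : ((a - (((a : ZMod p) + 1).val : ℤ) : ℤ) : ZMod p) = 0 :=
        (ZMod.intCast_zmod_eq_zero_iff_dvd _ _).2 h
      push_cast at h1
      rw [ZMod.natCast_val, ZMod.cast_id] at h1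
      have : (1 : ZMod p) = 0 := by linear_combination -h1
      exact one_ne_zero this
    · intro h
      have h2 : (p : ℤ) ∣ U := by
        have h3 : (p : ℤ) ∣ (V : ℤ) * (((a : ZMod p) + 1).val : ℤ) := Dvd.dvd.mul_right hpV _
        have := dvd_add h h3
        simpa using this
      have := Int.dvd_gcd h2 hpV
      rw [hUV] at this
      have h5 : (p : ℤ) ∣ 1 := by exact_mod_cast this
      have h6 : p ∣ 1 := by exact_mod_cast h5
      exact hp.one_lt.ne' (Nat.dvd_one.1 h6)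
  · -- choose a class different from `a` and `U / V`
    have hcard : 2 < Fintype.card (ZMod p) := by
      rw [ZMod.card]
      have := hp.two_le
      omega
    obtain ⟨x, hx⟩ : ∃ x : ZMod p, x ∉ ({(a : ZMod p), (U : ZMod p) / ((V : ℤ) : ZMod p)} :
        Finset (ZMod p)) := by
      by_contra hcon
      push Not at hcon
      have h1 : (Finset.univ : Finset (ZMod p)) ⊆ {(a : ZMod p), (U : ZMod p) / ((V : ℤ) : ZMod p)} :=
        fun x _ => hcon x
      have h2 := Finset.card_le_card h1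
      have h3 : ({(a : ZMod p), (U : ZMod p) / ((V : ℤ) : ZMod p)} : Finset (ZMod p)).card ≤ 2 :=
        Finset.card_le_two
      rw [Finset.card_univ] at h2
      omega
    rw [Finset.mem_insert, Finset.mem_singleton, not_or] at hx
    refine ⟨x.val, ?_, ?_⟩
    · intro h
      have h1 : ((a - ((x.val : ℕ) : ℤ) : ℤ) : ZMod p) = 0 :=
        (ZMod.intCast_zmod_eq_zero_iff_dvd _ _).2 h
      push_cast at h1
      rw [ZMod.natCast_val, ZMod.cast_id] at h1
      exact hx.1 (by linear_combination -h1)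
    · intro h
      have h1 : ((U - (V : ℤ) * ((x.val : ℕ) : ℤ) : ℤ) : ZMod p) = 0 :=
        (ZMod.intCast_zmod_eq_zero_iff_dvd _ _).2 h
      push_cast at h1
      rw [ZMod.natCast_val, ZMod.cast_id] at h1
      apply hx.2
      rw [eq_div_iff hV]
      push_cast
      linear_combination -h1

theorem crt (T : ℕ) (hT : 2 ≤ T) (a U : ℤ) (V : ℕ) (hUV : Int.gcd U V = 1) :
    ∃ (s0 g q : ℕ) (u0 : ℤ), s0 < Wd T ∧ (g = 1 ∨ g = 2) ∧
      (∀ p : ℕ, p.Prime → p ≤ T → ¬ (p : ℤ) ∣ a - s0) ∧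
      U - V * s0 = g * u0 ∧ V * Wd T = g * q ∧ Int.gcd u0 q = 1 := by
  classical
  have hloc : ∀ p : ℕ, ∃ r : ℕ, p.Prime → (¬ (p : ℤ) ∣ a - r ∧
      (p ≠ 2 → ¬ (p : ℤ) ∣ U - V * r) ∧
      (p = 2 → (¬ (2 : ℤ) ∣ U - V * r ∨ (¬ (2 : ℤ) ∣ (V : ℤ) ∧ (4 : ℤ) ∣ (U - V * r) - 2)))) := by
    intro p
    by_cases hp : p.Prime
    · by_cases h2 : p = 2
      · subst h2
        obtain ⟨r, h1, h3⟩ := local_two a U V hUV
        exact ⟨r, fun _ => ⟨by exact_mod_cast h1, fun h => absurd rfl h, fun _ => h3⟩⟩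
      · obtain ⟨r, h1, h3⟩ := local_odd p hp h2 a U V hUV
        exact ⟨r, fun _ => ⟨h1, fun _ => h3, fun h => absurd h h2⟩⟩
    · exact ⟨0, fun h => absurd h hp⟩
  choose r hr using hloc
  set t := (Finset.Icc 2 T).filter Nat.Prime with ht
  have hs : ∀ i ∈ t, lm i ≠ 0 := fun i hi => (lm_pos (Finset.mem_filter.1 hi).2).ne'
  have hpp : Set.Pairwise (t : Set ℕ) (Function.onFun Nat.Coprime lm) := by
    intro i hi j hj hij
    have hip := (Finset.mem_filter.1 (Finset.mem_coe.1 hi)).2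
    have hjp := (Finset.mem_filter.1 (Finset.mem_coe.1 hj)).2
    have hc : Nat.Coprime i j := (Nat.coprime_primes hip hjp).2 hij
    unfold Function.onFun lm
    split_ifs with h1 h2 h2
    · exact absurd (h1.trans h2.symm) hij
    · subst h1
      have : Nat.Coprime (2 ^ 2) j := Nat.Coprime.pow_left 2 hc
      simpa using this
    · subst h2
      have : Nat.Coprime i (2 ^ 2) := Nat.Coprime.pow_right 2 hc
      simpa using this
    · exact hc
  let K := Nat.chineseRemainderOfFinset r lm t hs hpp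
  have hKlt : (K : ℕ) < Wd T := Nat.chineseRemainderOfFinset_lt_prod r lm hs hpp
  set s0 : ℕ := (K : ℕ) with hs0
  have hK : ∀ i ∈ t, s0 ≡ r i [MOD lm i] := K.2
  have hmem : ∀ p : ℕ, p.Prime → p ≤ T → p ∈ t := fun p hp hpT => by
    rw [ht, Finset.mem_filter, Finset.mem_Icc]; exact ⟨⟨hp.two_le, hpT⟩, hp⟩
  have hcong : ∀ p : ℕ, p.Prime → p ≤ T → (lm p : ℤ) ∣ (r p : ℤ) - s0 := fun p hp hpT =>
    (Nat.modEq_iff_dvd.1 (hK p (hmem p hp hpT)))
  have hcongp : ∀ p : ℕ, p.Prime → p ≤ T → (p : ℤ) ∣ (r p : ℤ) - s0 := fun p hp hpT =>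
    (Int.natCast_dvd_natCast.2 dvd_lm).trans (hcong p hp hpT)
  have ha : ∀ p : ℕ, p.Prime → p ≤ T → ¬ (p : ℤ) ∣ a - s0 := by
    intro p hp hpT h
    apply (hr p hp).1
    have := dvd_sub h (hcongp p hp hpT)
    have e : a - (s0 : ℤ) - ((r p : ℤ) - s0) = a - r p := by ring
    rwa [e] at this
  have hodd : ∀ p : ℕ, p.Prime → p ≤ T → p ≠ 2 → ¬ (p : ℤ) ∣ U - V * s0 := by
    intro p hp hpT h2 h
    apply (hr p hp).2.1 h2
    have := dvd_sub h (Dvd.dvd.mul_left (hcongp p hp hpT) (V : ℤ))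
    have e : U - (V : ℤ) * (s0 : ℤ) - V * ((r p : ℤ) - s0) = U - V * r p := by ring
    rwa [e] at this
  have h4 : (4 : ℤ) ∣ (r 2 : ℤ) - s0 := by
    have := hcong 2 Nat.prime_two hT
    simpa [lm] using this
  have h4W : 4 ∣ Wd T := by
    have : lm 2 ∣ Wd T := Finset.dvd_prod_of_mem _ (hmem 2 Nat.prime_two hT)
    simpa [lm] using this
  have h4V : (4 : ℤ) ∣ (U - V * (r 2 : ℤ)) - (U - V * s0) := by
    have e : (U - V * (r 2 : ℤ)) - (U - V * s0) = -(V * ((r 2 : ℤ) - s0)) := by ring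
    rw [e]
    exact (Dvd.dvd.mul_left h4 _).neg_right
  rcases (hr 2 Nat.prime_two).2.2 rfl with h2 | ⟨hVodd, h2⟩
  · -- `g = 1`
    have h2' : ¬ (2 : ℤ) ∣ U - V * s0 := by
      intro h
      apply h2
      have : (2 : ℤ) ∣ (U - V * (r 2 : ℤ)) - (U - V * s0) := Dvd.dvd.trans (by norm_num) h4V
      have := dvd_add this h
      simpa using this
    refine ⟨s0, 1, V * Wd T, U - V * s0, hKlt, Or.inl rfl, ha, by push_cast; ring, by ring, ?_⟩
    by_contra hne
    obtain ⟨p, hp, hpd⟩ := Nat.exists_prime_and_dvd hne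
    have hpd1 : (p : ℤ) ∣ U - V * s0 :=
      (Int.natCast_dvd_natCast.2 hpd).trans (Int.gcd_dvd_left _ _)
    have hpd2 : (p : ℤ) ∣ ((V * Wd T : ℕ) : ℤ) :=
      (Int.natCast_dvd_natCast.2 hpd).trans (Int.gcd_dvd_right _ _)
    have hpd3 : p ∣ V * Wd T := by exact_mod_cast hpd2
    rcases (Nat.Prime.dvd_mul hp).1 hpd3 with h | h
    · have hV' : (p : ℤ) ∣ (V : ℤ) := Int.natCast_dvd_natCast.2 h
      have hU' : (p : ℤ) ∣ U := by
        have := dvd_add hpd1 (Dvd.dvd.mul_right hV' (s0 : ℤ))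
        simpa using this
      have := Int.dvd_gcd hU' hV'
      rw [hUV] at this
      have h6 : p ∣ 1 := by exact_mod_cast this
      exact hp.one_lt.ne' (Nat.dvd_one.1 h6)
    · have hpT := le_of_dvd_Wd hp h
      by_cases hp2 : p = 2
      · subst hp2; exact h2' (by exact_mod_cast hpd1)
      · exact hodd p hp hpT hp2 hpd1
  · -- `g = 2`
    have h2' : (4 : ℤ) ∣ (U - V * s0) - 2 := by
      have := dvd_sub h2 h4V
      have e : U - V * (r 2 : ℤ) - 2 - (U - V * (r 2 : ℤ) - (U - V * s0)) = (U - V * s0) - 2 := by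
        ring
      rwa [e] at this
    obtain ⟨k, hk⟩ := h2'
    obtain ⟨w, hw⟩ := h4W
    refine ⟨s0, 2, V * (2 * w), 2 * k + 1, hKlt, Or.inr rfl, ha, by push_cast; linarith,
      by rw [hw]; ring, ?_⟩
    by_contra hne
    obtain ⟨p, hp, hpd⟩ := Nat.exists_prime_and_dvd hne
    have hpd1 : (p : ℤ) ∣ 2 * k + 1 :=
      (Int.natCast_dvd_natCast.2 hpd).trans (Int.gcd_dvd_left _ _)
    have hpd2 : (p : ℤ) ∣ ((V * (2 * w) : ℕ) : ℤ) :=
      (Int.natCast_dvd_natCast.2 hpd).trans (Int.gcd_dvd_right _ _)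
    have hpd3 : p ∣ V * (2 * w) := by exact_mod_cast hpd2
    have hpd4 : (p : ℤ) ∣ U - V * s0 := by
      have e : U - V * s0 = 2 * (2 * k + 1) := by linarith
      rw [e]; exact Dvd.dvd.mul_left hpd1 2
    rcases (Nat.Prime.dvd_mul hp).1 hpd3 with h | h
    · have hV' : (p : ℤ) ∣ (V : ℤ) := Int.natCast_dvd_natCast.2 h
      have hU' : (p : ℤ) ∣ U := by
        have := dvd_add hpd4 (Dvd.dvd.mul_right hV' (s0 : ℤ))
        simpa using this
      have := Int.dvd_gcd hU' hV'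
      rw [hUV] at this
      have h6 : p ∣ 1 := by exact_mod_cast this
      exact hp.one_lt.ne' (Nat.dvd_one.1 h6)
    · have hpW : p ∣ Wd T := by
        rw [hw]
        exact h.trans ⟨2, by ring⟩
      have hpT := le_of_dvd_Wd hp hpW
      by_cases hp2 : p = 2
      · subst hp2
        have : (2 : ℤ) ∣ 2 * k + 1 := by exact_mod_cast hpd1
        omega
      · exact hodd p hp hpT hp2 hpd4

end Crest.Agent.R001.Fin
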