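import Mathlib
import Crest.Agent.R001.FinCrt

/-!
# R1, block FIN (2): parametrisation of half of the progression
-/

set_option autoImplicit false

namespace Crest.Agent.R001.Fin

/-- In the progression `s ≡ s0 (mod W)`, `0 ≤ s < X`, half of the terms have `U - V s` of constant
sign: `U - V s_j = -e g (b + q j)` with `e = ±1`, `b ≥ 0`. -/
theorem param (X W V g q s0 : ℕ) (U u0 : ℤ) (hW : 0 < W) (hs0 : s0 < W) (hq : 2 ≤ q)
    (hu0 : U - V * s0 = g * u0) (hVW : V * W = g * q) (hgcd : Int.gcd u0 q = 1) :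
    ∃ (e s1 : ℤ) (b : ℕ), (e = 1 ∨ e = -1) ∧ 1 ≤ b ∧ Nat.Coprime b q ∧ (W : ℤ) ∣ s1 - s0 ∧
      ∀ j : ℕ, j < X / W / 2 → 0 ≤ s1 + e * W * j ∧ s1 + e * W * j < X ∧
        U - V * (s1 + e * W * j) = -e * g * ((b + q * j : ℕ) : ℤ) := by
  set H := X / W / 2 with hH
  have h2H : 2 * H ≤ X / W := Nat.mul_div_le _ _
  have hWX : W * (X / W) ≤ X := Nat.mul_div_le _ _
  have hb0 : ∀ c : ℤ, Int.gcd c q = 1 → 0 ≤ c → 1 ≤ c.natAbs ∧ Nat.Coprime c.natAbs q := by
    intro c hc h0
    have hc' : Nat.Coprime c.natAbs q := by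
      unfold Nat.Coprime; rw [← hc]; rfl
    refine ⟨?_, hc'⟩
    rcases Nat.eq_zero_or_pos c.natAbs with h | h
    · rw [h, Nat.coprime_zero_left] at hc'
      omega
    · exact h
  have hVWz : (V : ℤ) * W = g * q := by exact_mod_cast hVW
  rcases Nat.eq_zero_or_pos H with hH0 | hHpos
  · -- no terms at all
    obtain ⟨k, hk⟩ : ∃ k : ℕ, 0 ≤ u0 + q * k := ⟨u0.natAbs, by
      have h1 : (0 : ℤ) ≤ u0 + (u0.natAbs : ℤ) := by omega
      have h2 : ((u0.natAbs : ℕ) : ℤ) ≤ q * (u0.natAbs : ℤ) := by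
        have : (1 : ℤ) ≤ q := by exact_mod_cast (by omega : 1 ≤ q)
        nlinarith [Int.natCast_nonneg u0.natAbs]
      linarith⟩
    have hg : Int.gcd (u0 + q * k) q = 1 := by
      rw [← hgcd]
      exact Int.gcd_add_mul_left_left _ _ _
    obtain ⟨h1, h2⟩ := hb0 _ hg hk
    exact ⟨1, s0, _, Or.inl rfl, h1, h2, by simp, fun j hj => by omega⟩
  by_cases hsign : 0 < u0 - q * (H : ℤ)
  · -- positive side
    set c : ℤ := u0 - q * ((H : ℤ) - 1) with hc
    have hcpos : 0 ≤ c := by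
      have : c = (u0 - q * (H : ℤ)) + q := by rw [hc]; ring
      rw [this]; positivity
    have hcg : Int.gcd c q = 1 := by
      rw [← hgcd]
      have : c = u0 + q * (-((H : ℤ) - 1)) := by rw [hc]; ring
      rw [this]
      exact Int.gcd_add_mul_left_left _ _ _
    obtain ⟨h1, h2⟩ := hb0 c hcg hcpos
    refine ⟨-1, s0 + W * ((H : ℤ) - 1), c.natAbs, Or.inr rfl, h1, h2, ⟨(H : ℤ) - 1, by ring⟩, ?_⟩
    intro j hj
    have hj' : (j : ℤ) ≤ H - 1 := by omega
    have hW' : (0 : ℤ) < W := by exact_mod_cast hW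
    have hs0' : (s0 : ℤ) < W := by exact_mod_cast hs0
    refine ⟨?_, ?_, ?_⟩
    · have : (s0 : ℤ) + W * ((H : ℤ) - 1) + -1 * W * j = s0 + W * (H - 1 - j) := by ring
      rw [this]
      have : 0 ≤ (W : ℤ) * (H - 1 - j) := mul_nonneg hW'.le (by linarith)
      positivity
    · have e1 : (s0 : ℤ) + W * ((H : ℤ) - 1) + -1 * W * j ≤ s0 + W * ((H : ℤ) - 1) := by
        have : (0 : ℤ) ≤ W * j := by positivity
        linarith
      have e2 : (s0 : ℤ) + W * ((H : ℤ) - 1) < W * H := by linarith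
      have e3 : (W : ℤ) * H ≤ X := by
        have : W * H ≤ X := le_trans (Nat.mul_le_mul_left W (by omega : H ≤ X / W)) hWX
        exact_mod_cast this
      linarith
    · push_cast
      rw [abs_of_nonneg hcpos, hc]
      have hu : U = V * s0 + g * u0 := by linarith
      rw [hu]
      linear_combination ((-(H : ℤ) + 1 + j)) * hVWz
  · -- nonpositive side
    have hsign' : 0 ≤ q * (H : ℤ) - u0 := by linarith [not_lt.1 hsign]
    set c : ℤ := q * (H : ℤ) - u0 with hc
    have hcg : Int.gcd c q = 1 := by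
      rw [← hgcd]
      have : c = -(u0 + q * (-(H : ℤ))) := by rw [hc]; ring
      rw [this, Int.neg_gcd]
      exact Int.gcd_add_mul_left_left _ _ _
    obtain ⟨h1, h2⟩ := hb0 c hcg hsign'
    refine ⟨1, s0 + W * (H : ℤ), c.natAbs, Or.inl rfl, h1, h2, ⟨(H : ℤ), by ring⟩, ?_⟩
    intro j hj
    have hj' : (j : ℤ) ≤ H - 1 := by omega
    have hW' : (0 : ℤ) < W := by exact_mod_cast hW
    have hs0' : (s0 : ℤ) < W := by exact_mod_cast hs0
    refine ⟨by positivity, ?_, ?_⟩
    · have e1 : (s0 : ℤ) + W * (H : ℤ) + 1 * W * j ≤ s0 + W * (H : ℤ) + W * (H - 1) := by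
        have : (W : ℤ) * j ≤ W * (H - 1) := mul_le_mul_of_nonneg_left hj' hW'.le
        linarith
      have e2 : (s0 : ℤ) + W * (H : ℤ) + W * (H - 1) < W * (2 * H) := by linarith
      have e3 : (W : ℤ) * (2 * H) ≤ X := by
        have : W * (2 * H) ≤ X := le_trans (Nat.mul_le_mul_left W h2H) hWX
        exact_mod_cast this
      linarith
    · push_cast
      rw [abs_of_nonneg hsign', hc]
      have hu : U = V * s0 + g * u0 := by linarith
      rw [hu]
      linear_combination (-(H : ℤ) - j) * hVWz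

end Crest.Agent.R001.Fin
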