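import Mathlib
import Crest.Agent.R001.FinPar
import Crest.Agent.R001.FinCount

/-!
# R1, block FIN (4): the structured case gives many survivors
-/

set_option autoImplicit false

namespace Crest.Agent.R001.Fin

open Finset ArithmeticFunction Filter

/-- the primes `> T` dividing `V` have small reciprocal sum -/
lemma sum_inv_primeFactors (V T : ℕ) (hV : 1 ≤ V) (hT : 2 ≤ T) (m : ℝ) (hm : Real.log V ≤ m) :
    ∑ p ∈ V.primeFactors.filter (fun p => T < p), (1 : ℝ) / p ≤ m / (T * Real.log T) := by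
  have hT0 : (0 : ℝ) < T := by exact_mod_cast (by omega : 0 < T)
  have hlT : 0 < Real.log T := Real.log_pos (by exact_mod_cast (by omega : 1 < T))
  set S := V.primeFactors.filter (fun p => T < p) with hS
  have h1 : T ^ S.card ≤ V := by
    calc T ^ S.card = ∏ _p ∈ S, T := by rw [Finset.prod_const]
      _ ≤ ∏ p ∈ S, p := Finset.prod_le_prod' fun p hp => (Finset.mem_filter.1 hp).2.le
      _ ≤ V := by
        apply Nat.le_of_dvd (by omega)
        refine (Finset.prod_dvd_prod_of_subset _ _ _ (Finset.filter_subset _ _)).trans ?_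
        exact Nat.prod_primeFactors_dvd V
  have h2 : (S.card : ℝ) * Real.log T ≤ m := by
    refine le_trans ?_ hm
    rw [← Real.log_pow]
    apply Real.log_le_log (by positivity)
    exact_mod_cast h1
  have h3 : ∑ p ∈ S, (1 : ℝ) / p ≤ S.card * (1 / T) := by
    rw [← nsmul_eq_mul]
    refine Finset.sum_le_card_nsmul _ _ _ fun p hp => ?_
    apply one_div_le_one_div_of_le hT0
    exact_mod_cast (Finset.mem_filter.1 hp).2.le
  refine h3.trans ?_
  rw [mul_one_div, div_le_div_iff₀ hT0 (by positivity)]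
  nlinarith

set_option maxHeartbeats 4000000 in
open scoped Classical in
/-- the deterministic part of the argument, with all "large `X`" facts as hypotheses -/
theorem fin_core (C1 Csw D : ℝ) (hC1 : 0 < C1) (hCsw : 0 ≤ Csw) (hD : 0 ≤ D)
    (hbad : ∀ (q b W p H : ℕ) (e s1 a : ℤ) (lam : ℝ), p.Prime →
      ¬ p ∣ W → (e = 1 ∨ e = -1) → 1 ≤ q → 2 ≤ H / p → 0 < lam →
      lam ≤ Real.log ((H / p : ℕ) : ℝ) →
      (((Finset.range H).filter (fun j : ℕ => (p : ℤ) ∣ a - (s1 + e * W * j) ∧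
        (b + q * j).Prime)).card : ℝ) ≤
        1 + C1 * ((q : ℝ) / Nat.totient q) * ((H : ℝ) / p) / lam)
    (hSW : ∀ x : ℝ, 2 ≤ x → ∀ q : ℕ, 1 ≤ q →
      (q : ℝ) ≤ (Real.log x) ^ (D + 1) → ∀ b : ℕ, Nat.Coprime b q →
      |(∑ n ∈ (Finset.Ioc 0 ⌊x⌋₊).filter (fun n => n ≡ b [MOD q]), vonMangoldt n) -
        x / (Nat.totient q : ℝ)| ≤ Csw * x / (Real.log x) ^ (D + 4))
    (X V T P0 : ℕ) (a U : ℤ) (z L : ℝ) (XX : Finset ℕ)
    (hL : L = Real.log X) (hL3 : 3 ≤ L) (hT2 : 2 ≤ T) (hTP : P0 ≤ T)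
    (hG1 : 32 * (Wd T : ℝ) ≤ L)
    (hG2 : (V : ℝ) * Wd T ≤ (L / 2) ^ (D + 1))
    (hG3 : D * Real.log L / (T * Real.log T) ≤ 1 / (160 * C1))
    (hG4 : 32 * L ^ (D + 10) ≤ (X : ℝ) ^ (1 / 5 : ℝ))
    (hG5 : Csw * (2 : ℝ) ^ (D + 6) ≤ L ^ 3)
    (hX9 : 9 ≤ X)
    (hV : 1 ≤ V) (hVL : (V : ℝ) ≤ L ^ D) (hUV : Int.gcd U V = 1) (hU : |(U : ℝ)| ≤ X * L ^ D)
    (hz : z ≤ (X : ℝ) ^ (3 / 5 : ℝ)) (hXXp : ∀ p ∈ XX, p.Prime)
    (hXX : ∑ p ∈ XX, (1 : ℝ) / p ≤ 1 / (160 * C1))
    (hstr : ∀ p : ℕ, p.Prime → P0 ≤ p → (p : ℝ) < z → p ∉ XX → ¬ p ∣ V → (p : ℤ) ∣ V * a - U) :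
    (X : ℝ) / L ^ 2 ≤ (((Finset.Ioc (a - X) a).filter (fun t => ∀ p : ℕ, p.Prime → (p : ℝ) < z →
      ¬ (p : ℤ) ∣ t)).card : ℝ) := by
  -- basic facts on `X`
  have hX0 : (0 : ℝ) < X := by exact_mod_cast (by omega : 0 < X)
  have hX1 : (1 : ℝ) ≤ X := by exact_mod_cast (by omega : 1 ≤ X)
  have hL0 : 0 < L := by linarith
  have hL1 : 1 ≤ L := by linarith
  set x5 : ℝ := (X : ℝ) ^ (1 / 5 : ℝ) with hx5
  have hx5pos : 0 < x5 := Real.rpow_pos_of_pos hX0 _
  have hx5_5 : x5 ^ 5 = X := by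
    rw [hx5, ← Real.rpow_natCast, ← Real.rpow_mul hX0.le]; norm_num
  have hx35 : (X : ℝ) ^ (3 / 5 : ℝ) = x5 ^ 3 := by
    rw [hx5, ← Real.rpow_natCast, ← Real.rpow_mul hX0.le]; norm_num
  have hLD : 1 ≤ L ^ D := Real.one_le_rpow hL1 hD
  have hL10 : L ^ (D + 10) = L ^ D * L ^ 10 := by
    rw [Real.rpow_add hL0]; norm_num
  have hL10' : 1 ≤ L ^ 10 := one_le_pow₀ hL1
  have hG4' : 32 * (L ^ D * L ^ 10) ≤ x5 := by rw [← hL10]; exact hG4
  have hpow_le : ∀ k : ℕ, k ≤ 10 → L ^ k ≤ L ^ 10 := fun k hk => pow_le_pow_right₀ hL1 hk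
  have hx5_32 : 32 * L ^ 10 ≤ x5 := by
    refine le_trans ?_ hG4'
    have : L ^ 10 ≤ L ^ D * L ^ 10 := le_mul_of_one_le_left (by positivity) hLD
    linarith
  have hx5_D : 32 * L ^ D ≤ x5 := by
    refine le_trans ?_ hG4'
    have : L ^ D ≤ L ^ D * L ^ 10 := le_mul_of_one_le_right (by linarith) hL10'
    linarith
  have hx5_1 : 32 ≤ x5 := by linarith
  have hx5_L : 32 * L ≤ x5 := by
    have := hpow_le 1 (by norm_num)
    rw [pow_one] at this
    linarith
  have hx5_L2 : 32 * L ^ 2 ≤ x5 := by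
    have := hpow_le 2 (by norm_num)
    linarith
  -- the modulus
  set W := Wd T with hW
  have hWpos : 0 < W := Wd_pos T
  have hW4 : 4 ≤ W := by
    have : 4 ∣ W := by
      have h1 : lm 2 ∣ Wd T := Finset.dvd_prod_of_mem _ (by
        rw [Finset.mem_filter, Finset.mem_Icc]; exact ⟨⟨le_rfl, hT2⟩, Nat.prime_two⟩)
      simpa [lm] using h1
    exact Nat.le_of_dvd hWpos this
  have hW0 : (0 : ℝ) < W := by exact_mod_cast hWpos
  obtain ⟨s0, g, q, u0, hs0, hg, hsmall, hu0, hVW, hgcd⟩ := crt T hT2 a U V hUV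
  rw [← hW] at hs0 hVW
  have hg0 : 0 < g := by rcases hg with h | h <;> omega
  have hg2 : g ≤ 2 := by rcases hg with h | h <;> omega
  have hVW4 : 4 ≤ V * W := le_trans hW4 (Nat.le_mul_of_pos_left W hV)
  have hq2 : 2 ≤ q := by
    by_contra hcon
    have : g * q ≤ 2 * 1 := Nat.mul_le_mul hg2 (by omega)
    omega
  obtain ⟨e, s1, b, he, hb1, hbq, hs1, hpar⟩ := param X W V g q s0 U u0 hWpos hs0 hq2 hu0 hVW hgcd
  set H := X / W / 2 with hH
  -- size of `H`
  have hHle : (H : ℝ) ≤ X := by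
    have : H ≤ X := (Nat.div_le_self _ _).trans (Nat.div_le_self _ _)
    exact_mod_cast this
  have hHge : 8 * (X : ℝ) / L ≤ H := by
    have h1 : (X : ℝ) / W < (X / W : ℕ) + 1 := by
      have := Nat.lt_floor_add_one ((X : ℝ) / W)
      rwa [Nat.floor_div_eq_div] at this
    have h2 : ((X / W : ℕ) : ℝ) / 2 < (H : ℝ) + 1 := by
      have := Nat.lt_floor_add_one (((X / W : ℕ) : ℝ) / (2 : ℕ))
      rw [Nat.floor_div_eq_div] at this
      simpa using this
    have h3 : (X : ℝ) / (4 * W) ≥ 8 * X / L := by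
      rw [ge_iff_le, div_le_div_iff₀ hL0 (by positivity)]
      have h7 := mul_le_mul_of_nonneg_left hG1 hX0.le
      have h8 : 8 * (X : ℝ) * (4 * W) = X * (32 * W) := by ring
      rw [h8]; exact h7
    have h4 : (X : ℝ) / W = 4 * (X / (4 * W)) := by field_simp
    have h5 : 32 ≤ 8 * (X : ℝ) / L := by
      rw [le_div_iff₀ hL0]
      have h6 : x5 ≤ X := by
        rw [← hx5_5]
        exact le_self_pow₀ (by linarith) (by norm_num)
      linarith
    linarith
  have hH32 : (32 : ℝ) ≤ H := by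
    refine le_trans ?_ hHge
    rw [le_div_iff₀ hL0]
    have h6 : x5 ≤ X := by
      rw [← hx5_5]
      exact le_self_pow₀ (by linarith) (by norm_num)
    linarith
  have hH1 : 1 ≤ H := by
    have : (1 : ℝ) ≤ H := by linarith
    exact_mod_cast this
  have hHpos : (0 : ℝ) < H := by linarith
  -- `φ(q)` and `R`
  have hφ : (0 : ℝ) < Nat.totient q := by exact_mod_cast Nat.totient_pos.2 (by omega)
  have hq0 : (0 : ℝ) < q := by exact_mod_cast (by omega : 0 < q)
  set R : ℝ := (q : ℝ) / Nat.totient q with hR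
  have hR1 : 1 ≤ R := by
    rw [hR, le_div_iff₀ hφ, one_mul]
    exact_mod_cast Nat.totient_le q
  -- `Y`
  set Y : ℝ := 2 * X * L ^ D with hY
  have hUV' : |(U : ℝ)| + V * X ≤ Y := by
    have : (V : ℝ) * X ≤ L ^ D * X := mul_le_mul_of_nonneg_right hVL hX0.le
    rw [hY]; linarith
  have hbY : ((b + q * (H - 1) : ℕ) : ℝ) ≤ Y := by
    obtain ⟨h1, h2, h3⟩ := hpar (H - 1) (by omega)
    set s : ℤ := s1 + e * W * ((H - 1 : ℕ) : ℤ) with hs
    have h4 : |(U : ℝ) - V * s| ≤ |(U : ℝ)| + V * X := by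
      have h5 : |(V : ℝ) * s| ≤ V * X := by
        rw [abs_mul, abs_of_nonneg (Nat.cast_nonneg V : (0 : ℝ) ≤ V)]
        apply mul_le_mul_of_nonneg_left _ (Nat.cast_nonneg V)
        rw [abs_of_nonneg (by exact_mod_cast h1)]
        exact_mod_cast h2.le
      calc |(U : ℝ) - V * s| ≤ |(U : ℝ)| + |(V : ℝ) * s| := abs_sub _ _
        _ ≤ _ := by linarith
    have h6 : ((b + q * (H - 1) : ℕ) : ℝ) ≤ |(U : ℝ) - V * s| := by
      have h7 : (U : ℝ) - V * s = -e * g * ((b + q * (H - 1) : ℕ) : ℝ) := by exact_mod_cast h3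
      rw [h7, abs_mul, abs_mul, abs_neg]
      have h8 : |(e : ℝ)| = 1 := by rcases he with rfl | rfl <;> simp
      rw [h8, abs_of_nonneg (Nat.cast_nonneg g : (0 : ℝ) ≤ g), abs_of_nonneg (Nat.cast_nonneg _)]
      have h9 : (1 : ℝ) ≤ g := by exact_mod_cast hg0
      have h10 : (0 : ℝ) ≤ ((b + q * (H - 1) : ℕ) : ℝ) := Nat.cast_nonneg _
      rw [one_mul]
      exact le_mul_of_one_le_left h10 h9
    linarith
  have hXLD : X ≤ X * L ^ D := le_mul_of_one_le_right hX0.le hLD
  have hY1 : 1 ≤ Y := by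
    rw [hY]; linarith
  have hY0 : 0 < Y := by linarith
  have hYX : Y ≤ (X : ℝ) ^ 2 := by
    have h6 : x5 ≤ X := by
      rw [← hx5_5]
      exact le_self_pow₀ (by linarith) (by norm_num)
    have h7 : 2 * L ^ D ≤ X := by linarith
    have h8 := mul_le_mul_of_nonneg_left h7 hX0.le
    rw [hY, sq]; linarith
  have hlogY : Real.log Y ≤ 2 * L := by
    have := Real.log_le_log hY0 hYX
    rw [Real.log_pow] at this
    rw [hL]; exact_mod_cast this
  have hlogY0 : 0 ≤ Real.log Y := Real.log_nonneg hY1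
  -- `y0 = √X`
  set y0 : ℝ := Real.sqrt X with hy0
  have hy03 : 3 ≤ y0 := by
    rw [hy0, show (3 : ℝ) = Real.sqrt 9 by
      rw [show (9 : ℝ) = 3 ^ 2 by norm_num, Real.sqrt_sq (by norm_num)]]
    apply Real.sqrt_le_sqrt
    exact_mod_cast hX9
  have hlogy0 : Real.log y0 = L / 2 := by
    rw [hy0, Real.log_sqrt hX0.le, hL]
  have hqB : (q : ℝ) ≤ (Real.log y0) ^ (D + 1) := by
    rw [hlogy0]
    refine le_trans ?_ hG2
    have : q ≤ V * W := by rw [hVW]; exact Nat.le_mul_of_pos_left q hg0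
    exact_mod_cast this
  set E : ℝ := Csw * Y / (Real.log y0) ^ (D + 4) + 6 * y0 with hE
  have hswE := fun n hn => sw_error (A := D + 4) (B := D + 1) (C := Csw) (Y := Y) (y0 := y0)
    (by linarith) (by linarith) hCsw hy03 (by omega : 1 ≤ q) hbq hqB hSW n hn
  have hNP := nprime_lower (q := q) (b := b) (H := H) (Y := Y) (E := E) (by omega) hb1 hH1 hbY hY1
    hswE
  -- error terms
  have hEle : 2 * (Csw * Y / (Real.log y0) ^ (D + 4)) ≤ X / L := by
    rw [hlogy0, hY]
    have h1 : (L / 2) ^ (D + 4) = L ^ D * L ^ 4 / 2 ^ (D + 4) := by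
      rw [Real.div_rpow hL0.le (by norm_num), Real.rpow_add hL0]
      norm_num
    rw [h1]
    have h2 : (2 : ℝ) ^ (D + 6) = 4 * 2 ^ (D + 4) := by
      rw [show D + 6 = (D + 4) + 2 by ring, Real.rpow_add (by norm_num : (0 : ℝ) < 2)]
      norm_num; ring
    rw [h2] at hG5
    have h3 : 0 < (2 : ℝ) ^ (D + 4) := Real.rpow_pos_of_pos (by norm_num) _
    have h4 : 2 * (Csw * (2 * X * L ^ D) / (L ^ D * L ^ 4 / 2 ^ (D + 4))) =
        (Csw * (4 * 2 ^ (D + 4))) * X / L ^ 4 := by
      have : L ^ D ≠ 0 := by linarith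
      field_simp
      ring
    rw [h4, div_le_div_iff₀ (by positivity) hL0]
    have h5 : Csw * (4 * 2 ^ (D + 4)) * X * L ≤ L ^ 3 * X * L := by
      apply mul_le_mul_of_nonneg_right _ hL0.le
      exact mul_le_mul_of_nonneg_right hG5 hX0.le
    calc Csw * (4 * 2 ^ (D + 4)) * X * L ≤ L ^ 3 * X * L := h5
      _ = X * L ^ 4 := by ring
  have hy0le : 12 * y0 ≤ X / L := by
    have h1 : y0 * y0 = X := Real.mul_self_sqrt hX0.le
    have h2 : x5 ^ 2 ≤ y0 := by
      rw [hy0]
      apply Real.le_sqrt_of_sq_le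
      have h7 : x5 ^ 4 ≤ x5 ^ 5 := pow_le_pow_right₀ (by linarith) (by norm_num)
      have h8 : (x5 ^ 2) ^ 2 = x5 ^ 4 := by ring
      rw [h8, ← hx5_5]; exact h7
    rw [le_div_iff₀ hL0]
    have h4 : x5 ≤ x5 ^ 2 := le_self_pow₀ (by linarith) (by norm_num)
    have h3 : 12 * L ≤ y0 := by linarith
    have h5 := mul_le_mul_of_nonneg_left h3 (by linarith : 0 ≤ y0)
    have h6 : 12 * y0 * L = y0 * (12 * L) := by ring
    rw [h6, ← h1]; exact h5
  have hsqrtY : 2 * Real.sqrt Y * Real.log Y ≤ X / L := by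
    have h1 : Real.sqrt Y ≤ X / (4 * L ^ 2) := by
      apply Real.sqrt_le_iff.2
      refine ⟨by positivity, ?_⟩
      rw [div_pow, le_div_iff₀ (by positivity), hY]
      have h2 : 32 * (L ^ D * L ^ 4) ≤ X := by
        have h3 : L ^ D * L ^ 4 ≤ L ^ D * L ^ 10 :=
          mul_le_mul_of_nonneg_left (hpow_le 4 (by norm_num)) (by linarith)
        have h6 : x5 ≤ X := by
          rw [← hx5_5]
          exact le_self_pow₀ (by linarith) (by norm_num)
        linarith
      have h3 : 2 * X * L ^ D * (4 * L ^ 2) ^ 2 = (32 * (L ^ D * L ^ 4)) * X := by ring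
      rw [h3, sq]
      exact mul_le_mul_of_nonneg_right h2 hX0.le
    have h2 : 2 * Real.sqrt Y * Real.log Y ≤ 2 * (X / (4 * L ^ 2)) * (2 * L) := by
      apply mul_le_mul _ hlogY hlogY0 (by positivity)
      linarith
    refine h2.trans (le_of_eq ?_)
    field_simp
    ring
  have hXL : (X : ℝ) / L ≤ H / 8 := by
    have : 8 * (X : ℝ) / L = 8 * (X / L) := by ring
    rw [this] at hHge
    linarith
  have hNP2 : R * H / (4 * L) ≤
      (((Finset.range H).filter (fun j => (b + q * j).Prime)).card : ℝ) := by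
    have h1 : (q : ℝ) * ((H : ℝ) - 1) / Nat.totient q = R * (H - 1) := by
      rw [hR]; ring
    rw [h1] at hNP
    have h2 : R * (H - 1) ≥ 31 / 32 * (R * H) := by
      have h6 : 0 ≤ R * (H - 32) := mul_nonneg (by linarith) (by linarith)
      linarith
    have h3 : (H : ℝ) ≤ R * H := le_mul_of_one_le_left hHpos.le hR1
    have h4 : R * H / 2 ≤
        (((Finset.range H).filter (fun j => (b + q * j).Prime)).card : ℝ) * Real.log Y := by
      have : 2 * E = 2 * (Csw * Y / (Real.log y0) ^ (D + 4)) + 12 * y0 := by rw [hE]; ring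
      rw [this] at hNP
      linarith
    have h5 : (((Finset.range H).filter (fun j => (b + q * j).Prime)).card : ℝ) * Real.log Y ≤
        (((Finset.range H).filter (fun j => (b + q * j).Prime)).card : ℝ) * (2 * L) :=
      mul_le_mul_of_nonneg_left hlogY (Nat.cast_nonneg _)
    rw [div_le_iff₀ (by positivity)]
    linarith
  -- the bad sets
  set SP := (Finset.range H).filter (fun j => (b + q * j).Prime) with hSP
  set PB : Finset ℕ := ((XX ∪ V.primeFactors.filter (fun p => T < p)).filter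
    (fun p => T < p ∧ (p : ℝ) < z)) with hPB
  have hPBprime : ∀ p ∈ PB, p.Prime := by
    intro p hp
    rw [hPB, Finset.mem_filter, Finset.mem_union] at hp
    rcases hp.1 with h | h
    · exact hXXp p h
    · exact Nat.prime_of_mem_primeFactors (Finset.mem_filter.1 h).1
  have hz' : z ≤ x5 ^ 3 := by rw [← hx35]; exact hz
  set bad : ℕ → Finset ℕ := fun p => (Finset.range H).filter (fun j : ℕ =>
    (p : ℤ) ∣ a - (s1 + e * W * j) ∧ (b + q * j).Prime) with hbaddef
  have hx53 : x5 ^ 3 + 1 ≤ H / (64 * L) := by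
    have h1 : H / (64 * L) ≥ (8 * X / L) / (64 * L) :=
      div_le_div_of_nonneg_right hHge (by positivity)
    have h2 : (8 * (X : ℝ) / L) / (64 * L) = X / (8 * L ^ 2) := by field_simp; ring
    rw [h2] at h1
    refine le_trans ?_ h1
    rw [le_div_iff₀ (by positivity), ← hx5_5]
    have h3 : (x5 ^ 3 + 1) * (8 * L ^ 2) ≤ (2 * x5 ^ 3) * (8 * L ^ 2) := by
      apply mul_le_mul_of_nonneg_right _ (by positivity)
      have : 1 ≤ x5 ^ 3 := one_le_pow₀ (by linarith)
      linarith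
    refine h3.trans ?_
    have h4 : 2 * x5 ^ 3 * (8 * L ^ 2) = x5 ^ 3 * (16 * L ^ 2) := by ring
    rw [h4]
    have h5 : 16 * L ^ 2 ≤ x5 ^ 2 := by
      have h6 : x5 ≤ x5 ^ 2 := le_self_pow₀ (by linarith) (by norm_num)
      have h7 : 0 ≤ L ^ 2 := by positivity
      linarith
    calc x5 ^ 3 * (16 * L ^ 2) ≤ x5 ^ 3 * x5 ^ 2 :=
          mul_le_mul_of_nonneg_left h5 (by positivity)
      _ = x5 ^ 5 := by ring
  have hbadp : ∀ p ∈ PB, ((bad p).card : ℝ) ≤ 1 + 5 * C1 * R * H / L * (1 / p) := by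
    intro p hp
    have hpp := hPBprime p hp
    have hp' := (Finset.mem_filter.1 hp).2
    have hpW : ¬ p ∣ W := fun h => by
      have := le_of_dvd_Wd hpp h
      omega
    have hp0 : (0 : ℝ) < p := by exact_mod_cast hpp.pos
    have hpx : (p : ℝ) ≤ x5 ^ 3 := by linarith [hp'.2]
    have hdiv : x5 + 1 ≤ (H : ℝ) / p := by
      rw [le_div_iff₀ hp0]
      have h1 : (x5 + 1) * p ≤ (2 * x5) * x5 ^ 3 := by
        apply mul_le_mul (by linarith) hpx hp0.le (by linarith)
      refine h1.trans ?_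
      refine le_trans ?_ hHge
      rw [le_div_iff₀ hL0, ← hx5_5]
      have h2 : 2 * x5 * x5 ^ 3 * L = x5 ^ 4 * (2 * L) := by ring
      rw [h2]
      have h3 : x5 ^ 4 * (2 * L) ≤ x5 ^ 4 * (8 * x5) := by
        apply mul_le_mul_of_nonneg_left _ (by positivity)
        linarith
      calc x5 ^ 4 * (2 * L) ≤ x5 ^ 4 * (8 * x5) := h3
        _ = 8 * x5 ^ 5 := by ring
    have hdivn : x5 ≤ ((H / p : ℕ) : ℝ) := by
      have := Nat.lt_floor_add_one ((H : ℝ) / p)
      rw [Nat.floor_div_eq_div] at this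
      linarith
    have h2 : 2 ≤ H / p := by
      have : (2 : ℝ) ≤ ((H / p : ℕ) : ℝ) := by linarith
      exact_mod_cast this
    have hlam : L / 5 ≤ Real.log ((H / p : ℕ) : ℝ) := by
      have h3 := Real.log_le_log hx5pos hdivn
      have h4 : Real.log x5 = L / 5 := by
        rw [hx5, Real.log_rpow hX0, hL]; ring
      linarith
    have := hbad q b W p H e s1 a (L / 5) hpp hpW he (by omega) h2 (by positivity) hlam
    refine this.trans (le_of_eq ?_)
    rw [← hR]
    field_simp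
  -- the set of good `j`
  set G := SP.filter (fun j => z ≤ ((b + q * j : ℕ) : ℝ) ∧ ∀ p ∈ PB, ¬ (p : ℤ) ∣ a - (s1 + e * W * j))
    with hG
  have hcover : SP ⊆ G ∪ (SP.filter (fun j => ((b + q * j : ℕ) : ℝ) < z) ∪ PB.biUnion bad) := by
    intro j hj
    rw [Finset.mem_union, Finset.mem_union, Finset.mem_biUnion]
    by_cases h1 : ((b + q * j : ℕ) : ℝ) < z
    · exact Or.inr (Or.inl (Finset.mem_filter.2 ⟨hj, h1⟩))
    · by_cases h2 : ∀ p ∈ PB, ¬ (p : ℤ) ∣ a - (s1 + e * W * j)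
      · exact Or.inl (Finset.mem_filter.2 ⟨hj, not_lt.1 h1, h2⟩)
      · push Not at h2
        obtain ⟨p, hp, hpd⟩ := h2
        refine Or.inr (Or.inr ⟨p, hp, ?_⟩)
        have hj' := Finset.mem_filter.1 hj
        exact Finset.mem_filter.2 ⟨hj'.1, hpd, hj'.2⟩
  have hcard : (SP.card : ℝ) ≤ G.card + ((SP.filter (fun j => ((b + q * j : ℕ) : ℝ) < z)).card +
      ∑ p ∈ PB, ((bad p).card : ℝ)) := by
    have h1 := (Finset.card_le_card hcover).trans (Finset.card_union_le _ _)
    have h2 := Finset.card_union_le (SP.filter (fun j => ((b + q * j : ℕ) : ℝ) < z)) (PB.biUnion bad)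
    have h3 : (PB.biUnion bad).card ≤ ∑ p ∈ PB, (bad p).card := Finset.card_biUnion_le
    have h4 : SP.card ≤ G.card + ((SP.filter (fun j => ((b + q * j : ℕ) : ℝ) < z)).card +
      ∑ p ∈ PB, (bad p).card) := by omega
    exact_mod_cast h4
  have hlow : ((SP.filter (fun j => ((b + q * j : ℕ) : ℝ) < z)).card : ℝ) ≤ H / (64 * L) := by
    refine le_trans ?_ hx53
    have h1 : (SP.filter (fun j => ((b + q * j : ℕ) : ℝ) < z)).card ≤
        (Finset.range (⌊x5 ^ 3⌋₊ + 1)).card := by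
      apply Finset.card_le_card_of_injOn (fun j => b + q * j)
      · intro j hj
        have hj' := (Finset.mem_filter.1 (Finset.mem_coe.1 hj)).2
        rw [Finset.mem_coe, Finset.mem_range, Nat.lt_succ_iff]
        apply Nat.le_floor
        linarith
      · intro i _ j _ hij
        have : q * i = q * j := by simpa using hij
        exact Nat.eq_of_mul_eq_mul_left (by omega) this
    rw [Finset.card_range] at h1
    have h2 : ((⌊x5 ^ 3⌋₊ : ℕ) : ℝ) ≤ x5 ^ 3 := Nat.floor_le (by positivity)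
    have h3 : ((SP.filter (fun j => ((b + q * j : ℕ) : ℝ) < z)).card : ℝ) ≤
      ((⌊x5 ^ 3⌋₊ + 1 : ℕ) : ℝ) := by exact_mod_cast h1
    rw [Nat.cast_add ⌊x5 ^ 3⌋₊ 1, Nat.cast_one] at h3
    linarith
  have hPBcard : (PB.card : ℝ) ≤ H / (64 * L) := by
    refine le_trans ?_ hx53
    have h1 : PB.card ≤ (Finset.range (⌊x5 ^ 3⌋₊ + 1)).card := by
      apply Finset.card_le_card
      intro p hp
      have hp' := (Finset.mem_filter.1 hp).2.2
      rw [Finset.mem_range, Nat.lt_succ_iff]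
      apply Nat.le_floor
      linarith
    rw [Finset.card_range] at h1
    have h2 : ((⌊x5 ^ 3⌋₊ : ℕ) : ℝ) ≤ x5 ^ 3 := Nat.floor_le (by positivity)
    have h3 : (PB.card : ℝ) ≤ ((⌊x5 ^ 3⌋₊ + 1 : ℕ) : ℝ) := by exact_mod_cast h1
    push_cast at h3
    linarith
  have hPBsum : ∑ p ∈ PB, (1 : ℝ) / p ≤ 1 / (80 * C1) := by
    have h1 : ∑ p ∈ PB, (1 : ℝ) / p ≤ ∑ p ∈ XX ∪ V.primeFactors.filter (fun p => T < p), (1 : ℝ) / p :=
      Finset.sum_le_sum_of_subset_of_nonneg (Finset.filter_subset _ _) fun p _ _ => by positivity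
    have h2 : ∑ p ∈ XX ∪ V.primeFactors.filter (fun p => T < p), (1 : ℝ) / p ≤
        ∑ p ∈ XX, (1 : ℝ) / p + ∑ p ∈ V.primeFactors.filter (fun p => T < p), (1 : ℝ) / p := by
      rw [← Finset.sum_union_inter]
      have : 0 ≤ ∑ p ∈ XX ∩ V.primeFactors.filter (fun p => T < p), (1 : ℝ) / p :=
        Finset.sum_nonneg fun p _ => by positivity
      linarith
    have h3 : Real.log V ≤ D * Real.log L := by
      have hV0 : (0 : ℝ) < V := by exact_mod_cast hV
      have := Real.log_le_log hV0 hVL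
      rwa [Real.log_rpow hL0] at this
    have h4 := (sum_inv_primeFactors V T hV hT2 _ h3).trans hG3
    have h5 : 1 / (80 * C1) = 1 / (160 * C1) + 1 / (160 * C1) := by field_simp; norm_num
    linarith
  have hsumbad : ∑ p ∈ PB, ((bad p).card : ℝ) ≤ H / (64 * L) + R * H / (16 * L) := by
    calc ∑ p ∈ PB, ((bad p).card : ℝ) ≤ ∑ p ∈ PB, (1 + 5 * C1 * R * H / L * (1 / (p : ℝ))) :=
          Finset.sum_le_sum hbadp
      _ = PB.card + 5 * C1 * R * H / L * ∑ p ∈ PB, (1 : ℝ) / p := by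
          rw [Finset.sum_add_distrib, Finset.sum_const, nsmul_eq_mul, mul_one, Finset.mul_sum]
      _ ≤ H / (64 * L) + 5 * C1 * R * H / L * (1 / (80 * C1)) := by
          apply add_le_add hPBcard
          exact mul_le_mul_of_nonneg_left hPBsum (by positivity)
      _ = _ := by field_simp; ring
  have hGcard : (X : ℝ) / L ^ 2 ≤ G.card := by
    have h1 : R * H / (4 * L) - (H / (64 * L) + (H / (64 * L) + R * H / (16 * L))) ≤ G.card := by
      linarith
    have h2 : (H : ℝ) / (8 * L) ≤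
        R * H / (4 * L) - (H / (64 * L) + (H / (64 * L) + R * H / (16 * L))) := by
      have h3 : (H : ℝ) / L ≤ R * H / L := div_le_div_of_nonneg_right
        (le_mul_of_one_le_left hHpos.le hR1) hL0.le
      have e1 : R * H / (4 * L) = (R * H / L) / 4 := by field_simp
      have e2 : (H : ℝ) / (64 * L) = (H / L) / 64 := by field_simp
      have e3 : R * H / (16 * L) = (R * H / L) / 16 := by field_simp
      have e4 : (H : ℝ) / (8 * L) = (H / L) / 8 := by field_simp
      rw [e1, e2, e3, e4]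
      have : 0 ≤ (H : ℝ) / L := by positivity
      linarith
    have h3 : (X : ℝ) / L ^ 2 ≤ (H : ℝ) / (8 * L) := by
      rw [div_le_div_iff₀ (by positivity) (by positivity)]
      have : 8 * (X : ℝ) ≤ H * L := by
        rw [div_le_iff₀ hL0] at hHge
        exact hHge
      have h4 := mul_le_mul_of_nonneg_right this hL0.le
      have h5 : (X : ℝ) * (8 * L) = 8 * X * L := by ring
      have h6 : (H : ℝ) * L ^ 2 = H * L * L := by ring
      rw [h5, h6]; exact h4
    linarith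
  refine hGcard.trans ?_
  -- injection of `G` into the survivors
  have hinj : G.card ≤ ((Finset.Ioc (a - X) a).filter (fun t => ∀ p : ℕ, p.Prime → (p : ℝ) < z →
      ¬ (p : ℤ) ∣ t)).card := by
    apply Finset.card_le_card_of_injOn (fun j : ℕ => a - (s1 + e * W * j))
    · intro j hj
      have hjG := Finset.mem_filter.1 (Finset.mem_coe.1 hj)
      have hjS := Finset.mem_filter.1 hjG.1
      have hjH : j < H := Finset.mem_range.1 hjS.1
      obtain ⟨h1, h2, h3⟩ := hpar j hjH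
      rw [Finset.mem_coe, Finset.mem_filter, Finset.mem_Ioc]
      refine ⟨⟨by linarith, by linarith⟩, ?_⟩
      intro p hp hpz hpd
      by_cases hpT : p ≤ T
      · -- small primes
        apply hsmall p hp hpT
        have h4 : (p : ℤ) ∣ W := Int.natCast_dvd_natCast.2 (dvd_Wd hp hpT)
        have h5 : (p : ℤ) ∣ s1 - s0 := h4.trans hs1
        have h6 : (p : ℤ) ∣ e * W * j := Dvd.dvd.mul_right (Dvd.dvd.mul_left h4 e) _
        have := dvd_add (dvd_add hpd h5) h6
        have e1 : a - (s1 + e * W * j) + (s1 - s0) + e * W * j = a - s0 := by ring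
        rwa [e1] at this
      · push Not at hpT
        by_cases hpX : p ∈ XX
        · exact hjG.2.2 p (by
            rw [hPB, Finset.mem_filter, Finset.mem_union]
            exact ⟨Or.inl hpX, hpT, hpz⟩) hpd
        by_cases hpV : p ∣ V
        · exact hjG.2.2 p (by
            rw [hPB, Finset.mem_filter, Finset.mem_union, Finset.mem_filter]
            exact ⟨Or.inr ⟨Nat.mem_primeFactors.2 ⟨hp, hpV, by omega⟩, hpT⟩, hpT, hpz⟩) hpd
        -- structured primes
        have h4 := hstr p hp (by omega) hpz hpX hpV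
        have h5 : (p : ℤ) ∣ V * (a - (s1 + e * W * j)) := Dvd.dvd.mul_left hpd _
        have h6 := dvd_sub h5 h4
        have e1 : V * (a - (s1 + e * W * j)) - (V * a - U) = U - V * (s1 + e * W * j) := by ring
        rw [e1, h3] at h6
        have h7 : (p : ℤ) ∣ g * ((b + q * j : ℕ) : ℤ) := by
          rcases he with rfl | rfl
          · have e2 : (-1 : ℤ) * g * ((b + q * j : ℕ) : ℤ) = -(g * ((b + q * j : ℕ) : ℤ)) := by ring
            rw [e2] at h6
            exact (dvd_neg.1 h6)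
          · have e2 : -(-1 : ℤ) * g * ((b + q * j : ℕ) : ℤ) = (g * ((b + q * j : ℕ) : ℤ)) := by ring
            rwa [e2] at h6
        have h8 : p ∣ g * (b + q * j) := by exact_mod_cast h7
        rcases (Nat.Prime.dvd_mul hp).1 h8 with h | h
        · have := Nat.le_of_dvd hg0 h
          omega
        · have h9 := (Nat.prime_dvd_prime_iff_eq hp hjS.2).1 h
          have h10 := hjG.2.1
          rw [← h9] at h10
          linarith
    · intro i _ j _ hij
      have h1 : e * W * (i : ℤ) = e * W * j := by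
        have : a - (s1 + e * W * (i : ℤ)) = a - (s1 + e * W * j) := hij
        linarith
      have h2 : e * (W : ℤ) ≠ 0 := by
        apply mul_ne_zero
        · rcases he with rfl | rfl <;> norm_num
        · exact_mod_cast hWpos.ne'
      exact_mod_cast mul_left_cancel₀ h2 h1
  exact_mod_cast hinj

end Crest.Agent.R001.Fin
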