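import Mathlib
import Crest.Agent.R001.FinMain

/-!
# R1, block FIN (5): the final form

`fin` : if the classes `a mod p` agree with a rational `U / V` (`V ≤ (log X)^Cp`,
`|U| ≤ X (log X)^Cp`) for all primes `P0 ≤ p < z` outside a set of small reciprocal sum
(`z ≤ X^(3/5)`), then at least `X / (log X)^2` elements of `(a - X, a]` have no prime factor `< z`.
-/

set_option autoImplicit false

namespace Crest.Agent.R001.Fin

open Finset ArithmeticFunction Filter Topology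

lemma four_pow_le (T : ℕ) (l : ℝ) (hl : 1 ≤ l) (hT : (T : ℝ) ≤ Real.log l / 4) :
    (4 : ℝ) ^ T ≤ Real.sqrt l := by
  have hl0 : 0 < l := by linarith
  have h1 : (4 : ℝ) ^ T = Real.exp (T * Real.log 4) := by
    rw [Real.exp_nat_mul, Real.exp_log (by norm_num)]
  have h2 : Real.sqrt l = Real.exp (Real.log l / 2) := by
    rw [← Real.log_sqrt hl0.le, Real.exp_log (Real.sqrt_pos.2 hl0)]
  rw [h1, h2]
  apply Real.exp_le_exp.2
  have h3 : Real.log 4 ≤ 2 := by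
    have : Real.log 4 = 2 * Real.log 2 := by
      rw [show (4 : ℝ) = 2 ^ (2 : ℕ) by norm_num, Real.log_pow]; norm_num
    have := Real.log_two_lt_d9
    linarith
  have h4 : (0 : ℝ) ≤ T := Nat.cast_nonneg T
  have h5 : (T : ℝ) * Real.log 4 ≤ T * 2 := mul_le_mul_of_nonneg_left h3 h4
  linarith

open scoped Classical in
theorem fin (hSW : SWprog) (Cp : ℝ) (P0 : ℕ) : ∃ eps0 : ℝ, 0 < eps0 ∧ ∃ X0 : ℝ,
    ∀ (X V : ℕ) (a U : ℤ) (z : ℝ) (XX : Finset ℕ), X0 ≤ X → 1 ≤ V →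
      (V : ℝ) ≤ (Real.log X) ^ Cp → Int.gcd U V = 1 → |(U : ℝ)| ≤ X * (Real.log X) ^ Cp →
      z ≤ (X : ℝ) ^ (3 / 5 : ℝ) → (∀ p ∈ XX, p.Prime) → ∑ p ∈ XX, (1 : ℝ) / p ≤ eps0 →
      (∀ p : ℕ, p.Prime → P0 ≤ p → (p : ℝ) < z → p ∉ XX → ¬ p ∣ V → (p : ℤ) ∣ V * a - U) →
      (X : ℝ) / (Real.log X) ^ 2 ≤
        (((Finset.Ioc (a - X) a).filter (fun t => ∀ p : ℕ, p.Prime → (p : ℝ) < z →
          ¬ (p : ℤ) ∣ t)).card : ℝ) := by
  obtain ⟨C1, hC1, hbad⟩ := bad_count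
  set D : ℝ := max Cp 0 with hD
  have hD0 : 0 ≤ D := le_max_right _ _
  obtain ⟨C, hC⟩ := hSW (D + 4) (D + 1)
  set Csw : ℝ := max C 0 with hCsw
  have hCsw0 : 0 ≤ Csw := le_max_right _ _
  have hSW' : ∀ x : ℝ, 2 ≤ x → ∀ q : ℕ, 1 ≤ q →
      (q : ℝ) ≤ (Real.log x) ^ (D + 1) → ∀ b : ℕ, Nat.Coprime b q →
      |(∑ n ∈ (Finset.Ioc 0 ⌊x⌋₊).filter (fun n => n ≡ b [MOD q]), vonMangoldt n) -
        x / (Nat.totient q : ℝ)| ≤ Csw * x / (Real.log x) ^ (D + 4) := by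
    intro x hx q hq hqB b hb
    refine (hC x hx q hq hqB b hb).trans ?_
    have h1 : 0 < (Real.log x) ^ (D + 4) := Real.rpow_pos_of_pos (Real.log_pos (by linarith)) _
    apply div_le_div_of_nonneg_right _ h1.le
    exact mul_le_mul_of_nonneg_right (le_max_left _ _) (by linarith)
  -- constants
  set K2 : ℕ := max (max P0 2) ⌈Real.exp (1280 * D * C1)⌉₊ with hK2
  set K1 : ℝ := max (max 4096 (((2 : ℝ) ^ (D + 2)) ^ 2)) (max (Csw * (2 : ℝ) ^ (D + 6))
    (Real.exp (4 * (K2 + 1)))) with hK1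
  -- eventually facts
  have hev1 : ∀ᶠ x : ℝ in atTop, K1 ≤ Real.log x := Real.tendsto_log_atTop.eventually_ge_atTop K1
  have hev2 : ∀ᶠ x : ℝ in atTop, 32 * (Real.log x) ^ (D + 10) ≤ x ^ (1 / 5 : ℝ) := by
    have h := (isLittleO_log_rpow_rpow_atTop (D + 10) (by norm_num : (0 : ℝ) < 1 / 5)).bound
      (by norm_num : (0 : ℝ) < 1 / 32)
    filter_upwards [h, eventually_gt_atTop (1 : ℝ)] with x hx hx1
    have h1 : 0 ≤ (Real.log x) ^ (D + 10) := Real.rpow_nonneg (Real.log_nonneg hx1.le) _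
    have h2 : 0 ≤ x ^ (1 / 5 : ℝ) := Real.rpow_nonneg (by linarith) _
    rw [Real.norm_of_nonneg h1, Real.norm_of_nonneg h2] at hx
    linarith
  obtain ⟨X0, hX0⟩ := eventually_atTop.1 (hev1.and (hev2.and (eventually_ge_atTop (9 : ℝ))))
  refine ⟨1 / (160 * C1), by positivity, X0, ?_⟩
  intro X V a U z XX hXX0 hV hVL hUV hU hz hXXp hXX hstr
  obtain ⟨hE1, hE2, hE3⟩ := hX0 X hXX0
  set L : ℝ := Real.log X with hL
  have hL4096 : 4096 ≤ L := (le_max_left _ _).trans ((le_max_left _ _).trans hE1)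
  have hLD2 : ((2 : ℝ) ^ (D + 2)) ^ 2 ≤ L := (le_max_right _ _).trans ((le_max_left _ _).trans hE1)
  have hLC : Csw * (2 : ℝ) ^ (D + 6) ≤ L := (le_max_left _ _).trans ((le_max_right _ _).trans hE1)
  have hLe : Real.exp (4 * (K2 + 1)) ≤ L := (le_max_right _ _).trans ((le_max_right _ _).trans hE1)
  have hL0 : 0 < L := by linarith
  have hL1 : 1 ≤ L := by linarith
  set T : ℕ := ⌊Real.log L / 4⌋₊ with hT
  have hlogL : 4 * ((K2 : ℝ) + 1) ≤ Real.log L := by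
    rw [Real.le_log_iff_exp_le hL0]; exact hLe
  have hK2' : (0 : ℝ) ≤ K2 := Nat.cast_nonneg K2
  have hlogL0 : 0 < Real.log L := by linarith
  have hTle : (T : ℝ) ≤ Real.log L / 4 := Nat.floor_le (by positivity)
  have hTge : Real.log L / 4 < T + 1 := Nat.lt_floor_add_one _
  have hTK : K2 ≤ T := by
    apply Nat.le_floor
    linarith
  have hT2 : 2 ≤ T := (le_max_right _ _).trans ((le_max_left _ _).trans hTK)
  have hTP : P0 ≤ T := (le_max_left _ _).trans ((le_max_left _ _).trans hTK)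
  have hTexp : Real.exp (1280 * D * C1) ≤ T := by
    have h1 : ⌈Real.exp (1280 * D * C1)⌉₊ ≤ T := (le_max_right _ _).trans hTK
    exact (Nat.le_ceil _).trans (by exact_mod_cast h1)
  have hT0 : (0 : ℝ) < T := by exact_mod_cast (by omega : 0 < T)
  have hlT : 0 < Real.log T := Real.log_pos (by exact_mod_cast (by omega : 1 < T))
  -- the modulus
  have hW : (Wd T : ℝ) ≤ 2 * Real.sqrt L := by
    have h1 : (Wd T : ℝ) ≤ 2 * 4 ^ T := by exact_mod_cast Wd_le T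
    have h2 := four_pow_le T L hL1 hTle
    linarith
  have hsL : Real.sqrt L * Real.sqrt L = L := Real.mul_self_sqrt hL0.le
  have hsL64 : 64 ≤ Real.sqrt L := by
    apply Real.le_sqrt_of_sq_le
    norm_num; linarith
  have hG1 : 32 * (Wd T : ℝ) ≤ L := by
    have h1 : 64 * Real.sqrt L ≤ Real.sqrt L * Real.sqrt L :=
      mul_le_mul_of_nonneg_right hsL64 (Real.sqrt_nonneg _)
    linarith
  have hLCp : L ^ Cp ≤ L ^ D := Real.rpow_le_rpow_of_exponent_le hL1 (le_max_left _ _)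
  have hVLD : (V : ℝ) ≤ L ^ D := hVL.trans hLCp
  have hLDpos : 0 < L ^ D := Real.rpow_pos_of_pos hL0 _
  have hG2 : (V : ℝ) * Wd T ≤ (L / 2) ^ (D + 1) := by
    have h1 : (L / 2) ^ (D + 1) = L ^ D * L / 2 ^ (D + 1) := by
      rw [Real.div_rpow hL0.le (by norm_num), Real.rpow_add hL0, Real.rpow_one]
    have h2 : 0 < (2 : ℝ) ^ (D + 1) := Real.rpow_pos_of_pos (by norm_num) _
    have h3 : (2 : ℝ) ^ (D + 2) ≤ Real.sqrt L := Real.le_sqrt_of_sq_le hLD2
    have h4 : (2 : ℝ) ^ (D + 2) = 2 ^ (D + 1) * 2 := by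
      rw [show D + 2 = (D + 1) + 1 by ring, Real.rpow_add (by norm_num : (0 : ℝ) < 2) (D + 1) 1,
        Real.rpow_one]
    rw [h1, le_div_iff₀ h2]
    calc (V : ℝ) * Wd T * 2 ^ (D + 1) ≤ L ^ D * (2 * Real.sqrt L) * 2 ^ (D + 1) := by
          apply mul_le_mul_of_nonneg_right _ h2.le
          exact mul_le_mul hVLD hW (Nat.cast_nonneg _) hLDpos.le
      _ = L ^ D * Real.sqrt L * (2 ^ (D + 1) * 2) := by ring
      _ ≤ L ^ D * Real.sqrt L * Real.sqrt L := by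
          rw [← h4]
          exact mul_le_mul_of_nonneg_left h3 (by positivity)
      _ = L ^ D * L := by rw [mul_assoc, hsL]
  have hG3 : D * Real.log L / (T * Real.log T) ≤ 1 / (160 * C1) := by
    have h1 : Real.log L ≤ 8 * T := by
      have h3 : (1 : ℝ) ≤ T := by exact_mod_cast (by omega : 1 ≤ T)
      linarith
    have h2 : 1280 * D * C1 ≤ Real.log T := by
      rw [Real.le_log_iff_exp_le hT0]; exact hTexp
    rw [div_le_div_iff₀ (by positivity) (by positivity)]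
    have h3 : D * Real.log L * (160 * C1) ≤ D * (8 * T) * (160 * C1) := by
      apply mul_le_mul_of_nonneg_right _ (by positivity)
      exact mul_le_mul_of_nonneg_left h1 hD0
    have h4 : D * (8 * (T : ℝ)) * (160 * C1) = T * (1280 * D * C1) := by ring
    have h5 : (T : ℝ) * (1280 * D * C1) ≤ T * Real.log T := mul_le_mul_of_nonneg_left h2 hT0.le
    linarith
  have hG5 : Csw * (2 : ℝ) ^ (D + 6) ≤ L ^ 3 := by
    have : L ≤ L ^ 3 := le_self_pow₀ hL1 (by norm_num)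
    linarith
  have hX9 : 9 ≤ X := by exact_mod_cast hE3
  have hU' : |(U : ℝ)| ≤ X * L ^ D :=
    hU.trans (mul_le_mul_of_nonneg_left hLCp (Nat.cast_nonneg _))
  exact fin_core C1 Csw D hC1 hCsw0 hD0 hbad hSW' X V T P0 a U z L XX hL (by linarith) hT2 hTP
    hG1 hG2 hG3 hE2 hG5 hX9 hV hVLD hUV hU' hz hXXp hXX hstr

end Crest.Agent.R001.Fin
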