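import Crest.Agent.R001.FLCor
import Crest.Agent.SW.PsiAP301

set_option autoImplicit false

namespace Crest.Agent.R001.Fin571

open Finset Crest.Agent.Lib.Mertens Crest.Agent.R001.FL

/-- the odd primes `≤ w` -/
noncomputable def PP (w : ℝ) : Finset ℕ := (Finset.Icc 3 ⌊w⌋₊).filter Nat.Prime

lemma mem_PP {w : ℝ} (hw : 0 ≤ w) {p : ℕ} : p ∈ PP w ↔ p.Prime ∧ 3 ≤ p ∧ (p : ℝ) ≤ w := by
  rw [PP, Finset.mem_filter, Finset.mem_Icc, Nat.le_floor_iff hw]
  tauto

lemma PP_prime {w : ℝ} {p : ℕ} (hp : p ∈ PP w) : p.Prime := (Finset.mem_filter.1 hp).2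

lemma PP_three {w : ℝ} {p : ℕ} (hp : p ∈ PP w) : 3 ≤ p :=
  (Finset.mem_Icc.1 (Finset.mem_filter.1 hp).1).1

lemma PP_le {w : ℝ} {p : ℕ} (hp : p ∈ PP w) : (p : ℝ) ≤ w := by
  have h1 := (Finset.mem_Icc.1 (Finset.mem_filter.1 hp).1).2
  have h3 := PP_three hp
  have h2 : ⌊w⌋₊ ≠ 0 := by omega
  have h4 : 0 ≤ w := by
    by_contra h
    exact h2 (Nat.floor_of_nonpos (by linarith))
  exact (Nat.le_floor_iff h4).1 h1

/-- the density factor -/
noncomputable def FF (w : ℝ) (V b : ℕ) (r : ℕ → ℤ) : ℝ :=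
  ∏ p ∈ (PP w).filter (fun p => ¬ p ∣ V ∧ ¬ (p : ℤ) ∣ (V : ℤ) * r p + b), (1 - 1 / (p : ℝ))

/-- sums over `i < H` in a class are differences of sums over a progression -/
lemma sum_prog (f : ℕ → ℝ) (V b H d v : ℕ) (hV : 0 < V) (hb : 0 < b) :
    ∑ i ∈ (range H).filter (fun i => i ≡ v [MOD d]), f (V * i + b) =
      ∑ n ∈ (Icc 1 (b + V * H - 1)).filter (fun n => n ≡ V * v + b [MOD V * d]), f n -
      ∑ n ∈ (Icc 1 (b - 1)).filter (fun n => n ≡ V * v + b [MOD V * d]), f n := by
  classical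
  have h1 : (Icc 1 (b + V * H - 1)).filter (fun n => n ≡ V * v + b [MOD V * d]) =
      (Icc 1 (b - 1)).filter (fun n => n ≡ V * v + b [MOD V * d]) ∪
      (Icc b (b + V * H - 1)).filter (fun n => n ≡ V * v + b [MOD V * d]) := by
    rw [← Finset.filter_union]
    congr 1
    ext n
    simp only [Finset.mem_union, Finset.mem_Icc]
    have : 0 ≤ V * H := Nat.zero_le _
    omega
  have h2 : Disjoint ((Icc 1 (b - 1)).filter (fun n => n ≡ V * v + b [MOD V * d]))
      ((Icc b (b + V * H - 1)).filter (fun n => n ≡ V * v + b [MOD V * d])) := by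
    rw [Finset.disjoint_left]
    intro n h3 h4
    rw [Finset.mem_filter, Finset.mem_Icc] at h3 h4
    omega
  rw [h1, Finset.sum_union h2, add_sub_cancel_left]
  refine Finset.sum_bij (fun i _ => V * i + b) ?_ ?_ ?_ ?_
  · intro i hi
    rw [Finset.mem_filter, Finset.mem_range] at hi
    rw [Finset.mem_filter, Finset.mem_Icc]
    refine ⟨⟨by omega, ?_⟩, ?_⟩
    · have h5 : V * (i + 1) ≤ V * H := Nat.mul_le_mul_left V hi.1
      have h6 : V * (i + 1) = V * i + V := by ring
      omega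
    · exact Nat.ModEq.add_right b (Nat.ModEq.mul_left' V hi.2)
  · intro i _ j _ hij
    have : V * i = V * j := by omega
    exact Nat.eq_of_mul_eq_mul_left hV this
  · intro n hn
    rw [Finset.mem_filter, Finset.mem_Icc] at hn
    obtain ⟨⟨h3, h4⟩, h5⟩ := hn
    have h6 : n ≡ V * v + b [MOD V] := h5.of_dvd (Dvd.intro d rfl)
    have h7 : n ≡ b [MOD V] := by
      refine h6.trans ?_
      have : V * v + b ≡ 0 + b [MOD V] :=
        Nat.ModEq.add_right b ((Nat.modEq_zero_iff_dvd).2 (Dvd.intro v rfl))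
      rwa [zero_add] at this
    have h8 : V ∣ n - b := (Nat.modEq_iff_dvd' h3).1 h7.symm
    obtain ⟨i, hi⟩ := h8
    have h9 : n = V * i + b := by omega
    refine ⟨i, ?_, h9.symm⟩
    rw [Finset.mem_filter, Finset.mem_range]
    constructor
    · by_contra hc
      have h10 : V * H ≤ V * i := Nat.mul_le_mul_left V (by omega)
      have h11 : 0 < V * H ∨ V * H = 0 := by omega
      omega
    · rw [h9] at h5
      have h10 : V * i ≡ V * v [MOD V * d] := Nat.ModEq.add_right_cancel' b h5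
      exact Nat.ModEq.mul_left_cancel' hV.ne' h10
  · intro i _
    rfl

/-- totient of `V * ∏ D` -/
lemma totient_mul_prod (V : ℕ) (D : Finset ℕ) (hD : ∀ p ∈ D, p.Prime) :
    ((V * ∏ p ∈ D, p).totient : ℝ) =
      (V.totient : ℝ) * ∏ p ∈ D, (if p ∣ V then (p : ℝ) else (p : ℝ) - 1) := by
  classical
  induction D using Finset.induction_on with
  | empty => simp
  | insert p D hp ih =>
    have hpp := hD p (Finset.mem_insert_self p D)
    have ih' := ih fun q hq => hD q (Finset.mem_insert_of_mem hq)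
    rw [Finset.prod_insert hp, Finset.prod_insert hp]
    have e1 : V * (p * ∏ q ∈ D, q) = p * (V * ∏ q ∈ D, q) := by ring
    have hnd : ¬ p ∣ ∏ q ∈ D, q := by
      intro h
      obtain ⟨q, hq, h2⟩ := (Nat.Prime.prime hpp).exists_mem_finset_dvd h
      have h3 := (Nat.prime_dvd_prime_iff_eq hpp (hD q (Finset.mem_insert_of_mem hq))).1 h2
      exact hp (h3 ▸ hq)
    rw [e1]
    split_ifs with h
    · rw [Nat.totient_mul_of_prime_of_dvd hpp (Dvd.dvd.mul_right h _)]
      push_cast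
      rw [ih']
      ring
    · have h2 : ¬ p ∣ V * ∏ q ∈ D, q := by
        intro h3
        rcases (Nat.Prime.dvd_mul hpp).1 h3 with h4 | h4
        · exact h h4
        · exact hnd h4
      rw [Nat.totient_mul_of_prime_of_not_dvd hpp h2]
      have h3 : 1 ≤ p := hpp.one_lt.le
      push_cast [Nat.cast_sub h3]
      rw [ih']
      ring

end Crest.Agent.R001.Fin571
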