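import Crest.Agent.R001.Fin1_571

set_option autoImplicit false

namespace Crest.Agent.R001.Fin571

open Finset Crest.Agent.Lib.Mertens Crest.Agent.R001.FL

/-- the convergent product -/
lemma prod_sq_ge (S : Finset ℕ) (hS : ∀ p ∈ S, 3 ≤ p) :
    (1 / 2 : ℝ) ≤ ∏ p ∈ S, (1 - 1 / ((p : ℝ) - 1) ^ 2) := by
  classical
  have h1 : ∀ n : ℕ, 2 ≤ n → ∏ p ∈ Finset.Icc 3 n, (1 - 1 / ((p : ℝ) - 1) ^ 2) =
      (n : ℝ) / (2 * ((n : ℝ) - 1)) := by
    intro n hn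
    induction n, hn using Nat.le_induction with
    | base => norm_num
    | succ n hn ih =>
      rw [Finset.prod_Icc_succ_top (by omega), ih]
      have h2 : (2 : ℝ) ≤ n := by exact_mod_cast hn
      have h3 : (n : ℝ) - 1 ≠ 0 := by linarith
      have h4 : (n : ℝ) ≠ 0 := by linarith
      push_cast
      have h5 : (n : ℝ) + 1 - 1 = n := by ring
      rw [h5]
      field_simp
      ring
  have hfac : ∀ p : ℕ, 3 ≤ p → 0 ≤ 1 - 1 / ((p : ℝ) - 1) ^ 2 ∧ 1 - 1 / ((p : ℝ) - 1) ^ 2 ≤ 1 := by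
    intro p hp
    have h2 : (3 : ℝ) ≤ p := by exact_mod_cast hp
    have h3 : (1 : ℝ) ≤ ((p : ℝ) - 1) ^ 2 := by nlinarith
    constructor
    · rw [sub_nonneg, div_le_one (by linarith)]; exact h3
    · have : (0 : ℝ) ≤ 1 / ((p : ℝ) - 1) ^ 2 := by positivity
      linarith
  set n := max 2 (S.sup id) with hn
  have hsub : S ⊆ Finset.Icc 3 n := by
    intro p hp
    have h2 : p ≤ S.sup id := Finset.le_sup (f := id) hp
    rw [Finset.mem_Icc]
    exact ⟨hS p hp, h2.trans (le_max_right _ _)⟩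
  have h2n : 2 ≤ n := le_max_left _ _
  have h2n' : (2 : ℝ) ≤ n := by exact_mod_cast h2n
  calc (1 / 2 : ℝ) ≤ (n : ℝ) / (2 * ((n : ℝ) - 1)) := by
        rw [div_le_div_iff₀ (by norm_num) (by linarith)]
        linarith
    _ = ∏ p ∈ Finset.Icc 3 n, (1 - 1 / ((p : ℝ) - 1) ^ 2) := (h1 n h2n).symm
    _ ≤ ∏ p ∈ S, (1 - 1 / ((p : ℝ) - 1) ^ 2) := by
        rw [← Finset.prod_sdiff hsub]
        have h3 : ∏ x ∈ Finset.Icc 3 n \ S, (1 - 1 / ((x : ℝ) - 1) ^ 2) ≤ 1 :=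
          Finset.prod_le_one
            (fun p hp => (hfac p (Finset.mem_Icc.1 (Finset.mem_sdiff.1 hp).1).1).1)
            (fun p hp => (hfac p (Finset.mem_Icc.1 (Finset.mem_sdiff.1 hp).1).1).2)
        have h4 : 0 ≤ ∏ p ∈ S, (1 - 1 / ((p : ℝ) - 1) ^ 2) :=
          Finset.prod_nonneg fun p hp => (hfac p (hS p hp)).1
        nlinarith

/-- `V / φ(V)` against primes of a subset -/
lemma prod_dvd_le (V : ℕ) (hV : 0 < V) (S : Finset ℕ) (hS : ∀ p ∈ S, p.Prime ∧ p ∣ V) :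
    1 ≤ (V : ℝ) / (V.totient : ℝ) * ∏ p ∈ S, (1 - 1 / (p : ℝ)) := by
  classical
  have h1 : (V.totient : ℝ) = V * ∏ p ∈ V.primeFactors, (1 - 1 / (p : ℝ)) := by
    have := Nat.totient_eq_mul_prod_factors V
    have h2 : ((V.totient : ℚ) : ℝ) = (((V : ℚ) * ∏ p ∈ V.primeFactors, (1 - (p : ℚ)⁻¹) : ℚ) : ℝ) := by
      rw [this]
    push_cast at h2
    rw [h2]
    simp only [one_div]
  have hfac : ∀ p ∈ V.primeFactors, 0 < 1 - 1 / (p : ℝ) ∧ 1 - 1 / (p : ℝ) ≤ 1 := by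
    intro p hp
    have h2 : (2 : ℝ) ≤ p := by exact_mod_cast (Nat.prime_of_mem_primeFactors hp).two_le
    constructor
    · rw [sub_pos, div_lt_one (by linarith)]; linarith
    · have : (0 : ℝ) ≤ 1 / p := by positivity
      linarith
  have hsub : S ⊆ V.primeFactors := fun p hp =>
    Nat.mem_primeFactors.2 ⟨(hS p hp).1, (hS p hp).2, hV.ne'⟩
  have hpos : 0 < (V.totient : ℝ) := by exact_mod_cast Nat.totient_pos.2 hV
  have h3 : ∏ p ∈ V.primeFactors, (1 - 1 / (p : ℝ)) ≤ ∏ p ∈ S, (1 - 1 / (p : ℝ)) := by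
    rw [← Finset.prod_sdiff hsub]
    have h3 : ∏ x ∈ V.primeFactors \ S, (1 - 1 / (x : ℝ)) ≤ 1 :=
      Finset.prod_le_one
        (fun p hp => (hfac p (Finset.mem_sdiff.1 hp).1).1.le)
        (fun p hp => (hfac p (Finset.mem_sdiff.1 hp).1).2)
    have h4 : 0 ≤ ∏ p ∈ S, (1 - 1 / (p : ℝ)) :=
      Finset.prod_nonneg fun p hp => (hfac p (hsub hp)).1.le
    nlinarith
  have h4 : (V : ℝ) / (V.totient : ℝ) * ∏ p ∈ V.primeFactors, (1 - 1 / (p : ℝ)) = 1 := by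
    rw [div_mul_eq_mul_div, ← h1, div_self hpos.ne']
  calc (1 : ℝ) = (V : ℝ) / (V.totient : ℝ) * ∏ p ∈ V.primeFactors, (1 - 1 / (p : ℝ)) := h4.symm
    _ ≤ (V : ℝ) / (V.totient : ℝ) * ∏ p ∈ S, (1 - 1 / (p : ℝ)) :=
        mul_le_mul_of_nonneg_left h3 (by positivity)

/-- the singular series lower bound -/
lemma sing_lower (w : ℝ) (V b : ℕ) (hV : 0 < V) (hb : b.Coprime V) (r : ℕ → ℤ) :
    (1 / 2) * FF w V b r ≤ (V : ℝ) / (V.totient : ℝ) *
      ∏ p ∈ (PP w).filter (fun p : ℕ => ¬ (p : ℤ) ∣ (V : ℤ) * r p + b),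
        (1 - 1 / (if p ∣ V then (p : ℝ) else (p : ℝ) - 1)) := by
  classical
  have h1 : (PP w).filter (fun p : ℕ => ¬ (p : ℤ) ∣ (V : ℤ) * r p + b) =
      ((PP w).filter (fun p => p ∣ V)) ∪
      (PP w).filter (fun p => ¬ p ∣ V ∧ ¬ (p : ℤ) ∣ (V : ℤ) * r p + b) := by
    ext p
    simp only [Finset.mem_union, Finset.mem_filter]
    constructor
    · rintro ⟨h2, h3⟩
      by_cases h4 : p ∣ V
      · left; exact ⟨h2, h4⟩
      · right; exact ⟨h2, h4, h3⟩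
    · rintro (⟨h2, h3⟩ | ⟨h2, _, h4⟩)
      · refine ⟨h2, fun h5 => ?_⟩
        have h6 : (p : ℤ) ∣ (b : ℤ) := by
          have h7 : (p : ℤ) ∣ (V : ℤ) * r p := Dvd.dvd.mul_right (by exact_mod_cast h3) _
          exact (Int.dvd_add_right h7).1 h5
        have h7 : p ∣ b := by exact_mod_cast h6
        have h8 := Nat.dvd_gcd h7 h3
        rw [hb] at h8
        have := (PP_prime h2).one_lt
        have := Nat.le_of_dvd one_pos h8
        omega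
      · exact ⟨h2, h4⟩
  have h2 : Disjoint ((PP w).filter (fun p => p ∣ V))
      ((PP w).filter (fun p => ¬ p ∣ V ∧ ¬ (p : ℤ) ∣ (V : ℤ) * r p + b)) := by
    rw [Finset.disjoint_left]
    intro p h3 h4
    rw [Finset.mem_filter] at h3 h4
    exact h4.2.1 h3.2
  rw [h1, Finset.prod_union h2, ← mul_assoc]
  have h3 : ∏ p ∈ (PP w).filter (fun p => p ∣ V),
      (1 - 1 / (if p ∣ V then (p : ℝ) else (p : ℝ) - 1)) =
      ∏ p ∈ (PP w).filter (fun p => p ∣ V), (1 - 1 / (p : ℝ)) := by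
    apply Finset.prod_congr rfl
    intro p hp
    rw [if_pos (Finset.mem_filter.1 hp).2]
  have h4 := prod_dvd_le V hV ((PP w).filter (fun p => p ∣ V)) fun p hp =>
    ⟨PP_prime (Finset.mem_filter.1 hp).1, (Finset.mem_filter.1 hp).2⟩
  rw [h3]
  set S := (PP w).filter (fun p => ¬ p ∣ V ∧ ¬ (p : ℤ) ∣ (V : ℤ) * r p + b) with hS
  have h5 : ∏ p ∈ S, (1 - 1 / (if p ∣ V then (p : ℝ) else (p : ℝ) - 1)) =
      (∏ p ∈ S, (1 - 1 / ((p : ℝ) - 1) ^ 2)) * ∏ p ∈ S, (1 - 1 / (p : ℝ)) := by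
    rw [← Finset.prod_mul_distrib]
    apply Finset.prod_congr rfl
    intro p hp
    rw [hS, Finset.mem_filter] at hp
    rw [if_neg hp.2.1]
    have h6 : (3 : ℝ) ≤ p := by exact_mod_cast PP_three hp.1
    have h7 : (p : ℝ) - 1 ≠ 0 := by linarith
    have h8 : (p : ℝ) ≠ 0 := by linarith
    field_simp
    ring
  have h6 := prod_sq_ge S fun p hp => PP_three (Finset.mem_filter.1 hp).1
  have h7 : 0 ≤ ∏ p ∈ S, (1 - 1 / (p : ℝ)) := by
    apply Finset.prod_nonneg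
    intro p hp
    have h8 : (3 : ℝ) ≤ p := by exact_mod_cast PP_three (Finset.mem_filter.1 hp).1
    rw [sub_nonneg, div_le_one (by linarith)]
    linarith
  rw [h5]
  have h8 : FF w V b r = ∏ p ∈ S, (1 - 1 / (p : ℝ)) := rfl
  rw [h8]
  have h9 : (1 / 2) * ∏ p ∈ S, (1 - 1 / (p : ℝ)) ≤
      (∏ p ∈ S, (1 - 1 / ((p : ℝ) - 1) ^ 2)) * ∏ p ∈ S, (1 - 1 / (p : ℝ)) :=
    mul_le_mul_of_nonneg_right h6 h7
  have h10 : 0 ≤ (∏ p ∈ S, (1 - 1 / ((p : ℝ) - 1) ^ 2)) * ∏ p ∈ S, (1 - 1 / (p : ℝ)) := by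
    refine le_trans ?_ h9
    positivity
  nlinarith

lemma FF_pos (w : ℝ) (V b : ℕ) (r : ℕ → ℤ) : 0 < FF w V b r := by
  apply Finset.prod_pos
  intro p hp
  have h8 : (3 : ℝ) ≤ p := by exact_mod_cast PP_three (Finset.mem_filter.1 hp).1
  rw [sub_pos, div_lt_one (by linarith)]
  linarith

lemma FF_ge (w : ℝ) (hw : 2 ≤ w) (V b : ℕ) (r : ℕ → ℤ) : 1 / w ≤ FF w V b r := by
  apply prod_ge_inv _ _ w hw
  · intro p hp
    exact PP_le (Finset.mem_filter.1 hp).1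
  · intro p hp
    have := PP_three (Finset.mem_filter.1 hp).1
    omega

end Crest.Agent.R001.Fin571
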