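import Crest.Agent.R001.Fin2_571

set_option autoImplicit false

namespace Crest.Agent.R001.Fin571

open Finset Crest.Agent.Lib.Mertens Crest.Agent.R001.FL ArithmeticFunction

/-- CRT with natural numbers -/
lemma crt_nat (D : Finset ℕ) (hD : ∀ p ∈ D, p.Prime) (r : ℕ → ℤ) :
    ∃ v : ℕ, (∀ p ∈ D, (v : ℤ) ≡ r p [ZMOD p]) ∧
      ∀ i : ℕ, (∀ p ∈ D, (i : ℤ) ≡ r p [ZMOD p]) ↔ i ≡ v [MOD ∏ p ∈ D, p] := by
  obtain ⟨v, hv⟩ := exists_crt D hD r
  have hpos : 0 < ∏ p ∈ D, p := Finset.prod_pos fun p hp => (hD p hp).pos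
  have hpos' : (0 : ℤ) < ((∏ p ∈ D, p : ℕ) : ℤ) := by exact_mod_cast hpos
  set v' : ℕ := (v % ((∏ p ∈ D, p : ℕ) : ℤ)).toNat with hv'
  have h1 : (v' : ℤ) = v % ((∏ p ∈ D, p : ℕ) : ℤ) :=
    Int.toNat_of_nonneg (Int.emod_nonneg _ hpos'.ne')
  have h2 : (v' : ℤ) ≡ v [ZMOD ((∏ p ∈ D, p : ℕ) : ℤ)] := by
    rw [h1]; exact Int.mod_modEq _ _
  refine ⟨v', (hv v').2 h2, fun i => ?_⟩
  rw [hv i]
  constructor
  · intro h
    exact Int.natCast_modEq_iff.1 (h.trans h2.symm)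
  · intro h
    exact (Int.natCast_modEq_iff.2 h).trans h2

lemma AD_est (V b H : ℕ) (hV : 0 < V) (hb : 0 < b) (hbV : b.Coprime V) (r : ℕ → ℤ) (E Q : ℝ)
    (h1 : ∀ q : ℕ, 1 ≤ q → (q : ℝ) ≤ Q → ∀ c : ℕ, c.Coprime q →
      |∑ n ∈ (Icc 1 (b + V * H - 1)).filter (fun n => n ≡ c [MOD q]), Λ n -
        ((b + V * H - 1 : ℕ) : ℝ) / (Nat.totient q : ℝ)| ≤ E)
    (h0 : ∀ q : ℕ, 1 ≤ q → (q : ℝ) ≤ Q → ∀ c : ℕ, c.Coprime q →
      |∑ n ∈ (Icc 1 (b - 1)).filter (fun n => n ≡ c [MOD q]), Λ n -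
        ((b - 1 : ℕ) : ℝ) / (Nat.totient q : ℝ)| ≤ E)
    (D : Finset ℕ) (hD : ∀ p ∈ D, p.Prime ∧ ¬ (p : ℤ) ∣ (V : ℤ) * r p + b)
    (hDQ : (V : ℝ) * ∏ p ∈ D, (p : ℝ) ≤ Q) :
    |∑ i ∈ (range H).filter (fun i : ℕ => ∀ p ∈ D, (i : ℤ) ≡ r p [ZMOD p]), Λ (V * i + b) -
      (∏ p ∈ D, (1 / (if p ∣ V then (p : ℝ) else (p : ℝ) - 1))) *
        ((V : ℝ) * H / (V.totient : ℝ))| ≤ 2 * E := by
  classical
  obtain ⟨v, hv, hiff⟩ := crt_nat D (fun p hp => (hD p hp).1) r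
  set d := ∏ p ∈ D, p with hd
  have hdpos : 0 < d := Finset.prod_pos fun p hp => (hD p hp).1.pos
  have hfil : (range H).filter (fun i : ℕ => ∀ p ∈ D, (i : ℤ) ≡ r p [ZMOD p]) =
      (range H).filter (fun i => i ≡ v [MOD d]) := by
    apply Finset.filter_congr
    intro i _
    exact hiff i
  rw [hfil, sum_prog (fun n => Λ n) V b H d v hV hb]
  have hcop : (V * v + b).Coprime (V * d) := by
    apply Nat.Coprime.mul_right
    · rw [Nat.coprime_mul_left_add_left]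
      exact hbV
    · rw [hd]
      apply Nat.Coprime.prod_right
      intro p hp
      rw [Nat.coprime_comm, Nat.Prime.coprime_iff_not_dvd (hD p hp).1]
      intro h
      apply (hD p hp).2
      have h3 : (p : ℤ) ∣ ((V * v + b : ℕ) : ℤ) := by exact_mod_cast h
      have h4 : (V : ℤ) * r p + b = ((V * v + b : ℕ) : ℤ) + V * (r p - v) := by
        push_cast; ring
      rw [h4]
      apply dvd_add h3
      apply Dvd.dvd.mul_left
      exact (Int.modEq_iff_dvd.1 (hv p hp))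
  have hq1 : 1 ≤ V * d := Nat.mul_pos hV hdpos
  have hqQ : ((V * d : ℕ) : ℝ) ≤ Q := by
    rw [hd]; push_cast; exact hDQ
  have a1 := h1 (V * d) hq1 hqQ (V * v + b) hcop
  have a0 := h0 (V * d) hq1 hqQ (V * v + b) hcop
  have htot := totient_mul_prod V D fun p hp => (hD p hp).1
  rw [← hd] at htot
  have hφV : (0 : ℝ) < (V.totient : ℝ) := by exact_mod_cast Nat.totient_pos.2 hV
  have hφ : (0 : ℝ) < ((V * d).totient : ℝ) := by exact_mod_cast Nat.totient_pos.2 hq1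
  have hprodpos : 0 < ∏ p ∈ D, (if p ∣ V then (p : ℝ) else (p : ℝ) - 1) := by
    by_contra hcon
    rw [htot] at hφ
    have := mul_nonpos_of_nonneg_of_nonpos hφV.le (not_lt.1 hcon)
    linarith
  have hmain : (∏ p ∈ D, (1 / (if p ∣ V then (p : ℝ) else (p : ℝ) - 1))) *
        ((V : ℝ) * H / (V.totient : ℝ)) =
      ((b + V * H - 1 : ℕ) : ℝ) / ((V * d).totient : ℝ) -
        ((b - 1 : ℕ) : ℝ) / ((V * d).totient : ℝ) := by
    rw [← sub_div]
    have e1 : ((b + V * H - 1 : ℕ) : ℝ) - ((b - 1 : ℕ) : ℝ) = V * H := by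
      rw [Nat.cast_sub (by omega), Nat.cast_sub (by omega)]
      push_cast
      ring
    rw [e1, htot, Finset.prod_div_distrib, Finset.prod_const_one]
    field_simp
  rw [hmain]
  rw [abs_le] at a1 a0 ⊢
  constructor <;> linarith [a1.1, a1.2, a0.1, a0.2]

/-- prime powers are negligible -/
lemma nonprime_le (V b H : ℕ) (hV : 0 < V) (hb : 0 < b) (x : ℕ) (hx : b + V * H ≤ x + 1) (hx1 : 1 ≤ x) :
    ∑ i ∈ (range H).filter (fun i => ¬ (V * i + b).Prime), Λ (V * i + b) ≤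
      2 * Real.sqrt x * Real.log x := by
  classical
  have h1 : ∑ i ∈ (range H).filter (fun i => ¬ (V * i + b).Prime), Λ (V * i + b) =
      ∑ n ∈ ((range H).filter (fun i => ¬ (V * i + b).Prime)).image (fun i => V * i + b), Λ n := by
    rw [Finset.sum_image]
    intro i _ j _ hij
    have : V * i = V * j := by
      have h2 : V * i + b = V * j + b := hij
      omega
    exact Nat.eq_of_mul_eq_mul_left hV this
  rw [h1]
  have h2 := Chebyshev.psi_sub_theta_le (x := (x : ℝ)) (by exact_mod_cast hx1)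
  rw [Chebyshev.psi_sub_theta_eq_sum_not_prime, Nat.floor_natCast] at h2
  refine le_trans (Finset.sum_le_sum_of_subset_of_nonneg ?_ ?_) h2
  · intro n hn
    rw [Finset.mem_image] at hn
    obtain ⟨i, hi, rfl⟩ := hn
    rw [Finset.mem_filter, Finset.mem_range] at hi
    rw [Finset.mem_filter, Finset.mem_Ioc]
    refine ⟨⟨by omega, ?_⟩, hi.2⟩
    have h5 : V * (i + 1) ≤ V * H := Nat.mul_le_mul_left V hi.1
    have h6 : V * (i + 1) = V * i + V := by ring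
    omega
  · intro n _ _
    exact vonMangoldt_nonneg

end Crest.Agent.R001.Fin571
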