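import Crest.Agent.R001.Fin3_571

set_option autoImplicit false

namespace Crest.Agent.R001.Fin571

open Finset Crest.Agent.Lib.Mertens Crest.Agent.R001.FL ArithmeticFunction

/-- end of the proof of the lower bound: from the sieve output to the number of primes. -/
lemma lower_tail {X L w : ℝ} (hL1 : 1 ≤ L) (hw2 : 2 ≤ w) (hXpos : 0 < X)
    (V b H x1 s A : ℕ) (r : ℕ → ℤ) (C : ℝ)
    (hV : 0 < V) (hb : 0 < b) (hbV : b.Coprime V)
    (hx1 : b + V * H ≤ x1 + 1) (hx1L : Real.log x1 ≤ 2 * L) (hx1X : (x1 : ℝ) ≤ 6 * X * w)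
    (hx11 : 1 ≤ x1)
    (hbw : w < b) (hH : X / 32 ≤ H)
    (hwA : w ^ (s + 2) * L ≤ L ^ A)
    (hC : 12 * 512 * |C| * 2 ^ A ≤ L)
    (hX3 : 2048 ^ 2 * 6 * (w ^ 3 * L ^ 2) ≤ X)
    (P1 : Finset ℕ) (hP1 : P1 = (PP w).filter (fun p : ℕ => ¬ (p : ℤ) ∣ (V : ℤ) * r p + b))
    (h2 : (1 - 1 / 2) * (∏ p ∈ P1, (1 - 1 / (if p ∣ V then (p : ℝ) else (p : ℝ) - 1))) *
        ((V : ℝ) * H / (V.totient : ℝ)) - 2 * (|C| * x1 / (L / 2) ^ A) * w ^ s ≤
        ∑ i ∈ (range H).filter (fun i : ℕ => P1.filter (fun p : ℕ => (i : ℤ) ≡ r p [ZMOD p]) = ∅),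
          Λ (V * i + b)) :
    (1 / 16) * (H / L) * FF w V b r ≤
        (((range H).filter (fun i : ℕ => (V * i + b).Prime ∧
          ∀ p ∈ PP w, ¬ (i : ℤ) ≡ r p [ZMOD p])).card : ℝ) := by
  classical
  have hL0 : 0 < L := by linarith
  have hw0 : 0 < w := by linarith
  set F := FF w V b r with hF
  have hF0 : 0 < F := FF_pos _ _ _ _
  have hFw : 1 / w ≤ F := FF_ge w hw2 _ _ _
  have hFH : X / (32 * w) ≤ F * H := by
    calc X / (32 * w) = 1 / w * (X / 32) := by field_simp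
      _ ≤ F * H := mul_le_mul hFw hH (by positivity) hF0.le
  -- error one
  have e1 : 2 * (|C| * x1 / (L / 2) ^ A) * w ^ s ≤ F * H / 16 := by
    have a1 : 2 * (|C| * x1 / (L / 2) ^ A) * w ^ s ≤
        2 * (|C| * (6 * X * w) / (L / 2) ^ A) * w ^ s := by gcongr
    have a2 : 2 * (|C| * (6 * X * w) / (L / 2) ^ A) * w ^ s =
        (12 * |C| * 2 ^ A) * (X * w ^ (s + 1)) / L ^ A := by
      rw [div_pow]
      field_simp
      ring
    have a3 : (12 * |C| * 2 ^ A) * (X * w ^ (s + 1)) / L ^ A ≤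
        (L / 512) * (X * w ^ (s + 1)) / (w ^ (s + 2) * L) := by
      have : 12 * |C| * 2 ^ A ≤ L / 512 := by
        rw [le_div_iff₀ (by norm_num)]
        linarith
      gcongr
    have a4 : (L / 512) * (X * w ^ (s + 1)) / (w ^ (s + 2) * L) = X / (32 * w) / 16 := by
      field_simp
      ring
    rw [a4] at a3
    rw [a2] at a1
    linarith
  -- error two
  have e2 : 2 * Real.sqrt x1 * Real.log x1 ≤ F * H / 16 := by
    have b1 : Real.sqrt x1 ≤ X / (2048 * w * L) := by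
      rw [Real.sqrt_le_iff]
      refine ⟨by positivity, hx1X.trans ?_⟩
      rw [div_pow, le_div_iff₀ (by positivity)]
      have : 6 * X * w * (2048 * w * L) ^ 2 = X * (2048 ^ 2 * 6 * (w ^ 3 * L ^ 2)) := by ring
      rw [this, sq X]
      exact mul_le_mul_of_nonneg_left hX3 hXpos.le
    have b2 : 0 ≤ Real.log x1 := Real.log_natCast_nonneg _
    calc 2 * Real.sqrt x1 * Real.log x1 ≤ 2 * (X / (2048 * w * L)) * (2 * L) := by gcongr
      _ = X / (32 * w) / 16 := by field_simp; ring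
      _ ≤ F * H / 16 := by linarith
  -- main
  have m1 := sing_lower w V b hV hbV r
  rw [← hP1, ← hF] at m1
  have m2 : (1 - 1 / 2) * (∏ p ∈ P1, (1 - 1 / (if p ∣ V then (p : ℝ) else (p : ℝ) - 1))) *
        ((V : ℝ) * H / (V.totient : ℝ)) =
      (1 / 2) * H * ((V : ℝ) / (V.totient : ℝ) *
        ∏ p ∈ P1, (1 - 1 / (if p ∣ V then (p : ℝ) else (p : ℝ) - 1))) := by ring
  have m3 : (1 / 2) * H * ((1 / 2) * F) ≤ (1 / 2) * H * ((V : ℝ) / (V.totient : ℝ) *
        ∏ p ∈ P1, (1 - 1 / (if p ∣ V then (p : ℝ) else (p : ℝ) - 1))) :=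
    mul_le_mul_of_nonneg_left m1 (by positivity)
  -- splitting
  set T : Finset ℕ := (range H).filter
    (fun i : ℕ => P1.filter (fun p : ℕ => (i : ℤ) ≡ r p [ZMOD p]) = ∅) with hT
  have sp : ∑ i ∈ T, Λ (V * i + b) = ∑ i ∈ T.filter (fun i => (V * i + b).Prime), Λ (V * i + b) +
      ∑ i ∈ T.filter (fun i => ¬ (V * i + b).Prime), Λ (V * i + b) :=
    (Finset.sum_filter_add_sum_filter_not _ _ _).symm
  have sp2 : ∑ i ∈ T.filter (fun i => ¬ (V * i + b).Prime), Λ (V * i + b) ≤ F * H / 16 := by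
    refine le_trans ?_ ((nonprime_le V b H hV hb x1 hx1 hx11).trans e2)
    apply Finset.sum_le_sum_of_subset_of_nonneg
    · apply Finset.filter_subset_filter
      exact Finset.filter_subset _ _
    · intro i _ _
      exact vonMangoldt_nonneg
  have hin : ∀ i < H, V * i + b ≤ x1 := by
    intro i hi
    have h5 : V * (i + 1) ≤ V * H := Nat.mul_le_mul_left V hi
    have h6 : V * (i + 1) = V * i + V := by ring
    omega
  have sp3 : ∑ i ∈ T.filter (fun i => (V * i + b).Prime), Λ (V * i + b) ≤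
      ((T.filter (fun i => (V * i + b).Prime)).card : ℝ) * (2 * L) := by
    rw [← nsmul_eq_mul]
    apply Finset.sum_le_card_nsmul
    intro i hi
    rw [Finset.mem_filter, hT, Finset.mem_filter, Finset.mem_range] at hi
    rw [vonMangoldt_apply_prime hi.2]
    refine le_trans (Real.log_le_log ?_ ?_) hx1L
    · exact_mod_cast hi.2.pos
    · exact_mod_cast hin i hi.1.1
  have sp4 : ((T.filter (fun i => (V * i + b).Prime)).card : ℝ) ≤
      (((range H).filter (fun i : ℕ => (V * i + b).Prime ∧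
          ∀ p ∈ PP w, ¬ (i : ℤ) ≡ r p [ZMOD p])).card : ℝ) := by
    have : (T.filter (fun i => (V * i + b).Prime)) ⊆ ((range H).filter (fun i : ℕ =>
        (V * i + b).Prime ∧ ∀ p ∈ PP w, ¬ (i : ℤ) ≡ r p [ZMOD p])) := by
      intro i hi
      rw [Finset.mem_filter, hT, Finset.mem_filter, Finset.filter_eq_empty_iff] at hi
      rw [Finset.mem_filter]
      refine ⟨hi.1.1, hi.2, fun p hp hip => ?_⟩
      by_cases hc : (p : ℤ) ∣ (V : ℤ) * r p + b
      · have h3 : (p : ℤ) ∣ ((V * i + b : ℕ) : ℤ) := by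
          have h4 : ((V * i + b : ℕ) : ℤ) = (V : ℤ) * r p + b + V * (i - r p) := by
            push_cast; ring
          rw [h4]
          apply dvd_add hc
          apply Dvd.dvd.mul_left
          exact Int.modEq_iff_dvd.1 hip.symm
        have h5 : p ∣ V * i + b := by exact_mod_cast h3
        have h6 := (Nat.prime_dvd_prime_iff_eq (PP_prime hp) hi.2).1 h5
        have h7 : (b : ℝ) ≤ p := by
          rw [h6]; push_cast
          have : (0 : ℝ) ≤ (V : ℝ) * i := by positivity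
          linarith
        linarith [PP_le hp]
      · exact hi.1.2 (by rw [hP1, Finset.mem_filter]; exact ⟨hp, hc⟩) hip
    exact_mod_cast Finset.card_le_card this
  rw [m2] at h2
  have fin1 : F * H / 8 ≤ (((range H).filter (fun i : ℕ => (V * i + b).Prime ∧
          ∀ p ∈ PP w, ¬ (i : ℤ) ≡ r p [ZMOD p])).card : ℝ) * (2 * L) := by
    have h5 := mul_le_mul_of_nonneg_right sp4 (by positivity : 0 ≤ 2 * L)
    linarith
  have fin2 : (1 / 16) * (H / L) * F = (F * H / 8) / (2 * L) := by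
    field_simp
    ring
  rw [fin2, div_le_iff₀ (by positivity)]
  exact fin1

end Crest.Agent.R001.Fin571
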