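import Crest.Agent.R001.Fin4_571

set_option autoImplicit false

namespace Crest.Agent.R001.Fin571

open Finset Crest.Agent.Lib.Mertens Crest.Agent.R001.FL ArithmeticFunction

lemma ev_log (M : ℝ) : ∃ X0 : ℝ, ∀ X : ℝ, X0 ≤ X → M ≤ Real.log X := by
  have h := Real.tendsto_log_atTop.eventually_ge_atTop M
  obtain ⟨X0, h0⟩ := Filter.eventually_atTop.1 h
  exact ⟨X0, fun X hX => h0 X hX⟩

lemma ev_pow (n : ℕ) (M : ℝ) : ∃ X0 : ℝ, ∀ X : ℝ, X0 ≤ X → M * (Real.log X) ^ n ≤ X := by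
  have h := (Real.isLittleO_pow_log_id_atTop (n := n)).def (c := 1 / (|M| + 1)) (by positivity)
  obtain ⟨X0, h0⟩ := Filter.eventually_atTop.1 h
  refine ⟨max X0 1, fun X hX => ?_⟩
  have h1 := h0 X ((le_max_left _ _).trans hX)
  have hX1 : 1 ≤ X := (le_max_right _ _).trans hX
  have hl : 0 ≤ Real.log X := Real.log_nonneg hX1
  rw [Real.norm_of_nonneg (by positivity), id, Real.norm_of_nonneg (by linarith)] at h1
  have h2 : (|M| + 1) * (Real.log X) ^ n ≤ X := by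
    calc (|M| + 1) * (Real.log X) ^ n ≤ (|M| + 1) * (1 / (|M| + 1) * X) := by gcongr
      _ = X := by field_simp
  have h3 : M * (Real.log X) ^ n ≤ (|M| + 1) * (Real.log X) ^ n := by
    gcongr
    linarith [le_abs_self M]
  exact h3.trans h2

/-- **(A)** the lower bound -/
theorem lower (hSW : Crest.Agent.SW.PsiAP) (C1 : ℕ) (hC1 : 1 ≤ C1) :
    ∃ X0 : ℝ, ∀ X : ℝ, X0 ≤ X → ∀ (V b H : ℕ) (r : ℕ → ℤ),
      0 < V → b.Coprime V → (V : ℝ) ≤ 4 * (Real.log X) ^ C1 → X / 32 ≤ H → (H : ℝ) ≤ X →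
      X / 8 ≤ b → (b : ℝ) ≤ 2 * X * (Real.log X) ^ C1 →
      (1 / 16) * (H / Real.log X) * FF ((Real.log X) ^ C1) V b r ≤
        (((range H).filter (fun i : ℕ => (V * i + b).Prime ∧
          ∀ p ∈ PP ((Real.log X) ^ C1), ¬ (i : ℤ) ≡ r p [ZMOD p])).card : ℝ) := by
  classical
  obtain ⟨K, hK, hdim⟩ := dim_of 1 2 (1 / 2) (by norm_num) (by norm_num) (by norm_num)
  obtain ⟨s, hs, Hs⟩ := sieve_weighted 1 K (1 / 2) (by norm_num) hK (by norm_num)
  set A : ℕ := C1 * (s + 2) + 1 with hA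
  set B : ℕ := C1 * (s + 1) + 1 with hB
  obtain ⟨C, hC⟩ := hSW (A : ℝ) (B : ℝ)
  obtain ⟨X1, hX1⟩ := ev_log (max (max 2 (2 * Real.log 16)) (max (4 * 2 ^ B) (12 * 512 * |C| * 2 ^ A)))
  obtain ⟨X2, hX2⟩ := ev_pow (3 * C1 + 2) (2048 ^ 2 * 6)
  refine ⟨max (max X1 X2) 32, fun X hX V b H r hV hbV hV4 hH1 hH2 hb1 hb2 => ?_⟩
  have hX1' := hX1 X ((le_max_left _ _).trans ((le_max_left _ _).trans hX))
  have hX2' := hX2 X ((le_max_right _ _).trans ((le_max_left _ _).trans hX))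
  have hX32 : 32 ≤ X := (le_max_right _ _).trans hX
  set L := Real.log X with hL
  have hL2 : 2 ≤ L := (le_max_left _ _).trans ((le_max_left _ _).trans hX1')
  have hL16 : 2 * Real.log 16 ≤ L := (le_max_right _ _).trans ((le_max_left _ _).trans hX1')
  have hLB : 4 * 2 ^ B ≤ L := (le_max_left _ _).trans ((le_max_right _ _).trans hX1')
  have hLA : 12 * 512 * |C| * 2 ^ A ≤ L := (le_max_right _ _).trans ((le_max_right _ _).trans hX1')
  have hL1 : 1 ≤ L := by linarith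
  have hL0 : 0 < L := by linarith
  set w := L ^ C1 with hw
  have hwL : L ≤ w := by
    calc L = L ^ 1 := (pow_one L).symm
      _ ≤ L ^ C1 := pow_le_pow_right₀ hL1 hC1
  have hw2 : 2 ≤ w := by linarith
  have hw1 : 1 ≤ w := by linarith
  have hw0 : 0 < w := by linarith
  have hXpos : 0 < X := by linarith
  -- w^3 L^2 bound
  have hX3 : 2048 ^ 2 * 6 * (w ^ 3 * L ^ 2) ≤ X := by
    have : w ^ 3 * L ^ 2 = L ^ (3 * C1 + 2) := by rw [hw]; ring
    rw [this]; exact hX2'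
  have hw3 : w ≤ w ^ 3 * L ^ 2 := by
    have h1 : 1 ≤ w ^ 2 * L ^ 2 :=
      one_le_mul_of_one_le_of_one_le (one_le_pow₀ hw1) (one_le_pow₀ hL1)
    have e : w ^ 3 * L ^ 2 = w * (w ^ 2 * L ^ 2) := by ring
    rw [e]
    exact le_mul_of_one_le_right hw0.le h1
  have hwX : 2048 * w ≤ X := by linarith
  -- the endpoints
  set x1 : ℕ := b + V * H - 1 with hx1
  set x0 : ℕ := b - 1 with hx0
  have hbpos : 0 < b := by
    have : (0 : ℝ) < b := by linarith
    exact_mod_cast this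
  have hb4 : (4 : ℝ) ≤ b := by linarith
  have hx0r : (x0 : ℝ) = b - 1 := by
    rw [hx0, Nat.cast_sub (by omega)]; norm_num
  have hx0X : X / 16 ≤ x0 := by rw [hx0r]; linarith
  have hx02 : (2 : ℝ) ≤ x0 := by linarith
  have hVH : (V : ℝ) * H ≤ 4 * w * X := mul_le_mul hV4 hH2 (by positivity) (by positivity)
  have hx1r : (x1 : ℝ) = b + V * H - 1 := by
    rw [hx1, Nat.cast_sub (by omega)]; push_cast; ring
  have hx1X : (x1 : ℝ) ≤ 6 * X * w := by rw [hx1r]; linarith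
  have hx01 : (x0 : ℝ) ≤ x1 := by
    rw [hx0r, hx1r]
    have : (0 : ℝ) ≤ V * H := by positivity
    linarith
  have hlogx0 : L / 2 ≤ Real.log x0 := by
    have h1 : Real.log (X / 16) ≤ Real.log x0 := Real.log_le_log (by positivity) hx0X
    rw [Real.log_div (by positivity) (by norm_num)] at h1
    linarith
  have hlogx1 : L / 2 ≤ Real.log x1 :=
    hlogx0.trans (Real.log_le_log (by linarith) hx01)
  have hlogx1' : Real.log x1 ≤ 2 * L := by
    have h1 : (x1 : ℝ) ≤ X ^ 2 := by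
      have := mul_nonneg hXpos.le (by linarith : 0 ≤ X - 6 * w)
      have e : X * (X - 6 * w) = X ^ 2 - 6 * X * w := by ring
      linarith
    have h2 : Real.log x1 ≤ Real.log (X ^ 2) := Real.log_le_log (by linarith) h1
    rw [Real.log_pow] at h2
    push_cast at h2
    exact h2
  -- the error
  set E : ℝ := |C| * x1 / (L / 2) ^ A with hE
  have hE0 : 0 ≤ E := by positivity
  set Q : ℝ := 4 * w * w ^ s with hQ
  have hQB : ∀ y : ℝ, L / 2 ≤ Real.log y → Q ≤ (Real.log y) ^ (B : ℝ) := by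
    intro y hy
    rw [Real.rpow_natCast]
    have h1 : (L / 2) ^ B ≤ (Real.log y) ^ B := pow_le_pow_left₀ (by positivity) hy B
    refine le_trans ?_ h1
    have h2 : Q = 4 * L ^ (C1 * (s + 1)) := by rw [hQ, hw]; ring
    have h3 : (L / 2) ^ B = L ^ (C1 * (s + 1)) * L / 2 ^ B := by
      rw [div_pow, hB, pow_succ]
    rw [h2, h3, le_div_iff₀ (by positivity)]
    have h4 : 0 < L ^ (C1 * (s + 1)) := by positivity
    calc 4 * L ^ (C1 * (s + 1)) * 2 ^ B = L ^ (C1 * (s + 1)) * (4 * 2 ^ B) := by ring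
      _ ≤ L ^ (C1 * (s + 1)) * L := mul_le_mul_of_nonneg_left hLB h4.le
  have hEb : ∀ y : ℕ, L / 2 ≤ Real.log y → (y : ℝ) ≤ x1 →
      C * y / (Real.log y) ^ (A : ℝ) ≤ E := by
    intro y hy hyx
    rw [Real.rpow_natCast, hE]
    have h1 : (L / 2) ^ A ≤ (Real.log y) ^ A := pow_le_pow_left₀ (by positivity) hy A
    have h2 : C * y ≤ |C| * x1 := by
      calc C * y ≤ |C| * y := by gcongr; exact le_abs_self C
        _ ≤ |C| * x1 := by gcongr
    calc C * y / (Real.log y) ^ A ≤ |C| * x1 / (Real.log y) ^ A := by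
          gcongr
      _ ≤ |C| * x1 / (L / 2) ^ A := by
          gcongr
  have hp1 : ∀ q : ℕ, 1 ≤ q → (q : ℝ) ≤ Q → ∀ c : ℕ, c.Coprime q →
      |∑ n ∈ (Icc 1 (b + V * H - 1)).filter (fun n => n ≡ c [MOD q]), Λ n -
        ((b + V * H - 1 : ℕ) : ℝ) / (Nat.totient q : ℝ)| ≤ E := by
    intro q hq hqQ c hc
    have h1 := hC (x1 : ℝ) (by linarith) q hq (hqQ.trans (hQB _ hlogx1)) c hc
    rw [Nat.floor_natCast] at h1
    exact h1.trans (hEb x1 hlogx1 le_rfl)
  have hp0 : ∀ q : ℕ, 1 ≤ q → (q : ℝ) ≤ Q → ∀ c : ℕ, c.Coprime q →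
      |∑ n ∈ (Icc 1 (b - 1)).filter (fun n => n ≡ c [MOD q]), Λ n -
        ((b - 1 : ℕ) : ℝ) / (Nat.totient q : ℝ)| ≤ E := by
    intro q hq hqQ c hc
    have h1 := hC (x0 : ℝ) hx02 q hq (hqQ.trans (hQB _ hlogx0)) c hc
    rw [Nat.floor_natCast] at h1
    exact h1.trans (hEb x0 hlogx0 hx01)
  -- the sieve
  set P1 := (PP w).filter (fun p : ℕ => ¬ (p : ℤ) ∣ (V : ℤ) * r p + b) with hP1
  set g : ℕ → ℝ := fun p => 1 / (if p ∣ V then (p : ℝ) else (p : ℝ) - 1) with hg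
  have hP1mem : ∀ p ∈ P1, p.Prime ∧ 3 ≤ p ∧ (p : ℝ) ≤ w ∧ ¬ (p : ℤ) ∣ (V : ℤ) * r p + b := by
    intro p hp
    rw [hP1, Finset.mem_filter] at hp
    exact ⟨PP_prime hp.1, PP_three hp.1, PP_le hp.1, hp.2⟩
  have hh : ∀ p ∈ P1, (p : ℝ) - 1 ≤ (if p ∣ V then (p : ℝ) else (p : ℝ) - 1) := by
    intro p _
    split_ifs <;> linarith
  have h3r : ∀ p ∈ P1, (3 : ℝ) ≤ p := fun p hp => by exact_mod_cast (hP1mem p hp).2.1
  have hg0 : ∀ p ∈ P1, 0 ≤ g p := by
    intro p hp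
    have h1 := hh p hp
    have h2 := h3r p hp
    simp only [hg]
    apply div_nonneg zero_le_one
    linarith
  have hgle : ∀ p ∈ P1, g p ≤ 1 / ((p : ℝ) - 1) := by
    intro p hp
    have h1 := hh p hp
    have h2 := h3r p hp
    simp only [hg]
    exact one_div_le_one_div_of_le (by linarith) h1
  have hgh : ∀ p ∈ P1, g p ≤ 1 - 1 / 2 := by
    intro p hp
    have h2 := h3r p hp
    refine (hgle p hp).trans ?_
    rw [div_le_iff₀ (by linarith)]
    linarith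
  have hg1 : ∀ p ∈ P1, g p < 1 := fun p hp => by linarith [hgh p hp]
  have hdm := hdim P1 g (fun p hp => (hP1mem p hp).1) hg0 hgh (fun p hp => by
    refine (hgle p hp).trans ?_
    have h2 := h3r p hp
    rw [div_add_div _ _ (by linarith) (by positivity), div_le_div_iff₀ (by linarith) (by positivity)]
    have h5 : (0 : ℝ) ≤ (p : ℝ) * (p - 2) := mul_nonneg (by linarith) (by linarith)
    have e1 : 1 * ((p : ℝ) * (p : ℝ) ^ 2) = (p : ℝ) ^ 3 := by ring
    have e2 : (1 * (p : ℝ) ^ 2 + (p : ℝ) * 2) * ((p : ℝ) - 1) = (p : ℝ) ^ 3 + (p : ℝ) * (p - 2) := by ring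
    rw [e1, e2]
    linarith)
  have h2 := Hs w hw2 P1 g (fun p hp => ⟨by have := (hP1mem p hp).2.1; omega, (hP1mem p hp).2.2.1⟩)
    hg0 hg1 hdm (range H) (fun i => Λ (V * i + b))
    (fun i => P1.filter (fun p : ℕ => (i : ℤ) ≡ r p [ZMOD p]))
    ((V : ℝ) * H / (V.totient : ℝ)) (fun _ => 2 * E)
    (fun _ _ => vonMangoldt_nonneg) (fun _ _ => Finset.filter_subset _ _) (by positivity) ?_
  · have hlev := card_level P1 (fun p hp => (hP1mem p hp).1) (w ^ s) (by positivity)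
    have hsum : ∑ D ∈ P1.powerset.filter (fun D : Finset ℕ => ∏ p ∈ D, (p : ℝ) ≤ w ^ s), 2 * E ≤
        2 * (|C| * x1 / (L / 2) ^ A) * w ^ s := by
      rw [Finset.sum_const, nsmul_eq_mul, mul_comm]
      exact mul_le_mul_of_nonneg_left hlev (by positivity)
    refine lower_tail hL1 hw2 hXpos V b H x1 s A r C hV hbpos hbV (by omega) hlogx1' hx1X
      ?_ (by linarith) hH1 ?_ hLA hX3 P1 hP1 ?_
    · have : (1 : ℝ) ≤ x1 := by linarith
      exact_mod_cast this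
    · rw [hw, hA]
      apply le_of_eq
      ring
    · have h5 := h2.1
      linarith
  · intro D hD hDs
    have h3 := AD_est V b H hV hbpos hbV r E Q hp1 hp0 D
      (fun p hp => ⟨(hP1mem p (hD hp)).1, (hP1mem p (hD hp)).2.2.2⟩) (by
        rw [hQ]
        exact mul_le_mul hV4 hDs (Finset.prod_nonneg fun p _ => Nat.cast_nonneg p) (by positivity))
    have h4 : (range H).filter (fun i : ℕ => D ⊆ P1.filter (fun p : ℕ => (i : ℤ) ≡ r p [ZMOD p])) =
        (range H).filter (fun i : ℕ => ∀ p ∈ D, (i : ℤ) ≡ r p [ZMOD p]) := by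
      apply Finset.filter_congr
      intro i _
      constructor
      · intro h p hp
        exact (Finset.mem_filter.1 (h hp)).2
      · intro h p hp
        exact Finset.mem_filter.2 ⟨hD hp, h p hp⟩
    rw [h4]
    exact h3

end Crest.Agent.R001.Fin571
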