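import Crest.Agent.R001.Fin5_571

set_option autoImplicit false

namespace Crest.Agent.R001.Fin571

open Finset Crest.Agent.Lib.Mertens Crest.Agent.R001.FL ArithmeticFunction

open Classical in
/-- **(B)** two families of classes -/
def Upper : Prop := ∃ C : ℝ, 0 < C ∧ ∃ k : ℕ, 1 ≤ k ∧ ∀ w V H : ℕ, 2 ≤ w → 1 ≤ V → V ≤ w →
  w ^ k ≤ H → ∀ (x : ℤ) (r1 r2 : ℕ → ℤ),
  (((Ioc x (x + H)).filter (fun j : ℤ =>
    (∀ p : ℕ, p.Prime → 3 ≤ p → (p : ℝ) ≤ (H : ℝ) ^ ((1 : ℝ) / k) → ¬ p ∣ V →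
      ¬ j ≡ r1 p [ZMOD p]) ∧
    (∀ p : ℕ, p.Prime → 3 ≤ p → p ≤ w → ¬ j ≡ r2 p [ZMOD p]))).card : ℝ) ≤
  C * (H / Real.log H) * ∏ p ∈ (Icc 3 w).filter
    (fun p : ℕ => p.Prime ∧ ¬ p ∣ V ∧ ¬ r1 p ≡ r2 p [ZMOD p]), (1 - 1 / (p : ℝ))

lemma exists_class (p : ℕ) (hp : p.Prime) (α β : ℤ) (hα : ¬ (p : ℤ) ∣ α) :
    ∃ c : ℤ, ∀ j : ℤ, (p : ℤ) ∣ α * j + β ↔ j ≡ c [ZMOD p] := by
  have hcop : IsCoprime α (p : ℤ) := by
    have h1 : Prime (p : ℤ) := Nat.prime_iff_prime_int.1 hp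
    exact ((Prime.coprime_iff_not_dvd h1).2 hα).symm
  obtain ⟨u, v, huv⟩ := hcop
  refine ⟨-(u * β), fun j => ?_⟩
  have hiff : j ≡ -(u * β) [ZMOD p] ↔ (p : ℤ) ∣ j - -(u * β) :=
    ⟨fun h => Int.modEq_iff_dvd.1 h.symm, fun h => (Int.modEq_iff_dvd.2 h).symm⟩
  rw [hiff]
  constructor
  · rintro ⟨m, hm⟩
    refine ⟨u * m + v * j, ?_⟩
    have : j - -(u * β) = (u * α + v * p) * j + u * β := by rw [huv]; ring
    rw [this]
    linear_combination u * hm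
  · rintro ⟨m, hm⟩
    refine ⟨α * m + v * β, ?_⟩
    have : α * j + β = α * j + (u * α + v * p) * β := by rw [huv]; ring
    rw [this]
    linear_combination α * hm

open Classical in
/-- one exceptional prime -/
lemma one_prime (C : ℝ) (k : ℕ) (hk : 1 ≤ k)
    (hU : ∀ w V H : ℕ, 2 ≤ w → 1 ≤ V → V ≤ w →
      w ^ k ≤ H → ∀ (x : ℤ) (r1 r2 : ℕ → ℤ),
      (((Ioc x (x + H)).filter (fun j : ℤ =>
        (∀ p : ℕ, p.Prime → 3 ≤ p → (p : ℝ) ≤ (H : ℝ) ^ ((1 : ℝ) / k) → ¬ p ∣ V →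
          ¬ j ≡ r1 p [ZMOD p]) ∧
        (∀ p : ℕ, p.Prime → 3 ≤ p → p ≤ w → ¬ j ≡ r2 p [ZMOD p]))).card : ℝ) ≤
      C * (H / Real.log H) * ∏ p ∈ (Icc 3 w).filter
        (fun p : ℕ => p.Prime ∧ ¬ p ∣ V ∧ ¬ r1 p ≡ r2 p [ZMOD p]), (1 - 1 / (p : ℝ)))
    (w : ℝ) (hw : 2 ≤ w) (V V0 b H p0 : ℕ) (r : ℕ → ℤ) (hV0 : 1 ≤ V0) (hV0w : (V0 : ℝ) ≤ w)
    (hVV : ∀ p : ℕ, p.Prime → 3 ≤ p → (p ∣ V ↔ p ∣ V0))
    (hp0 : p0.Prime) (hp0w : w < p0) (hJw : w ^ k ≤ ((H / p0 + 1 : ℕ) : ℝ))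
    (hJb : H / p0 + 1 < b) :
    (((range H).filter (fun i : ℕ => ((V * i + b).Prime ∧
          ∀ p ∈ PP w, ¬ (i : ℤ) ≡ r p [ZMOD p]) ∧ (i : ℤ) ≡ r p0 [ZMOD p0])).card : ℝ) ≤
      2 * (C * (((H / p0 + 1 : ℕ) : ℝ) / Real.log ((H / p0 + 1 : ℕ) : ℝ)) * FF w V b r) := by
  classical
  set J := H / p0 + 1 with hJ
  have hp0pos : 0 < p0 := hp0.pos
  have hp0' : (0 : ℤ) < p0 := by exact_mod_cast hp0pos
  -- the starting point
  set i0 : ℤ := r p0 % p0 with hi0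
  have hi0n : 0 ≤ i0 := Int.emod_nonneg _ hp0'.ne'
  have hi0l : i0 < p0 := Int.emod_lt_of_pos _ hp0'
  -- classes
  have hc1 : ∀ p : ℕ, ∃ c : ℤ, p.Prime → 3 ≤ p → ¬ p ∣ V0 → p ≠ p0 →
      ∀ j : ℤ, (p : ℤ) ∣ ((V : ℤ) * p0) * j + (V * i0 + b) ↔ j ≡ c [ZMOD p] := by
    intro p
    by_cases h : p.Prime ∧ 3 ≤ p ∧ ¬ p ∣ V0 ∧ p ≠ p0
    · obtain ⟨h1, h2, h3, h4⟩ := h
      have h5 : ¬ (p : ℤ) ∣ (V : ℤ) * p0 := by
        intro h6
        have h7 : p ∣ V * p0 := by exact_mod_cast h6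
        rcases (Nat.Prime.dvd_mul h1).1 h7 with h8 | h8
        · exact h3 ((hVV p h1 h2).1 h8)
        · exact h4 ((Nat.prime_dvd_prime_iff_eq h1 hp0).1 h8)
      obtain ⟨c, hc⟩ := exists_class p h1 _ (V * i0 + b) h5
      exact ⟨c, fun _ _ _ _ => hc⟩
    · exact ⟨0, fun h1 h2 h3 h4 => absurd ⟨h1, h2, h3, h4⟩ h⟩
  choose c1 hc1 using hc1
  have hc2 : ∀ p : ℕ, ∃ c : ℤ, p.Prime → p ≠ p0 →
      ∀ j : ℤ, (p : ℤ) ∣ (p0 : ℤ) * j + (i0 - r p) ↔ j ≡ c [ZMOD p] := by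
    intro p
    by_cases h : p.Prime ∧ p ≠ p0
    · obtain ⟨h1, h4⟩ := h
      have h5 : ¬ (p : ℤ) ∣ (p0 : ℤ) := by
        intro h6
        have h7 : p ∣ p0 := by exact_mod_cast h6
        exact h4 ((Nat.prime_dvd_prime_iff_eq h1 hp0).1 h7)
      obtain ⟨c, hc⟩ := exists_class p h1 _ (i0 - r p) h5
      exact ⟨c, fun _ _ => hc⟩
    · exact ⟨0, fun h1 h4 => absurd ⟨h1, h4⟩ h⟩
  choose c2 hc2 using hc2
  -- the natural threshold
  set wn : ℕ := ⌊w⌋₊ with hwn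
  have hw0 : 0 ≤ w := by linarith
  have hwn2 : 2 ≤ wn := Nat.le_floor (by exact_mod_cast hw)
  have hV0n : V0 ≤ wn := Nat.le_floor hV0w
  have hJn : wn ^ k ≤ J := by
    have h1 : ((wn ^ k : ℕ) : ℝ) ≤ (J : ℝ) := by
      push_cast
      exact (pow_le_pow_left₀ (Nat.cast_nonneg _) (Nat.floor_le hw0) k).trans hJw
    exact_mod_cast h1
  have hJ1 : 1 ≤ J := Nat.succ_le_succ (Nat.zero_le _)
  have hJr : (J : ℝ) ^ ((1 : ℝ) / k) ≤ J := by
    have h1 : (1 : ℝ) ≤ J := by exact_mod_cast hJ1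
    have h2 : (1 : ℝ) / k ≤ 1 := by
      rw [div_le_one (by exact_mod_cast hk)]
      exact_mod_cast hk
    calc (J : ℝ) ^ ((1 : ℝ) / k) ≤ (J : ℝ) ^ (1 : ℝ) := Real.rpow_le_rpow_of_exponent_le h1 h2
      _ = J := Real.rpow_one _
  -- the sets
  let A : ℤ → Finset ℤ := fun e => (Ioc (-1 : ℤ) (-1 + J)).filter (fun j : ℤ =>
        (∀ p : ℕ, p.Prime → 3 ≤ p → (p : ℝ) ≤ (J : ℝ) ^ ((1 : ℝ) / k) → ¬ p ∣ V0 →
          ¬ j ≡ (Function.update c1 p0 e) p [ZMOD p]) ∧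
        (∀ p : ℕ, p.Prime → 3 ≤ p → p ≤ wn → ¬ j ≡ c2 p [ZMOD p]))
  have hA : ∀ e : ℤ, ((A e).card : ℝ) ≤ C * ((J : ℝ) / Real.log J) * FF w V b r := by
    intro e
    have h1 := hU wn V0 J hwn2 hV0 hV0n hJn (-1) (Function.update c1 p0 e) c2
    refine h1.trans (le_of_eq ?_)
    congr 1
    rw [FF, PP, Finset.filter_filter]
    apply Finset.prod_congr _ fun _ _ => rfl
    ext p
    rw [Finset.mem_filter, Finset.mem_filter, Finset.mem_Icc]
    constructor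
    · rintro ⟨h2, h3, h4, h5⟩
      have hpp0 : p ≠ p0 := by
        rintro rfl
        have : (p : ℝ) ≤ w := (Nat.le_floor_iff hw0).1 h2.2
        linarith
      refine ⟨h2, h3, fun h6 => h4 ((hVV p h3 h2.1).1 h6), fun h6 => h5 ?_⟩
      rw [Function.update_of_ne hpp0]
      have h7 := (hc2 p h3 hpp0 (c2 p)).2 (Int.ModEq.refl _)
      refine Int.ModEq.symm ((hc1 p h3 h2.1 h4 hpp0 (c2 p)).1 ?_)
      have h8 : (V : ℤ) * p0 * c2 p + (V * i0 + b) = V * (p0 * c2 p + (i0 - r p)) + (V * r p + b) := by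
        ring
      rw [h8]
      exact dvd_add (Dvd.dvd.mul_left h7 _) h6
    · rintro ⟨h2, h3, h4, h5⟩
      have hpp0 : p ≠ p0 := by
        rintro rfl
        have : (p : ℝ) ≤ w := (Nat.le_floor_iff hw0).1 h2.2
        linarith
      have h4' : ¬ p ∣ V0 := fun h6 => h4 ((hVV p h3 h2.1).2 h6)
      refine ⟨h2, h3, h4', fun h6 => h5 ?_⟩
      rw [Function.update_of_ne hpp0] at h6
      have h7 := (hc2 p h3 hpp0 (c2 p)).2 (Int.ModEq.refl _)
      have h9 := (hc1 p h3 h2.1 h4' hpp0 (c2 p)).2 h6.symm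
      have h8 : (V : ℤ) * p0 * c2 p + (V * i0 + b) = V * (p0 * c2 p + (i0 - r p)) + (V * r p + b) := by
        ring
      rw [h8] at h9
      exact (Int.dvd_add_right (Dvd.dvd.mul_left h7 _)).1 h9
  -- the map
  have hsub : (((range H).filter (fun i : ℕ => ((V * i + b).Prime ∧
          ∀ p ∈ PP w, ¬ (i : ℤ) ≡ r p [ZMOD p]) ∧ (i : ℤ) ≡ r p0 [ZMOD p0])).card) ≤
      (A 0 ∪ A 1).card := by
    apply Finset.card_le_card_of_injOn (fun i : ℕ => ((i : ℤ) - i0) / p0)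
    · intro i hi
      rw [Finset.mem_coe, Finset.mem_filter, Finset.mem_range] at hi
      obtain ⟨hiH, ⟨hN, hP⟩, hi0'⟩ := hi
      have hdvd : (p0 : ℤ) ∣ (i : ℤ) - i0 := by
        apply Int.modEq_iff_dvd.1
        exact (Int.mod_modEq _ _).trans hi0'.symm
      obtain ⟨j, hj⟩ := hdvd
      show (((i : ℤ) - i0) / p0) ∈ ((A 0 ∪ A 1 : Finset ℤ) : Set ℤ)
      rw [hj, Int.mul_ediv_cancel_left _ hp0'.ne']
      have hij : (i : ℤ) = i0 + p0 * j := by linarith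
      have hjlow : -1 < j := by
        by_contra hcon
        have h1 : j ≤ -1 := not_lt.1 hcon
        have h2 : (p0 : ℤ) * j ≤ p0 * (-1) := mul_le_mul_of_nonneg_left h1 hp0'.le
        have h3 : (0 : ℤ) ≤ i := Int.natCast_nonneg i
        linarith
      have hjup : j ≤ -1 + J := by
        by_contra hcon
        have h1 : (J : ℤ) ≤ j := by linarith [not_le.1 hcon]
        have h2 : (p0 : ℤ) * J ≤ p0 * j := mul_le_mul_of_nonneg_left h1 hp0'.le
        have h3 : (H : ℤ) < p0 * J := by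
          have := Nat.lt_mul_div_succ H hp0pos
          rw [hJ]
          exact_mod_cast this
        have h4 : (i : ℤ) < H := by exact_mod_cast hiH
        linarith
      have hcond : ∀ e : ℤ, ¬ j ≡ e [ZMOD p0] → j ∈ A e := by
        intro e he
        show j ∈ (Ioc (-1 : ℤ) (-1 + J)).filter _
        rw [Finset.mem_filter, Finset.mem_Ioc]
        refine ⟨⟨hjlow, hjup⟩, ?_, ?_⟩
        · intro p hp hp3 hpJ hpV hjp
          by_cases hpp0 : p = p0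
          · subst hpp0
            rw [Function.update_self] at hjp
            exact he hjp
          · rw [Function.update_of_ne hpp0] at hjp
            have h1 := (hc1 p hp hp3 hpV hpp0 j).2 hjp
            have h2 : (V : ℤ) * p0 * j + (V * i0 + b) = ((V * i + b : ℕ) : ℤ) := by
              push_cast
              rw [hij]
              ring
            rw [h2] at h1
            have h3 : p ∣ V * i + b := by exact_mod_cast h1
            have h4 := (Nat.prime_dvd_prime_iff_eq hp hN).1 h3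
            have h5 : (p : ℝ) ≤ J := hpJ.trans hJr
            have h6 : p ≤ J := by exact_mod_cast h5
            have h7 : b ≤ p := by rw [h4]; exact Nat.le_add_left _ _
            omega
        · intro p hp hp3 hpw hjp
          have hpw' : p ∈ PP w := by
            rw [PP, Finset.mem_filter, Finset.mem_Icc]
            exact ⟨⟨hp3, hpw⟩, hp⟩
          have hpp0 : p ≠ p0 := by
            rintro rfl
            have := PP_le hpw'
            linarith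
          apply hP p hpw'
          have h1 := (hc2 p hp hpp0 j).2 hjp
          have h2 : (p0 : ℤ) * j + (i0 - r p) = i - r p := by rw [hij]; ring
          rw [h2] at h1
          exact (Int.modEq_iff_dvd.2 h1).symm
      rw [Finset.mem_coe, Finset.mem_union]
      by_cases h0 : j ≡ 0 [ZMOD p0]
      · right
        apply hcond
        intro h1
        have h2 := (Int.modEq_iff_dvd.1 (h0.symm.trans h1))
        rw [sub_zero] at h2
        have h3 : p0 ∣ 1 := by exact_mod_cast h2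
        exact hp0.one_lt.ne' (Nat.dvd_one.1 h3)
      · left
        exact hcond 0 h0
    · intro i hi i' hi' he
      rw [Finset.mem_coe, Finset.mem_filter, Finset.mem_range] at hi hi'
      have hdvd : ∀ n : ℕ, (n : ℤ) ≡ r p0 [ZMOD p0] → (p0 : ℤ) ∣ (n : ℤ) - i0 := by
        intro n hn
        apply Int.modEq_iff_dvd.1
        exact (Int.mod_modEq _ _).trans hn.symm
      obtain ⟨j, hj⟩ := hdvd i hi.2.2
      obtain ⟨j', hj'⟩ := hdvd i' hi'.2.2
      simp only at he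
      rw [hj, hj', Int.mul_ediv_cancel_left _ hp0'.ne', Int.mul_ediv_cancel_left _ hp0'.ne'] at he
      have : (i : ℤ) = i' := by
        have h1 : (i : ℤ) = i0 + p0 * j := by linarith
        have h2 : (i' : ℤ) = i0 + p0 * j' := by linarith
        rw [h1, h2, he]
      exact_mod_cast this
  have h1 : ((((range H).filter (fun i : ℕ => ((V * i + b).Prime ∧
          ∀ p ∈ PP w, ¬ (i : ℤ) ≡ r p [ZMOD p]) ∧ (i : ℤ) ≡ r p0 [ZMOD p0])).card : ℕ) : ℝ) ≤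
      ((A 0).card : ℝ) + ((A 1).card : ℝ) := by
    have := hsub.trans (Finset.card_union_le _ _)
    exact_mod_cast this
  linarith [hA 0, hA 1]

end Crest.Agent.R001.Fin571
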