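import Crest.Agent.R001.Fin6_571

set_option autoImplicit false

namespace Crest.Agent.R001.Fin571

open Finset Crest.Agent.Lib.Mertens Crest.Agent.R001.FL ArithmeticFunction

open Classical in
theorem comb (hSW : Crest.Agent.SW.PsiAP) (hUp : Upper) : ∃ ε₀ : ℝ, 0 < ε₀ ∧ ∀ C1 : ℕ, 1 ≤ C1 →
    ∃ X0 : ℝ, ∀ X : ℝ, X0 ≤ X → ∀ (V V0 b H : ℕ) (r : ℕ → ℤ),
      0 < V → b.Coprime V → (V : ℝ) ≤ 4 * (Real.log X) ^ C1 →
      1 ≤ V0 → (V0 : ℝ) ≤ (Real.log X) ^ C1 →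
      (∀ p : ℕ, p.Prime → 3 ≤ p → (p ∣ V ↔ p ∣ V0)) →
      X / 32 ≤ H → (H : ℝ) ≤ X → X / 8 ≤ b → (b : ℝ) ≤ 2 * X * (Real.log X) ^ C1 →
      ∀ XX : Finset ℕ, (∀ p ∈ XX, p.Prime ∧ (Real.log X) ^ C1 < p ∧ (p : ℝ) ≤ X ^ ((3 : ℝ) / 5)) →
      ∑ p ∈ XX, (1 : ℝ) / p ≤ ε₀ →
      (1 / 32) * (H / Real.log X) * FF ((Real.log X) ^ C1) V b r ≤
        (((range H).filter (fun i : ℕ => (V * i + b).Prime ∧
          (∀ p ∈ PP ((Real.log X) ^ C1), ¬ (i : ℤ) ≡ r p [ZMOD p]) ∧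
          ∀ p ∈ XX, ¬ (i : ℤ) ≡ r p [ZMOD p])).card : ℝ) := by
  obtain ⟨C, hC, k, hk, hU⟩ := hUp
  refine ⟨1 / (384 * C), by positivity, fun C1 hC1 => ?_⟩
  obtain ⟨X1, hX1⟩ := lower hSW C1 hC1
  obtain ⟨X2, hX2⟩ := ev_log 17
  obtain ⟨X3, hX3⟩ := ev_pow (3 * C1 * k) 1
  refine ⟨max (max X1 X2) (max X3 (2 ^ 75)), fun X hX V V0 b H r hV hbV hV4 hV0 hV0w hVV hH1 hH2
    hb1 hb2 XX hXX hsum => ?_⟩
  have hlow := hX1 X ((le_max_left _ _).trans ((le_max_left _ _).trans hX)) V b H r hV hbV hV4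
    hH1 hH2 hb1 hb2
  have hL17 := hX2 X ((le_max_right _ _).trans ((le_max_left _ _).trans hX))
  have hLk := hX3 X ((le_max_left _ _).trans ((le_max_right _ _).trans hX))
  have hX75 : 2 ^ 75 ≤ X := (le_max_right _ _).trans ((le_max_right _ _).trans hX)
  set L := Real.log X with hL
  have hX1 : 1 ≤ X := le_trans (by norm_num) hX75
  have hXpos : 0 < X := by linarith
  have hL0 : 0 < L := by linarith
  set w := L ^ C1 with hw
  have hwL : L ≤ w := by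
    calc L = L ^ 1 := (pow_one L).symm
      _ ≤ L ^ C1 := pow_le_pow_right₀ (by linarith) hC1
  have hw17 : 17 ≤ w := by linarith
  have hw0 : 0 < w := by linarith
  set F := FF w V b r with hF
  have hF0 : 0 < F := FF_pos _ _ _ _
  -- powers of X
  have h15 : 32 ≤ X ^ ((1 : ℝ) / 15) := by
    have h1 : ((2 : ℝ) ^ 75) ^ ((1 : ℝ) / 15) ≤ X ^ ((1 : ℝ) / 15) :=
      Real.rpow_le_rpow (by positivity) hX75 (by norm_num)
    have h2 : ((2 : ℝ) ^ 75) ^ ((1 : ℝ) / 15) = 32 := by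
      rw [← Real.rpow_natCast, ← Real.rpow_mul (by norm_num)]
      norm_num
    rw [h2] at h1
    exact h1
  have e1 : X ^ ((3 : ℝ) / 5) * X ^ ((1 : ℝ) / 3) * X ^ ((1 : ℝ) / 15) = X := by
    rw [← Real.rpow_add hXpos, ← Real.rpow_add hXpos]
    norm_num
  have hX13 : 0 < X ^ ((1 : ℝ) / 3) := Real.rpow_pos_of_pos hXpos _
  have hX35 : 0 < X ^ ((3 : ℝ) / 5) := Real.rpow_pos_of_pos hXpos _
  have hX131 : 1 ≤ X ^ ((1 : ℝ) / 3) := Real.one_le_rpow hX1 (by norm_num)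
  -- the factor for each prime
  have hone : ∀ p ∈ XX, (((range H).filter (fun i : ℕ => ((V * i + b).Prime ∧
          ∀ q ∈ PP w, ¬ (i : ℤ) ≡ r q [ZMOD q]) ∧ (i : ℤ) ≡ r p [ZMOD p])).card : ℝ) ≤
      12 * C * (H / L) * F * (1 / p) := by
    intro p hp
    obtain ⟨hpp, hpw, hpX⟩ := hXX p hp
    have hp0 : (0 : ℝ) < p := by exact_mod_cast hpp.pos
    have hJlow : (H : ℝ) / p ≤ ((H / p + 1 : ℕ) : ℝ) := by
      rw [div_le_iff₀ hp0]
      have := (Nat.lt_mul_div_succ H hpp.pos).le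
      rw [mul_comm] at this
      exact_mod_cast this
    have hJup : ((H / p + 1 : ℕ) : ℝ) ≤ (H : ℝ) / p + 1 := by
      push_cast
      have := Nat.cast_div_le (α := ℝ) (m := H) (n := p)
      linarith
    have hHp : X ^ ((1 : ℝ) / 3) ≤ (H : ℝ) / p := by
      rw [le_div_iff₀ hp0]
      calc X ^ ((1 : ℝ) / 3) * p ≤ X ^ ((1 : ℝ) / 3) * X ^ ((3 : ℝ) / 5) := by gcongr
        _ = (X ^ ((3 : ℝ) / 5) * X ^ ((1 : ℝ) / 3) * 32) / 32 := by ring
        _ ≤ (X ^ ((3 : ℝ) / 5) * X ^ ((1 : ℝ) / 3) * X ^ ((1 : ℝ) / 15)) / 32 := by gcongr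
        _ = X / 32 := by rw [e1]
        _ ≤ H := hH1
    set J := H / p + 1 with hJ
    have hJ13 : X ^ ((1 : ℝ) / 3) ≤ (J : ℝ) := hHp.trans hJlow
    have hlogJ : L / 3 ≤ Real.log J := by
      have h1 : Real.log (X ^ ((1 : ℝ) / 3)) ≤ Real.log J := Real.log_le_log hX13 hJ13
      rw [Real.log_rpow hXpos] at h1
      linarith
    have hJw : w ^ k ≤ ((J : ℕ) : ℝ) := by
      refine le_trans ?_ hJ13
      have h1 : (w ^ k) ^ 3 ≤ X := by
        have : (w ^ k) ^ 3 = 1 * L ^ (3 * C1 * k) := by rw [hw]; ring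
        rw [this]; exact hLk
      have h2 : ((w ^ k) ^ 3) ^ ((1 : ℝ) / 3) ≤ X ^ ((1 : ℝ) / 3) :=
        Real.rpow_le_rpow (by positivity) h1 (by norm_num)
      have h3 : ((w ^ k) ^ 3) ^ ((1 : ℝ) / 3) = w ^ k := by
        rw [← Real.rpow_natCast (w ^ k) 3, ← Real.rpow_mul (by positivity)]
        norm_num
      rw [h3] at h2
      exact h2
    have hJ2 : (J : ℝ) ≤ 2 * (H / p) := by linarith
    have hJb : J < b := by
      have h1 : (J : ℝ) < b := by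
        have h2 : (H : ℝ) / p < X / 16 := by
          rw [div_lt_div_iff₀ hp0 (by norm_num)]
          nlinarith
        linarith
      exact_mod_cast h1
    have h1 := one_prime C k hk hU w (by linarith) V V0 b H p r hV0 hV0w hVV hpp hpw hJw hJb
    refine h1.trans ?_
    rw [← hJ]
    calc 2 * (C * ((J : ℝ) / Real.log J) * F) ≤ 2 * (C * (2 * (H / p) / (L / 3)) * F) := by
          gcongr
      _ = 12 * C * (H / L) * F * (1 / p) := by
          field_simp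
          ring
  -- union bound
  set S := (range H).filter (fun i : ℕ => (V * i + b).Prime ∧
          ∀ p ∈ PP w, ¬ (i : ℤ) ≡ r p [ZMOD p]) with hS
  set S' := (range H).filter (fun i : ℕ => (V * i + b).Prime ∧
          (∀ p ∈ PP w, ¬ (i : ℤ) ≡ r p [ZMOD p]) ∧
          ∀ p ∈ XX, ¬ (i : ℤ) ≡ r p [ZMOD p]) with hS'
  have hsub : S ⊆ S' ∪ XX.biUnion (fun p => (range H).filter (fun i : ℕ => ((V * i + b).Prime ∧
          ∀ q ∈ PP w, ¬ (i : ℤ) ≡ r q [ZMOD q]) ∧ (i : ℤ) ≡ r p [ZMOD p])) := by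
    intro i hi
    rw [hS, Finset.mem_filter] at hi
    rw [Finset.mem_union]
    by_cases h : ∀ p ∈ XX, ¬ (i : ℤ) ≡ r p [ZMOD p]
    · left
      rw [hS', Finset.mem_filter]
      exact ⟨hi.1, hi.2.1, hi.2.2, h⟩
    · right
      push Not at h
      obtain ⟨p, hp, hip⟩ := h
      rw [Finset.mem_biUnion]
      exact ⟨p, hp, Finset.mem_filter.2 ⟨hi.1, hi.2, hip⟩⟩
  have hcard : (S.card : ℝ) ≤ S'.card + ∑ p ∈ XX, 12 * C * (H / L) * F * (1 / p) := by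
    have h1 : S.card ≤ S'.card + ∑ p ∈ XX, ((range H).filter (fun i : ℕ => ((V * i + b).Prime ∧
          ∀ q ∈ PP w, ¬ (i : ℤ) ≡ r q [ZMOD q]) ∧ (i : ℤ) ≡ r p [ZMOD p])).card :=
      (Finset.card_le_card hsub).trans ((Finset.card_union_le _ _).trans
        (Nat.add_le_add_left Finset.card_biUnion_le _))
    have h2 : (S.card : ℝ) ≤ S'.card + ∑ p ∈ XX, (((range H).filter (fun i : ℕ =>
        ((V * i + b).Prime ∧ ∀ q ∈ PP w, ¬ (i : ℤ) ≡ r q [ZMOD q]) ∧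
          (i : ℤ) ≡ r p [ZMOD p])).card : ℝ) := by exact_mod_cast h1
    refine h2.trans ?_
    gcongr with p hp
    exact hone p hp
  rw [← Finset.mul_sum] at hcard
  have hsm : 12 * C * (H / L) * F * ∑ p ∈ XX, 1 / (p : ℝ) ≤
      12 * C * (H / L) * F * (1 / (384 * C)) := by gcongr
  have hsm2 : 12 * C * (H / L) * F * (1 / (384 * C)) = (1 / 32) * (H / L) * F := by
    field_simp
    ring
  have hlow' : (1 / 16) * (H / L) * F ≤ (S.card : ℝ) := by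
    refine hlow.trans (le_of_eq ?_)
    congr!
  linarith

end Crest.Agent.R001.Fin571
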