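import Crest.Agent.R001.Fin7_571
import Crest.Agent.R001.EndBT

set_option autoImplicit false

namespace Crest.Agent.R001.Fin571

open Finset Crest.Agent.Lib.Mertens Crest.Agent.R001.FL ArithmeticFunction

/-- choice of the class modulo 4 -/
lemma two_adic (a U : ℤ) (V : ℕ) (h : IsCoprime U (V : ℤ)) :
    ∃ ρ : ℤ, ∃ ν : ℕ, ν ≤ 1 ∧ ∀ s : ℤ, s ≡ ρ [ZMOD 4] → ¬ (2 : ℤ) ∣ a - s ∧
      ∃ m : ℤ, (V : ℤ) * s - U = 2 ^ ν * m ∧ ¬ (2 : ℤ) ∣ m := by
  have key : ∀ ρ : ℤ, ∀ ν : ℕ, ν ≤ 1 → ¬ (2 : ℤ) ∣ a - ρ → (∃ m : ℤ, (V : ℤ) * ρ - U = 2 ^ ν * m ∧ ¬ (2 : ℤ) ∣ m) →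
      ∀ s : ℤ, s ≡ ρ [ZMOD 4] → ¬ (2 : ℤ) ∣ a - s ∧
      ∃ m : ℤ, (V : ℤ) * s - U = 2 ^ ν * m ∧ ¬ (2 : ℤ) ∣ m := by
    intro ρ ν hν h1 h2 s hs
    obtain ⟨c, hc⟩ := Int.modEq_iff_dvd.1 hs
    obtain ⟨m, hm, hm2⟩ := h2
    constructor
    · intro h3
      apply h1
      have : a - ρ = (a - s) - 4 * c := by linarith
      rw [this]
      exact dvd_sub h3 ⟨2 * c, by ring⟩
    · interval_cases ν
      · refine ⟨m - 4 * V * c, ?_, ?_⟩
        · have : s = ρ - 4 * c := by linarith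
          rw [this]
          linear_combination hm
        · intro h3
          apply hm2
          have : m = (m - 4 * V * c) + 2 * (2 * V * c) := by ring
          rw [this]
          exact dvd_add h3 ⟨_, rfl⟩
      · refine ⟨m - 2 * V * c, ?_, ?_⟩
        · have : s = ρ - 4 * c := by linarith
          rw [this]
          linear_combination hm
        · intro h3
          apply hm2
          have : m = (m - 2 * V * c) + 2 * (V * c) := by ring
          rw [this]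
          exact dvd_add h3 ⟨_, rfl⟩
  have h1 : ¬ (2 : ℤ) ∣ a - (a + 1) := by
    have : a - (a + 1) = -1 := by ring
    rw [this]; norm_num
  have h3 : ¬ (2 : ℤ) ∣ a - (a + 3) := by
    have : a - (a + 3) = -3 := by ring
    rw [this]; norm_num
  by_cases he : (2 : ℤ) ∣ (V : ℤ) * (a + 1) - U
  · obtain ⟨m, hm⟩ := he
    by_cases hm2 : (2 : ℤ) ∣ m
    · -- then V is odd
      have hV : ¬ (2 : ℤ) ∣ (V : ℤ) := by
        intro hV
        have hU : (2 : ℤ) ∣ U := by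
          have : U = V * (a + 1) - 2 * m := by linarith
          rw [this]
          exact dvd_sub (Dvd.dvd.mul_right hV _) ⟨m, rfl⟩
        have := (h.isUnit_of_dvd' hU hV)
        rw [Int.isUnit_iff] at this
        omega
      refine ⟨a + 3, 1, le_rfl, key (a + 3) 1 le_rfl h3 ⟨m + V, by linear_combination hm, ?_⟩⟩
      intro h4
      apply hV
      exact (Int.dvd_add_right hm2).1 h4
    · exact ⟨a + 1, 1, le_rfl, key (a + 1) 1 le_rfl h1 ⟨m, by linear_combination hm, hm2⟩⟩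
  · exact ⟨a + 1, 0, by norm_num, key (a + 1) 0 (by norm_num) h1 ⟨_, by ring, he⟩⟩

/-- the density factor is at least a constant over `log w` -/
lemma FF_ge_log (w : ℝ) (hw : 2 ≤ w) (V b : ℕ) (r : ℕ → ℤ) :
    Real.exp (-(22 / Real.log 2)) * (Real.log 2 / Real.log w) ≤ FF w V b r := by
  refine (mertens_three 2 w le_rfl hw).1.trans ?_
  rw [FF]
  have hsub : (PP w).filter (fun p : ℕ => ¬ p ∣ V ∧ ¬ (p : ℤ) ∣ (V : ℤ) * r p + b) ⊆ pr 2 w := by
    intro p hp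
    have h1 := (Finset.mem_filter.1 hp).1
    rw [mem_pr (by norm_num) (by linarith)]
    have h2 : (3 : ℝ) ≤ p := by exact_mod_cast PP_three h1
    exact ⟨⟨by linarith, PP_le h1⟩, PP_prime h1⟩
  rw [← Finset.prod_sdiff hsub]
  have hfac : ∀ p ∈ pr 2 w, 0 ≤ 1 - 1 / (p : ℝ) ∧ 1 - 1 / (p : ℝ) ≤ 1 := by
    intro p hp
    rw [mem_pr (by norm_num) (by linarith)] at hp
    have h2 : (2 : ℝ) < p := hp.1.1
    constructor
    · rw [sub_nonneg, div_le_one (by linarith)]; linarith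
    · have : (0 : ℝ) ≤ 1 / p := by positivity
      linarith
  have h3 : ∏ p ∈ pr 2 w \ (PP w).filter (fun p : ℕ => ¬ p ∣ V ∧ ¬ (p : ℤ) ∣ (V : ℤ) * r p + b),
      (1 - 1 / (p : ℝ)) ≤ 1 :=
    Finset.prod_le_one (fun p hp => (hfac p (Finset.mem_sdiff.1 hp).1).1)
      (fun p hp => (hfac p (Finset.mem_sdiff.1 hp).1).2)
  have h4 : 0 ≤ ∏ p ∈ (PP w).filter (fun p : ℕ => ¬ p ∣ V ∧ ¬ (p : ℤ) ∣ (V : ℤ) * r p + b),
      (1 - 1 / (p : ℝ)) := Finset.prod_nonneg fun p hp => (hfac p (hsub hp)).1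
  nlinarith

end Crest.Agent.R001.Fin571
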