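import Crest.Agent.R001.Fin8_571

set_option autoImplicit false

namespace Crest.Agent.R001.Fin571

open Finset Crest.Agent.Lib.Mertens Crest.Agent.R001.FL ArithmeticFunction Crest.Agent.R001.End

/-- choice of the quarter interval -/
lemma quarter (X : ℕ) (hX : 32 ≤ X) (U : ℤ) (V : ℕ) (hV : 1 ≤ V) (ρ : ℤ) :
    ∃ τ s0 : ℤ, (τ = 1 ∨ τ = -1) ∧ s0 ≡ ρ [ZMOD 4] ∧
      (∀ i : ℕ, i < X / 16 → 0 ≤ s0 + 4 * τ * i ∧ s0 + 4 * τ * i < X) ∧
      (V : ℤ) * X ≤ 4 * (τ * (V * s0 - U)) ∧ 0 ≤ s0 ∧ s0 ≤ X := by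
  have hX0 : (0 : ℤ) ≤ X := Int.natCast_nonneg X
  have hV0 : (0 : ℤ) < V := by exact_mod_cast hV
  have hXd : ((X / 16 : ℕ) : ℤ) = (X : ℤ) / 16 := by simp
  by_cases h : 2 * U ≤ V * X
  · set lo : ℤ := X - X / 4 with hlo
    have h1 := Int.emod_nonneg (ρ - lo) (by norm_num : (4 : ℤ) ≠ 0)
    have h2 := Int.emod_lt_of_pos (ρ - lo) (by norm_num : (0 : ℤ) < 4)
    refine ⟨1, lo + (ρ - lo) % 4, Or.inl rfl, ?_, ?_, ?_, ?_, ?_⟩
    · have : lo + (ρ - lo) % 4 ≡ lo + (ρ - lo) [ZMOD 4] := Int.ModEq.add_left _ (Int.mod_modEq _ _)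
      rwa [add_sub_cancel] at this
    · intro i hi
      have hi' : (i : ℤ) < X / 16 := by rw [← hXd]; exact_mod_cast hi
      have hi0 : (0 : ℤ) ≤ i := Int.natCast_nonneg i
      constructor <;> omega
    · have h3 : 3 * (X : ℤ) ≤ 4 * (lo + (ρ - lo) % 4) := by omega
      nlinarith
    · omega
    · omega
  · push Not at h
    set hi : ℤ := X / 4 with hhi
    have h1 := Int.emod_nonneg (hi - ρ) (by norm_num : (4 : ℤ) ≠ 0)
    have h2 := Int.emod_lt_of_pos (hi - ρ) (by norm_num : (0 : ℤ) < 4)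
    refine ⟨-1, hi - (hi - ρ) % 4, Or.inr rfl, ?_, ?_, ?_, ?_, ?_⟩
    · have : hi - (hi - ρ) % 4 ≡ hi - (hi - ρ) [ZMOD 4] := Int.ModEq.sub_left _ (Int.mod_modEq _ _)
      rwa [sub_sub_cancel] at this
    · intro i hi
      have hi' : (i : ℤ) < X / 16 := by rw [← hXd]; exact_mod_cast hi
      have hi0 : (0 : ℤ) ≤ i := Int.natCast_nonneg i
      constructor <;> omega
    · have h3 : 4 * (hi - (hi - ρ) % 4) ≤ (X : ℤ) := by omega
      nlinarith
    · omega
    · omega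

/-- final numerical inequality -/
lemma final_num (C1 : ℕ) (hC1 : 1 ≤ C1) : ∃ X0 : ℝ, ∀ X : ℝ, X0 ≤ X → ∀ (H F : ℝ), X / 32 ≤ H →
    Real.exp (-(22 / Real.log 2)) * (Real.log 2 / Real.log ((Real.log X) ^ C1)) ≤ F →
    X / (Real.log X) ^ 2 ≤ (1 / 32) * (H / Real.log X) * F := by
  have hl2 : 0 < Real.log 2 := Real.log_pos (by norm_num)
  set c0 := Real.exp (-(22 / Real.log 2)) * Real.log 2 with hc0
  have hc0' : 0 < c0 := by positivity
  obtain ⟨Y1, hY1⟩ := ev_pow 1 (1024 * C1 / c0)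
  obtain ⟨X1, hX1⟩ := ev_log (max (max Y1 2) 2)
  refine ⟨max X1 1, fun X hX H F hH hF => ?_⟩
  have h1 := hX1 X ((le_max_left _ _).trans hX)
  have hX1' : 1 ≤ X := (le_max_right _ _).trans hX
  set L := Real.log X with hL
  have hL2 : 2 ≤ L := (le_max_right _ _).trans h1
  have hLY : Y1 ≤ L := (le_max_left _ _).trans ((le_max_left _ _).trans h1)
  have h2 := hY1 L hLY
  rw [pow_one] at h2
  have hlL : 0 < Real.log L := Real.log_pos (by linarith)
  have hC1' : (0 : ℝ) < C1 := by exact_mod_cast hC1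
  rw [Real.log_pow] at hF
  have h3 : 1024 * C1 * Real.log L ≤ L * c0 := by
    rw [div_mul_eq_mul_div, div_le_iff₀ hc0'] at h2
    exact h2
  have hF2 : 1024 / L ≤ F := by
    refine le_trans ?_ hF
    have : Real.exp (-(22 / Real.log 2)) * (Real.log 2 / (↑C1 * Real.log L)) =
        c0 / (C1 * Real.log L) := by
      rw [hc0]; ring
    rw [this, div_le_div_iff₀ (by linarith) (by positivity)]
    linarith
  have hXpos : 0 < X := by linarith
  calc X / L ^ 2 = (1 / 32) * ((X / 32) / L) * (1024 / L) := by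
        field_simp
        ring
    _ ≤ (1 / 32) * (H / L) * F := by
        have hH0 : 0 ≤ H := by linarith
        have hL0 : 0 < L := by linarith
        have h5 : (1 / 32) * ((X / 32) / L) ≤ (1 / 32) * (H / L) := by gcongr
        exact mul_le_mul h5 hF2 (by positivity) (by positivity)

lemma pow35 {X : ℝ} (hX10 : (2 : ℝ) ^ 10 ≤ X) : X ^ ((3 : ℝ) / 5) < X / 8 := by
  have hXpos : 0 < X := by linarith
  have e1 : X ^ ((3 : ℝ) / 5) * X ^ ((2 : ℝ) / 5) = X := by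
    rw [← Real.rpow_add hXpos]; norm_num
  have e2 : (16 : ℝ) ≤ X ^ ((2 : ℝ) / 5) := by
    have e3 : ((2 : ℝ) ^ 10) ^ ((2 : ℝ) / 5) ≤ X ^ ((2 : ℝ) / 5) :=
      Real.rpow_le_rpow (by positivity) hX10 (by norm_num)
    have e4 : ((2 : ℝ) ^ 10) ^ ((2 : ℝ) / 5) = 16 := by
      rw [← Real.rpow_natCast, ← Real.rpow_mul (by norm_num)]
      norm_num
    rw [e4] at e3
    exact e3
  have e5 : 0 < X ^ ((3 : ℝ) / 5) := Real.rpow_pos_of_pos hXpos _
  rw [lt_div_iff₀ (by norm_num)]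
  calc X ^ ((3 : ℝ) / 5) * 8 < X ^ ((3 : ℝ) / 5) * 16 := by gcongr; norm_num
    _ ≤ X ^ ((3 : ℝ) / 5) * X ^ ((2 : ℝ) / 5) := by gcongr
    _ = X := e1

set_option maxHeartbeats 1000000 in
open Classical in
/-- **BLOCK FIN** (from the upper bound sieve and Siegel–Walfisz) -/
theorem fin_aux (hSW : Crest.Agent.SW.PsiAP) (hUp : Upper) : ∃ ε₀ : ℝ, 0 < ε₀ ∧
    ∀ C1 : ℕ, 1 ≤ C1 → ∃ X0 : ℝ, ∀ X : ℕ, X0 ≤ X → ∀ (a U : ℤ) (V : ℕ), 1 ≤ V →
      (V : ℝ) ≤ (Real.log X) ^ C1 → |(U : ℝ)| ≤ X * (Real.log X) ^ C1 → IsCoprime U (V : ℤ) →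
      ∀ z : ℝ, z ≤ (X : ℝ) ^ ((3 : ℝ) / 5) → ∀ XX : Finset ℕ,
      (∀ p ∈ XX, p.Prime ∧ (Real.log X) ^ C1 < p) → ∑ p ∈ XX, (1 : ℝ) / p ≤ ε₀ →
      (∀ p : ℕ, p.Prime → (Real.log X) ^ C1 < p → (p : ℝ) < z → p ∉ XX →
        (p : ℤ) ∣ (V : ℤ) * a - U) →
      (X : ℝ) / (Real.log X) ^ 2 ≤ ((rough (Finset.Ioc (a - X) a) z).card : ℝ) := by
  obtain ⟨ε₀, hε, hcomb⟩ := comb hSW hUp
  refine ⟨ε₀, hε, fun C1 hC1 => ?_⟩
  obtain ⟨X1, hX1⟩ := hcomb C1 hC1
  obtain ⟨X2, hX2⟩ := final_num C1 hC1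
  obtain ⟨X3, hX3⟩ := ev_log 2
  refine ⟨max (max X1 X2) (max X3 (2 ^ 10)), fun X hX a U V hV hVw hUw hUV z hz XX hXX hsum hdvd => ?_⟩
  have hcb := hX1 X ((le_max_left _ _).trans ((le_max_left _ _).trans hX))
  have hfn := hX2 X ((le_max_right _ _).trans ((le_max_left _ _).trans hX))
  have hL2 := hX3 X ((le_max_left _ _).trans ((le_max_right _ _).trans hX))
  have hX10 : (2 : ℝ) ^ 10 ≤ X := (le_max_right _ _).trans ((le_max_right _ _).trans hX)
  have hXn : 1024 ≤ X := by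
    have : ((1024 : ℕ) : ℝ) ≤ X := by push_cast; linarith
    exact_mod_cast this
  set L := Real.log X with hL
  set w := L ^ C1 with hw
  have hwL : L ≤ w := by
    calc L = L ^ 1 := (pow_one L).symm
      _ ≤ L ^ C1 := pow_le_pow_right₀ (by linarith) hC1
  have hw2 : 2 ≤ w := by linarith
  have hXpos : (0 : ℝ) < X := by linarith
  obtain ⟨ρ, ν, hν, hρ⟩ := two_adic a U V hUV
  obtain ⟨τ, s0, hτ, hs0ρ, hrange, hbig, hs00, hs0X⟩ := quarter X (by omega) U V hV ρ
  obtain ⟨_, m, hm, hm2⟩ := hρ s0 hs0ρ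
  have hττ : τ * τ = 1 := by rcases hτ with h | h <;> rw [h] <;> norm_num
  have hpow : (0 : ℤ) < 2 ^ ν := by positivity
  have hVX : (0 : ℤ) < V * X := by
    have : 0 < V * X := Nat.mul_pos hV (by omega)
    exact_mod_cast this
  have hn0 : τ * (V * s0 - U) = 2 ^ ν * (τ * m) := by rw [hm]; ring
  have hmpos : 0 < τ * m := by
    by_contra hcon
    have h1 : 2 ^ ν * (τ * m) ≤ 0 := mul_nonpos_of_nonneg_of_nonpos hpow.le (not_lt.1 hcon)
    rw [← hn0] at h1
    linarith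
  set b : ℕ := (τ * m).toNat with hb
  have hbm : (b : ℤ) = τ * m := Int.toNat_of_nonneg hmpos.le
  have hb2 : ¬ 2 ∣ b := by
    intro h
    have h1 : (2 : ℤ) ∣ (b : ℤ) := by exact_mod_cast h
    rw [hbm] at h1
    apply hm2
    have : m = τ * (τ * m) := by rw [← mul_assoc, hττ, one_mul]
    rw [this]
    exact Dvd.dvd.mul_left h1 _
  -- the modulus
  obtain ⟨V1, hV1⟩ : ∃ V1 : ℕ, 2 ^ ν * V1 = 4 * V := by
    interval_cases ν
    · exact ⟨4 * V, by ring⟩
    · exact ⟨2 * V, by ring⟩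
  have hV1z : (2 : ℤ) ^ ν * V1 = 4 * V := by exact_mod_cast hV1
  have hV1pos : 0 < V1 := by
    rcases Nat.eq_zero_or_pos V1 with h | h
    · rw [h] at hV1; omega
    · exact h
  have h2ν : (2 : ℕ) ^ ν ≤ 2 := by interval_cases ν <;> norm_num
  have h2ν1 : 1 ≤ (2 : ℕ) ^ ν := Nat.one_le_two_pow
  have hV14 : V1 ≤ 4 * V := by nlinarith
  have hdv : ∀ p : ℕ, p.Prime → 3 ≤ p → (p ∣ V1 ↔ p ∣ V) := by
    intro p hp hp3
    constructor
    · intro h
      have h1 : p ∣ 4 * V := by rw [← hV1]; exact Dvd.dvd.mul_left h _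
      rcases (Nat.Prime.dvd_mul hp).1 h1 with h2 | h2
      · have h3 : p ∣ 2 ^ 2 := by norm_num; exact h2
        have := (Nat.prime_dvd_prime_iff_eq hp Nat.prime_two).1 (hp.dvd_of_dvd_pow h3)
        omega
      · exact h2
    · intro h
      have h1 : p ∣ 2 ^ ν * V1 := by rw [hV1]; exact Dvd.dvd.mul_left h _
      rcases (Nat.Prime.dvd_mul hp).1 h1 with h2 | h2
      · have := (Nat.prime_dvd_prime_iff_eq hp Nat.prime_two).1 (hp.dvd_of_dvd_pow h2)
        omega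
      · exact h2
  have hbV : b.Coprime V1 := by
    apply Nat.Coprime.symm
    apply Nat.coprime_of_dvd
    intro k hk hkV hkb
    rcases hk.eq_two_or_odd' with h | h
    · rw [h] at hkb; exact hb2 hkb
    · have hk3 : 3 ≤ k := by
        have := hk.two_le
        rcases h with ⟨c, hc⟩
        omega
      have h1 : (k : ℤ) ∣ (V : ℤ) := by exact_mod_cast (hdv k hk hk3).1 hkV
      have h2 : (k : ℤ) ∣ (b : ℤ) := by exact_mod_cast hkb
      have h3 : (k : ℤ) ∣ U := by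
        have h4 : U = V * s0 - τ * (2 ^ ν * b) := by
          rw [hbm, ← hn0, ← mul_assoc, hττ]; ring
        rw [h4]
        exact dvd_sub (Dvd.dvd.mul_right h1 _) (Dvd.dvd.mul_left (Dvd.dvd.mul_left h2 _) _)
      have h5 := hUV.isUnit_of_dvd' h3 h1
      rw [Int.isUnit_iff] at h5
      omega
  -- sizes
  set H : ℕ := X / 16 with hH
  have hH1 : (X : ℝ) / 32 ≤ H := by
    have : X ≤ 32 * H := by omega
    have h2 : (X : ℝ) ≤ 32 * H := by exact_mod_cast this
    linarith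
  have hH2 : (H : ℝ) ≤ X := by
    have : H ≤ X := by omega
    exact_mod_cast this
  have hb2n : (2 : ℤ) ^ ν ≤ 2 := by exact_mod_cast h2ν
  have hb1n : (1 : ℤ) ≤ 2 ^ ν := by exact_mod_cast h2ν1
  have hb0 : (0 : ℤ) < b := by rw [hbm]; exact hmpos
  have hbX : (X : ℤ) ≤ 8 * b := by
    have h1 : (V : ℤ) * X ≤ 4 * (2 ^ ν * b) := by rw [hbm, ← hn0]; exact hbig
    have h2 : (X : ℤ) ≤ V * X := by
      have : (1 : ℤ) ≤ V := by exact_mod_cast hV
      have : (0 : ℤ) ≤ X := Int.natCast_nonneg X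
      nlinarith
    nlinarith
  have hbXr : (X : ℝ) / 8 ≤ b := by
    have : (X : ℝ) ≤ 8 * b := by exact_mod_cast hbX
    linarith
  have hbU : (b : ℝ) ≤ 2 * X * w := by
    have h1 : (b : ℤ) ≤ |(V : ℤ) * s0 - U| := by
      have h2 : (b : ℤ) ≤ 2 ^ ν * b := by nlinarith
      have h3 : (2 : ℤ) ^ ν * b = τ * (V * s0 - U) := by rw [hbm, hn0]
      have h4 : τ * (V * s0 - U) ≤ |(V : ℤ) * s0 - U| := by
        rcases hτ with h | h
        · rw [h, one_mul]; exact le_abs_self _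
        · rw [h, neg_one_mul]; exact neg_le_abs _
      linarith
    have h2 : |(V : ℤ) * s0 - U| ≤ (V : ℤ) * s0 + |U| := by
      have h3 : |(V : ℤ) * s0 - U| ≤ |(V : ℤ) * s0| + |U| := abs_sub _ _
      have h4 : |(V : ℤ) * s0| = V * s0 := abs_of_nonneg (mul_nonneg (Int.natCast_nonneg V) hs00)
      rw [h4] at h3
      exact h3
    have h3 : (b : ℤ) ≤ V * X + |U| := by
      have : (V : ℤ) * s0 ≤ V * X := mul_le_mul_of_nonneg_left hs0X (Int.natCast_nonneg V)
      linarith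
    have h4 : (b : ℝ) ≤ V * X + |(U : ℝ)| := by exact_mod_cast h3
    have h5 : (V : ℝ) * X ≤ w * X := mul_le_mul_of_nonneg_right hVw hXpos.le
    linarith
  -- the classes of `t`
  have hcl : ∀ p : ℕ, ∃ c : ℤ, p.Prime → 3 ≤ p →
      ∀ j : ℤ, (p : ℤ) ∣ (-(4 * τ)) * j + (a - s0) ↔ j ≡ c [ZMOD p] := by
    intro p
    by_cases h : p.Prime ∧ 3 ≤ p
    · obtain ⟨h1, h2⟩ := h
      have h5 : ¬ (p : ℤ) ∣ -(4 * τ) := by
        intro h6
        have h7 : (p : ℤ) ∣ 4 := by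
          have : (4 : ℤ) = -(4 * τ) * (-τ) := by linear_combination -4 * hττ
          rw [this]
          exact Dvd.dvd.mul_right h6 _
        have h8 : p ∣ 2 ^ 2 := by norm_num; exact_mod_cast h7
        have := (Nat.prime_dvd_prime_iff_eq h1 Nat.prime_two).1 (h1.dvd_of_dvd_pow h8)
        omega
      obtain ⟨c, hc⟩ := exists_class p h1 _ (a - s0) h5
      exact ⟨c, fun _ _ => hc⟩
    · exact ⟨0, fun h1 h4 => absurd ⟨h1, h4⟩ h⟩
  choose r hr using hcl
  set XX' := XX.filter (fun p : ℕ => (p : ℝ) < z) with hXX'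
  have hsum' : ∑ p ∈ XX', (1 : ℝ) / p ≤ ε₀ := by
    refine le_trans (Finset.sum_le_sum_of_subset_of_nonneg (Finset.filter_subset _ _) ?_) hsum
    intro p _ _
    positivity
  have hV1r : (V1 : ℝ) ≤ 4 * w := by
    have h1 : (V1 : ℝ) ≤ 4 * V := by exact_mod_cast hV14
    linarith
  have hmain := hcb V1 V b H r hV1pos hbV hV1r hV hVw hdv hH1 hH2 hbXr hbU XX' (by
    intro p hp
    rw [hXX', Finset.mem_filter] at hp
    exact ⟨(hXX p hp.1).1, (hXX p hp.1).2, (hp.2.le.trans hz)⟩) hsum'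
  have hlast := hfn H (FF w V1 b r) hH1 (FF_ge_log w hw2 V1 b r)
  refine hlast.trans (hmain.trans ?_)
  -- the injection
  have hcard : (((range H).filter (fun i : ℕ => (V1 * i + b).Prime ∧
          (∀ p ∈ PP w, ¬ (i : ℤ) ≡ r p [ZMOD p]) ∧
          ∀ p ∈ XX', ¬ (i : ℤ) ≡ r p [ZMOD p])).card) ≤ (rough (Finset.Ioc (a - X) a) z).card := by
    apply Finset.card_le_card_of_injOn (fun i : ℕ => a - (s0 + 4 * τ * i))
    · intro i hi
      rw [Finset.mem_coe, Finset.mem_filter, Finset.mem_range] at hi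
      obtain ⟨hiH, hN, hP, hE⟩ := hi
      obtain ⟨hr1, hr2⟩ := hrange i hiH
      show a - (s0 + 4 * τ * i) ∈ ((rough (Finset.Ioc (a - X) a) z : Finset ℤ) : Set ℤ)
      rw [Finset.mem_coe, mem_rough, Finset.mem_Ioc]
      refine ⟨⟨by linarith, by linarith⟩, fun q hq hqz hqt => ?_⟩
      have hsi : s0 + 4 * τ * i ≡ ρ [ZMOD 4] := by
        refine Int.ModEq.trans ?_ hs0ρ
        apply Int.ModEq.symm
        rw [Int.modEq_iff_dvd]
        exact ⟨τ * i, by ring⟩
      obtain ⟨hodd, _⟩ := hρ _ hsi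
      rcases hq.eq_two_or_odd' with h | h
      · rw [h] at hqt; exact hodd (by exact_mod_cast hqt)
      · have hq3 : 3 ≤ q := by
          have := hq.two_le
          rcases h with ⟨c, hc⟩
          omega
        have hqi : (i : ℤ) ≡ r q [ZMOD q] := by
          apply (hr q hq hq3 i).1
          have : -(4 * τ) * (i : ℤ) + (a - s0) = a - (s0 + 4 * τ * i) := by ring
          rw [this]; exact hqt
        by_cases hqw : (q : ℝ) ≤ w
        · apply hP q _ hqi
          rw [mem_PP (by linarith)]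
          exact ⟨hq, hq3, hqw⟩
        · push Not at hqw
          by_cases hqX : q ∈ XX
          · apply hE q _ hqi
            rw [hXX', Finset.mem_filter]
            exact ⟨hqX, hqz⟩
          · have h1 := hdvd q hq hqw hqz hqX
            -- q divides N
            have h2 : (q : ℤ) ∣ 2 ^ ν * ((V1 * i + b : ℕ) : ℤ) := by
              have h3 : (2 : ℤ) ^ ν * ((V1 * i + b : ℕ) : ℤ) =
                  τ * (((V : ℤ) * a - U) - V * (a - (s0 + 4 * τ * i))) := by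
                push_cast
                have e1 : (2 : ℤ) ^ ν * (V1 * i + b) = (2 ^ ν * V1) * i + 2 ^ ν * b := by ring
                rw [e1, hV1z, hbm, ← hn0]
                linear_combination (-4 * (V : ℤ) * i) * hττ
              rw [h3]
              exact Dvd.dvd.mul_left (dvd_sub h1 (Dvd.dvd.mul_left hqt _)) _
            have h4 : q ∣ 2 ^ ν * (V1 * i + b) := by exact_mod_cast h2
            rcases (Nat.Prime.dvd_mul hq).1 h4 with h5 | h5
            · have := (Nat.prime_dvd_prime_iff_eq hq Nat.prime_two).1 (hq.dvd_of_dvd_pow h5)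
              omega
            · have h6 := (Nat.prime_dvd_prime_iff_eq hq hN).1 h5
              have h7 : b ≤ q := by rw [h6]; exact Nat.le_add_left _ _
              have h8 : (b : ℝ) ≤ q := by exact_mod_cast h7
              have h9 := pow35 hX10
              linarith
    · intro i _ j _ hij
      simp only at hij
      have h1 : τ * (i : ℤ) = τ * j := by linarith
      have h2 : (i : ℤ) = j := by
        have h3 : τ * (τ * (i : ℤ)) = τ * (τ * j) := by rw [h1]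
        rw [← mul_assoc, ← mul_assoc, hττ, one_mul, one_mul] at h3
        exact h3
      exact_mod_cast h2
  exact_mod_cast hcard

end Crest.Agent.R001.Fin571
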