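import Crest.Agent.R001.Hit621a

/-!
# R1, block HIT: lower bounds for all bounded `s`, reach lemma.  helper621
-/

set_option autoImplicit false

namespace Crest.Agent.R001.Hit

open Finset

lemma D_pos {D : ℝ} {d w : ℕ} (hi : Inv D d w) (hw : 1 ≤ w) : 0 < D := by
  have hd : (0 : ℝ) < d := by exact_mod_cast hi.one_le
  have hw' : (0 : ℝ) < w := by exact_mod_cast hw
  exact lt_of_lt_of_le (by positivity) hi.sq_le

/-- `2 log w ≤ v` -/
lemma two_log_le {D : ℝ} {d w : ℕ} (hi : Inv D d w) (hw : 1 ≤ w) :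
    2 * Real.log w ≤ vv D d := by
  have hd : (0 : ℝ) < d := by exact_mod_cast hi.one_le
  have hw' : (0 : ℝ) < w := by exact_mod_cast hw
  unfold vv
  have h1 : Real.log ((w : ℝ) ^ 2) ≤ Real.log (D / d) := by
    apply Real.log_le_log (by positivity)
    rw [le_div_iff₀ hd]
    have := hi.sq_le
    linarith
  rw [Real.log_pow] at h1
  exact_mod_cast h1

lemma one_le_of_log_pos {w : ℕ} (h : 0 < Real.log w) : 1 ≤ w := by
  by_contra hlt
  have : w = 0 := by omega
  subst this
  simp at h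

lemma LOW.mono {S S' c c' V1 V1' B B' : ℝ} (h : LOW S c V1 B) (hS : S' ≤ S) (hc : c' ≤ c)
    (hV : V1 ≤ V1') (hB : B ≤ B') (hV0 : 0 < V1') : LOW S' c' V1' B' := by
  intro D V hV1 d w hi hv hB'
  have hVp : 0 < V := by linarith
  have hlog : 0 ≤ Real.log w := Real.log_natCast_nonneg w
  refine le_trans ?_ (h D V (by linarith) d w hi (lt_of_lt_of_le hv ?_) (le_trans ?_ hB'))
  · gcongr
  · gcongr
  · gcongr

/-- induction step: from `S` to `S + 1` -/
lemma LOW.succ {S c V1 B : ℝ} (hS : 4 ≤ S) (hc : 0 < c) (hV1 : 0 < V1) (hB : 1 ≤ B)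
    (h : LOW S c V1 B) : ∃ c' V1' : ℝ, 0 < c' ∧ 0 < V1' ∧ LOW (S + 1) c' V1' (2 * B) := by
  -- parameters
  set ε : ℝ := 1 / (S + 2) with hε
  have hε0 : 0 < ε := by positivity
  have hε6 : ε ≤ 1 / 6 := by
    rw [hε]; apply one_div_le_one_div_of_le (by norm_num) (by linarith)
  have hSε : (S + 2) * ε = 1 := by rw [hε]; field_simp
  set η1 : ℝ := Real.log ((1 - ε / 4) / (1 - ε / 2)) with hη1
  set η2 : ℝ := Real.log ((1 - ε / 2) / (1 - ε)) with hη2
  have h1a : 0 < 1 - ε := by linarith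
  have h1b : 0 < 1 - ε / 2 := by linarith
  have h1c : 0 < 1 - ε / 4 := by linarith
  have hη1p : 0 < η1 := by
    apply Real.log_pos
    rw [one_lt_div h1b]; linarith
  have hη2p : 0 < η2 := by
    apply Real.log_pos
    rw [one_lt_div h1a]; linarith
  refine ⟨min c (c * (η1 / 2) * (η2 / 2)), max V1 ((S + 1) * (2 + 72 / η1 + 72 / η2)), ?_, ?_, ?_⟩
  · exact lt_min hc (by positivity)
  · exact lt_max_of_lt_left hV1
  intro D V hV d w hi hv hBv
  have hVV1 : V1 ≤ V := le_trans (le_max_left _ _) hV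
  have hV2 : (S + 1) * (2 + 72 / η1 + 72 / η2) ≤ V := le_trans (le_max_right _ _) hV
  have hVp : 0 < V := by linarith
  have hd : (0 : ℝ) < d := by exact_mod_cast hi.one_le
  have hvp : 0 < vv D d := by nlinarith
  by_cases hcase : vv D d < S * Real.log w
  · refine le_trans ?_ (h D V hVV1 d w hi hcase (by nlinarith))
    gcongr
    exact min_le_left _ _
  push Not at hcase
  set W := Real.log w with hW
  have hWp : 0 < W := by
    by_contra hle
    push Not at hle
    nlinarith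
  have hw1 : 1 ≤ w := one_le_of_log_pos hWp
  have hDp : 0 < D := D_pos hi hw1
  -- W is large
  have hWV : V / (S + 1) ≤ W := by
    rw [div_le_iff₀ (by linarith)]
    nlinarith
  have hWbig : 2 + 72 / η1 + 72 / η2 ≤ W := by
    refine le_trans ?_ hWV
    rw [le_div_iff₀ (by linarith)]
    linarith
  have h72a : 0 < 72 / η1 := by positivity
  have h72b : 0 < 72 / η2 := by positivity
  -- the windows
  set W1 := win ((1 - ε / 2) * W) ((1 - ε / 4) * W) with hW1
  set W2 := win ((1 - ε) * W) ((1 - ε / 2) * W) with hW2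
  have hs1 : η1 / 2 ≤ ∑ p ∈ W1, 1 / (p : ℝ) := by
    apply sum_win_ge_half
    · nlinarith
    · exact hη1p
    · rw [hη1]
      apply le_of_eq
      congr 1
      field_simp
    · positivity
    · have : 36 / η1 = (72 / η1) / 2 := by ring
      nlinarith
  have hs2 : η2 / 2 ≤ ∑ p ∈ W2, 1 / (p : ℝ) := by
    apply sum_win_ge_half
    · nlinarith
    · exact hη2p
    · rw [hη2]
      apply le_of_eq
      congr 1
      field_simp
    · positivity
    · have : 36 / η2 = (72 / η2) / 2 := by ring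
      nlinarith
  have hchild : ∀ p ∈ W1, ∀ q ∈ W2, IsChild D d w p q := by
    intro p hp q hq
    rw [hW1, mem_win] at hp
    rw [hW2, mem_win] at hq
    obtain ⟨⟨hp1, hp2⟩, hpp⟩ := hp
    obtain ⟨⟨hq1, hq2⟩, hqp⟩ := hq
    have hp0 : (0 : ℝ) < p := by exact_mod_cast hpp.pos
    have hq0 : (0 : ℝ) < q := by exact_mod_cast hqp.pos
    have hw0 : (0 : ℝ) < w := by exact_mod_cast hw1
    apply isChild_iff_log hDp hi
    · have : Real.log p < Real.log w := by nlinarith
      exact_mod_cast (Real.log_lt_log_iff hp0 hw0).1 this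
    · exact hpp
    · have : Real.log q < Real.log p := by linarith
      exact_mod_cast (Real.log_lt_log_iff hq0 hp0).1 this
    · exact hqp
    · nlinarith
  have hnn : ∀ p q, IsChild D d w p q → 0 ≤ FF D V (d * p * q) q :=
    fun p q hc => FF_nonneg _ _ (hi.child hc)
  have hbound : ∀ p ∈ W1, ∀ q ∈ W2,
      (c * V ^ 2 / (d * vv D d ^ 2)) * (1 / (p : ℝ)) * (1 / (q : ℝ)) ≤ FF D V (d * p * q) q := by
    intro p hp q hq
    have hc := hchild p hp q hq
    have hvc := vv_child hi hc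
    have hic := hi.child hc
    rw [hW1, mem_win] at hp
    rw [hW2, mem_win] at hq
    obtain ⟨⟨hp1, hp2⟩, hpp⟩ := hp
    obtain ⟨⟨hq1, hq2⟩, hqp⟩ := hq
    have hp0 : (0 : ℝ) < p := by exact_mod_cast hpp.pos
    have hq0 : (0 : ℝ) < q := by exact_mod_cast hqp.pos
    have hvc1 : vv D d / 2 ≤ vv D (d * p * q) := by
      rw [hvc]
      nlinarith
    have hvc2 : vv D (d * p * q) ≤ vv D d := by
      rw [hvc]
      nlinarith [mul_pos h1b hWp, mul_pos h1a hWp]
    have hlow := h D V hVV1 (d * p * q) q hic ?_ ?_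
    · refine le_trans ?_ hlow
      push_cast
      rw [show c * V ^ 2 / (d * vv D d ^ 2) * (1 / (p : ℝ)) * (1 / (q : ℝ)) =
        c * V ^ 2 / (d * p * q * vv D d ^ 2) by field_simp]
      have : 0 < vv D (d * p * q) := by linarith
      gcongr
    · rw [hvc]
      nlinarith
    · nlinarith
  have hns : ¬ Stop D V d w := by
    intro hst
    have := hst.2
    nlinarith
  have hF : FF D V d w = cs D (FF D V) d w := ls_step hns
  rw [hF]
  refine le_trans ?_ (cs_ge_rect W1 W2 _ hnn hchild hbound)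
  have hK : 0 ≤ c * V ^ 2 / (d * vv D d ^ 2) := by positivity
  calc min c (c * (η1 / 2) * (η2 / 2)) * V ^ 2 / (d * vv D d ^ 2)
      ≤ (c * (η1 / 2) * (η2 / 2)) * V ^ 2 / (d * vv D d ^ 2) := by
        gcongr
        exact min_le_right _ _
    _ = c * V ^ 2 / (d * vv D d ^ 2) * (η1 / 2) * (η2 / 2) := by ring
    _ ≤ _ := by gcongr

/-- lower bounds for all bounded `s` -/
theorem LOW.all {c V1 B0 : ℝ} (hc : 0 < c) (hV1 : 0 < V1) (hB0 : 1 ≤ B0) (h : LOW 4 c V1 B0)
    (n : ℕ) :
    ∃ c' V1' B : ℝ, 0 < c' ∧ 0 < V1' ∧ 1 ≤ B ∧ LOW (4 + n) c' V1' B := by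
  induction n with
  | zero => exact ⟨c, V1, B0, hc, hV1, hB0, by simpa using h⟩
  | succ n ih =>
    obtain ⟨c', V1', B, h1, h2, h3, h4⟩ := ih
    obtain ⟨c'', V1'', h5, h6, h7⟩ := LOW.succ (by
      have : (0 : ℝ) ≤ n := Nat.cast_nonneg n
      linarith) h1 h2 h3 h4
    refine ⟨c'', V1'', 2 * B, h5, h6, by linarith, ?_⟩
    push_cast
    rw [← add_assoc]
    exact h7

end Crest.Agent.R001.Hit
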