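import Crest.Agent.R001.Hit621b

/-!
# R1, block HIT: reach lemma and first-hit lemma.  helper621
-/

set_option autoImplicit false

namespace Crest.Agent.R001.Hit

open Finset Classical

/-- mass of the part of `line(K u)` with `5 u ≤ v`, weighted with the mass of `line(V)` below -/
noncomputable def GA (D V K u : ℝ) (d w : ℕ) : ℝ :=
  ls D (Stop D (K * u)) (fun d w => if 5 * u ≤ vv D d then FF D V d w else 0) d w

/-- REACH: a positive proportion of the mass of `line(V)` below a state passes through good states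
with `5 u ≤ v ≤ 5 A u`. -/
theorem reach {CU c4 c10 V1 B A : ℝ} (hCU : 0 < CU) (hc4 : 0 < c4) (hc10 : 0 < c10)
    (hV1 : 0 < V1) (hB : 1 ≤ B) (hA : 1 ≤ A) (hA2 : 2 * CU ≤ c10 * A ^ 2)
    (hUP : UP CU V1) (hL4 : LOW 4 c4 V1 B) (hL10 : LOW 10 c10 V1 B)
    {D V u : ℝ} (hV : V1 ≤ V) (hu : B * V ≤ u) {d w : ℕ} (hi : Inv D d w)
    (hv : vv D d < 10 * Real.log w) (hBv : B * (5 * A * u) ≤ vv D d) :
    c4 * c10 / (2 * CU) * FF D V d w ≤ GA D V (5 * A) u d w := by
  have hVp : 0 < V := by linarith
  have hup : 0 < u := lt_of_lt_of_le (by positivity) hu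
  have hVu : V ≤ u := le_trans (by nlinarith) hu
  set V' : ℝ := 5 * A * u with hV'
  have hV'5 : 5 * u ≤ V' := by rw [hV']; nlinarith
  have hV'p : 0 < V' := by linarith
  have hdp : (0 : ℝ) < d := by exact_mod_cast hi.one_le
  have hvV' : V' ≤ vv D d := le_trans (by nlinarith) hBv
  have hvp : 0 < vv D d := by linarith
  -- splitting of the line sum
  set Sg := ls D (Stop D V') (fun d _ => if 5 * u ≤ vv D d then 1 / (d : ℝ) else 0) d w with hSg
  set Sl := ls D (Stop D V') (fun d _ => if 5 * u ≤ vv D d then 0 else 1 / (d : ℝ)) d w with hSl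
  have hsplit : FF D V' d w = Sg + Sl := by
    rw [hSg, hSl, ← ls_add d w hi]
    unfold FF
    congr 1
    funext d w
    split_ifs <;> simp
  -- the small part
  have hsmall : Sl ≤ FF D (5 * u) d w := by
    have key : ∀ d w, Inv D d w →
        ls D (Stop D V') (fun d _ => if 5 * u ≤ vv D d then 0 else 1 / (d : ℝ)) d w ≤
          FF D (5 * u) d w := by
      apply tree_ind
      intro d w hi ih
      by_cases hs : Stop D V' d w
      · rw [ls_stop hs]
        split_ifs with h5
        · exact FF_nonneg _ _ hi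
        · push Not at h5
          have hs2 : Stop D (5 * u) d w := ⟨hs.1, h5.le⟩
          unfold FF
          rw [ls_stop hs2]
      · have hs2 : ¬ Stop D (5 * u) d w := fun h => hs ⟨h.1, h.2.trans hV'5⟩
        unfold FF
        rw [ls_step hs, ls_step hs2]
        exact cs_le_cs ih
    exact key d w hi
  have hup5 := hUP D (5 * u) (by linarith) d w hi (by linarith)
  have hlow := hL10 D V' (by linarith) d w hi hv hBv
  have hSg_ge : c10 / 2 * V' ^ 2 / (d * vv D d ^ 2) ≤ Sg := by
    have h1 : c10 * V' ^ 2 / (d * vv D d ^ 2) - CU * (5 * u) ^ 2 / (d * vv D d ^ 2) ≤ Sg := by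
      linarith
    refine le_trans ?_ h1
    rw [← sub_div]
    apply div_le_div_of_nonneg_right _ (by positivity)
    rw [hV']
    nlinarith [mul_pos hup hup]
  -- pointwise lower bound at the stopped states
  have hpt : c4 * V ^ 2 / V' ^ 2 * Sg ≤ GA D V (5 * A) u d w := by
    rw [hSg, ← ls_mul _ d w hi]
    unfold GA
    apply ls_mono _ d w hi
    intro d w hi hs
    split_ifs with h5
    · have hdp : (0 : ℝ) < d := by exact_mod_cast hi.one_le
      have hvp : 0 < vv D d := by linarith
      have h4 := hL4 D V hV d w hi hs.1 (by linarith)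
      refine le_trans ?_ h4
      have hs2 : vv D d ≤ V' := hs.2
      rw [div_mul_div_comm, mul_one]
      rw [div_le_div_iff₀ (by positivity) (by positivity)]
      have : vv D d ^ 2 ≤ V' ^ 2 := by gcongr
      have h0 : 0 ≤ c4 * V ^ 2 * d := by positivity
      nlinarith
    · simp
  have hupσ := hUP D V hV d w hi (by linarith)
  calc c4 * c10 / (2 * CU) * FF D V d w
      ≤ c4 * c10 / (2 * CU) * (CU * V ^ 2 / (d * vv D d ^ 2)) := by gcongr
    _ = c4 * V ^ 2 / V' ^ 2 * (c10 / 2 * V' ^ 2 / (d * vv D d ^ 2)) := by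
        field_simp
    _ ≤ c4 * V ^ 2 / V' ^ 2 * Sg := by gcongr
    _ ≤ _ := hpt

/-- hit: some prime of `XX` divides `d` -/
def hit (XX : Finset ℕ) (d : ℕ) : Prop := ∃ p ∈ XX, p ∣ d

/-- mass of the elements of `line(V)` which are hit -/
noncomputable def HH (D V : ℝ) (XX : Finset ℕ) (d w : ℕ) : ℝ :=
  ls D (Stop D V) (fun d _ => if hit XX d then 1 / (d : ℝ) else 0) d w

/-- the not yet hit part of `GA` -/
noncomputable def GN (D V K : ℝ) (XX : Finset ℕ) (u : ℝ) (d w : ℕ) : ℝ :=
  ls D (Stop D (K * u))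
    (fun d w => if 5 * u ≤ vv D d ∧ ¬ hit XX d then FF D V d w else 0) d w

lemma hit_child {XX : Finset ℕ} {d p q : ℕ} (h : hit XX d) : hit XX (d * p * q) := by
  obtain ⟨r, hr, hrd⟩ := h
  exact ⟨r, hr, (hrd.mul_right _).mul_right _⟩

lemma HH_nonneg {D V : ℝ} {XX : Finset ℕ} (d w : ℕ) (hi : Inv D d w) : 0 ≤ HH D V XX d w :=
  ls_nonneg (fun d w _ _ => by split_ifs <;> positivity) d w hi

lemma HH_le_FF {D V : ℝ} {XX : Finset ℕ} (d w : ℕ) (hi : Inv D d w) :
    HH D V XX d w ≤ FF D V d w :=
  ls_mono (fun d w _ _ => by split_ifs <;> first | exact le_rfl | positivity) d w hi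

lemma HH_of_hit {D V : ℝ} {XX : Finset ℕ} (d w : ℕ) (hi : Inv D d w) (h : hit XX d) :
    HH D V XX d w = FF D V d w := by
  apply le_antisymm (HH_le_FF d w hi)
  refine ls_mono' (J := fun d _ => hit XX d) (fun d w p q _ hj _ => hit_child hj) ?_ d w hi h
  intro d w _ hj _
  simp [hj]

lemma GN_nonneg {D V K : ℝ} {XX : Finset ℕ} {u : ℝ} (d w : ℕ) (hi : Inv D d w) :
    0 ≤ GN D V K XX u d w :=
  ls_nonneg (fun d w hi _ => by
    split_ifs
    · exact FF_nonneg _ _ hi
    · exact le_rfl) d w hi

lemma GN_of_hit {D V K : ℝ} {XX : Finset ℕ} {u : ℝ} (d w : ℕ) (hi : Inv D d w)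
    (h : hit XX d) : GN D V K XX u d w = 0 := by
  apply le_antisymm _ (GN_nonneg d w hi)
  have h0 : ls D (Stop D (K * u)) (fun _ _ => (0 : ℝ)) d w = 0 := by
    have := ls_mul (D := D) (stop := Stop D (K * u)) (f := fun _ _ => (0 : ℝ)) 0 d w hi
    simpa using this
  rw [← h0]
  refine ls_mono' (J := fun d _ => hit XX d) (fun d w p q _ hj _ => hit_child hj) ?_ d w hi h
  intro d w _ hj _
  simp [hj]

/-- covering: `GA ≤ GN + HH` -/
lemma GA_le {D V K : ℝ} {XX : Finset ℕ} {u : ℝ} (hVK : V ≤ K * u) (d w : ℕ) (hi : Inv D d w) :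
    GA D V K u d w ≤ GN D V K XX u d w + HH D V XX d w := by
  refine tree_ind (P := fun d w => GA D V K u d w ≤ GN D V K XX u d w + HH D V XX d w) ?_ d w hi
  intro d w hi ih
  by_cases hs : Stop D (K * u) d w
  · have hH := HH_nonneg (V := V) (XX := XX) d w hi
    by_cases hh : hit XX d
    · have e1 : GA D V K u d w ≤ FF D V d w := by
        unfold GA
        rw [ls_stop hs]
        split_ifs
        · exact le_rfl
        · exact FF_nonneg _ _ hi
      rw [← HH_of_hit (XX := XX) d w hi hh] at e1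
      have := GN_nonneg (V := V) (K := K) (XX := XX) (u := u) d w hi
      linarith
    · have e1 : GA D V K u d w = GN D V K XX u d w := by
        unfold GA GN
        rw [ls_stop hs, ls_stop hs]
        simp [hh]
      linarith
  · have hs2 : ¬ Stop D V d w := fun h => hs ⟨h.1, h.2.trans hVK⟩
    have e1 : GA D V K u d w = cs D (GA D V K u) d w := ls_step hs
    have e2 : GN D V K XX u d w = cs D (GN D V K XX u) d w := ls_step hs
    have e3 : HH D V XX d w = cs D (HH D V XX) d w := ls_step hs2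
    rw [e1, e2, e3, ← cs_add]
    exact cs_le_cs ih

/-- FIRST HIT (recursion form). -/
theorem first_hit {CU cK V1 B K : ℝ} (hCU : 0 < CU) (hcK : 0 < cK) (hV1 : 0 < V1) (hB : 1 ≤ B)
    (hK : 5 ≤ K) (hUP : UP CU V1) (hLK : LOW K cK V1 B)
    {D V : ℝ} (hV : V1 ≤ V) {XX : Finset ℕ}
    (hXX : ∀ p ∈ XX, p.Prime ∧ B * V ≤ Real.log p ∧ 2 + 36 / Real.log (8 / 7) ≤ Real.log p) :
    ∀ d w, Inv D d w → ∀ T ⊆ XX, ¬ hit XX d →
      cK / CU * (Real.log (8 / 7) / 2) * ∑ p ∈ T, 1 / (p : ℝ) * GN D V K XX (Real.log p) d w ≤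
        HH D V XX d w := by
  have hη : 0 < Real.log (8 / 7) := Real.log_pos (by norm_num)
  have hVp : 0 < V := by linarith
  set c1 := cK / CU * (Real.log (8 / 7) / 2) with hc1
  have hc1p : 0 < c1 := by positivity
  refine tree_ind (P := fun d w => ∀ T ⊆ XX, ¬ hit XX d →
      c1 * ∑ p ∈ T, 1 / (p : ℝ) * GN D V K XX (Real.log p) d w ≤ HH D V XX d w) ?_
  intro d w hi ih T hT hh
  have hdp : (0 : ℝ) < d := by exact_mod_cast hi.one_le
  by_cases hs : Stop D V d w
  · -- everything vanishes
    have h0 : ∑ p ∈ T, 1 / (p : ℝ) * GN D V K XX (Real.log p) d w = 0 := by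
      refine Finset.sum_eq_zero fun p hp => ?_
      obtain ⟨hpp, hp1, hp2⟩ := hXX p (hT hp)
      have hlp : V ≤ Real.log p := by nlinarith
      have hs2 : Stop D (K * Real.log p) d w := ⟨hs.1, hs.2.trans (by nlinarith)⟩
      have : GN D V K XX (Real.log p) d w = 0 := by
        unfold GN
        rw [ls_stop hs2, if_neg]
        rintro ⟨h5, _⟩
        have := hs.2
        linarith
      rw [this, mul_zero]
    rw [h0, mul_zero]
    exact HH_nonneg d w hi
  · have hHcs : HH D V XX d w = cs D (HH D V XX) d w := ls_step hs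
    set T0 := T.filter (fun p : ℕ => Stop D (K * Real.log p) d w ∧ 5 * Real.log p ≤ vv D d)
      with hT0
    set T1 := T.filter (fun p : ℕ => ¬ Stop D (K * Real.log p) d w) with hT1
    have hT0X : ∀ q ∈ T0, q ∈ XX := fun q hq => hT (Finset.mem_filter.1 hq).1
    have hT1X : T1 ⊆ XX := fun q hq => hT (Finset.mem_filter.1 hq).1
    -- the sum over `T`
    have hsum : ∑ p ∈ T, 1 / (p : ℝ) * GN D V K XX (Real.log p) d w =
        ∑ q ∈ T0, 1 / (q : ℝ) * FF D V d w +
        ∑ p ∈ T1, 1 / (p : ℝ) * cs D (GN D V K XX (Real.log p)) d w := by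
      rw [hT0, hT1, Finset.sum_filter, Finset.sum_filter, ← Finset.sum_add_distrib]
      refine Finset.sum_congr rfl fun p hp => ?_
      by_cases hs2 : Stop D (K * Real.log p) d w
      · rw [if_neg (not_not.2 hs2), add_zero]
        unfold GN
        rw [ls_stop hs2]
        by_cases h5 : 5 * Real.log p ≤ vv D d
        · rw [if_pos ⟨h5, hh⟩, if_pos ⟨hs2, h5⟩]
        · rw [if_neg (fun h => h5 h.1), if_neg (fun h => h5 h.2), mul_zero]
      · rw [if_pos hs2, if_neg (fun h => hs2 h.1), zero_add]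
        congr 1
        exact ls_step hs2
    -- the comparison function
    set A : ℕ → ℕ → ℝ := fun d' w' => ∑ q ∈ T0, if w' = q then FF D V d' w' else 0 with hA
    have hcomp : cs D (fun d' w' => A d' w' +
        c1 * ∑ p ∈ T1, 1 / (p : ℝ) * GN D V K XX (Real.log p) d' w') d w ≤
        cs D (HH D V XX) d w := by
      refine cs_le_cs fun p q hc => ?_
      have hic := hi.child hc
      by_cases hhc : hit XX (d * p * q)
      · have h0 : ∑ p' ∈ T1, 1 / (p' : ℝ) * GN D V K XX (Real.log p') (d * p * q) q = 0 :=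
          Finset.sum_eq_zero fun p' _ => by rw [GN_of_hit _ _ hic hhc, mul_zero]
        rw [h0, mul_zero, add_zero, HH_of_hit _ _ hic hhc]
        simp only [hA]
        rw [Finset.sum_ite_eq T0 q (fun _ => FF D V (d * p * q) q)]
        split_ifs
        · exact le_rfl
        · exact FF_nonneg _ _ hic
      · have hq : q ∉ T0 := fun hq => hhc ⟨q, hT0X q hq, dvd_mul_left _ _⟩
        simp only [hA]
        rw [Finset.sum_ite_eq T0 q (fun _ => FF D V (d * p * q) q), if_neg hq, zero_add]
        exact ih p q hc T1 hT1X hhc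
    rw [hHcs]
    refine le_trans ?_ hcomp
    have e2 : cs D (fun d' w' => ∑ p ∈ T1, 1 / (p : ℝ) * GN D V K XX (Real.log p) d' w') d w =
        ∑ p ∈ T1, 1 / (p : ℝ) * cs D (GN D V K XX (Real.log p)) d w := by
      rw [cs_sum]
      exact Finset.sum_congr rfl fun i _ => cs_mul _
    rw [cs_add, cs_mul, e2, hsum, mul_add]
    refine add_le_add ?_ le_rfl
    rw [hA, cs_sum, Finset.mul_sum]
    refine Finset.sum_le_sum fun q0 hq0 => ?_
    obtain ⟨hqT, hqs, hq5⟩ := Finset.mem_filter.1 hq0
    obtain ⟨hqp, hqB, hqbig⟩ := hXX q0 (hT hqT)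
    set u := Real.log q0 with hu
    have hup : 0 < u := lt_of_lt_of_le (by positivity) hqbig
    have hq00 : (0 : ℝ) < q0 := by exact_mod_cast hqp.pos
    have hVu : V ≤ u := by nlinarith
    have hvp : 0 < vv D d := by linarith
    have hwlog : 5 / 4 * u < Real.log w := by
      have := hqs.1
      linarith
    have hw1 : 1 ≤ w := one_le_of_log_pos (by linarith)
    have hDp : 0 < D := D_pos hi hw1
    set W1 := win (21 / 20 * u) (6 / 5 * u) with hW1
    have hs1 : Real.log (8 / 7) / 2 ≤ ∑ p ∈ W1, 1 / (p : ℝ) := by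
      have h36 : 0 < 36 / Real.log (8 / 7) := by positivity
      apply sum_win_ge_half
      · linarith
      · exact hη
      · apply le_of_eq
        congr 1
        field_simp
        norm_num
      · positivity
      · linarith
    have hchild : ∀ p ∈ W1, ∀ q ∈ ({q0} : Finset ℕ), IsChild D d w p q := by
      intro p hp q hq
      rw [Finset.mem_singleton] at hq
      subst hq
      rw [hW1, mem_win] at hp
      obtain ⟨⟨hp1, hp2⟩, hpp⟩ := hp
      have hp0 : (0 : ℝ) < p := by exact_mod_cast hpp.pos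
      have hw0 : (0 : ℝ) < w := by exact_mod_cast hw1
      apply isChild_iff_log hDp hi
      · have : Real.log p < Real.log w := by linarith
        exact_mod_cast (Real.log_lt_log_iff hp0 hw0).1 this
      · exact hpp
      · have : Real.log q < Real.log p := by rw [← hu]; linarith
        exact_mod_cast (Real.log_lt_log_iff hq00 hp0).1 this
      · exact hqp
      · rw [← hu]; linarith
    have hrect := cs_ge_rect (D := D) (g := fun d' w' => if w' = q0 then FF D V d' w' else 0)
      (d := d) (w := w) W1 {q0} (cK * V ^ 2 / (d * vv D d ^ 2)) ?_ hchild ?_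
    · refine le_trans ?_ hrect
      rw [Finset.sum_singleton]
      have hupd := hUP D V hV d w hi (by linarith)
      calc c1 * (1 / (q0 : ℝ) * FF D V d w)
          ≤ c1 * (1 / (q0 : ℝ) * (CU * V ^ 2 / (d * vv D d ^ 2))) := by gcongr
        _ = cK * V ^ 2 / (d * vv D d ^ 2) * (Real.log (8 / 7) / 2) * (1 / (q0 : ℝ)) := by
            rw [hc1]
            field_simp
        _ ≤ _ := by gcongr
    · intro p q hc
      split_ifs
      · exact FF_nonneg _ _ (hi.child hc)
      · exact le_rfl
    · intro p hp q hq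
      have hc := hchild p hp q hq
      rw [Finset.mem_singleton] at hq
      subst hq
      have hic := hi.child hc
      have hvc := vv_child hi hc
      rw [hW1, mem_win] at hp
      obtain ⟨⟨hp1, hp2⟩, hpp⟩ := hp
      have hp0 : (0 : ℝ) < p := by exact_mod_cast hpp.pos
      rw [if_pos rfl]
      rw [← hu] at hvc
      have hqs2 : vv D d ≤ K * u := hqs.2
      have hvc0 : 2 * u ≤ vv D (d * p * q) := by rw [hvc]; linarith
      have hlow := hLK D V hV (d * p * q) q hic (by rw [hvc, ← hu]; linarith) (by linarith)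
      refine le_trans ?_ hlow
      push_cast
      rw [show cK * V ^ 2 / (d * vv D d ^ 2) * (1 / (p : ℝ)) * (1 / (q : ℝ)) =
        cK * V ^ 2 / (d * p * q * vv D d ^ 2) by field_simp]
      have h3 : 0 < vv D (d * p * q) := by linarith
      have h4 : vv D (d * p * q) ≤ vv D d := by rw [hvc]; linarith
      gcongr

end Crest.Agent.R001.Hit
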