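import Crest.Agent.R001.Hit621c

/-!
# R1, block HIT: uniqueness of the class and the final statement.  helper621
-/

set_option autoImplicit false

namespace Crest.Agent.R001.Hit

open Finset Classical

/-- lower bound for the sum over the children by a sum over pairs -/
lemma cs_ge_pairs {D : ℝ} {g : ℕ → ℕ → ℝ} {d w : ℕ} (W1 : Finset ℕ) (W2 : Finset ℕ)
    (h : ℕ → ℕ → ℝ)
    (hnn : ∀ p q, IsChild D d w p q → 0 ≤ g (d * p * q) q)
    (hch : ∀ p ∈ W1, ∀ q ∈ W2, IsChild D d w p q)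
    (hK : ∀ p ∈ W1, ∀ q ∈ W2, h p q ≤ g (d * p * q) q) :
    ∑ p ∈ W1, ∑ q ∈ W2, h p q ≤ cs D g d w := by
  rcases W2.eq_empty_or_nonempty with h2 | ⟨q0, hq0⟩
  · subst h2
    simpa using cs_nonneg hnn
  have hsub1 : W1 ⊆ pb w := fun p hp => by
    have := hch p hp q0 hq0
    exact mem_pb.2 ⟨this.1, this.2.1⟩
  unfold cs
  calc ∑ p ∈ W1, ∑ q ∈ W2, h p q
      ≤ ∑ p ∈ W1, ∑ q ∈ pb p,
        if (d : ℝ) * p * (q : ℝ) ^ 3 < D then g (d * p * q) q else 0 := by
        refine Finset.sum_le_sum fun p hp => ?_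
        have hsub2 : W2 ⊆ pb p := fun q hq => by
          have := hch p hp q hq
          exact mem_pb.2 ⟨this.2.2.1, this.2.2.2.1⟩
        calc ∑ q ∈ W2, h p q
            ≤ ∑ q ∈ W2, if (d : ℝ) * p * (q : ℝ) ^ 3 < D then g (d * p * q) q else 0 := by
              refine Finset.sum_le_sum fun q hq => ?_
              rw [if_pos (hch p hp q hq).2.2.2.2]
              exact hK p hp q hq
          _ ≤ _ := by
              refine Finset.sum_le_sum_of_subset_of_nonneg hsub2 fun q hq _ => ?_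
              have hp' := mem_pb.1 (hsub1 hp)
              have hq' := mem_pb.1 hq
              split_ifs with ht
              · exact hnn p q ⟨hp'.1, hp'.2, hq'.1, hq'.2, ht⟩
              · exact le_rfl
    _ ≤ _ := by
        refine Finset.sum_le_sum_of_subset_of_nonneg hsub1 fun p hp _ => ?_
        refine Finset.sum_nonneg fun q hq => ?_
        have hp' := mem_pb.1 hp
        have hq' := mem_pb.1 hq
        split_ifs with ht
        · exact hnn p q ⟨hp'.1, hp'.2, hq'.1, hq'.2, ht⟩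
        · exact le_rfl

/-- mass of the elements of `line(V)` with the property `Un` -/
noncomputable def UU (D V : ℝ) (Un : ℕ → Prop) (d w : ℕ) : ℝ :=
  ls D (Stop D V) (fun d _ => if Un d then 1 / (d : ℝ) else 0) d w

lemma UU_nonneg {D V : ℝ} {Un : ℕ → Prop} (d w : ℕ) (hi : Inv D d w) : 0 ≤ UU D V Un d w :=
  ls_nonneg (fun d w _ _ => by split_ifs <;> positivity) d w hi

/-- below a pair `p, q` all of whose multiples are `Un`, `UU = FF`. -/
lemma FF_le_UU {D V : ℝ} {Un : ℕ → Prop} {p q : ℕ} (hU : ∀ d, p ∣ d → q ∣ d → Un d)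
    (d w : ℕ) (hi : Inv D d w) (hp : p ∣ d) (hq : q ∣ d) : FF D V d w ≤ UU D V Un d w := by
  refine ls_mono' (J := fun d _ => p ∣ d ∧ q ∣ d)
    (fun d w p' q' _ hj _ => ⟨(hj.1.mul_right _).mul_right _, (hj.2.mul_right _).mul_right _⟩) ?_
    d w hi ⟨hp, hq⟩
  intro d w _ hj _
  rw [if_pos (hU d hj.1 hj.2)]

/-- If hit multiples of `p` are `Un`. -/
lemma HH_le_UU {D V : ℝ} {Un : ℕ → Prop} {XX : Finset ℕ} {p : ℕ}
    (hU : ∀ d, p ∣ d → hit XX d → Un d)
    (d w : ℕ) (hi : Inv D d w) (hp : p ∣ d) : HH D V XX d w ≤ UU D V Un d w := by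
  refine ls_mono' (J := fun d _ => p ∣ d)
    (fun d w p' q' _ hj _ => (hj.mul_right _).mul_right _) ?_ d w hi hp
  intro d w _ hj _
  by_cases hh : hit XX d
  · rw [if_pos hh, if_pos (hU d hj hh)]
  · rw [if_neg hh]
    split_ifs <;> positivity

/-- The pair inequality `(★)`. -/
lemma star {D V κ : ℝ} {Un : ℕ → Prop} {d w : ℕ} (hi : Inv D d w) (hs : ¬ Stop D V d w)
    (W1 W2 : Finset ℕ) (nc : ℕ → ℕ → Prop)
    (hch : ∀ p ∈ W1, ∀ q ∈ W2, IsChild D d w p q)
    (hlow : ∀ p ∈ W1, ∀ q ∈ W2, κ * ((1 / (p : ℝ)) * (1 / (q : ℝ))) ≤ FF D V (d * p * q) q)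
    (hnc : ∀ p ∈ W1, ∀ q ∈ W2, nc p q → ∀ m, p ∣ m → q ∣ m → Un m) :
    κ * ∑ p ∈ W1, ∑ q ∈ W2, (if nc p q then (1 / (p : ℝ)) * (1 / (q : ℝ)) else 0) ≤
      UU D V Un d w := by
  have e : UU D V Un d w = cs D (UU D V Un) d w := ls_step hs
  rw [e]
  have h := cs_ge_pairs (D := D) (g := UU D V Un) (d := d) (w := w) W1 W2
    (fun p q => κ * (if nc p q then (1 / (p : ℝ)) * (1 / (q : ℝ)) else 0))
    (fun p q hc => UU_nonneg _ _ (hi.child hc)) hch ?_
  · refine le_trans (le_of_eq ?_) h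
    rw [Finset.mul_sum]
    refine Finset.sum_congr rfl fun p _ => ?_
    rw [Finset.mul_sum]
  · intro p hp q hq
    have hic := hi.child (hch p hp q hq)
    split_ifs with hn
    · refine (hlow p hp q hq).trans ?_
      exact FF_le_UU (hnc p hp q hq hn) _ _ hic ((dvd_mul_left p d).mul_right q)
        (dvd_mul_left q (d * p))
    · rw [mul_zero]
      exact UU_nonneg _ _ hic

/-- `d` has a prime factor with `log p ≥ t` and, for every class `P i`, a prime factor `p` with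
`T0 < log p` outside of `P i`. -/
def Unst {ι : Type*} (T0 t : ℝ) (I : Finset ι) (P : ι → ℕ → Prop) (d : ℕ) : Prop :=
  (∃ p, p.Prime ∧ p ∣ d ∧ t ≤ Real.log p) ∧
    ∀ i ∈ I, ∃ p, p.Prime ∧ p ∣ d ∧ T0 < Real.log p ∧ ¬ P i p

lemma log_three_half : (1 : ℝ) / 3 ≤ Real.log (3 / 2) := by
  have h1 : Real.log (2 / 3) ≤ 2 / 3 - 1 := Real.log_le_sub_one_of_pos (by norm_num)
  have h2 : Real.log (3 / 2) = -Real.log (2 / 3) := by
    rw [← Real.log_inv]; norm_num
  rw [h2]
  linarith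

/-- abstract averaging: if the weighted sum of `N` is small then `N` is small somewhere -/
lemma exists_small {S : Finset ℕ} {N : ℕ → ℝ} {a e : ℝ} (hS : a ≤ ∑ p ∈ S, 1 / (p : ℝ))
    (ha : 0 < a) (hpos : ∀ p ∈ S, 0 < p) (he : 0 ≤ e)
    (h : ∑ p ∈ S, 1 / (p : ℝ) * N p ≤ e) : ∃ p ∈ S, N p ≤ e / a := by
  by_contra hcon
  push Not at hcon
  have hne : S.Nonempty := by
    rw [Finset.nonempty_iff_ne_empty]
    rintro rfl
    simp at hS
    linarith
  have h1 : ∑ p ∈ S, 1 / (p : ℝ) * (e / a) < ∑ p ∈ S, 1 / (p : ℝ) * N p := by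
    refine Finset.sum_lt_sum_of_nonempty hne fun p hp => ?_
    have : (0 : ℝ) < p := by exact_mod_cast hpos p hp
    have h2 := hcon p hp
    have h3 : (0 : ℝ) < 1 / p := by positivity
    exact mul_lt_mul_of_pos_left h2 h3
  rw [← Finset.sum_mul] at h1
  have h4 : e ≤ (∑ p ∈ S, 1 / (p : ℝ)) * (e / a) := by
    calc e = a * (e / a) := by field_simp
      _ ≤ _ := by
        apply mul_le_mul_of_nonneg_right hS
        positivity
  linarith

end Crest.Agent.R001.Hit
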