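import Crest.Agent.R001.Hit621d

/-!
# R1, block HIT: the final statement.  helper621
-/

set_option autoImplicit false

namespace Crest.Agent.R001.Hit

open Finset Classical

lemma sum_filter_split {S : Finset ℕ} (a b : ℕ → Prop) :
    ∑ p ∈ S.filter (fun p => a p), 1 / (p : ℝ) ≤
      ∑ p ∈ S.filter (fun p => a p ∧ b p), 1 / (p : ℝ) +
      ∑ p ∈ S.filter (fun p => a p ∧ ¬ b p), 1 / (p : ℝ) := by
  rw [Finset.sum_filter, Finset.sum_filter, Finset.sum_filter, ← Finset.sum_add_distrib]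
  refine Finset.sum_le_sum fun p _ => ?_
  by_cases h1 : a p <;> by_cases h2 : b p <;> simp [h1, h2]

lemma sum_filter_le_of_imp {S : Finset ℕ} {a b : ℕ → Prop} (h : ∀ p ∈ S, a p → b p) :
    ∑ p ∈ S.filter (fun p => a p), 1 / (p : ℝ) ≤ ∑ p ∈ S.filter (fun p => b p), 1 / (p : ℝ) := by
  refine Finset.sum_le_sum_of_subset_of_nonneg ?_ fun p _ _ => by positivity
  intro p hp
  rw [Finset.mem_filter] at hp ⊢
  exact ⟨hp.1, h p hp.1 hp.2⟩

lemma sum_le_of_subset {S T : Finset ℕ} (h : S ⊆ T) :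
    ∑ p ∈ S, 1 / (p : ℝ) ≤ ∑ p ∈ T, 1 / (p : ℝ) :=
  Finset.sum_le_sum_of_subset_of_nonneg h fun p _ _ => by positivity

/-- The geometric facts at the root. -/
structure Setup (D V L : ℝ) (w0 : ℕ) : Prop where
  L_def : Real.log D = L
  L_big : 10000 ≤ L
  V_pos : 0 < V
  V_lt : V < L
  inv : Inv D 1 w0
  w0_big : 9 / 20 * L ≤ Real.log w0

namespace Setup

variable {D V L : ℝ} {w0 : ℕ}

lemma vv_one (h : Setup D V L w0) : vv D 1 = L := by
  unfold vv; simp [h.L_def]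

lemma w0_one (h : Setup D V L w0) : 1 ≤ w0 := one_le_of_log_pos (by
  have := h.w0_big
  have := h.L_big
  linarith)

lemma D_pos (h : Setup D V L w0) : 0 < D := Hit.D_pos h.inv h.w0_one

lemma log_w0_le (h : Setup D V L w0) : Real.log w0 ≤ L / 2 := by
  have := two_log_le h.inv h.w0_one
  rw [h.vv_one] at this
  linarith

lemma lt_w0 (h : Setup D V L w0) {p : ℕ} (hp : p.Prime) (hlt : Real.log p < 9 / 20 * L) :
    p < w0 := by
  have hp0 : (0 : ℝ) < p := by exact_mod_cast hp.pos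
  have hw0 : (0 : ℝ) < w0 := by exact_mod_cast h.w0_one
  have : Real.log p < Real.log w0 := lt_of_lt_of_le hlt h.w0_big
  exact_mod_cast (Real.log_lt_log_iff hp0 hw0).1 this

lemma log_lt (h : Setup D V L w0) {p : ℕ} (hp : p.Prime) (hlt : p < w0) :
    Real.log p < L / 2 := by
  have hp0 : (0 : ℝ) < p := by exact_mod_cast hp.pos
  have : Real.log p < Real.log w0 := Real.log_lt_log hp0 (by exact_mod_cast hlt)
  exact lt_of_lt_of_le this h.log_w0_le

lemma not_stop (h : Setup D V L w0) : ¬ Stop D V 1 w0 := by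
  intro hs
  have := hs.2
  rw [h.vv_one] at this
  linarith [h.V_lt]

lemma isChild (h : Setup D V L w0) {p q : ℕ} (hp : p.Prime) (hq : q.Prime) (hpw : p < w0)
    (hlt : Real.log q < Real.log p) (ht : Real.log p + 3 * Real.log q < L) :
    IsChild D 1 w0 p q := by
  have hp0 : (0 : ℝ) < p := by exact_mod_cast hp.pos
  have hq0 : (0 : ℝ) < q := by exact_mod_cast hq.pos
  apply isChild_iff_log h.D_pos h.inv hpw hp _ hq
  · rw [h.vv_one]; exact ht
  · exact_mod_cast (Real.log_lt_log_iff hq0 hp0).1 hlt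

lemma vv_child (h : Setup D V L w0) {p q : ℕ} (hc : IsChild D 1 w0 p q) :
    vv D (1 * p * q) = L - Real.log p - Real.log q := by
  rw [Hit.vv_child h.inv hc, h.vv_one]

/-- lower bound for the mass below a child of the root -/
lemma low_child (h : Setup D V L w0) {S c V1 B : ℝ} (hc0 : 0 < c) (hL : LOW S c V1 B)
    (hV : V1 ≤ V) {p q : ℕ} (hc : IsChild D 1 w0 p q)
    (h1 : L - Real.log p - Real.log q < S * Real.log q)
    (h2 : B * V ≤ L - Real.log p - Real.log q) (h3 : 0 < L - Real.log p - Real.log q) :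
    c * V ^ 2 / L ^ 2 * ((1 / (p : ℝ)) * (1 / (q : ℝ))) ≤ FF D V (1 * p * q) q := by
  have hic := h.inv.child hc
  have hvc := h.vv_child hc
  have hp0 : (0 : ℝ) < p := by exact_mod_cast hc.2.1.pos
  have hq0 : (0 : ℝ) < q := by exact_mod_cast hc.2.2.2.1.pos
  have hlp : 0 ≤ Real.log p := Real.log_natCast_nonneg p
  have hlq : 0 ≤ Real.log q := Real.log_natCast_nonneg q
  have hlow := hL D V hV (1 * p * q) q hic (by rw [hvc]; exact h1) (by rw [hvc]; exact h2)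
  refine le_trans ?_ hlow
  push_cast
  rw [show c * V ^ 2 / L ^ 2 * ((1 / (p : ℝ)) * (1 / (q : ℝ))) =
    c * V ^ 2 / (1 * p * q * L ^ 2) by field_simp]
  have h4 : 0 < vv D (1 * p * q) := by rw [hvc]; exact h3
  have h5 : vv D (1 * p * q) ≤ L := by rw [hvc]; linarith
  have hV0 := h.V_pos
  gcongr

end Setup

lemma win_mass {L : ℝ} (hL : 10000 ≤ L) :
    13 / 20 ≤ ∑ p ∈ win (L / 5) (2 * L / 5), 1 / (p : ℝ) := by
  have h1 := sum_win_ge (a := L / 5) (b := 2 * L / 5) (by linarith) (by linarith)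
  have h2 : 2 * L / 5 / (L / 5) = 2 := by field_simp
  rw [h2] at h1
  have h3 := Real.log_two_gt_d9
  have h4 : 18 / (L / 5) ≤ 1 / 100 := by
    rw [div_le_iff₀ (by linarith)]
    linarith
  linarith

lemma R_mass {L : ℝ} (hL : 10000 ≤ L) :
    3 / 10 ≤ ∑ p ∈ win (L / 10) (3 * L / 20), 1 / (p : ℝ) := by
  have h1 := sum_win_ge (a := L / 10) (b := 3 * L / 20) (by linarith) (by linarith)
  have h2 : 3 * L / 20 / (L / 10) = 3 / 2 := by field_simp; norm_num
  rw [h2] at h1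
  have h3 := log_three_half
  have h4 : 18 / (L / 10) ≤ 1 / 50 := by
    rw [div_le_iff₀ (by linarith)]
    linarith
  linarith

/-- A class captures almost everything at the top. -/
theorem uniq {ι : Type*} {D V L : ℝ} {w0 : ℕ} (h : Setup D V L w0)
    {c10 V1 B : ℝ} (hc10 : 0 < c10) (hL10 : LOW 10 c10 V1 B) (hV1 : V1 ≤ V)
    (hBV : B * V ≤ 7 / 20 * L) {T0 : ℝ} (hT0 : T0 < L / 10)
    (I : Finset ι) (P : ι → ℕ → Prop) {ε : ℝ} (hε : 0 ≤ ε)
    (hε1 : ε ≤ 1 / 50) (hε2 : ε / c10 ≤ 1 / 50)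
    (hov : ∑ p ∈ (pb w0).filter (fun p : ℕ => T0 < Real.log p ∧
      ∃ i ∈ I, ∃ j ∈ I, i ≠ j ∧ P i p ∧ P j p), 1 / (p : ℝ) ≤ ε)
    (hU : UU D V (Unst T0 (L / 5) I P) 1 w0 ≤ ε * (V ^ 2 / L ^ 2)) :
    ∃ i ∈ I, ∑ p ∈ (pb w0).filter (fun p : ℕ => L / 5 ≤ Real.log p ∧ ¬ P i p), 1 / (p : ℝ) ≤
      5 * (ε / c10) + ε := by
  have hLp : 0 < L := by linarith [h.L_big]
  have hVp := h.V_pos
  set O : ℕ → Prop := fun p => ∃ i ∈ I, ∃ j ∈ I, i ≠ j ∧ P i p ∧ P j p with hO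
  set W1 := (pb w0).filter (fun p : ℕ => L / 5 ≤ Real.log p) with hW1
  set R := win (L / 10) (3 * L / 20) with hR
  set nc : ℕ → ℕ → Prop := fun p q => ∀ i ∈ I, ¬ (P i p ∧ P i q) with hnc
  have memW1 : ∀ p ∈ W1, p < w0 ∧ p.Prime ∧ L / 5 ≤ Real.log p ∧ Real.log p < L / 2 := by
    intro p hp
    rw [hW1, Finset.mem_filter, mem_pb] at hp
    exact ⟨hp.1.1, hp.1.2, hp.2, h.log_lt hp.1.2 hp.1.1⟩
  have memR : ∀ q ∈ R, q.Prime ∧ L / 10 < Real.log q ∧ Real.log q ≤ 3 * L / 20 := by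
    intro q hq
    rw [hR, mem_win] at hq
    exact ⟨hq.2, hq.1.1, hq.1.2⟩
  have hch : ∀ p ∈ W1, ∀ q ∈ R, IsChild D 1 w0 p q := by
    intro p hp q hq
    obtain ⟨a1, a2, a3, a4⟩ := memW1 p hp
    obtain ⟨b1, b2, b3⟩ := memR q hq
    exact h.isChild a2 b1 a1 (by linarith) (by linarith)
  have hlow : ∀ p ∈ W1, ∀ q ∈ R,
      c10 * V ^ 2 / L ^ 2 * ((1 / (p : ℝ)) * (1 / (q : ℝ))) ≤ FF D V (1 * p * q) q := by
    intro p hp q hq
    obtain ⟨a1, a2, a3, a4⟩ := memW1 p hp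
    obtain ⟨b1, b2, b3⟩ := memR q hq
    exact h.low_child hc10 hL10 hV1 (hch p hp q hq) (by linarith) (by linarith) (by linarith)
  have hun : ∀ p ∈ W1, ∀ q ∈ R, nc p q → ∀ m, p ∣ m → q ∣ m → Unst T0 (L / 5) I P m := by
    intro p hp q hq hn m hpm hqm
    obtain ⟨a1, a2, a3, a4⟩ := memW1 p hp
    obtain ⟨b1, b2, b3⟩ := memR q hq
    refine ⟨⟨p, a2, hpm, a3⟩, fun i hi => ?_⟩
    by_cases hpi : P i p
    · exact ⟨q, b1, hqm, by linarith, fun hqi => hn i hi ⟨hpi, hqi⟩⟩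
    · exact ⟨p, a2, hpm, by linarith, hpi⟩
  have hstar := star h.inv h.not_stop W1 R nc hch hlow hun
  -- the pair sum is at most `ε / c10`
  have hVL : 0 < V ^ 2 / L ^ 2 := by positivity
  have hpair : ∑ p ∈ W1, ∑ q ∈ R, (if nc p q then (1 / (p : ℝ)) * (1 / (q : ℝ)) else 0) ≤
      ε / c10 := by
    rw [le_div_iff₀ hc10]
    have h1 := hstar.trans hU
    have h2 : c10 * V ^ 2 / L ^ 2 = c10 * (V ^ 2 / L ^ 2) := by ring
    rw [h2] at h1
    have h3 : (c10 * ∑ p ∈ W1, ∑ q ∈ R, (if nc p q then (1 / (p : ℝ)) * (1 / (q : ℝ)) else 0)) *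
        (V ^ 2 / L ^ 2) ≤ ε * (V ^ 2 / L ^ 2) := by
      refine le_trans (le_of_eq ?_) h1
      ring
    have h4 := le_of_mul_le_mul_right h3 hVL
    refine le_trans (le_of_eq ?_) h4
    ring
  set e1 := ε / c10 with he1
  have he10 : 0 ≤ e1 := by positivity
  -- `N p`
  set N : ℕ → ℝ := fun p => ∑ q ∈ R, (if nc p q then 1 / (q : ℝ) else 0) with hN
  have hNnn : ∀ p, 0 ≤ N p := fun p => Finset.sum_nonneg fun q _ => by
    split_ifs <;> positivity
  have hpairN : ∑ p ∈ W1, 1 / (p : ℝ) * N p ≤ e1 := by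
    refine le_trans (le_of_eq ?_) hpair
    refine Finset.sum_congr rfl fun p _ => ?_
    rw [hN, Finset.mul_sum]
    refine Finset.sum_congr rfl fun q _ => ?_
    split_ifs <;> simp
  -- masses
  have hwin : 13 / 20 ≤ ∑ p ∈ win (L / 5) (2 * L / 5), 1 / (p : ℝ) := win_mass h.L_big
  have hR3 : 3 / 10 ≤ ∑ q ∈ R, 1 / (q : ℝ) := R_mass h.L_big
  have hW1ge : 13 / 20 ≤ ∑ p ∈ W1, 1 / (p : ℝ) := by
    refine hwin.trans (sum_le_of_subset ?_)
    intro p hp
    rw [mem_win] at hp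
    rw [hW1, Finset.mem_filter, mem_pb]
    exact ⟨⟨h.lt_w0 hp.2 (by linarith), hp.2⟩, hp.1.1.le⟩
  -- the primes in `W1` outside of the overlap
  set S1 := W1.filter (fun p => ¬ O p) with hS1
  have hOW1 : ∑ p ∈ W1.filter (fun p => O p), 1 / (p : ℝ) ≤ ε := by
    refine le_trans (sum_le_of_subset ?_) hov
    intro p hp
    rw [Finset.mem_filter] at hp
    obtain ⟨a1, a2, a3, a4⟩ := memW1 p hp.1
    rw [Finset.mem_filter, mem_pb]
    exact ⟨⟨a1, a2⟩, by linarith, hp.2⟩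
  have hsplit1 : ∑ p ∈ W1, 1 / (p : ℝ) =
      ∑ p ∈ W1.filter (fun p => O p), 1 / (p : ℝ) + ∑ p ∈ S1, 1 / (p : ℝ) := by
    rw [hS1, Finset.sum_filter_add_sum_filter_not]
  have hS1ge : 1 / 2 ≤ ∑ p ∈ S1, 1 / (p : ℝ) := by linarith
  have hS1N : ∑ p ∈ S1, 1 / (p : ℝ) * N p ≤ e1 := by
    refine le_trans (Finset.sum_le_sum_of_subset_of_nonneg (Finset.filter_subset _ _) ?_) hpairN
    intro p _ _
    have := hNnn p
    positivity
  obtain ⟨ps, hps, hpsN⟩ := exists_small hS1ge (by norm_num)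
    (fun p hp => (memW1 p (Finset.mem_filter.1 hp).1).2.1.pos) he10 hS1N
  have hps' := Finset.mem_filter.1 hps
  have hpsO : ¬ O ps := hps'.2
  have hN2 : N ps ≤ 2 * e1 := by
    refine hpsN.trans (le_of_eq ?_)
    ring
  -- the class of `ps`
  have hex : ∃ i ∈ I, P i ps := by
    by_contra hcon
    push Not at hcon
    have hall : ∀ q, nc ps q := fun q i hi hh => hcon i hi hh.1
    have : N ps = ∑ q ∈ R, 1 / (q : ℝ) := by
      rw [hN]
      exact Finset.sum_congr rfl fun q _ => if_pos (hall q)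
    linarith
  obtain ⟨i0, hi0, hPi0⟩ := hex
  refine ⟨i0, hi0, ?_⟩
  have hRnot : ∑ q ∈ R.filter (fun q => ¬ P i0 q), 1 / (q : ℝ) ≤ 2 * e1 := by
    refine le_trans ?_ hN2
    rw [Finset.sum_filter, hN]
    refine Finset.sum_le_sum fun q _ => ?_
    by_cases hq : P i0 q
    · rw [if_neg (not_not.2 hq)]
      split_ifs <;> positivity
    · rw [if_pos hq, if_pos]
      intro i hi hh
      by_cases hii : i = i0
      · subst hii; exact hq hh.2
      · exact hpsO ⟨i, hi, i0, hi0, hii, hh.1, hPi0⟩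
  have hRO : ∑ q ∈ R.filter (fun q => O q), 1 / (q : ℝ) ≤ ε := by
    refine le_trans (sum_le_of_subset ?_) hov
    intro q hq
    rw [Finset.mem_filter] at hq
    obtain ⟨b1, b2, b3⟩ := memR q hq.1
    rw [Finset.mem_filter, mem_pb]
    exact ⟨⟨h.lt_w0 b1 (by linarith), b1⟩, by linarith, hq.2⟩
  -- the primes of `S1` outside of the class
  set S2 := S1.filter (fun p => ¬ P i0 p) with hS2
  have hN5 : ∀ p ∈ S2, 1 / 5 ≤ N p := by
    intro p hp
    rw [hS2, Finset.mem_filter] at hp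
    have hpO : ¬ O p := (Finset.mem_filter.1 hp.1).2
    have h1 : ∑ q ∈ R, 1 / (q : ℝ) ≤ N p + ∑ q ∈ R.filter (fun q => ¬ P i0 q), 1 / (q : ℝ) +
        ∑ q ∈ R.filter (fun q => O q), 1 / (q : ℝ) := by
      rw [Finset.sum_filter, Finset.sum_filter, hN, ← Finset.sum_add_distrib,
        ← Finset.sum_add_distrib]
      refine Finset.sum_le_sum fun q _ => ?_
      have hq0 : (0 : ℝ) ≤ 1 / (q : ℝ) := by positivity
      by_cases hq1 : P i0 q
      · by_cases hq2 : O q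
        · rw [if_pos hq2]
          have : (0 : ℝ) ≤ (if nc p q then 1 / (q : ℝ) else 0) := by split_ifs <;> positivity
          have : (0 : ℝ) ≤ (if ¬ P i0 q then 1 / (q : ℝ) else 0) := by split_ifs <;> positivity
          linarith
        · have hncpq : nc p q := by
            intro i hi hh
            by_cases hii : i = i0
            · subst hii; exact hp.2 hh.1
            · exact hq2 ⟨i, hi, i0, hi0, hii, hh.2, hq1⟩
          rw [if_pos hncpq, if_neg (not_not.2 hq1), if_neg hq2]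
          linarith
      · rw [if_pos hq1]
        have : (0 : ℝ) ≤ (if nc p q then 1 / (q : ℝ) else 0) := by split_ifs <;> positivity
        have : (0 : ℝ) ≤ (if O q then 1 / (q : ℝ) else 0) := by split_ifs <;> positivity
        linarith
    linarith
  have hS2le : ∑ p ∈ S2, 1 / (p : ℝ) ≤ 5 * e1 := by
    have h1 : ∑ p ∈ S2, 1 / (p : ℝ) * (1 / 5) ≤ ∑ p ∈ S2, 1 / (p : ℝ) * N p :=
      Finset.sum_le_sum fun p hp => mul_le_mul_of_nonneg_left (hN5 p hp) (by positivity)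
    have h2 : ∑ p ∈ S2, 1 / (p : ℝ) * N p ≤ ∑ p ∈ S1, 1 / (p : ℝ) * N p := by
      refine Finset.sum_le_sum_of_subset_of_nonneg (Finset.filter_subset _ _) ?_
      intro p _ _
      have := hNnn p
      positivity
    rw [← Finset.sum_mul] at h1
    linarith
  calc ∑ p ∈ (pb w0).filter (fun p : ℕ => L / 5 ≤ Real.log p ∧ ¬ P i0 p), 1 / (p : ℝ)
      ≤ ∑ p ∈ W1.filter (fun p => O p), 1 / (p : ℝ) + ∑ p ∈ S2, 1 / (p : ℝ) := by
        rw [hS2, hS1, hW1, Finset.filter_filter, Finset.filter_filter, Finset.filter_filter,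
          Finset.sum_filter, Finset.sum_filter, Finset.sum_filter, ← Finset.sum_add_distrib]
        refine Finset.sum_le_sum fun p _ => ?_
        by_cases a1 : L / 5 ≤ Real.log p <;> by_cases a2 : P i0 p <;> by_cases a3 : O p <;>
          simp [a1, a2, a3]
    _ ≤ _ := by linarith

end Crest.Agent.R001.Hit
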