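import Crest.Agent.R001.Hit621e

/-!
# R1, block HIT: the final statement.  helper621
-/

set_option autoImplicit false

namespace Crest.Agent.R001.Hit

open Finset Classical

lemma UP.mono {C V1 V1' : ℝ} (h : UP C V1) (hV : V1 ≤ V1') : UP C V1' :=
  fun D V hV1 d w hi hv => h D V (by linarith) d w hi hv

/-- inequality at a state `(p q, q)` used for the first hits. -/
theorem hit_state {CU c4 c10 cK V1 B A : ℝ} (hCU : 0 < CU) (hc4 : 0 < c4) (hc10 : 0 < c10)
    (hcK : 0 < cK) (hV1 : 0 < V1) (hB : 1 ≤ B) (hA : 1 ≤ A) (hA2 : 2 * CU ≤ c10 * A ^ 2)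
    (hUP : UP CU V1) (hL4 : LOW 4 c4 V1 B) (hL10 : LOW 10 c10 V1 B) (hLK : LOW (5 * A) cK V1 B)
    {D V : ℝ} (hV : V1 ≤ V) {XX : Finset ℕ} {d w : ℕ} (hi : Inv D d w)
    (hv : vv D d < 10 * Real.log w)
    (hXX : ∀ p ∈ XX, p.Prime ∧ B * V ≤ Real.log p ∧ 2 + 36 / Real.log (8 / 7) ≤ Real.log p ∧
      B * (5 * A * Real.log p) ≤ vv D d) :
    cK / CU * (Real.log (8 / 7) / 2) * (∑ p ∈ XX, 1 / (p : ℝ)) *
      (min 1 (c4 * c10 / (2 * CU)) * FF D V d w - HH D V XX d w) ≤ HH D V XX d w := by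
  have hη : 0 < Real.log (8 / 7) := Real.log_pos (by norm_num)
  have hVp : 0 < V := by linarith
  set c1 := cK / CU * (Real.log (8 / 7) / 2) with hc1
  have hc1p : 0 < c1 := by positivity
  have hF := FF_nonneg (V := V) d w hi
  have hH := HH_nonneg (V := V) (XX := XX) d w hi
  have hsum0 : 0 ≤ ∑ p ∈ XX, 1 / (p : ℝ) := Finset.sum_nonneg fun p _ => by positivity
  by_cases hh : hit XX d
  · rw [HH_of_hit d w hi hh]
    have h1 : min 1 (c4 * c10 / (2 * CU)) * FF D V d w - FF D V d w ≤ 0 := by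
      have : min 1 (c4 * c10 / (2 * CU)) ≤ 1 := min_le_left _ _
      nlinarith
    have h2 : c1 * (∑ p ∈ XX, 1 / (p : ℝ)) *
      (min 1 (c4 * c10 / (2 * CU)) * FF D V d w - FF D V d w) ≤ 0 :=
      mul_nonpos_of_nonneg_of_nonpos (by positivity) h1
    linarith
  · have hfh := first_hit (K := 5 * A) hCU hcK hV1 hB (by linarith) hUP hLK hV
      (XX := XX) (fun p hp => ⟨(hXX p hp).1, (hXX p hp).2.1, (hXX p hp).2.2.1⟩) d w hi XX
      (Finset.Subset.refl _) hh
    refine le_trans ?_ hfh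
    rw [mul_assoc, Finset.sum_mul]
    apply mul_le_mul_of_nonneg_left _ hc1p.le
    refine Finset.sum_le_sum fun p hp => ?_
    apply mul_le_mul_of_nonneg_left _ (by positivity)
    obtain ⟨h1, h2, h3, h4⟩ := hXX p hp
    have hr := reach hCU hc4 hc10 hV1 hB hA hA2 hUP hL4 hL10 hV h2 hi hv h4
    have hlp : 0 < Real.log p := lt_of_lt_of_le (by positivity) h2
    have hVlp : V ≤ Real.log p := by nlinarith
    have hg := GA_le (D := D) (V := V) (K := 5 * A) (XX := XX) (u := Real.log p)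
      (by nlinarith) d w hi
    have hm : min 1 (c4 * c10 / (2 * CU)) * FF D V d w ≤ c4 * c10 / (2 * CU) * FF D V d w :=
      mul_le_mul_of_nonneg_right (min_le_right _ _) hF
    linarith

/-- **Uniqueness + first hit.** -/
theorem hit_main {CU c4 V1 B : ℝ} (hCU : 0 < CU) (hc4 : 0 < c4) (hV1 : 0 < V1) (hB : 1 ≤ B)
    (hUP : UP CU V1) (hL4 : LOW 4 c4 V1 B) :
    ∃ C0 ε0 V0 : ℝ, 11 ≤ C0 ∧ 0 < ε0 ∧ 0 < V0 ∧
      ∀ D V T0 : ℝ, V0 ≤ V → C0 * V ≤ T0 → C0 * T0 ≤ Real.log D →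
      ∀ w0 : ℕ, (w0 : ℝ) ^ 2 ≤ D → 9 / 20 * Real.log D ≤ Real.log w0 →
      ∀ {ι : Type*} (I : Finset ι) (P : ι → ℕ → Prop) (ε : ℝ), 0 ≤ ε → ε ≤ ε0 →
      ∑ p ∈ (pb w0).filter (fun p : ℕ => T0 < Real.log p ∧
        ∃ i ∈ I, ∃ j ∈ I, i ≠ j ∧ P i p ∧ P j p), 1 / (p : ℝ) ≤ ε →
      UU D V (Unst T0 (Real.log D / 5) I P) 1 w0 ≤ ε * (V ^ 2 / Real.log D ^ 2) →
      ∃ i ∈ I, ∑ p ∈ (pb w0).filter (fun p : ℕ => T0 < Real.log p ∧ ¬ P i p), 1 / (p : ℝ) ≤
        C0 * ε := by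
  have hη : 0 < Real.log (8 / 7) := Real.log_pos (by norm_num)
  -- constants
  obtain ⟨c10, Va, Ba, hc10, hVa, hBa, hLa⟩ := LOW.all hc4 hV1 hB hL4 6
  obtain ⟨A0, hA0⟩ := exists_nat_ge (2 * CU / c10 + 1)
  have hA0' : (1 : ℝ) ≤ A0 := by
    have : 0 < 2 * CU / c10 := by positivity
    linarith
  have hA1 : 1 ≤ A0 := by exact_mod_cast hA0'
  have hA2 : 2 * CU ≤ c10 * (A0 : ℝ) ^ 2 := by
    have h1 : 2 * CU / c10 ≤ (A0 : ℝ) ^ 2 := by nlinarith
    rw [div_le_iff₀ hc10] at h1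
    linarith
  obtain ⟨cK, Vb, Bb, hcK, hVb, hBb, hLb⟩ := LOW.all hc4 hV1 hB hL4 (5 * A0 - 4)
  have e5A : (4 : ℝ) + ((5 * A0 - 4 : ℕ) : ℝ) = 5 * A0 := by
    rw [Nat.cast_sub (by omega)]
    push_cast
    ring
  rw [e5A] at hLb
  -- common `V1`, `B`
  set Vm := max V1 (max Va Vb) with hVm
  set Bm := max B (max Ba Bb) with hBm
  have hVm0 : 0 < Vm := lt_max_of_lt_left hV1
  have hBm1 : 1 ≤ Bm := le_max_of_le_left hB
  have hL4' : LOW 4 c4 Vm Bm := hL4.mono le_rfl le_rfl (le_max_left _ _) (le_max_left _ _) hVm0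
  have hL10 : LOW 10 c10 Vm Bm := hLa.mono (by norm_num) le_rfl
    ((le_max_left _ _).trans (le_max_right _ _)) ((le_max_left _ _).trans (le_max_right _ _)) hVm0
  have hLK : LOW (5 * A0) cK Vm Bm := hLb.mono le_rfl le_rfl
    ((le_max_right _ _).trans (le_max_right _ _)) ((le_max_right _ _).trans (le_max_right _ _))
    hVm0
  have hUP' : UP CU Vm := hUP.mono (le_max_left _ _)
  obtain ⟨m2, hm2⟩ := exists_nat_ge (15 * A0 * Bm)
  obtain ⟨c2, Vc, Bc, hc2, hVc, hBc, hLc⟩ := LOW.all hc4 hV1 hB hL4 m2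
  set C2 : ℝ := 4 + m2 with hC2
  have hC2A : 15 * A0 * Bm ≤ C2 := by rw [hC2]; linarith
  have hC24 : 4 ≤ C2 := by
    have : (0 : ℝ) ≤ m2 := Nat.cast_nonneg m2
    linarith
  set c1 := cK / CU * (Real.log (8 / 7) / 2) with hc1
  have hc1p : 0 < c1 := by positivity
  set c' := min 1 (c4 * c10 / (2 * CU)) with hc'
  have hc'p : 0 < c' := lt_min one_pos (by positivity)
  -- final constant
  set Cf : ℝ := 5 / c10 + 1 + 2 / c2 + 10 / (c1 * c' * c10) with hCf
  have hCfp : 0 < Cf := by positivity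
  set C0 : ℝ := Cf + C2 + 11 + 3 * Bm + 3 * Bc with hC0
  have hC0p : 0 < C0 := by positivity
  set ε0 : ℝ := min (1 / 50) (min (c10 / 50) (c' * c10 / 20)) with hε0
  refine ⟨C0, ε0, Vm + Vc + 10000 + 36 / Real.log (8 / 7), ?_, ?_, ?_, ?_⟩
  · linarith
  · exact lt_min (by norm_num) (lt_min (by positivity) (by positivity))
  · positivity
  intro D V T0 hV hCV hCT w0 hw0 hlw0 ι I P ε hε hεε0 hov hU
  set L := Real.log D with hL
  have hη36 : 0 < 36 / Real.log (8 / 7) := by positivity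
  have hVVm : Vm ≤ V := by linarith
  have hVVc : Vc ≤ V := by linarith
  have hV4 : 10000 ≤ V := by linarith
  have hVp : 0 < V := by linarith
  have hC011 : 11 ≤ C0 := by linarith
  have hT0V : 11 * V ≤ T0 := le_trans (by nlinarith) hCV
  have hLT0 : 11 * T0 ≤ L := le_trans (by nlinarith) hCT
  have hLC2 : C2 * T0 ≤ L := le_trans (by
    apply mul_le_mul_of_nonneg_right _ (by linarith)
    linarith) hCT
  have hLB : 3 * Bm * T0 ≤ L := le_trans (by
    apply mul_le_mul_of_nonneg_right _ (by linarith)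
    linarith) hCT
  have hLBc : 3 * Bc * T0 ≤ L := le_trans (by
    apply mul_le_mul_of_nonneg_right _ (by linarith)
    linarith) hCT
  have hTB : Bm * V ≤ T0 := le_trans (by
    apply mul_le_mul_of_nonneg_right _ (by linarith)
    linarith) hCV
  have hVT0 : V ≤ T0 := by linarith
  have hLp : 0 < L := by linarith
  have hset : Setup D V L w0 := by
    refine ⟨hL.symm, by linarith, hVp, by linarith, ⟨le_rfl, ?_⟩, hlw0⟩
    push_cast
    linarith
  have hBL : Bm * V ≤ 7 / 20 * L := by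
    have h1 : Bm * V ≤ Bm * T0 := mul_le_mul_of_nonneg_left hVT0 (by linarith)
    nlinarith
  have hBcL : Bc * V ≤ 2 / 5 * L := by
    have h1 : Bc * V ≤ Bc * T0 := mul_le_mul_of_nonneg_left hVT0 (by linarith)
    nlinarith
  have hε1 : ε ≤ 1 / 50 := hεε0.trans (min_le_left _ _)
  have hε2 : ε / c10 ≤ 1 / 50 := by
    rw [div_le_iff₀ hc10]
    have := hεε0.trans ((min_le_right _ _).trans (min_le_left _ _))
    linarith
  have hε3 : ε ≤ c' * c10 / 20 := hεε0.trans ((min_le_right _ _).trans (min_le_right _ _))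
  obtain ⟨i0, hi0, htop⟩ := uniq hset hc10 hL10 hVVm hBL (by linarith) I P hε hε1 hε2 hov hU
  refine ⟨i0, hi0, ?_⟩
  set O : ℕ → Prop := fun p => ∃ i ∈ I, ∃ j ∈ I, i ≠ j ∧ P i p ∧ P j p with hO
  set e1 := ε / c10 with he1
  have he10 : 0 ≤ e1 := by positivity
  -- the top primes in the class and outside of the overlap
  set W := (win (L / 5) (2 * L / 5)).filter (fun p => P i0 p ∧ ¬ O p) with hW
  have memW : ∀ p ∈ W, p < w0 ∧ p.Prime ∧ L / 5 < Real.log p ∧ Real.log p ≤ 2 * L / 5 ∧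
      P i0 p ∧ ¬ O p := by
    intro p hp
    rw [hW, Finset.mem_filter, mem_win] at hp
    exact ⟨hset.lt_w0 hp.1.2 (by linarith), hp.1.2, hp.1.1.1, hp.1.1.2, hp.2.1, hp.2.2⟩
  have hWmass : 1 / 2 ≤ ∑ p ∈ W, 1 / (p : ℝ) := by
    have h1 := win_mass (L := L) (by linarith)
    have h2 : ∑ p ∈ win (L / 5) (2 * L / 5), 1 / (p : ℝ) ≤ ∑ p ∈ W, 1 / (p : ℝ) +
        ∑ p ∈ (pb w0).filter (fun p : ℕ => L / 5 ≤ Real.log p ∧ ¬ P i0 p), 1 / (p : ℝ) +
        ∑ p ∈ (pb w0).filter (fun p : ℕ => T0 < Real.log p ∧ O p), 1 / (p : ℝ) := by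
      have hsub : win (L / 5) (2 * L / 5) ⊆ pb w0 := by
        intro p hp
        rw [mem_win] at hp
        exact mem_pb.2 ⟨hset.lt_w0 hp.2 (by linarith), hp.2⟩
      have h3 : ∑ p ∈ (win (L / 5) (2 * L / 5)).filter (fun p : ℕ => ¬ P i0 p), 1 / (p : ℝ) ≤
          ∑ p ∈ (pb w0).filter (fun p : ℕ => L / 5 ≤ Real.log p ∧ ¬ P i0 p), 1 / (p : ℝ) := by
        apply sum_le_of_subset
        intro p hp
        rw [Finset.mem_filter] at hp ⊢
        have h4 := mem_win.1 hp.1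
        exact ⟨hsub hp.1, by linarith [h4.1.1], hp.2⟩
      have h5 : ∑ p ∈ (win (L / 5) (2 * L / 5)).filter (fun p : ℕ => O p), 1 / (p : ℝ) ≤
          ∑ p ∈ (pb w0).filter (fun p : ℕ => T0 < Real.log p ∧ O p), 1 / (p : ℝ) := by
        apply sum_le_of_subset
        intro p hp
        rw [Finset.mem_filter] at hp ⊢
        have h4 := mem_win.1 hp.1
        exact ⟨hsub hp.1, by linarith [h4.1.1], hp.2⟩
      refine le_trans ?_ (add_le_add (add_le_add le_rfl h3) h5)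
      rw [hW, Finset.sum_filter, Finset.sum_filter, Finset.sum_filter, ← Finset.sum_add_distrib,
        ← Finset.sum_add_distrib]
      refine Finset.sum_le_sum fun p _ => ?_
      have hq0 : (0 : ℝ) ≤ 1 / (p : ℝ) := by positivity
      by_cases a1 : P i0 p <;> by_cases a2 : O p <;> simp [a1, a2]
    linarith
  set M := V ^ 2 / L ^ 2 with hM
  have hMp : 0 < M := by positivity
  -- middle primes
  set Xb := (pb w0).filter (fun p : ℕ => (L / C2 ≤ Real.log p ∧ Real.log p < L / 5) ∧ ¬ P i0 p)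
    with hXb
  have hXbsum : ∑ p ∈ Xb, 1 / (p : ℝ) ≤ 2 / c2 * ε := by
    have memX : ∀ p ∈ Xb, p.Prime ∧ L / C2 ≤ Real.log p ∧ Real.log p < L / 5 ∧ ¬ P i0 p := by
      intro p hp
      rw [hXb, Finset.mem_filter, mem_pb] at hp
      exact ⟨hp.1.2, hp.2.1.1, hp.2.1.2, hp.2.2⟩
    have hch : ∀ p ∈ W, ∀ q ∈ Xb, IsChild D 1 w0 p q := by
      intro p hp q hq
      obtain ⟨a1, a2, a3, a4, a5, a6⟩ := memW p hp
      obtain ⟨b1, b2, b3, b4⟩ := memX q hq
      exact hset.isChild a2 b1 a1 (by linarith) (by linarith)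
    have hC2p : 0 < C2 := by linarith
    have hlow : ∀ p ∈ W, ∀ q ∈ Xb,
        c2 * V ^ 2 / L ^ 2 * ((1 / (p : ℝ)) * (1 / (q : ℝ))) ≤ FF D V (1 * p * q) q := by
      intro p hp q hq
      obtain ⟨a1, a2, a3, a4, a5, a6⟩ := memW p hp
      obtain ⟨b1, b2, b3, b4⟩ := memX q hq
      have b5 : L ≤ C2 * Real.log q := by
        rw [div_le_iff₀ hC2p] at b2
        linarith
      have b6 : 0 ≤ Real.log q := Real.log_natCast_nonneg q
      exact hset.low_child hc2 hLc hVVc (hch p hp q hq) (by linarith) (by linarith) (by linarith)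
    have hun : ∀ p ∈ W, ∀ q ∈ Xb, True → ∀ m, p ∣ m → q ∣ m → Unst T0 (L / 5) I P m := by
      intro p hp q hq _ m hpm hqm
      obtain ⟨a1, a2, a3, a4, a5, a6⟩ := memW p hp
      obtain ⟨b1, b2, b3, b4⟩ := memX q hq
      refine ⟨⟨p, a2, hpm, a3.le⟩, fun i hi => ?_⟩
      by_cases hii : i = i0
      · subst hii
        refine ⟨q, b1, hqm, ?_, b4⟩
        refine lt_of_lt_of_le ?_ b2
        rw [lt_div_iff₀ hC2p]
        have : C2 * T0 < C0 * T0 := by
          apply mul_lt_mul_of_pos_right _ (by linarith)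
          linarith
        linarith
      · refine ⟨p, a2, hpm, by linarith, fun hpi => a6 ⟨i, hi, i0, hi0, hii, hpi, a5⟩⟩
    have hstar := star hset.inv hset.not_stop W Xb (fun _ _ => True) hch hlow hun
    simp only [if_true] at hstar
    rw [← Finset.sum_mul_sum] at hstar
    have h1 : c2 * (∑ p ∈ W, 1 / (p : ℝ)) * (∑ q ∈ Xb, 1 / (q : ℝ)) * M ≤ ε * M := by
      refine le_trans (le_of_eq ?_) (hstar.trans hU)
      rw [hM]
      ring
    have h2 := le_of_mul_le_mul_right h1 hMp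
    have h3 : 0 ≤ ∑ q ∈ Xb, 1 / (q : ℝ) := Finset.sum_nonneg fun p _ => by positivity
    have h4 : c2 * (1 / 2) * (∑ q ∈ Xb, 1 / (q : ℝ)) ≤ ε :=
      le_trans (by gcongr) h2
    rw [show 2 / c2 * ε = ε / (c2 * (1 / 2)) by field_simp]
    rw [le_div_iff₀ (by positivity)]
    linarith
  -- small primes
  set Xc := (pb w0).filter (fun p : ℕ => (T0 < Real.log p ∧ Real.log p < L / C2) ∧ ¬ P i0 p)
    with hXc
  have hXcsum : ∑ p ∈ Xc, 1 / (p : ℝ) ≤ 10 / (c1 * c' * c10) * ε := by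
    have hC2p : 0 < C2 := by linarith
    have memX : ∀ p ∈ Xc, p.Prime ∧ T0 < Real.log p ∧ Real.log p < L / C2 ∧ ¬ P i0 p := by
      intro p hp
      rw [hXc, Finset.mem_filter, mem_pb] at hp
      exact ⟨hp.1.2, hp.2.1.1, hp.2.1.2, hp.2.2⟩
    set R := win (L / 10) (3 * L / 20) with hR
    have memR : ∀ q ∈ R, q.Prime ∧ L / 10 < Real.log q ∧ Real.log q ≤ 3 * L / 20 := by
      intro q hq
      rw [hR, mem_win] at hq
      exact ⟨hq.2, hq.1.1, hq.1.2⟩
    have hRmass : 3 / 10 ≤ ∑ q ∈ R, 1 / (q : ℝ) := R_mass (by linarith)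
    have hch : ∀ p ∈ W, ∀ q ∈ R, IsChild D 1 w0 p q := by
      intro p hp q hq
      obtain ⟨a1, a2, a3, a4, a5, a6⟩ := memW p hp
      obtain ⟨b1, b2, b3⟩ := memR q hq
      exact hset.isChild a2 b1 a1 (by linarith) (by linarith)
    set T := ∑ p ∈ Xc, 1 / (p : ℝ) with hT
    have hT0' : 0 ≤ T := Finset.sum_nonneg fun p _ => by positivity
    have hstate : ∀ p ∈ W, ∀ q ∈ R,
        c1 * T * (c' * FF D V (1 * p * q) q - HH D V Xc (1 * p * q) q) ≤
          HH D V Xc (1 * p * q) q := by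
      intro p hp q hq
      obtain ⟨a1, a2, a3, a4, a5, a6⟩ := memW p hp
      obtain ⟨b1, b2, b3⟩ := memR q hq
      have hc := hch p hp q hq
      have hvc := hset.vv_child hc
      refine hit_state hCU hc4 hc10 hcK hVm0 hBm1 hA0' hA2 hUP' hL4' hL10 hLK hVVm
        (hset.inv.child hc) (by rw [hvc]; linarith) ?_
      intro r hr
      obtain ⟨d1, d2, d3, d4⟩ := memX r hr
      refine ⟨d1, by linarith, by linarith, ?_⟩
      rw [hvc]
      have h1 : 0 < Real.log r := by linarith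
      have h2 : Bm * (5 * A0 * Real.log r) ≤ 1 / 3 * (C2 * Real.log r) := by
        have : 15 * A0 * Bm * Real.log r ≤ C2 * Real.log r :=
          mul_le_mul_of_nonneg_right hC2A h1.le
        nlinarith
      have h3 : C2 * Real.log r < L := by
        rw [lt_div_iff₀ hC2p] at d3
        linarith
      linarith
    have hHU : ∀ p ∈ W, ∀ q ∈ R, HH D V Xc (1 * p * q) q ≤
        UU D V (Unst T0 (L / 5) I P) (1 * p * q) q := by
      intro p hp q hq
      obtain ⟨a1, a2, a3, a4, a5, a6⟩ := memW p hp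
      refine HH_le_UU (p := p) ?_ _ _ (hset.inv.child (hch p hp q hq))
        ((dvd_mul_left p 1).mul_right q)
      intro m hpm hhm
      refine ⟨⟨p, a2, hpm, a3.le⟩, fun i hi => ?_⟩
      by_cases hii : i = i0
      · subst hii
        obtain ⟨r, hr, hrm⟩ := hhm
        obtain ⟨d1, d2, d3, d4⟩ := memX r hr
        exact ⟨r, d1, hrm, d2, d4⟩
      · exact ⟨p, a2, hpm, by linarith, fun hpi => a6 ⟨i, hi, i0, hi0, hii, hpi, a5⟩⟩
    have hHsum : ∑ p ∈ W, ∑ q ∈ R, HH D V Xc (1 * p * q) q ≤ ε * M := by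
      have e : UU D V (Unst T0 (L / 5) I P) 1 w0 =
        cs D (UU D V (Unst T0 (L / 5) I P)) 1 w0 := ls_step hset.not_stop
      rw [e] at hU
      refine le_trans ?_ hU
      exact cs_ge_pairs W R (fun p q => HH D V Xc (1 * p * q) q)
        (fun p q hc => UU_nonneg _ _ (hset.inv.child hc)) hch hHU
    have hFsum : c10 * M * (1 / 2) * (3 / 10) ≤ ∑ p ∈ W, ∑ q ∈ R, FF D V (1 * p * q) q := by
      have h1 : ∑ p ∈ W, ∑ q ∈ R, c10 * M * ((1 / (p : ℝ)) * (1 / (q : ℝ))) ≤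
          ∑ p ∈ W, ∑ q ∈ R, FF D V (1 * p * q) q := by
        refine Finset.sum_le_sum fun p hp => Finset.sum_le_sum fun q hq => ?_
        obtain ⟨a1, a2, a3, a4, a5, a6⟩ := memW p hp
        obtain ⟨b1, b2, b3⟩ := memR q hq
        have := hset.low_child hc10 hL10 hVVm (hch p hp q hq) (by linarith) (by linarith)
          (by linarith)
        rw [hM, ← mul_div_assoc]
        exact this
      have h2 : ∑ p ∈ W, ∑ q ∈ R, c10 * M * ((1 / (p : ℝ)) * (1 / (q : ℝ))) =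
          c10 * M * (∑ p ∈ W, 1 / (p : ℝ)) * (∑ q ∈ R, 1 / (q : ℝ)) := by
        rw [mul_assoc, Finset.sum_mul_sum, Finset.mul_sum]
        refine Finset.sum_congr rfl fun p _ => ?_
        rw [Finset.mul_sum]
      rw [h2] at h1
      refine le_trans ?_ h1
      gcongr
    have hmain : c1 * T * (c' * (∑ p ∈ W, ∑ q ∈ R, FF D V (1 * p * q) q) -
        ∑ p ∈ W, ∑ q ∈ R, HH D V Xc (1 * p * q) q) ≤
        ∑ p ∈ W, ∑ q ∈ R, HH D V Xc (1 * p * q) q := by
      refine le_trans (le_of_eq ?_)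
        (Finset.sum_le_sum fun p hp => Finset.sum_le_sum fun q hq => hstate p hp q hq)
      generalize c1 * T = a
      rw [Finset.mul_sum, ← Finset.sum_sub_distrib, Finset.mul_sum]
      refine Finset.sum_congr rfl fun p _ => ?_
      rw [Finset.mul_sum, ← Finset.sum_sub_distrib, Finset.mul_sum]
    have h5 : c1 * T * (c' * (c10 * M * (1 / 2) * (3 / 10)) - ε * M) ≤ ε * M := by
      have h6 : c' * (c10 * M * (1 / 2) * (3 / 10)) - ε * M ≤
        c' * (∑ p ∈ W, ∑ q ∈ R, FF D V (1 * p * q) q) -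
        ∑ p ∈ W, ∑ q ∈ R, HH D V Xc (1 * p * q) q := by
        have := mul_le_mul_of_nonneg_left hFsum hc'p.le
        linarith
      have h7 := mul_le_mul_of_nonneg_left h6 (show 0 ≤ c1 * T by positivity)
      linarith
    have h8 : (c1 * T * (c' * c10 * (3 / 20) - ε)) * M ≤ ε * M := by
      refine le_trans (le_of_eq ?_) h5
      ring
    have h9 := le_of_mul_le_mul_right h8 hMp
    have h10 : c1 * T * (c' * c10 / 10) ≤ ε := by
      refine le_trans ?_ h9
      apply mul_le_mul_of_nonneg_left _ (by positivity)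
      linarith
    rw [show 10 / (c1 * c' * c10) * ε = ε / (c1 * (c' * c10 / 10)) by field_simp]
    rw [le_div_iff₀ (by positivity)]
    linarith
  -- conclusion
  have hfin : ∑ p ∈ (pb w0).filter (fun p : ℕ => T0 < Real.log p ∧ ¬ P i0 p), 1 / (p : ℝ) ≤
      ∑ p ∈ (pb w0).filter (fun p : ℕ => L / 5 ≤ Real.log p ∧ ¬ P i0 p), 1 / (p : ℝ) +
      ∑ p ∈ Xb, 1 / (p : ℝ) + ∑ p ∈ Xc, 1 / (p : ℝ) := by
    rw [hXb, hXc, Finset.sum_filter, Finset.sum_filter, Finset.sum_filter, Finset.sum_filter,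
      ← Finset.sum_add_distrib, ← Finset.sum_add_distrib]
    refine Finset.sum_le_sum fun p _ => ?_
    have hq0 : (0 : ℝ) ≤ 1 / (p : ℝ) := by positivity
    by_cases a1 : P i0 p
    · simp [a1]
    · by_cases a2 : T0 < Real.log p
      · by_cases a3 : L / 5 ≤ Real.log p
        · simp only [a1, a2, a3, not_false_eq_true, and_self, if_true]
          have : (0 : ℝ) ≤ (if (L / C2 ≤ Real.log p ∧ Real.log p < L / 5) ∧ True
            then 1 / (p : ℝ) else 0) := by split_ifs <;> positivity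
          have : (0 : ℝ) ≤ (if (True ∧ Real.log p < L / C2) ∧ True
            then 1 / (p : ℝ) else 0) := by split_ifs <;> positivity
          linarith
        · push Not at a3
          by_cases a4 : L / C2 ≤ Real.log p
          · rw [if_pos ⟨a2, a1⟩, if_neg (fun hh => absurd hh.1 (not_le.2 a3)),
              if_pos ⟨⟨a4, a3⟩, a1⟩, if_neg (fun hh => absurd hh.1.2 (not_lt.2 a4))]
            linarith
          · push Not at a4
            rw [if_pos ⟨a2, a1⟩, if_neg (fun hh => absurd hh.1 (not_le.2 a3)),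
              if_neg (fun hh => absurd hh.1.1 (not_le.2 a4)), if_pos ⟨⟨a2, a4⟩, a1⟩]
            linarith
      · rw [if_neg (fun hh => a2 hh.1)]
        have h1 : (0 : ℝ) ≤ (if L / 5 ≤ Real.log p ∧ ¬ P i0 p then 1 / (p : ℝ) else 0) := by
          split_ifs <;> positivity
        have h2 : (0 : ℝ) ≤ (if (L / C2 ≤ Real.log p ∧ Real.log p < L / 5) ∧ ¬ P i0 p
            then 1 / (p : ℝ) else 0) := by split_ifs <;> positivity
        have h3 : (0 : ℝ) ≤ (if (T0 < Real.log p ∧ Real.log p < L / C2) ∧ ¬ P i0 p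
            then 1 / (p : ℝ) else 0) := by split_ifs <;> positivity
        linarith
  have h20 : 5 * e1 + ε + 2 / c2 * ε + 10 / (c1 * c' * c10) * ε = Cf * ε := by
    rw [hCf, he1]
    ring
  have h21 : Cf * ε ≤ C0 * ε := by
    apply mul_le_mul_of_nonneg_right _ hε
    linarith
  linarith

end Crest.Agent.R001.Hit
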