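import Crest.Agent.R001.Nog621
import Crest.Agent.R001.UT

/-!
# R1, block HITI: instantiation of HIT in the variables of the assembly.  helper621
-/

set_option autoImplicit false

namespace Crest.Agent.R001.Hit

open Finset Classical Filter

open Crest.Agent.R001.Asm (Dlev w0 Big)

/-- two coprime fractions with positive denominators and vanishing determinant are equal -/
lemma eq_of_det' {τ σ : ℤ × ℤ} (h1 : 1 ≤ τ.2) (h2 : 1 ≤ σ.2) (h3 : IsCoprime τ.1 τ.2)
    (h4 : IsCoprime σ.1 σ.2) (h : τ.2 * σ.1 - σ.2 * τ.1 = 0) : τ = σ := by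
  have h5 : τ.2 * σ.1 = σ.2 * τ.1 := by linarith
  have h6 : τ.2 ∣ σ.2 := by
    refine h3.symm.dvd_of_dvd_mul_right (x := τ.2) (y := σ.2) (z := τ.1) ?_
    exact ⟨σ.1, h5.symm⟩
  have h7 : σ.2 ∣ τ.2 := by
    refine h4.symm.dvd_of_dvd_mul_right (x := σ.2) (y := τ.2) (z := σ.1) ?_
    exact ⟨τ.1, h5⟩
  have h8 : τ.2 = σ.2 := Int.dvd_antisymm (by linarith) (by linarith) h6 h7
  have h9 : τ.1 = σ.1 := by
    rw [h8] at h5
    have : σ.2 ≠ 0 := by omega
    exact (mul_left_cancel₀ this h5).symm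
  exact Prod.ext h9 h8

lemma sum_biUnion_le' {ι : Type*} (s : Finset ι) (F : ι → Finset ℕ) (f : ℕ → ℝ)
    (hf : ∀ p, 0 ≤ f p) : ∑ p ∈ s.biUnion F, f p ≤ ∑ i ∈ s, ∑ p ∈ F i, f p := by
  induction s using Finset.induction_on with
  | empty => simp
  | insert a s ha ih =>
    rw [Finset.biUnion_insert, Finset.sum_insert ha]
    have h1 : ∑ p ∈ F a ∪ s.biUnion F, f p ≤ ∑ p ∈ F a, f p + ∑ p ∈ s.biUnion F, f p := by
      rw [← Finset.sum_union_inter]
      exact le_add_of_nonneg_right (Finset.sum_nonneg fun p _ => hf p)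
    linarith

/-- the overlap of the classes of different fractions is negligible -/
theorem overlap_le {x : ℝ} (hx : 1 ≤ Real.log x) (hx0 : 0 < x) (a : ℤ) (LL : Finset (ℤ × ℤ))
    (hLL : ∀ τ ∈ LL, 1 ≤ τ.2 ∧ (τ.2 : ℝ) ≤ x ^ 2 ∧ |(τ.1 : ℝ)| ≤ x ^ 2 ∧ IsCoprime τ.1 τ.2)
    (W : ℕ) (t : ℝ) :
    ∑ p ∈ (pb W).filter (fun p : ℕ => t < Real.log p ∧
      ∃ i ∈ LL, ∃ j ∈ LL, i ≠ j ∧ ((p : ℤ) ∣ i.2 * a - i.1) ∧ ((p : ℤ) ∣ j.2 * a - j.1)),
        1 / (p : ℝ) ≤ (LL.card : ℝ) ^ 2 * (7 * Real.log x) * Real.exp (-t) := by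
  -- determinant
  set det : (ℤ × ℤ) × (ℤ × ℤ) → ℕ := fun π => (π.1.2 * π.2.1 - π.2.2 * π.1.1).natAbs with hdet
  have hsub : (pb W).filter (fun p : ℕ => t < Real.log p ∧
      ∃ i ∈ LL, ∃ j ∈ LL, i ≠ j ∧ ((p : ℤ) ∣ i.2 * a - i.1) ∧ ((p : ℤ) ∣ j.2 * a - j.1)) ⊆
      LL.offDiag.biUnion (fun π => (det π).primeFactors.filter (fun p : ℕ => t < Real.log p)) := by
    intro p hp
    rw [Finset.mem_filter, mem_pb] at hp
    obtain ⟨⟨_, hpp⟩, htp, i, hi, j, hj, hij, hpi, hpj⟩ := hp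
    rw [Finset.mem_biUnion]
    refine ⟨(i, j), Finset.mem_offDiag.2 ⟨hi, hj, hij⟩, ?_⟩
    rw [Finset.mem_filter, Nat.mem_primeFactors]
    refine ⟨⟨hpp, ?_, ?_⟩, htp⟩
    · rw [hdet, ← Int.natCast_dvd]
      simp only
      have : i.2 * j.1 - j.2 * i.1 = j.2 * (i.2 * a - i.1) - i.2 * (j.2 * a - j.1) := by ring
      rw [this]
      exact dvd_sub (hpi.mul_left _) (hpj.mul_left _)
    · intro h0
      rw [hdet] at h0
      simp only [Int.natAbs_eq_zero] at h0
      exact hij (eq_of_det' (hLL i hi).1 (hLL j hj).1 (hLL i hi).2.2.2 (hLL j hj).2.2.2 h0)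
  have hpair : ∀ π ∈ LL.offDiag,
      ∑ p ∈ (det π).primeFactors.filter (fun p : ℕ => t < Real.log p), 1 / (p : ℝ) ≤
        7 * Real.log x * Real.exp (-t) := by
    intro π hπ
    obtain ⟨hi, hj, hij⟩ := Finset.mem_offDiag.1 hπ
    have hne : det π ≠ 0 := by
      intro h0
      rw [hdet] at h0
      simp only [Int.natAbs_eq_zero] at h0
      exact hij (eq_of_det' (hLL _ hi).1 (hLL _ hj).1 (hLL _ hi).2.2.2 (hLL _ hj).2.2.2 h0)
    have hsize : ((det π : ℕ) : ℝ) ≤ 2 * x ^ 4 := by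
      rw [hdet]
      simp only
      rw [Nat.cast_natAbs, Int.cast_abs]
      push_cast
      obtain ⟨a1, a2, a3, _⟩ := hLL _ hi
      obtain ⟨b1, b2, b3, _⟩ := hLL _ hj
      have a1' : (0 : ℝ) ≤ (π.1.2 : ℝ) := by
        have : (0 : ℤ) ≤ π.1.2 := by omega
        exact_mod_cast this
      have b1' : (0 : ℝ) ≤ (π.2.2 : ℝ) := by
        have : (0 : ℤ) ≤ π.2.2 := by omega
        exact_mod_cast this
      calc |(π.1.2 : ℝ) * π.2.1 - π.2.2 * π.1.1|
          ≤ |(π.1.2 : ℝ) * π.2.1| + |(π.2.2 : ℝ) * π.1.1| := abs_sub _ _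
        _ = (π.1.2 : ℝ) * |(π.2.1 : ℝ)| + π.2.2 * |(π.1.1 : ℝ)| := by
            rw [abs_mul, abs_mul, abs_of_nonneg a1', abs_of_nonneg b1']
        _ ≤ x ^ 2 * x ^ 2 + x ^ 2 * x ^ 2 := by gcongr
        _ = 2 * x ^ 4 := by ring
    have hcard : ((det π).primeFactors.card : ℝ) ≤ 7 * Real.log x := by
      have h1 : 2 ^ (det π).primeFactors.card ≤ det π := by
        calc 2 ^ (det π).primeFactors.card = ∏ p ∈ (det π).primeFactors, 2 := by
              rw [Finset.prod_const]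
          _ ≤ ∏ p ∈ (det π).primeFactors, p := Finset.prod_le_prod' fun p hp =>
            (Nat.prime_of_mem_primeFactors hp).two_le
          _ ≤ det π := Nat.le_of_dvd (Nat.pos_of_ne_zero hne) (Nat.prod_primeFactors_dvd _)
      have h2 : (2 : ℝ) ^ (det π).primeFactors.card ≤ 2 * x ^ 4 := by
        refine le_trans ?_ hsize
        exact_mod_cast h1
      have h3 := Real.log_le_log (by positivity) h2
      rw [Real.log_pow, Real.log_mul (by norm_num) (by positivity), Real.log_pow] at h3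
      push_cast at h3
      have h4 := Real.log_two_gt_d9
      have h5 := Real.log_two_lt_d9
      have h6 : (0 : ℝ) ≤ (det π).primeFactors.card := Nat.cast_nonneg _
      nlinarith
    calc ∑ p ∈ (det π).primeFactors.filter (fun p : ℕ => t < Real.log p), 1 / (p : ℝ)
        ≤ ∑ p ∈ (det π).primeFactors.filter (fun p : ℕ => t < Real.log p), Real.exp (-t) := by
          refine Finset.sum_le_sum fun p hp => ?_
          rw [Finset.mem_filter] at hp
          have hpp := Nat.prime_of_mem_primeFactors hp.1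
          have hp0 : (0 : ℝ) < p := by exact_mod_cast hpp.pos
          have h1 : Real.exp t < p := (Real.lt_log_iff_exp_lt hp0).1 hp.2
          rw [Real.exp_neg, one_div]
          exact (inv_anti₀ (Real.exp_pos t) h1.le)
      _ = ((det π).primeFactors.filter (fun p : ℕ => t < Real.log p)).card * Real.exp (-t) := by
          rw [Finset.sum_const, nsmul_eq_mul]
      _ ≤ (det π).primeFactors.card * Real.exp (-t) := by
          apply mul_le_mul_of_nonneg_right _ (Real.exp_pos _).le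
          exact_mod_cast Finset.card_filter_le _ _
      _ ≤ _ := mul_le_mul_of_nonneg_right hcard (Real.exp_pos _).le
  calc _ ≤ ∑ p ∈ LL.offDiag.biUnion
          (fun π => (det π).primeFactors.filter (fun p : ℕ => t < Real.log p)), 1 / (p : ℝ) :=
        Finset.sum_le_sum_of_subset_of_nonneg hsub fun p _ _ => by positivity
    _ ≤ ∑ π ∈ LL.offDiag,
          ∑ p ∈ (det π).primeFactors.filter (fun p : ℕ => t < Real.log p), 1 / (p : ℝ) :=
        sum_biUnion_le' _ _ _ fun p => by positivity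
    _ ≤ ∑ π ∈ LL.offDiag, 7 * Real.log x * Real.exp (-t) := Finset.sum_le_sum hpair
    _ = (LL.offDiag.card : ℝ) * (7 * Real.log x * Real.exp (-t)) := by
        rw [Finset.sum_const, nsmul_eq_mul]
    _ ≤ (LL.card : ℝ) ^ 2 * (7 * Real.log x * Real.exp (-t)) := by
        apply mul_le_mul_of_nonneg_right _ (by positivity)
        rw [Finset.offDiag_card]
        have : LL.card * LL.card - LL.card ≤ LL.card ^ 2 := by
          rw [sq]; exact Nat.sub_le _ _
        exact_mod_cast this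
    _ = _ := by ring

lemma lineSum_eq {D V : ℝ} (f : ℕ → ℕ → ℝ) (w : ℕ) :
    lineSum D V f w = ∑ b ∈ Tree.LS (stopL D V) 1 w,
      (if Tree.bd D b b.minFac then 0 else f b b.minFac) :=
  Tree.T_eq_sum_LS _ _ (by norm_num) (Tree.rgh_one w)

/-- largeness -/
lemma ev_hiti (V0 V1 C0 η ε K C2 CL C1 γ c : ℝ) (hη : 0 < η) (hε : 0 < ε) (hK : 0 < K)
    (hC0 : 0 < C0) (hC2 : 0 < C2) (hCL : 2 * CL + 3 ≤ C2) (hγ : 0 < γ) (hγ4 : γ ≤ 1 / 4)
    (hC1 : 0 < C1) (hc : 0 < c) :
    ∀ᶠ x : ℝ in atTop, Big x ∧ 100 ≤ Real.log x ∧ V0 ≤ K * Real.log (Real.log x) ∧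
      V1 ≤ K * Real.log (Real.log x) ∧
      V1 ≤ η * (K * Real.log (Real.log x)) ∧
      C0 * (C2 * Real.log (Real.log x)) ≤ Real.log x / 2 ∧
      K * Real.log (Real.log x) < 2 / 3 * (γ * Real.log x) ∧
      x ^ γ ≤ x ^ ((1 : ℝ) / 2) / (Real.log x) ^ 2 ∧
      c * Real.log (Real.log x) ^ 4 ≤ ε * Real.log x ^ 3 ∧
      7 ≤ ε * Real.log x ^ 2 := by
  have t1 : Tendsto (fun x : ℝ => Real.log (Real.log x)) atTop atTop := Asm.tendsto_loglog
  have h1 := Asm.eventually_big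
  have h2 := Real.tendsto_log_atTop.eventually_ge_atTop 100
  have h3 := (t1.const_mul_atTop hK).eventually_ge_atTop V0
  have h4 := (t1.const_mul_atTop hK).eventually_ge_atTop V1
  have h5 := ((t1.const_mul_atTop hK).const_mul_atTop hη).eventually_ge_atTop V1
  have h6 := Asm.eventually_loglog_le (2 * (C0 * C2)) (by positivity)
  have h7 := Asm.eventually_loglog_le (2 * K / (2 / 3 * γ)) (by positivity)
  have h8 := Asm.eventually_log_rpow_le 2 (1 / 4) 1 (by norm_num) (by norm_num)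
  have h9 := Real.tendsto_log_atTop.eventually (Asm.eventually_log_rpow_le 4 3 (c / ε) (by norm_num)
    (by positivity))
  have h10 := Real.tendsto_log_atTop.eventually_ge_atTop (7 / ε)
  filter_upwards [h1, h2, h3, h4, h5, h6, h7, h8, h9, h10, eventually_ge_atTop (1 : ℝ)] with x
    a1 a2 a3 a4 a5 a6 a7 a8 a9 a10 a11
  refine ⟨a1, a2, a3, a4, a5, by linarith, ?_, ?_, ?_, ?_⟩
  · have hg : 0 < 2 / 3 * γ := by positivity
    rw [div_mul_eq_mul_div, div_le_iff₀ hg] at a7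
    have : 0 < K * Real.log (Real.log x) := by
      have := a1.l1
      positivity
    nlinarith
  · rw [le_div_iff₀ (by positivity)]
    have e1 : (Real.log x) ^ (2 : ℝ) = (Real.log x) ^ 2 := by
      rw [show (2 : ℝ) = ((2 : ℕ) : ℝ) by norm_num, Real.rpow_natCast]
    rw [e1, one_mul] at a8
    have hx0 : 0 < x := by linarith
    calc x ^ γ * Real.log x ^ 2 ≤ x ^ ((1 : ℝ) / 4) * x ^ ((1 : ℝ) / 4) := by
          gcongr
      _ = x ^ ((1 : ℝ) / 2) := by
          rw [← Real.rpow_add hx0]; norm_num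
  · have e1 : (Real.log (Real.log x)) ^ (4 : ℝ) = (Real.log (Real.log x)) ^ 4 := by
      rw [show (4 : ℝ) = ((4 : ℕ) : ℝ) by norm_num, Real.rpow_natCast]
    have e2 : (Real.log x) ^ (3 : ℝ) = (Real.log x) ^ 3 := by
      rw [show (3 : ℝ) = ((3 : ℕ) : ℝ) by norm_num, Real.rpow_natCast]
    rw [e1, e2, div_mul_eq_mul_div, div_le_iff₀ hε] at a9
    linarith
  · rw [div_le_iff₀ hε] at a10
    nlinarith

/-- **HITI** -/
theorem hiti (hu : LineUp) (hl : MassLow) (γ : ℝ) (hγ : 0 < γ) (hγ4 : γ ≤ 1 / 4) :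
    ∃ C0 ε0 Cη : ℝ, 11 ≤ C0 ∧ 0 < ε0 ∧ 0 < Cη ∧
    ∀ (η ε : ℝ), 0 < η → η ≤ 1 → 0 < ε → 2 * ε + Cη * η ^ 2 ≤ ε0 →
    ∀ (K C2 CL C1 : ℝ), 0 < K → C0 * K ≤ C2 → 2 * CL + 3 ≤ C2 → 0 < C1 →
    ∀ᶠ X : ℕ in atTop, ∀ (a : ℤ) (LL : Finset (ℤ × ℤ)),
      (LL.card : ℝ) ≤ (Real.log X) ^ CL →
      (∀ τ ∈ LL, 1 ≤ τ.2 ∧ (τ.2 : ℝ) ≤ (X : ℝ) ^ 2 ∧ |(τ.1 : ℝ)| ≤ (X : ℝ) ^ 2 ∧
        IsCoprime τ.1 τ.2) →
      ∀ U : Finset ℕ,
      ∑ b ∈ U, 1 / ((b : ℝ) * (Real.log ((Dlev X : ℝ) / b)) ^ 2) ≤ ε / (Real.log X) ^ 2 →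
      (∀ b ∈ Tree.LS (stopL (Dlev X) (K * Real.log (Real.log X))) 1 (w0 X),
        ¬ Tree.bd (Dlev X : ℝ) b b.minFac → b ∉ U →
        η * (K * Real.log (Real.log X)) < Real.log ((Dlev X : ℝ) / b) →
        (∃ g : ℕ, g.Prime ∧ g ∣ b ∧ (Real.log X) ^ C1 ≤ (g : ℝ) ∧ (g : ℝ) ≤ (X : ℝ) ^ γ) →
        (∃ p : ℕ, p.Prime ∧ p ∣ b ∧ Real.log (Dlev X) / 5 ≤ Real.log p) →
        ∃ τ ∈ LL, ∀ p : ℕ, p.Prime → p ∣ b → (Real.log X) ^ C2 < (p : ℝ) →
          (p : ℤ) ∣ τ.2 * a - τ.1) →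
      ∃ τ ∈ LL, ∑ p ∈ (Tree.pr (w0 X)).filter (fun p : ℕ => (Real.log X) ^ C2 < (p : ℝ) ∧
        ¬ (p : ℤ) ∣ τ.2 * a - τ.1), 1 / (p : ℝ) ≤ C0 * (2 * ε + Cη * η ^ 2) := by
  obtain ⟨C0, ε0, V0, hC0, hε0, hV0, hit⟩ := hit_tree hu.massUp hl
  obtain ⟨CU, V1, hCU, hV1, hUP⟩ := hu.massUp.up
  obtain ⟨Cn, Vn, hCn, hVn, hN⟩ := hu
  obtain ⟨Cp, hCp, hprod⟩ := prod_le_log
  refine ⟨C0, ε0, CU, hC0, hε0, hCU, ?_⟩
  intro η ε hη hη1 hε hsum K C2 CL C1 hK hKC hCL hC1
  have hC2 : 0 < C2 := lt_of_lt_of_le (by positivity) hKC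
  set c := Cn * Cp * C1 ^ 4 / (2 / 3 * γ) ^ 6 with hc
  have hcp : 0 < c := by positivity
  have hev := ev_hiti V0 (max V1 Vn) C0 η ε K C2 CL C1 γ c hη hε hK (by linarith) hC2 hCL hγ hγ4
    hC1 hcp
  have hev2 := tendsto_natCast_atTop_atTop (R := ℝ) |>.eventually hev
  have hev3 := tendsto_natCast_atTop_atTop (R := ℝ) |>.eventually UT.dlev_bounds
  filter_upwards [hev2, hev3] with X hX hD
  obtain ⟨hB, hL100, hVV0, hVV1, hηV, hCT, hVt, hγw, hcl, h7⟩ := hX
  obtain ⟨hD1, hD2, hD3, hD16⟩ := hD X rfl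
  intro a LL hLLc hLL U hU hcap
  have hX0 := hB.X0
  have hl1 := hB.l1
  have hw0gt := hB.w0_gt
  obtain ⟨L, hL⟩ : ∃ L, L = Real.log (X : ℝ) := ⟨_, rfl⟩
  obtain ⟨l, hle⟩ : ∃ l, l = Real.log L := ⟨_, rfl⟩
  obtain ⟨W, hW⟩ : ∃ W, W = w0 X := ⟨_, rfl⟩
  obtain ⟨D, hDD⟩ : ∃ D : ℝ, D = (Dlev X : ℝ) := ⟨_, rfl⟩
  have hW2 : (W : ℝ) ^ 2 ≤ D := by
    rw [hW, hDD]
    have : (w0 X) ^ 2 ≤ Dlev X := Nat.sqrt_le' _
    exact_mod_cast this
  have hDW : D < ((W : ℝ) + 1) ^ 2 := by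
    rw [hW, hDD]
    have : Dlev X < (w0 X + 1) ^ 2 := by
      have := Nat.sqrt_lt' (m := Dlev X) (n := Nat.sqrt (Dlev X) + 1)
      exact this.mp (Nat.lt_succ_self _)
    exact_mod_cast this
  rw [← hW] at hw0gt hcap
  rw [← hDD] at hD1 hD2 hD3 hU hcap
  rw [← hL] at hL100 hVV0 hVV1 hηV hCT hVt hγw hcl h7 hD1 hD2 hD3 hU hcap hl1 hw0gt hLLc
  rw [← hle] at hVV0 hVV1 hηV hCT hVt hcl hcap hl1
  have hL0 : 0 < L := by linarith
  have hD0 : 0 < D := by
    rw [hDD]
    have : 0 < Dlev X := by omega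
    exact_mod_cast this
  set V := K * l with hV
  have hVp : 0 < V := by positivity
  set T0 := C2 * l with hT0
  have hW3 : 3 ≤ W := by
    have h1 : (10 : ℝ) < W := by
      have := hB.u_ge
      rw [← hL] at this
      linarith
    have : (3 : ℝ) ≤ W := by linarith
    exact_mod_cast this
  have hWp : (0 : ℝ) < W := by
    have : 0 < W := by omega
    exact_mod_cast this
  have hlogD : Real.log D ≤ L := by
    rw [hL]
    apply Real.log_le_log hD0
    refine hD2.trans ?_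
    rw [div_le_iff₀ (by positivity)]
    have : 1 ≤ L ^ 3 := one_le_pow₀ (by linarith)
    nlinarith
  have hlogD0 : 0 < Real.log D := by linarith
  have hVD : V < Real.log D := by
    have : C0 * K * l ≤ C2 * l := mul_le_mul_of_nonneg_right hKC (by linarith)
    have h2 : 11 * (K * l) ≤ C0 * (K * l) := mul_le_mul_of_nonneg_right hC0 (by positivity)
    have h3 : C2 * l ≤ C0 * (C2 * l) := by
      have : 0 < C2 * l := by positivity
      nlinarith
    nlinarith
  have hlogW : 9 / 20 * Real.log D ≤ Real.log W := by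
    have h1 : Real.log D ≤ 2 * (Real.log W + Real.log 2) := by
      have h2 : D ≤ (2 * (W : ℝ)) ^ 2 := by
        refine hDW.le.trans ?_
        apply pow_le_pow_left₀ (by positivity)
        have : (1 : ℝ) ≤ W := by
          have : 1 ≤ W := by omega
          exact_mod_cast this
        linarith
      have h3 := Real.log_le_log hD0 h2
      rw [Real.log_pow, Real.log_mul (by norm_num) hWp.ne'] at h3
      push_cast at h3
      linarith
    have := Real.log_two_lt_d9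
    linarith
  have hlogW2 : Real.log W ≤ L := by
    have h1 : Real.log ((W : ℝ) ^ 2) ≤ Real.log D := Real.log_le_log (by positivity) hW2
    rw [Real.log_pow] at h1
    push_cast at h1
    have : 0 ≤ Real.log W := Real.log_natCast_nonneg W
    linarith
  have hT0iff : ∀ p : ℕ, 0 < p → (T0 < Real.log p ↔ L ^ C2 < (p : ℝ)) := by
    intro p hp
    have hp0 : (0 : ℝ) < p := by exact_mod_cast hp
    rw [Real.lt_log_iff_exp_lt hp0, hT0, hle, Real.rpow_def_of_pos hL0, mul_comm]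
  have hinv : Inv D 1 W := ⟨le_rfl, by push_cast; linarith⟩
  -- the line sum
  obtain ⟨P, hP⟩ : ∃ P : ℤ × ℤ → ℕ → Prop,
    P = fun (τ : ℤ × ℤ) (p : ℕ) => (p : ℤ) ∣ τ.2 * a - τ.1 := ⟨_, rfl⟩
  have key : lineSum D V
      (fun d _ => if Unst T0 (Real.log D / 5) LL P d then 1 / (d : ℝ) else 0) W ≤
      (2 * ε + CU * η ^ 2) * (V ^ 2 / Real.log D ^ 2) := by
    have hsmall := small_v hCU hV1 hUP (D := D) (V := V) hη hη1
      (le_trans (le_max_left _ _) hηV) hVD hW2
    have hVn' : Vn ≤ V := le_trans (le_max_right _ _) hVV1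
    have hXγ : 1 < (X : ℝ) ^ γ := by
      apply Real.one_lt_rpow _ hγ
      have := hB.x2
      linarith
    have hLC1 : 1 < L ^ C1 := Real.one_lt_rpow (by linarith) hC1
    have hlogXγ : Real.log ((X : ℝ) ^ γ) = γ * L := by rw [Real.log_rpow hX0, ← hL]
    have hlogLC : Real.log (L ^ C1) = C1 * l := by rw [Real.log_rpow hL0, ← hle]
    have hnog := nog_core hCn hVn hN (D := D) (V := V) (t1 := L ^ C1) (t2 := (X : ℝ) ^ γ) hVn'
      hLC1 hXγ (by rw [hlogXγ]; exact hVt) 1 W hinv (by linarith)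
    rw [hlogXγ, hlogLC, Tree.Q_inv] at hnog
    have hns : ¬ Stop D V 1 W := by
      intro hs
      have h4 := hs.2
      unfold vv at h4
      rw [Nat.cast_one, div_one] at h4
      linarith
    have hnog2 : lineSum D V
        (fun d _ => if HasG (L ^ C1) ((X : ℝ) ^ γ) d then 0 else 1 / (d : ℝ)) W ≤
        ε * (V ^ 2 / Real.log D ^ 2) := by
      unfold lineSum stopL
      rw [← ls_eq_T D (Stop D V) _ W 1 hns]
      refine hnog.trans ?_
      have h1 := hprod W hW3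
      have h2 : (0 : ℝ) ≤ Cn * V ^ 2 * (C1 * l) ^ 4 / (2 / 3 * (γ * L)) ^ 6 := by positivity
      calc Cn * V ^ 2 * (C1 * l) ^ 4 / (2 / 3 * (γ * L)) ^ 6 *
            (1 / ((1 : ℕ) : ℝ) * ∏ p ∈ Tree.pr W, (1 + 1 / (p : ℝ)))
          ≤ Cn * V ^ 2 * (C1 * l) ^ 4 / (2 / 3 * (γ * L)) ^ 6 * (Cp * L) := by
            apply mul_le_mul_of_nonneg_left _ h2
            rw [Nat.cast_one, div_one, one_mul]
            exact h1.trans (by gcongr)
        _ = (c * l ^ 4) * (V ^ 2 / L ^ 5) := by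
            rw [hc]
            field_simp
        _ ≤ (ε * L ^ 3) * (V ^ 2 / L ^ 5) := by gcongr
        _ = ε * (V ^ 2 / L ^ 2) := by field_simp
        _ ≤ ε * (V ^ 2 / Real.log D ^ 2) := by gcongr
    -- comparison
    have hUpart : ∑ b ∈ Tree.LS (stopL D V) 1 W,
        (if Tree.bd D b b.minFac then (0 : ℝ) else if b ∈ U then 1 / (b : ℝ) else 0) ≤
        ε * (V ^ 2 / Real.log D ^ 2) := by
      have hterm : ∀ b ∈ Tree.LS (stopL D V) 1 W,
          (if Tree.bd D b b.minFac then (0 : ℝ) else if b ∈ U then 1 / (b : ℝ) else 0) ≤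
          if b ∈ U then V ^ 2 * (1 / ((b : ℝ) * (Real.log (D / b)) ^ 2)) else 0 := by
        intro b hb
        by_cases hbU : b ∈ U
        · rw [if_pos hbU, if_pos hbU]
          split_ifs with hbd
          · positivity
          · obtain ⟨w', hleaf⟩ := Tree.mem_LS.1 hb
            have hmin := Tree.Leaf.minFac (Tree.rgh_one W) hleaf
            obtain ⟨d0, _, p0, hn0, hp0, hq0, hd0, hst⟩ := hleaf
            rw [← hmin] at hst
            have hst2 : Stop D V b b.minFac := hst.resolve_left hbd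
            have hv1 : Real.log (D / b) ≤ V := hst2.2
            rw [Tree.not_bd] at hbd
            have hb0 : 0 < b := by
              rw [hd0]
              exact Nat.mul_pos (Nat.mul_pos (hn0.pos one_pos) (Tree.prime_of_mem_pr hp0).pos)
                (Tree.prime_of_mem_pr hq0).pos
            have hb0' : (0 : ℝ) < b := by exact_mod_cast hb0
            have hmf : (1 : ℝ) ≤ (b.minFac : ℝ) ^ 2 := by
              have : 1 ≤ b.minFac := Nat.minFac_pos b
              have : (1 : ℝ) ≤ b.minFac := by exact_mod_cast this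
              nlinarith
            have hbD : (b : ℝ) < D := by nlinarith
            have hv0 : 0 < Real.log (D / b) := by
              apply Real.log_pos
              rw [one_lt_div hb0']
              exact hbD
            rw [← mul_div_assoc, mul_one]
            rw [div_le_div_iff₀ hb0' (by positivity)]
            have : Real.log (D / b) ^ 2 ≤ V ^ 2 := by gcongr
            nlinarith
        · rw [if_neg hbU, if_neg hbU]
          split_ifs <;> exact le_rfl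
      refine (Finset.sum_le_sum hterm).trans ?_
      rw [← Finset.sum_filter]
      calc ∑ b ∈ (Tree.LS (stopL D V) 1 W).filter (fun b => b ∈ U),
            V ^ 2 * (1 / ((b : ℝ) * (Real.log (D / b)) ^ 2))
          ≤ ∑ b ∈ U, V ^ 2 * (1 / ((b : ℝ) * (Real.log (D / b)) ^ 2)) := by
            refine Finset.sum_le_sum_of_subset_of_nonneg ?_ fun b _ _ => by positivity
            intro b hb
            exact (Finset.mem_filter.1 hb).2
        _ = V ^ 2 * ∑ b ∈ U, 1 / ((b : ℝ) * (Real.log (D / b)) ^ 2) := by rw [Finset.mul_sum]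
        _ ≤ V ^ 2 * (ε / L ^ 2) := by gcongr
        _ = ε * (V ^ 2 / L ^ 2) := by ring
        _ ≤ ε * (V ^ 2 / Real.log D ^ 2) := by gcongr
    rw [lineSum_eq] at hsmall hnog2 ⊢
    have hall : ∑ b ∈ Tree.LS (stopL D V) 1 W, (if Tree.bd D b b.minFac then (0 : ℝ) else
        if Unst T0 (Real.log D / 5) LL P b then 1 / (b : ℝ) else 0) ≤
        ∑ b ∈ Tree.LS (stopL D V) 1 W,
          (if Tree.bd D b b.minFac then (0 : ℝ) else if b ∈ U then 1 / (b : ℝ) else 0) +
        ∑ b ∈ Tree.LS (stopL D V) 1 W,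
          (if Tree.bd D b b.minFac then (0 : ℝ) else
            if vv D b ≤ η * V then 1 / (b : ℝ) else 0) +
        ∑ b ∈ Tree.LS (stopL D V) 1 W,
          (if Tree.bd D b b.minFac then (0 : ℝ) else
            if HasG (L ^ C1) ((X : ℝ) ^ γ) b then 0 else 1 / (b : ℝ)) := by
      rw [← Finset.sum_add_distrib, ← Finset.sum_add_distrib]
      refine Finset.sum_le_sum fun b hb => ?_
      by_cases hbd : Tree.bd D b b.minFac
      · simp [hbd]
      · rw [if_neg hbd, if_neg hbd, if_neg hbd, if_neg hbd]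
        have hb1 : (0 : ℝ) ≤ 1 / (b : ℝ) := by positivity
        by_cases hun : Unst T0 (Real.log D / 5) LL P b
        · rw [if_pos hun]
          by_cases c1 : b ∈ U
          · rw [if_pos c1]
            have : (0 : ℝ) ≤ (if vv D b ≤ η * V then 1 / (b : ℝ) else 0) := by
              split_ifs <;> positivity
            have : (0 : ℝ) ≤ (if HasG (L ^ C1) ((X : ℝ) ^ γ) b then 0 else 1 / (b : ℝ)) := by
              split_ifs <;> positivity
            linarith
          · by_cases c2 : vv D b ≤ η * V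
            · rw [if_pos c2, if_neg c1]
              have : (0 : ℝ) ≤ (if HasG (L ^ C1) ((X : ℝ) ^ γ) b then 0 else 1 / (b : ℝ)) := by
                split_ifs <;> positivity
              linarith
            · by_cases c3 : HasG (L ^ C1) ((X : ℝ) ^ γ) b
              · exfalso
                push Not at c2
                obtain ⟨⟨p, hp1, hp2, hp3⟩, hcl'⟩ := hun
                obtain ⟨g, hg1, hg2, hg3, hg4⟩ := c3
                obtain ⟨τ, hτ, hτ2⟩ := hcap b hb hbd c1 c2 ⟨g, hg1, hg2, hg3, hg4⟩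
                  ⟨p, hp1, hp2, hp3⟩
                obtain ⟨q, hq1, hq2, hq3, hq4⟩ := hcl' τ hτ
                rw [hP] at hq4
                exact hq4 (hτ2 q hq1 hq2 ((hT0iff q hq1.pos).1 hq3))
              · rw [if_neg c1, if_neg c2, if_neg c3]
                linarith
        · rw [if_neg hun]
          have : (0 : ℝ) ≤ (if b ∈ U then 1 / (b : ℝ) else 0) := by split_ifs <;> positivity
          have : (0 : ℝ) ≤ (if vv D b ≤ η * V then 1 / (b : ℝ) else 0) := by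
            split_ifs <;> positivity
          have : (0 : ℝ) ≤ (if HasG (L ^ C1) ((X : ℝ) ^ γ) b then 0 else 1 / (b : ℝ)) := by
            split_ifs <;> positivity
          linarith
    have hring : (2 * ε + CU * η ^ 2) * (V ^ 2 / Real.log D ^ 2) =
        ε * (V ^ 2 / Real.log D ^ 2) + CU * η ^ 2 * (V ^ 2 / Real.log D ^ 2) +
        ε * (V ^ 2 / Real.log D ^ 2) := by ring
    rw [hring]
    exact hall.trans (add_le_add (add_le_add hUpart hsmall) hnog2)
  -- the overlap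
  have hov : ∑ p ∈ (pb W).filter (fun p : ℕ => T0 < Real.log p ∧
      ∃ i ∈ LL, ∃ j ∈ LL, i ≠ j ∧ P i p ∧ P j p), 1 / (p : ℝ) ≤ 2 * ε + CU * η ^ 2 := by
    have h1 := overlap_le (x := (X : ℝ)) (by rw [← hL]; linarith) hX0 a LL hLL W T0
    have h0 : ∑ p ∈ (pb W).filter (fun p : ℕ => T0 < Real.log p ∧
        ∃ i ∈ LL, ∃ j ∈ LL, i ≠ j ∧ P i p ∧ P j p), 1 / (p : ℝ) =
        ∑ p ∈ (pb W).filter (fun p : ℕ => T0 < Real.log p ∧
          ∃ i ∈ LL, ∃ j ∈ LL, i ≠ j ∧ ((p : ℤ) ∣ i.2 * a - i.1) ∧ ((p : ℤ) ∣ j.2 * a - j.1)),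
          1 / (p : ℝ) := by
      refine Finset.sum_congr ?_ fun _ _ => rfl
      ext p
      rw [Finset.mem_filter, Finset.mem_filter, hP]
    rw [h0]
    refine h1.trans ?_
    rw [← hL]
    have e1 : Real.exp (-T0) = L ^ (-C2) := by
      rw [Real.rpow_def_of_pos hL0, hT0, hle]
      congr 1
      ring
    rw [e1]
    have h2 : (LL.card : ℝ) ^ 2 ≤ L ^ (2 * CL) := by
      have : (LL.card : ℝ) ^ 2 ≤ (L ^ CL) ^ 2 := by gcongr
      refine this.trans (le_of_eq ?_)
      rw [← Real.rpow_natCast, ← Real.rpow_mul hL0.le]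
      congr 1
      push_cast
      ring
    have h3 : (LL.card : ℝ) ^ 2 * (7 * L) * L ^ (-C2) ≤ 7 * L ^ (-(2 : ℝ)) := by
      calc (LL.card : ℝ) ^ 2 * (7 * L) * L ^ (-C2)
          ≤ L ^ (2 * CL) * (7 * L) * L ^ (-C2) := by
            have : (0 : ℝ) < L ^ (-C2) := Real.rpow_pos_of_pos hL0 _
            gcongr
        _ = 7 * (L ^ (2 * CL) * L ^ (1 : ℝ) * L ^ (-C2)) := by rw [Real.rpow_one]; ring
        _ = 7 * L ^ (2 * CL + 1 + -C2) := by
            rw [← Real.rpow_add hL0, ← Real.rpow_add hL0]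
        _ ≤ 7 * L ^ (-(2 : ℝ)) := by
            have : (1 : ℝ) ≤ L := by linarith
            apply mul_le_mul_of_nonneg_left _ (by norm_num)
            apply Real.rpow_le_rpow_of_exponent_le this
            linarith
    have h4 : 7 * L ^ (-(2 : ℝ)) ≤ ε := by
      rw [Real.rpow_neg hL0.le, show (2 : ℝ) = ((2 : ℕ) : ℝ) by norm_num, Real.rpow_natCast,
        ← div_eq_mul_inv, div_le_iff₀ (by positivity)]
      exact h7
    have h5 : 0 ≤ CU * η ^ 2 := by positivity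
    linarith
  have hC0K : C0 * V ≤ T0 := by
    rw [hV, hT0, ← mul_assoc]
    exact mul_le_mul_of_nonneg_right hKC (by linarith)
  obtain ⟨τ, hτ, hfin⟩ := hit D V T0 hVV0 hC0K (by rw [hT0]; linarith) W hW2 hlogW LL P
    (2 * ε + CU * η ^ 2) (by positivity) hsum (by convert hov) key
  refine ⟨τ, hτ, ?_⟩
  refine le_trans ?_ hfin
  rw [← hL, ← hW]
  refine Finset.sum_le_sum_of_subset_of_nonneg ?_ fun p _ _ => by positivity
  intro p hp
  rw [Finset.mem_filter, Tree.mem_pr] at hp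
  rw [Finset.mem_filter, mem_pb]
  rw [hP]
  exact ⟨hp.1, (hT0iff p hp.1.2.pos).2 hp.2.1, hp.2.2⟩

end Crest.Agent.R001.Hit
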