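import Crest.Agent.R001.MassB664

/-! Row 1 (S0001), block (1), file C: contraction on the non-good nodes. -/

set_option autoImplicit false

namespace Crest.Agent.R001.Mass

open Finset Crest.Agent.Lib.Mertens

theorem log_inv_le {X Λ : ℝ} (hX : 0 < X) (hΛ0 : 0 ≤ Λ) (h : 1 / X ≤ 1 + Λ + Λ ^ 2 / 2) :
    -Real.log X ≤ Λ := by
  rw [← Real.log_inv, ← Real.log_exp Λ]
  apply Real.log_le_log (by positivity)
  rw [one_div] at h
  exact h.trans (Real.quadratic_le_exp_of_nonneg hΛ0)

theorem rpow_cell {M R : ℝ} (hM : 0 < M) (hR : 0 < R) (h : M ^ 25 ≤ R ^ 4) :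
    M ^ (25 / 4 : ℝ) ≤ R := by
  have h1 : M ^ (25 / 4 : ℝ) = (M ^ 25) ^ (1 / 4 : ℝ) := by
    rw [← Real.rpow_natCast, ← Real.rpow_mul hM.le]
    norm_num
  have h2 : R = (R ^ 4) ^ (1 / 4 : ℝ) := by
    rw [← Real.rpow_natCast, ← Real.rpow_mul hR.le]
    norm_num
  rw [h1]
  conv_rhs => rw [h2]
  exact Real.rpow_le_rpow (by positivity) h (by norm_num)

/-- crude one-generation bound: `Op Xi ≤ C Xi` on all nodes -/
theorem Op_Xi_le : ∃ C : ℝ, 0 < C ∧ ∀ y w, Inv y w → Op Xi y w ≤ C * Xi y w := by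
  refine ⟨3 ^ (25 / 4 : ℝ) * 300, by positivity, ?_⟩
  intro y w hI
  have hu := hI.log_two_le
  have hu0 := hI.log_w_pos
  have hv := hI.log_y_pos
  have h1 := Op_core (h := Xi) hI (M := 3) (x := Real.log w) (Λ := 0) (by norm_num) hu le_rfl
    (by simp) le_rfl (by
      intro p q hc
      have hl := hc.logs hI
      rw [if_pos (hl.2.1.trans hl.2.2.1)]
      unfold Xi
      refine mul_le_mul_of_nonneg_left ?_ (by positivity)
      have h3 := hc.third hI
      exact rpow_level hv (by linarith) (by norm_num) (by linarith))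
  refine h1.trans ?_
  unfold Xi
  set u := Real.log w
  have hl2 : (0.69 : ℝ) ≤ u := by
    have := Real.log_two_gt_d9
    linarith
  have h2 : u ^ 4 * (1 / 16 + 0 / 4) + u ^ 3 * (12 + 6 * 0) + 120 * u ^ 2 ≤ 300 * u ^ 4 := by
    have h3 : u ^ 2 ≤ 2.2 * u ^ 4 := by
      have : (0.47 : ℝ) ≤ u ^ 2 := by nlinarith
      nlinarith [sq_nonneg u]
    have h4 : u ^ 3 ≤ 1.5 * u ^ 4 := by
      have : 0 < u ^ 3 := by positivity
      nlinarith
    have h5 : 0 < u ^ 4 := by positivity
    linarith
  have h6 : 0 < (3 : ℝ) ^ (25 / 4 : ℝ) * Real.log y ^ (-(25 / 4) : ℝ) := by positivity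
  nlinarith [mul_le_mul_of_nonneg_left h2 h6.le]

open Classical in
/-- the potential restricted to the non-good nodes -/
noncomputable def XiB (y : ℝ) (w : ℕ) : ℝ := if Good y w then 0 else Xi y w

/-- one cell of the contraction estimate -/
theorem cell {y : ℝ} {w : ℕ} (hI : Inv y w) {s0 s1 M X Λ R : ℝ} (hs0 : 4 ≤ s0) (hs1 : s0 ≤ s1)
    (h0 : s0 * Real.log w ≤ Real.log y) (h1 : Real.log y ≤ s1 * Real.log w ∨ X = 1)
    (hM : M = 5 / 4 * s0 / (s0 - 1)) (hX : s1 / 6 ≤ X ∨ X = 1) (hX7 : 0.7 ≤ X) (hX1 : X ≤ 1)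
    (hΛ0 : 0 ≤ Λ) (hΛ1 : Λ ≤ 1) (hΛ : 1 / X ≤ 1 + Λ + Λ ^ 2 / 2) (hR : 0 < R)
    (hR25 : R ≤ 25) (hMR : M ^ 25 ≤ R ^ 4)
    (hval : R * (X ^ 4 * (1 / 16 + Λ / 4)) ≤ 0.93) (hu : 100000 ≤ Real.log w) :
    Op XiB y w ≤ 49 / 50 * Xi y w := by
  set u := Real.log w with hu'
  set v := Real.log y with hv'
  have hu0 : 0 < u := by linarith
  have hv0 : 0 < v := hI.log_y_pos
  have hX0 : 0 < X := by linarith
  have hs01 : 0 < s0 - 1 := by linarith
  have hM0 : 0 < M := by rw [hM]; positivity
  have hlog2 : Real.log 2 ≤ X * u := by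
    have := Real.log_two_lt_d9
    nlinarith
  have hxw : X * u ≤ u := by nlinarith
  have h2 := Op_core (h := XiB) hI (M := M) (x := X * u) (Λ := Λ) hM0 hlog2 hxw
    (by
      rw [Real.log_mul hX0.ne' hu0.ne']
      have := log_inv_le hX0 hΛ0 hΛ
      linarith) hΛ0 (by
      intro p q hc
      have hl := hc.logs hI
      have hIc := inv_closed y w p q hI hc
      have hpos : 0 ≤ Real.log q ^ 4 * (M ^ (25 / 4 : ℝ) * v ^ (-(25 / 4) : ℝ)) := by positivity
      unfold XiB
      by_cases hg : Good (y / ((p : ℝ) * q)) q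
      · rw [if_pos hg]
        split_ifs
        · exact hpos
        · exact le_rfl
      · rw [if_neg hg]
        have hng : 4 * Real.log q ≤ Real.log (y / ((p : ℝ) * q)) := by
          unfold Good at hg
          linarith
        have hch := hc.log_child hI
        have hq6 : Real.log q ≤ X * u := by
          have h6 : 6 * Real.log q ≤ v := by
            rw [hch] at hng
            linarith [hl.2.1]
          rcases h1 with h1 | h1
          · rcases hX with hX | hX
            · have : s1 / 6 * u ≤ X * u := mul_le_mul_of_nonneg_right hX hu0.le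
              linarith
            · rw [hX, one_mul]; exact hl.2.1.trans hl.2.2.1
          · rw [h1, one_mul]; exact hl.2.1.trans hl.2.2.1
        rw [if_pos hq6]
        unfold Xi
        refine mul_le_mul_of_nonneg_left ?_ (by positivity)
        refine rpow_level hv0 hIc.log_y_pos hM0 ?_
        -- v ≤ M v'
        have h5 : 4 * (v - u) ≤ 5 * Real.log (y / ((p : ℝ) * q)) := by
          rw [hch] at hng ⊢
          linarith [hl.2.2.1]
        have h7 : (s0 - 1) * v ≤ s0 * (v - u) := by linarith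
        rw [hM, div_mul_eq_mul_div, le_div_iff₀ hs01]
        have hs00 : 0 ≤ s0 := by linarith
        nlinarith [mul_le_mul_of_nonneg_left h5 hs00])
  refine h2.trans ?_
  have hMR' := rpow_cell hM0 hR hMR
  have hJ : (X * u) ^ 4 * (1 / 16 + Λ / 4) + (X * u) ^ 3 * (12 + 6 * Λ) + 120 * (X * u) ^ 2 ≤
      (X ^ 4 * (1 / 16 + Λ / 4) + 0.002) * u ^ 4 := by
    have e1 : (X * u) ^ 3 ≤ u ^ 3 := pow_le_pow_left₀ (by positivity) hxw 3
    have e2 : (X * u) ^ 2 ≤ u ^ 2 := pow_le_pow_left₀ (by positivity) hxw 2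
    have e3 : u ^ 3 * 100000 ≤ u ^ 4 := by
      have : 0 < u ^ 3 := by positivity
      nlinarith
    have e4 : u ^ 2 * 100000 ≤ u ^ 3 := by
      have : 0 < u ^ 2 := by positivity
      nlinarith
    have e5 : (X * u) ^ 3 * (12 + 6 * Λ) ≤ u ^ 3 * 18 := by
      have : 12 + 6 * Λ ≤ 18 := by linarith
      have h0 : 0 ≤ (X * u) ^ 3 := by positivity
      nlinarith
    have e6 : 0 < u ^ 4 := by positivity
    have e7 : (X * u) ^ 4 = X ^ 4 * u ^ 4 := by ring
    rw [e7]
    nlinarith
  have hJ0 : 0 ≤ (X ^ 4 * (1 / 16 + Λ / 4) + 0.002) * u ^ 4 := by positivity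
  have hY0 : 0 < v ^ (-(25 / 4) : ℝ) := by positivity
  calc M ^ (25 / 4 : ℝ) * v ^ (-(25 / 4) : ℝ) *
        ((X * u) ^ 4 * (1 / 16 + Λ / 4) + (X * u) ^ 3 * (12 + 6 * Λ) + 120 * (X * u) ^ 2)
      ≤ M ^ (25 / 4 : ℝ) * v ^ (-(25 / 4) : ℝ) *
        ((X ^ 4 * (1 / 16 + Λ / 4) + 0.002) * u ^ 4) :=
        mul_le_mul_of_nonneg_left hJ (by positivity)
    _ ≤ R * v ^ (-(25 / 4) : ℝ) * ((X ^ 4 * (1 / 16 + Λ / 4) + 0.002) * u ^ 4) :=
        mul_le_mul_of_nonneg_right (mul_le_mul_of_nonneg_right hMR' hY0.le) hJ0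
    _ = (R * (X ^ 4 * (1 / 16 + Λ / 4)) + R * 0.002) * (u ^ 4 * v ^ (-(25 / 4) : ℝ)) := by ring
    _ ≤ 49 / 50 * (u ^ 4 * v ^ (-(25 / 4) : ℝ)) := by
        refine mul_le_mul_of_nonneg_right ?_ (by positivity)
        linarith
    _ = 49 / 50 * Xi y w := rfl

/-- **contraction** on the non-good nodes -/
theorem Op_XiB_le : ∃ W : ℕ, 2 ≤ W ∧ ∀ y w, Inv y w → W ≤ w → ¬ Good y w →
    Op XiB y w ≤ 49 / 50 * Xi y w := by
  refine ⟨⌈Real.exp 100000⌉₊, ?_, ?_⟩
  · have h1 : (2 : ℝ) ≤ Real.exp 100000 := by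
      have := Real.add_one_le_exp (100000 : ℝ)
      linarith
    have h2 := Nat.le_ceil (Real.exp 100000)
    exact_mod_cast h1.trans h2
  · intro y w hI hw hg
    have hu : 100000 ≤ Real.log w := by
      rw [Real.le_log_iff_exp_le (by exact_mod_cast (by have := hI.1; omega : 0 < w))]
      exact (Nat.le_ceil _).trans (by exact_mod_cast hw)
    have hu0 : 0 < Real.log w := by linarith
    have hng : 4 * Real.log w ≤ Real.log y := by
      unfold Good at hg
      linarith
    set u := Real.log w with hu'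
    set v := Real.log y with hv'
    rcases le_or_gt v (17 / 4 * u) with h | h
    · exact cell hI (s0 := 4) (s1 := 17 / 4) (M := 5 / 3) (X := 17 / 24) (Λ := 351 / 1000)
        (R := 609 / 25) (by norm_num) (by norm_num) (by linarith) (Or.inl h) (by norm_num)
        (Or.inl (by norm_num)) (by norm_num) (by norm_num) (by norm_num) (by norm_num)
        (by norm_num) (by norm_num) (by norm_num) (by norm_num) (by norm_num) hu
    rcases le_or_gt v (9 / 2 * u) with h' | h'
    · exact cell hI (s0 := 17 / 4) (s1 := 9 / 2) (M := 85 / 52) (X := 3 / 4) (Λ := 291 / 1000)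
        (R := 2157 / 100) (by norm_num) (by norm_num) (by linarith) (Or.inl h') (by norm_num)
        (Or.inl (by norm_num)) (by norm_num) (by norm_num) (by norm_num) (by norm_num)
        (by norm_num) (by norm_num) (by norm_num) (by norm_num) (by norm_num) hu
    clear h
    rcases le_or_gt v (19 / 4 * u) with h | h
    · exact cell hI (s0 := 9 / 2) (s1 := 19 / 4) (M := 45 / 28) (X := 19 / 24) (Λ := 59 / 250)
        (R := 1941 / 100) (by norm_num) (by norm_num) (by linarith) (Or.inl h) (by norm_num)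
        (Or.inl (by norm_num)) (by norm_num) (by norm_num) (by norm_num) (by norm_num)
        (by norm_num) (by norm_num) (by norm_num) (by norm_num) (by norm_num) hu
    clear h'
    rcases le_or_gt v (5 * u) with h' | h'
    · exact cell hI (s0 := 19 / 4) (s1 := 5) (M := 19 / 12) (X := 5 / 6) (Λ := 23 / 125)
        (R := 442 / 25) (by norm_num) (by norm_num) (by linarith) (Or.inl h') (by norm_num)
        (Or.inl (by norm_num)) (by norm_num) (by norm_num) (by norm_num) (by norm_num)
        (by norm_num) (by norm_num) (by norm_num) (by norm_num) (by norm_num) hu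
    clear h
    rcases le_or_gt v (21 / 4 * u) with h | h
    · exact cell hI (s0 := 5) (s1 := 21 / 4) (M := 25 / 16) (X := 7 / 8) (Λ := 67 / 500)
        (R := 1627 / 100) (by norm_num) (by norm_num) (by linarith) (Or.inl h) (by norm_num)
        (Or.inl (by norm_num)) (by norm_num) (by norm_num) (by norm_num) (by norm_num)
        (by norm_num) (by norm_num) (by norm_num) (by norm_num) (by norm_num) hu
    clear h'
    rcases le_or_gt v (11 / 2 * u) with h' | h'
    · exact cell hI (s0 := 21 / 4) (s1 := 11 / 2) (M := 105 / 68) (X := 11 / 12) (Λ := 11 / 125)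
        (R := 1511 / 100) (by norm_num) (by norm_num) (by linarith) (Or.inl h') (by norm_num)
        (Or.inl (by norm_num)) (by norm_num) (by norm_num) (by norm_num) (by norm_num)
        (by norm_num) (by norm_num) (by norm_num) (by norm_num) (by norm_num) hu
    clear h
    rcases le_or_gt v (23 / 4 * u) with h | h
    · exact cell hI (s0 := 11 / 2) (s1 := 23 / 4) (M := 55 / 36) (X := 23 / 24) (Λ := 43 / 1000)
        (R := 707 / 50) (by norm_num) (by norm_num) (by linarith) (Or.inl h) (by norm_num)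
        (Or.inl (by norm_num)) (by norm_num) (by norm_num) (by norm_num) (by norm_num)
        (by norm_num) (by norm_num) (by norm_num) (by norm_num) (by norm_num) hu
    clear h'
    rcases le_or_gt v (6 * u) with h' | h'
    · exact cell hI (s0 := 23 / 4) (s1 := 6) (M := 115 / 76) (X := 1) (Λ := 0)
        (R := 333 / 25) (by norm_num) (by norm_num) (by linarith) (Or.inl h') (by norm_num)
        (Or.inl (by norm_num)) (by norm_num) (by norm_num) (by norm_num) (by norm_num)
        (by norm_num) (by norm_num) (by norm_num) (by norm_num) (by norm_num) hu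
    · exact cell hI (s0 := 6) (s1 := 6) (M := 3 / 2) (X := 1) (Λ := 0)
        (R := 1261 / 100) (by norm_num) (by norm_num) (by linarith) (Or.inr rfl) (by norm_num)
        (Or.inr rfl) (by norm_num) (by norm_num) (by norm_num) (by norm_num)
        (by norm_num) (by norm_num) (by norm_num) (by norm_num) (by norm_num) hu

end Crest.Agent.R001.Mass
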