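import Crest.Agent.R001.MassD664

/-! Row 1 (S0001), block (1), file E: products over primes, good nodes in a window. -/

set_option autoImplicit false

namespace Crest.Agent.R001.Mass

open Finset Classical

/-- primes `< w` with logarithm `≥ t` -/
noncomputable def Pt (t : ℝ) (w : ℕ) : Finset ℕ := (P w).filter (fun p : ℕ => t ≤ Real.log p)

theorem mem_Pt {t : ℝ} {w p : ℕ} : p ∈ Pt t w ↔ (p < w ∧ p.Prime) ∧ t ≤ Real.log p := by
  rw [Pt, Finset.mem_filter, mem_P]

/-- `∏ (1 + 1/p)` -/
noncomputable def Pi (t : ℝ) (w : ℕ) : ℝ := ∏ p ∈ Pt t w, (1 + 1 / (p : ℝ))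

theorem one_le_Pi (t : ℝ) (w : ℕ) : 1 ≤ Pi t w := by
  unfold Pi
  have h := Finset.prod_le_prod (s := Pt t w) (f := fun _ => (1 : ℝ))
    (g := fun p : ℕ => 1 + 1 / (p : ℝ)) (fun _ _ => zero_le_one) (fun p _ => by
      have : (0 : ℝ) ≤ 1 / (p : ℝ) := by positivity
      linarith)
  simpa using h

theorem Pi_eq (t : ℝ) (w : ℕ) : Pi t w = 1 + ∑ p ∈ Pt t w, 1 / (p : ℝ) * Pi t p := by
  have h := Finset.prod_add_ordered (Pt t w) (fun _ => (1 : ℝ)) (fun p => 1 / (p : ℝ))
  simp only [Finset.prod_const_one, mul_one] at h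
  unfold Pi
  rw [h]
  congr 1
  refine Finset.sum_congr rfl fun p hp => ?_
  congr 1
  refine Finset.prod_congr ?_ fun _ _ => rfl
  ext q
  rw [Finset.mem_filter, mem_Pt, mem_Pt]
  have := (mem_Pt.1 hp).1.1
  constructor
  · rintro ⟨⟨⟨h1, h2⟩, h3⟩, h4⟩
    exact ⟨⟨h4, h2⟩, h3⟩
  · rintro ⟨⟨h4, h2⟩, h3⟩
    exact ⟨⟨⟨h4.trans this, h2⟩, h3⟩, h4⟩

theorem T0_le_Pi (t : ℝ) : ∀ y w, Inv y w →
    T0 (fun _ w => if t ≤ Real.log w then 1 else 0) y w ≤
      (if t ≤ Real.log w then Pi t w else 0) := by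
  refine tree_induction inv_closed ?_
  intro y w hI ih
  rw [T0_eq]
  have h1 : Op (T0 (fun _ w => if t ≤ Real.log w then 1 else 0)) y w ≤
      Op (fun _ w => if t ≤ Real.log w then Pi t w else 0) y w := Op_mono ih
  have hlogmono : ∀ p ∈ P w, ∀ q ∈ P p, Real.log q ≤ Real.log p := fun p _ q hq => by
    have h2 := mem_P.1 hq
    exact Real.log_le_log (by exact_mod_cast h2.2.pos) (by exact_mod_cast h2.1.le)
  by_cases ht : t ≤ Real.log w
  · -- the sum over the children
    rw [if_pos ht, if_pos ht]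
    have h2 : Op (fun _ w => if t ≤ Real.log w then Pi t w else 0) y w ≤
        ∑ p ∈ Pt t w, 1 / (p : ℝ) * ∑ q ∈ Pt t p, 1 / (q : ℝ) * Pi t q := by
      unfold Op
      rw [Pt, Finset.sum_filter]
      refine Finset.sum_le_sum fun p hp => ?_
      have hp0 : (0 : ℝ) < p := by exact_mod_cast (mem_P.1 hp).2.pos
      by_cases hpt : t ≤ Real.log p
      · rw [if_pos hpt, Finset.mul_sum, Pt, Finset.sum_filter]
        refine Finset.sum_le_sum fun q hq => ?_
        have hq0 : (0 : ℝ) < q := by exact_mod_cast (mem_P.1 hq).2.pos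
        have hPi := one_le_Pi t q
        have hPi0 : 0 ≤ Pi t q := by linarith
        by_cases hqt : t ≤ Real.log q
        · dsimp only
          rw [if_pos hqt, if_pos hqt]
          by_cases hacc : (p : ℝ) * (q : ℝ) ^ 3 < y
          · rw [if_pos hacc]
            apply le_of_eq
            field_simp
          · rw [if_neg hacc]
            positivity
        · dsimp only
          rw [if_neg hqt, if_neg hqt]
          simp
      · rw [if_neg hpt]
        refine Finset.sum_nonpos fun q hq => ?_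
        have h3 := hlogmono p hp q hq
        dsimp only
        rw [if_neg (by linarith : ¬ t ≤ Real.log q)]
        simp
    have h3 : ∑ p ∈ Pt t w, 1 / (p : ℝ) * ∑ q ∈ Pt t p, 1 / (q : ℝ) * Pi t q ≤
        ∑ p ∈ Pt t w, 1 / (p : ℝ) * Pi t p := by
      refine Finset.sum_le_sum fun p _ => mul_le_mul_of_nonneg_left ?_ (by positivity)
      rw [Pi_eq t p]
      have : 0 ≤ 1 / (p : ℝ) := by positivity
      linarith
    have h4 := Pi_eq t w
    linarith
  · rw [if_neg ht, if_neg ht]
    have h2 : Op (fun _ w => if t ≤ Real.log w then Pi t w else 0) y w ≤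
        Op (fun _ _ => 0) y w := by
      refine Op_mono fun p q hc => ?_
      have hl := hc.logs hI
      rw [if_neg (by linarith [hl.2.1, hl.2.2.1] : ¬ t ≤ Real.log q)]
    have h3 : Op (fun _ _ => (0 : ℝ)) y w = 0 := by unfold Op; simp
    rw [h3] at h2
    linarith

theorem Pi_le_exp (t : ℝ) (w : ℕ) : Pi t w ≤ Real.exp (∑ p ∈ Pt t w, 1 / (p : ℝ)) := by
  unfold Pi
  rw [Real.exp_sum]
  refine Finset.prod_le_prod (fun p _ => by positivity) fun p _ => ?_
  have := Real.add_one_le_exp (1 / (p : ℝ))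
  linarith

theorem Pi_le {t : ℝ} {w : ℕ} (ht : 36 ≤ t) (hw : 2 ≤ w) (htw : t ≤ Real.log w) :
    Pi t w ≤ 6 * (Real.log w / t) := by
  have ht0 : 0 < t := by linarith
  have hlw : 0 < Real.log w := by linarith
  have hl2 : Real.log 2 ≤ t / 2 := by
    have := Real.log_two_lt_d9
    linarith
  have h1 : ∑ p ∈ Pt t w, 1 / (p : ℝ) ≤ Real.log (Real.log w) - Real.log (t / 2) + 1 := by
    have h2 := sum_inv_le w hw hl2 (by linarith)
    have h3 : ∑ p ∈ Pt t w, 1 / (p : ℝ) ≤ ∑ p ∈ PG w (t / 2), 1 / (p : ℝ) := by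
      refine Finset.sum_le_sum_of_subset_of_nonneg ?_ (fun p _ _ => by positivity)
      intro p hp
      rw [mem_Pt] at hp
      rw [mem_PG]
      exact ⟨hp.1, by linarith [hp.2]⟩
    have h4 : 18 / (t / 2) ≤ 1 := by
      rw [div_le_one (by linarith)]
      linarith
    linarith
  refine (Pi_le_exp t w).trans ((Real.exp_le_exp.2 h1).trans ?_)
  rw [Real.exp_add, Real.exp_sub, Real.exp_log hlw, Real.exp_log (by linarith)]
  have h5 : Real.exp 1 ≤ 3 := Real.exp_one_lt_d9.le.trans (by norm_num)
  have h6 : Real.log w / (t / 2) = 2 * (Real.log w / t) := by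
    field_simp
  rw [h6]
  have h7 : 0 < Real.log w / t := by positivity
  nlinarith

/-- indicator of the good nodes in the window `(V/2, V]` -/
noncomputable def gW (V : ℝ) (y : ℝ) (w : ℕ) : ℝ :=
  if Good y w ∧ V / 2 < Real.log y ∧ Real.log y ≤ V then 1 else 0

/-- indicator of the nodes with level above `V / 2` -/
noncomputable def hf (V : ℝ) (y : ℝ) (_w : ℕ) : ℝ := if V / 2 < Real.log y then 1 else 0

/-- the mass of the line at level `V` -/
noncomputable def LM (V : ℝ) (y : ℝ) (w : ℕ) : ℝ := T (stopV V) (fun _ _ => 0) (hf V) y w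

theorem LM_nonneg {V : ℝ} : ∀ y w, Inv y w → 0 ≤ LM V y w :=
  T_nonneg inv_closed (fun _ _ _ => le_rfl) (fun y w _ => by unfold hf; split_ifs <;> norm_num)

theorem window_le {V : ℝ} (hV : 288 ≤ V) : ∀ y w, Inv y w → T0 (gW V) y w ≤ 24 * LM V y w := by
  refine tree_induction inv_closed ?_
  intro y w hI ih
  by_cases hs : stopV V y w
  · unfold LM
    rw [T_stop hs]
    unfold hf
    split_ifs with h
    · have hg := hs.1
      unfold Good at hg
      have h8 : V / 8 ≤ Real.log w := by linarith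
      have h1 : T0 (gW V) y w ≤ T0 (fun _ w => if V / 8 ≤ Real.log w then 1 else 0) y w := by
        refine T0_mono (fun y w h => ?_) y w hI
        unfold gW
        split_ifs with h1 h2
        · exact le_rfl
        · exfalso
          apply h2
          have := h1.1
          unfold Good at this
          linarith [h1.2.1]
        · norm_num
        · norm_num
      have h2 := T0_le_Pi (V / 8) y w hI
      rw [if_pos h8] at h2
      have h3 := Pi_le (t := V / 8) (by linarith) hI.1 h8
      have h4 := hI.two_log_le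
      have h5 : Real.log w / (V / 8) ≤ 4 := by
        rw [div_le_iff₀ (by linarith)]
        linarith [hs.2]
      linarith
    · have h0 : T0 (gW V) y w = 0 := by
        refine T0_zero (V := V / 2) ?_ y w ⟨hI, not_lt.1 h⟩
        rintro y w ⟨-, h'⟩
        unfold gW
        rw [if_neg]
        rintro ⟨-, h2, -⟩
        linarith
      rw [h0]
      simp
  · unfold LM at ih ⊢
    rw [T0_eq, T_not hs]
    have h1 : gW V y w = 0 := by
      unfold gW
      rw [if_neg]
      rintro ⟨h1, -, h2⟩
      exact hs ⟨h1, h2⟩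
    have h2 := Op_mono (h₁ := T0 (gW V))
      (h₂ := fun y w => 24 * T (stopV V) (fun _ _ => 0) (hf V) y w) ih
    rw [Op_smul] at h2
    rw [h1, zero_add, zero_add]
    exact h2

theorem T0_sum {ι : Type*} (s : Finset ι) (F : ι → ℝ → ℕ → ℝ) (y : ℝ) (w : ℕ) :
    T0 (fun y w => ∑ i ∈ s, F i y w) y w = ∑ i ∈ s, T0 (F i) y w := by
  classical
  induction s using Finset.induction_on with
  | empty =>
    simp only [Finset.sum_empty]
    have := T_smul (stop := fun _ _ => False) (f := fun _ _ => 0) (g := fun _ _ => 0) 0 y w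
    simp only [zero_mul] at this
    exact this
  | insert i s hi ih =>
    simp only [Finset.sum_insert hi]
    rw [← ih]
    have := T_add (stop := fun _ _ => False) (f := F i) (g := fun _ _ => 0)
      (f' := fun y w => ∑ i ∈ s, F i y w) (g' := fun _ _ => 0) y w
    simp only [add_zero] at this
    exact this

theorem T0_smul (a : ℝ) (f : ℝ → ℕ → ℝ) (y : ℝ) (w : ℕ) :
    T0 (fun y w => a * f y w) y w = a * T0 f y w := by
  have := T_smul (stop := fun _ _ => False) (f := f) (g := fun _ _ => 0) a y w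
  simp only [mul_zero] at this
  exact this

end Crest.Agent.R001.Mass
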