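import Crest.Agent.R001.MassE664

/-! Row 1 (S0001), block (1), file F: the closing theorem. -/

set_option autoImplicit false

namespace Crest.Agent.R001.Mass

open Finset Classical

/-- abstract data: a function `K` with an approximate recursion -/
structure KData where
  K : ℝ → ℕ → ℝ
  B : ℝ → ℕ → ℝ
  Ce : ℝ
  cg : ℝ
  Wg : ℕ
  Y0 : ℝ
  hCe : 0 < Ce
  hcg : 0 < cg
  hWg : 2 ≤ Wg
  hrec : ∀ y w, Inv y w → Op K y w ≤ K y w + (Ce * Xi y w + B y w)
  hB0 : ∀ y w, Inv y w → 0 ≤ B y w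
  hBop : ∀ y w, Inv y w → Op B y w ≤ Ce * Xi y w
  hgood : ∀ y w, Inv y w → Good y w → Wg ≤ w → cg / Real.log y ^ 2 ≤ K y w
  hlow : ∀ y w, Inv y w → -Ce ≤ K y w
  hroot : ∀ y : ℝ, 4 ≤ y → Y0 ≤ Real.log y → K y ⌊√y⌋₊ + B y ⌊√y⌋₊ ≤ Ce / Real.log y ^ 2

theorem T_smul' (stop : ℝ → ℕ → Prop) (f : ℝ → ℕ → ℝ) (a : ℝ) (y : ℝ) (w : ℕ) :
    T stop (fun y w => a * f y w) (fun _ _ => 0) y w = a * T stop f (fun _ _ => 0) y w := by
  have := T_smul (stop := stop) (f := f) (g := fun _ _ => 0) a y w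
  simp only [mul_zero] at this
  exact this

theorem KData.step1 (k : KData) (stop : ℝ → ℕ → Prop) : ∀ y w, Inv y w →
    T stop (fun _ _ => 0) k.K y w ≤
      k.K y w + k.B y w + 2 * k.Ce * T stop Xi (fun _ _ => 0) y w := by
  have ha : ∀ y w, Inv y w → T stop (fun _ _ => 0) k.K y w ≤
      k.K y w + T stop (fun y w => k.Ce * Xi y w + k.B y w) (fun _ _ => 0) y w := by
    refine tree_induction inv_closed ?_
    intro y w hI ih
    by_cases hs : stop y w
    · rw [T_stop hs, T_stop hs, add_zero]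
    · rw [T_not hs, T_not hs, zero_add]
      have h1 := Op_mono (h₁ := T stop (fun _ _ => 0) k.K) (h₂ := fun y w => k.K y w +
        T stop (fun y w => k.Ce * Xi y w + k.B y w) (fun _ _ => 0) y w) ih
      rw [Op_add k.K] at h1
      have h2 := k.hrec y w hI
      linarith
  intro y w hI
  have h1 := ha y w hI
  have h2 : T stop (fun y w => k.Ce * Xi y w + k.B y w) (fun _ _ => 0) y w =
      k.Ce * T stop Xi (fun _ _ => 0) y w + T stop k.B (fun _ _ => 0) y w := by
    have e := T_add (stop := stop) (f := fun y w => k.Ce * Xi y w) (g := fun _ _ => 0)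
      (f' := k.B) (g' := fun _ _ => 0) y w
    simp only [add_zero] at e
    rw [e, T_smul']
  have h3 := T_shift (stop := stop) inv_closed k.hB0 y w hI
  have h4 : T stop (Op k.B) (fun _ _ => 0) y w ≤ k.Ce * T stop Xi (fun _ _ => 0) y w := by
    rw [← T_smul']
    exact T_mono inv_closed (fun y w h _ => k.hBop y w h) (fun _ _ _ _ => le_rfl) y w hI
  linarith

/-- mass of `h ≤ A * Xi` on the line -/
theorem line_le (c : Consts) (stop : ℝ → ℕ → Prop) {h : ℝ → ℕ → ℝ} {A : ℝ} (hA : 0 ≤ A)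
    (hh : ∀ y w, Inv y w → stop y w → h y w ≤ A * Xi y w) {y : ℝ} {w : ℕ} (hI : Inv y w)
    (hs : ¬ stop y w) :
    T stop (fun _ _ => 0) h y w ≤ A * c.C1 * T stop Xi (fun _ _ => 0) y w := by
  have h1 := T_line (stop := stop) (g := h) inv_closed y w hI
  rw [if_neg hs, zero_add] at h1
  rw [h1, ← T_smul']
  refine T_mono inv_closed (fun y w h' _ => ?_) (fun _ _ _ _ => le_rfl) y w hI
  have h2 : Op (fun y w => if stop y w then h y w else 0) y w ≤
      Op (fun y w => A * Xi y w) y w := by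
    refine Op_mono fun p q hc => ?_
    have hIc := inv_closed y w p q h' hc
    split_ifs with hst
    · exact hh _ _ hIc hst
    · exact mul_nonneg hA (Xi_pos hIc).le
  rw [Op_smul] at h2
  have h3 := mul_le_mul_of_nonneg_left (c.op y w h') hA
  linarith

theorem split_rpow {v : ℝ} (hv : 0 < v) : v ^ (-(9 / 4) : ℝ) = v ^ 4 * v ^ (-(25 / 4) : ℝ) := by
  rw [← Real.rpow_natCast v 4, ← Real.rpow_add hv]
  norm_num

theorem Xi_le {y : ℝ} {w : ℕ} (h : Inv y w) : Xi y w ≤ Real.log y ^ (-(9 / 4) : ℝ) := by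
  rw [split_rpow h.log_y_pos]
  unfold Xi
  refine mul_le_mul_of_nonneg_right ?_ (by have := h.log_y_pos; positivity)
  have h1 := h.two_log_le
  have h2 := h.log_w_pos
  exact pow_le_pow_left₀ h2.le (by linarith) 4

theorem good_Xi {y : ℝ} {w : ℕ} (h : Inv y w) (hg : Good y w) :
    Real.log y ^ (-(9 / 4) : ℝ) ≤ 256 * Xi y w := by
  rw [split_rpow h.log_y_pos]
  unfold Xi Good at *
  have h1 := pow_le_pow_left₀ h.log_y_pos.le hg.le 4
  have h2 : 0 ≤ Real.log y ^ (-(25 / 4) : ℝ) := by have := h.log_y_pos; positivity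
  have h3 := mul_le_mul_of_nonneg_right h1 h2
  refine h3.trans (le_of_eq ?_)
  ring

theorem KData.LM_step (c : Consts) (k : KData) : ∃ C : ℝ, 0 < C ∧ ∀ V : ℝ, 1 ≤ V →
    8 * Real.log k.Wg ≤ V → ∀ y w, Inv y w → ¬ stopV V y w →
      k.cg / V ^ 2 * LM V y w ≤
        k.K y w + k.B y w + C * T (stopV V) Xi (fun _ _ => 0) y w := by
  have hWg : 0 < Real.log k.Wg := Real.log_pos (by exact_mod_cast k.hWg)
  set C' : ℝ := 256 * (4 * Real.log k.Wg) ^ (9 / 4 : ℝ) with hC'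
  have hC'0 : 0 < C' := by positivity
  have hCe := k.hCe
  have hcg := k.hcg
  have hC1 := c.hC1
  refine ⟨2 * k.Ce + k.Ce * C' * c.C1, by positivity, ?_⟩
  intro V hV1 hV y w hI hs
  -- the values on the line
  have h1 : k.cg / V ^ 2 * LM V y w ≤
      T (stopV V) (fun _ _ => 0) (fun y w => k.K y w + k.Ce * C' * Xi y w) y w := by
    have e := T_smul (stop := stopV V) (f := fun _ _ => 0) (g := hf V) (k.cg / V ^ 2) y w
    simp only [mul_zero] at e
    unfold LM
    rw [← e]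
    refine T_mono inv_closed (fun _ _ _ _ => le_rfl) (fun y w h hst => ?_) y w hI
    have hv := h.log_y_pos
    have hX := Xi_pos h
    rcases lt_or_ge w k.Wg with hw | hw
    · have hlw : Real.log w ≤ Real.log k.Wg :=
        Real.log_le_log (by exact_mod_cast (by have := h.1; omega : 0 < w)) (by exact_mod_cast hw.le)
      have hg := hst.1
      have hlv : Real.log y ≤ 4 * Real.log k.Wg := by
        unfold Good at hg
        linarith
      have h0 : hf V y w = 0 := by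
        unfold hf
        rw [if_neg]
        linarith
      rw [h0, mul_zero]
      have h2 := k.hlow y w h
      have h3 := good_Xi h hg
      have h4 : 1 ≤ C' * Xi y w := by
        have h5 : (4 * Real.log k.Wg) ^ (-(9 / 4) : ℝ) ≤ Real.log y ^ (-(9 / 4) : ℝ) := by
          apply Real.rpow_le_rpow_of_nonpos hv hlv (by norm_num)
        have h6 : (4 * Real.log k.Wg) ^ (9 / 4 : ℝ) * (4 * Real.log k.Wg) ^ (-(9 / 4) : ℝ) = 1 := by
          rw [← Real.rpow_add (by positivity)]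
          norm_num
        have h7 : 0 ≤ (4 * Real.log k.Wg) ^ (9 / 4 : ℝ) := by positivity
        have h8 := mul_le_mul_of_nonneg_left (h5.trans h3) h7
        rw [h6] at h8
        rw [hC']
        linarith
      have h5 := mul_le_mul_of_nonneg_left h4 hCe.le
      linarith
    · have h2 := k.hgood y w h hst.1 hw
      have h3 : k.cg / V ^ 2 ≤ k.cg / Real.log y ^ 2 := by
        apply div_le_div_of_nonneg_left hcg.le (by positivity)
        exact pow_le_pow_left₀ hv.le hst.2 2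
      have h4 : hf V y w ≤ 1 := by
        unfold hf
        split_ifs <;> norm_num
      have h5 : 0 ≤ k.cg / V ^ 2 := by positivity
      have h6 := mul_le_mul_of_nonneg_left h4 h5
      have h7 : 0 ≤ k.Ce * C' * Xi y w := by positivity
      linarith
  have h2 : T (stopV V) (fun _ _ => 0) (fun y w => k.K y w + k.Ce * C' * Xi y w) y w =
      T (stopV V) (fun _ _ => 0) k.K y w +
        T (stopV V) (fun _ _ => 0) (fun y w => k.Ce * C' * Xi y w) y w := by
    have e := T_add (stop := stopV V) (f := fun _ _ => 0) (g := k.K) (f' := fun _ _ => 0)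
      (g' := fun y w => k.Ce * C' * Xi y w) y w
    simp only [add_zero] at e
    exact e
  have h3 := line_le c (stopV V) (h := fun y w => k.Ce * C' * Xi y w) (A := k.Ce * C')
    (by positivity) (fun _ _ _ _ => le_rfl) hI hs
  have h4 := k.step1 (stopV V) y w hI
  linarith

theorem XiG_step {V : ℝ} (hV : 0 < V) : ∀ y w, Inv y w →
    T0 (XiG V) y w ≤ V ^ (-(9 / 4) : ℝ) * T0 (gW (2 * V)) y w + T0 (XiG (2 * V)) y w := by
  intro y w hI
  have e := T_add (stop := fun _ _ => False) (f := fun y w => V ^ (-(9 / 4) : ℝ) * gW (2 * V) y w)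
    (g := fun _ _ => 0) (f' := XiG (2 * V)) (g' := fun _ _ => 0) y w
  simp only [add_zero] at e
  have e2 := T_smul' (fun _ _ => False) (gW (2 * V)) (V ^ (-(9 / 4) : ℝ)) y w
  rw [← e2, ← e]
  refine T0_mono (fun y w h => ?_) y w hI
  have hv := h.log_y_pos
  have hX := Xi_pos h
  have hr : 0 < V ^ (-(9 / 4) : ℝ) := by positivity
  have hg0 : 0 ≤ gW (2 * V) y w := by
    unfold gW
    split_ifs <;> norm_num
  have hG0 := XiG_nonneg (V := 2 * V) h
  have hg1 := mul_nonneg hr.le hg0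
  by_cases h1 : V < Real.log y ∧ Good y w
  · have e1 : XiG V y w = Xi y w := by unfold XiG; rw [if_pos h1]
    rw [e1]
    by_cases h2 : 2 * V < Real.log y
    · have e2 : XiG (2 * V) y w = Xi y w := by unfold XiG; rw [if_pos ⟨h2, h1.2⟩]
      rw [e2]
      linarith
    · have e2 : gW (2 * V) y w = 1 := by
        unfold gW
        rw [if_pos ⟨h1.2, by linarith [h1.1], not_lt.1 h2⟩]
      rw [e2, mul_one]
      have h3 : V ^ (-(9 / 4) : ℝ) ≥ Real.log y ^ (-(9 / 4) : ℝ) :=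
        Real.rpow_le_rpow_of_nonpos hV h1.1.le (by norm_num)
      have h4 := Xi_le h
      linarith
  · have e1 : XiG V y w = 0 := by unfold XiG; rw [if_neg h1]
    rw [e1]
    linarith

/-- the root -/
theorem root_inv {y : ℝ} (hy : 4 ≤ y) : Inv y ⌊√y⌋₊ ∧ Good y ⌊√y⌋₊ := by
  have h2 : (2 : ℝ) ≤ √y := by
    rw [Real.le_sqrt (by norm_num) (by linarith)]
    linarith
  have h3 : 2 ≤ ⌊√y⌋₊ := Nat.le_floor (by exact_mod_cast h2)
  have h4 : (⌊√y⌋₊ : ℝ) ≤ √y := Nat.floor_le (by positivity)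
  have h5 : √y < (⌊√y⌋₊ : ℝ) + 1 := Nat.lt_floor_add_one _
  have h6 : √y ^ 2 = y := Real.sq_sqrt (by linarith)
  have h7 : (2 : ℝ) ≤ (⌊√y⌋₊ : ℝ) := by exact_mod_cast h3
  refine ⟨⟨h3, ?_⟩, ?_⟩
  · nlinarith
  · unfold Good
    have h8 : y < (⌊√y⌋₊ : ℝ) ^ 4 := by
      have h9 : (⌊√y⌋₊ : ℝ) + 1 ≤ (⌊√y⌋₊ : ℝ) ^ 2 := by nlinarith
      have h10 : √y < (⌊√y⌋₊ : ℝ) ^ 2 := by linarith
      have h11 : √y ^ 2 < ((⌊√y⌋₊ : ℝ) ^ 2) ^ 2 := pow_lt_pow_left₀ h10 (by positivity) (by norm_num)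
      rw [h6] at h11
      linarith [h11, (by ring : ((⌊√y⌋₊ : ℝ) ^ 2) ^ 2 = (⌊√y⌋₊ : ℝ) ^ 4)]
    have h9 := Real.log_lt_log (by linarith) h8
    rw [Real.log_pow] at h9
    exact_mod_cast h9

/-- **the closing theorem** -/
theorem KData.closing (c : Consts) (k : KData) : ∃ Cm Ca V1 : ℝ, 1 ≤ Cm ∧ 0 < Ca ∧ 1 ≤ V1 ∧
    ∀ (n : ℕ) (V : ℝ), V1 ≤ V → ∀ y : ℝ, 4 ≤ y → Real.log y ≤ V * 2 ^ n →
      LM V y ⌊√y⌋₊ ≤ Cm * V ^ 2 / Real.log y ^ 2 ∧
      T0 (XiG V) y ⌊√y⌋₊ ≤ Ca * V ^ (-(1 / 4) : ℝ) / Real.log y ^ 2 := by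
  obtain ⟨C8, hC8, hstep⟩ := k.LM_step c
  have hCe := k.hCe
  have hcg := k.hcg
  have hC1 := c.hC1
  have hC3 : 0 < c.C3 := by linarith [c.hC3]
  have hC5 := c.C5_pos
  set C9 : ℝ := C8 * c.C5 * c.C5 with hC9
  set C10 : ℝ := k.Ce + C8 * c.C5 * c.C3 with hC10
  have hC9' : 0 < C9 := by positivity
  have hC10' : 0 < C10 := by positivity
  set Cm : ℝ := 1 + 2 * C10 / k.cg with hCm
  have hCm1 : 1 ≤ Cm := by
    have : 0 < 2 * C10 / k.cg := by positivity
    linarith
  set Ca : ℝ := 700 * Cm with hCa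
  have hCa0 : 0 < Ca := by positivity
  -- threshold
  obtain ⟨V1, hV1a, hV1b, hV1c, hV1d, hV1e⟩ : ∃ V1 : ℝ, 288 ≤ V1 ∧ 8 * Real.log k.Wg ≤ V1 ∧
      k.Y0 ≤ V1 ∧ (C9 * Ca / C10) ^ 4 ≤ V1 ∧ 0 ≤ V1 := by
    refine ⟨max 288 (max (8 * Real.log k.Wg) (max k.Y0 ((C9 * Ca / C10) ^ 4))), ?_, ?_, ?_, ?_, ?_⟩
    · exact le_max_left _ _
    · exact (le_max_left _ _).trans (le_max_right _ _)
    · exact (le_max_left _ _).trans ((le_max_right _ _).trans (le_max_right _ _))
    · exact (le_max_right _ _).trans ((le_max_right _ _).trans (le_max_right _ _))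
    · exact le_trans (by norm_num) (le_max_left _ _)
  refine ⟨Cm, Ca, V1, hCm1, hCa0, by linarith, ?_⟩
  -- base case
  have base : ∀ V : ℝ, V1 ≤ V → ∀ y : ℝ, 4 ≤ y → Real.log y ≤ V →
      LM V y ⌊√y⌋₊ ≤ Cm * V ^ 2 / Real.log y ^ 2 ∧
      T0 (XiG V) y ⌊√y⌋₊ ≤ Ca * V ^ (-(1 / 4) : ℝ) / Real.log y ^ 2 := by
    intro V hV y hy hyV
    obtain ⟨hI, hG⟩ := root_inv hy
    have hv := hI.log_y_pos
    have hV0 : 0 < V := by linarith
    constructor
    · unfold LM
      rw [T_stop ⟨hG, hyV⟩]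
      have h1 : hf V y ⌊√y⌋₊ ≤ 1 := by
        unfold hf
        split_ifs <;> norm_num
      refine h1.trans ?_
      rw [le_div_iff₀ (by positivity), one_mul]
      have h2 := pow_le_pow_left₀ hv.le hyV 2
      nlinarith [sq_nonneg V]
    · have h0 : T0 (XiG V) y ⌊√y⌋₊ = 0 := by
        refine T0_zero (V := V) ?_ y _ ⟨hI, hyV⟩
        rintro y w ⟨-, h⟩
        unfold XiG
        rw [if_neg (fun h' => absurd h'.1 (not_lt.2 h))]
      rw [h0]
      positivity
  intro n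
  induction n with
  | zero =>
    intro V hV y hy hyV
    rw [pow_zero, mul_one] at hyV
    exact base V hV y hy hyV
  | succ n ih =>
    intro V hV y hy hyV
    rcases le_or_gt (Real.log y) V with hle | hlt
    · exact base V hV y hy hle
    obtain ⟨hI, hG⟩ := root_inv hy
    have hv := hI.log_y_pos
    have hV0 : 0 < V := by linarith
    obtain ⟨ihL, ihA⟩ := ih (2 * V) (by linarith) y hy (by rw [pow_succ] at hyV; linarith)
    set v := Real.log y with hvdef
    -- the sum over the good nodes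
    have hA : T0 (XiG V) y ⌊√y⌋₊ ≤ Ca * V ^ (-(1 / 4) : ℝ) / v ^ 2 := by
      have h1 := XiG_step hV0 y _ hI
      have h2 := window_le (V := 2 * V) (by linarith) y _ hI
      have h3 : 0 ≤ V ^ (-(9 / 4) : ℝ) := by positivity
      have h4 := mul_le_mul_of_nonneg_left (h2.trans (mul_le_mul_of_nonneg_left ihL (by norm_num))) h3
      have h5 : V ^ (-(9 / 4) : ℝ) * (24 * (Cm * (2 * V) ^ 2 / v ^ 2)) =
          96 * Cm * V ^ (-(1 / 4) : ℝ) / v ^ 2 := by
        have h6 : V ^ (-(1 / 4) : ℝ) = V ^ (-(9 / 4) : ℝ) * V ^ 2 := by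
          rw [← Real.rpow_natCast V 2, ← Real.rpow_add hV0]
          norm_num
        rw [h6]
        ring
      have h7 : (2 * V) ^ (-(1 / 4) : ℝ) ≤ 0.85 * V ^ (-(1 / 4) : ℝ) := by
        rw [Real.mul_rpow (by norm_num) hV0.le]
        refine mul_le_mul_of_nonneg_right ?_ (by positivity)
        have h8 : (2 : ℝ) ^ (-(1 / 4) : ℝ) = (2⁻¹ : ℝ) ^ (1 / 4 : ℝ) := by
          rw [Real.rpow_neg (by norm_num), Real.inv_rpow (by norm_num)]
        rw [h8]
        have h9 : (0.85 : ℝ) = (0.85 ^ 4) ^ (1 / 4 : ℝ) := by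
          rw [← Real.rpow_natCast, ← Real.rpow_mul (by norm_num)]
          norm_num
        rw [h9]
        exact Real.rpow_le_rpow (by norm_num) (by norm_num) (by norm_num)
      have h8 : Ca * (2 * V) ^ (-(1 / 4) : ℝ) / v ^ 2 ≤ Ca * (0.85 * V ^ (-(1 / 4) : ℝ)) / v ^ 2 := by
        gcongr
      have h9 : 96 * Cm * V ^ (-(1 / 4) : ℝ) / v ^ 2 + Ca * (0.85 * V ^ (-(1 / 4) : ℝ)) / v ^ 2 ≤
          Ca * V ^ (-(1 / 4) : ℝ) / v ^ 2 := by
        rw [← add_div]
        apply div_le_div_of_nonneg_right _ (by positivity)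
        have : 0 < V ^ (-(1 / 4) : ℝ) := by positivity
        rw [hCa]
        nlinarith
      linarith
    refine ⟨?_, hA⟩
    -- the line
    have hns : ¬ stopV V y ⌊√y⌋₊ := fun h => absurd h.2 (not_le.2 hlt)
    have h1 := hstep V (by linarith) (by linarith) y _ hI hns
    have h2 := k.hroot y hy (by linarith)
    have h3 := above c V y _ hI
    rw [if_neg (not_le.2 hlt), add_zero] at h3
    have h4 := by_good c V y _ hI
    rw [if_pos hlt] at h4
    have h5 : XiB y ⌊√y⌋₊ ≤ 1 / v ^ 2 := by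
      refine (XiB_le hI).trans ((Xi_le hI).trans ?_)
      have h6 : v ^ (-(9 / 4) : ℝ) ≤ v ^ (-2 : ℝ) :=
        Real.rpow_le_rpow_of_exponent_le (by linarith) (by norm_num)
      refine h6.trans (le_of_eq ?_)
      rw [Real.rpow_neg hv.le, one_div]
      norm_num
    have h6 : C8 * T (stopV V) Xi (fun _ _ => 0) y ⌊√y⌋₊ ≤
        C9 * (Ca * V ^ (-(1 / 4) : ℝ) / v ^ 2) + C8 * c.C5 * c.C3 * (1 / v ^ 2) := by
      have h7 : T (stopV V) Xi (fun _ _ => 0) y ⌊√y⌋₊ ≤
          c.C5 * (c.C5 * (Ca * V ^ (-(1 / 4) : ℝ) / v ^ 2) + c.C3 * (1 / v ^ 2)) := by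
        refine h3.trans (mul_le_mul_of_nonneg_left (h4.trans ?_) hC5.le)
        exact add_le_add (mul_le_mul_of_nonneg_left hA hC5.le)
          (mul_le_mul_of_nonneg_left h5 hC3.le)
      have h8 := mul_le_mul_of_nonneg_left h7 hC8.le
      refine h8.trans (le_of_eq ?_)
      rw [hC9]
      ring
    have h7 : C9 * (Ca * V ^ (-(1 / 4) : ℝ) / v ^ 2) ≤ C10 / v ^ 2 := by
      have h8 : C9 * Ca * V ^ (-(1 / 4) : ℝ) ≤ C10 := by
        rw [Real.rpow_neg hV0.le, ← div_eq_mul_inv, div_le_iff₀ (by positivity)]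
        have h9 : C9 * Ca / C10 ≤ V ^ (1 / 4 : ℝ) := by
          have h10 : C9 * Ca / C10 = ((C9 * Ca / C10) ^ 4) ^ (1 / 4 : ℝ) := by
            rw [← Real.rpow_natCast, ← Real.rpow_mul (by positivity)]
            norm_num
          rw [h10]
          exact Real.rpow_le_rpow (by positivity) (by linarith) (by norm_num)
        rw [div_le_iff₀ hC10'] at h9
        linarith
      rw [← mul_div_assoc, ← mul_assoc]
      exact div_le_div_of_nonneg_right h8 (by positivity)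
    have h8 : k.cg / V ^ 2 * LM V y ⌊√y⌋₊ ≤ 2 * C10 / v ^ 2 := by
      have h9 : k.Ce / v ^ 2 + (C10 / v ^ 2 + C8 * c.C5 * c.C3 * (1 / v ^ 2)) = 2 * C10 / v ^ 2 := by
        rw [hC10]
        ring
      linarith
    have h9 : LM V y ⌊√y⌋₊ ≤ 2 * C10 / k.cg * V ^ 2 / v ^ 2 := by
      rw [div_mul_eq_mul_div, div_le_iff₀ (by positivity)] at h8
      have h10 : 2 * C10 / v ^ 2 * V ^ 2 = k.cg * (2 * C10 / k.cg * V ^ 2 / v ^ 2) := by
        field_simp
      rw [h10] at h8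
      exact le_of_mul_le_mul_left h8 hcg
    refine h9.trans ?_
    apply div_le_div_of_nonneg_right _ (by positivity)
    apply mul_le_mul_of_nonneg_right _ (by positivity)
    linarith

end Crest.Agent.R001.Mass
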