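import Crest.Agent.R001.MassF664

/-! Row 1 (S0001), block (1), file G: consequences of the closing theorem. -/

set_option autoImplicit false

namespace Crest.Agent.R001.Mass

open Finset Classical

/-- monotonicity in `w` -/
theorem Op_mono_w {h : ℝ → ℕ → ℝ} {y : ℝ} {w w' : ℕ} (hw : w ≤ w')
    (hh : ∀ p q, Ch y w' p q → 0 ≤ h (y / ((p : ℝ) * q)) q) : Op h y w ≤ Op h y w' := by
  unfold Op
  refine Finset.sum_le_sum_of_subset_of_nonneg (P_mono hw) fun p hp _ => ?_
  refine Finset.sum_nonneg fun q hq => ?_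
  split_ifs with hacc
  · have hc : Ch y w' p q := ⟨hp, hq, hacc⟩
    have := hc.pos
    exact mul_nonneg (by positivity) (hh p q hc)
  · exact le_rfl

theorem Xi_mono_w {y : ℝ} {w w' : ℕ} (hI : Inv y w) (hw : w ≤ w') : Xi y w ≤ Xi y w' := by
  unfold Xi
  have h1 := hI.log_w_pos
  have h2 := hI.log_y_pos
  have h3 : Real.log w ≤ Real.log w' :=
    Real.log_le_log (by exact_mod_cast (by have := hI.1; omega : 0 < w)) (by exact_mod_cast hw)
  refine mul_le_mul_of_nonneg_right (pow_le_pow_left₀ h1.le h3 4) (by positivity)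

theorem XiV_mono_w {V y : ℝ} {w w' : ℕ} (hI : Inv y w) (hw : w ≤ w') :
    XiV V y w ≤ XiV V y w' := by
  unfold XiV
  split_ifs
  · exact Xi_mono_w hI hw
  · exact le_rfl

theorem T0_XiV_mono {V y : ℝ} {w w' : ℕ} (hI : Inv y w) (hI' : Inv y w') (hw : w ≤ w') :
    T0 (XiV V) y w ≤ T0 (XiV V) y w' := by
  rw [T0_eq, T0_eq]
  refine add_le_add (XiV_mono_w hI hw) (Op_mono_w hw fun p q hc => ?_)
  exact T0_nonneg (fun y w h => XiV_nonneg h) _ _ (inv_closed y w' p q hI' hc)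

theorem le_floor_sqrt {y : ℝ} {w : ℕ} (hI : Inv y w) : w ≤ ⌊√y⌋₊ := by
  apply Nat.le_floor
  rw [Real.le_sqrt (by positivity) (by linarith [hI.y_ge])]
  exact hI.2

theorem XiV_zero {V y : ℝ} {w : ℕ} (hI : Inv y w) (h : Real.log y ≤ V) : T0 (XiV V) y w = 0 := by
  refine T0_zero (V := V) ?_ y _ ⟨hI, h⟩
  rintro y w ⟨-, h⟩
  unfold XiV
  rw [if_neg (fun h' => absurd h' (not_lt.2 h))]

/-- mass bound, all nodes, crude form -/
theorem KData.mass0 (k : KData) : ∃ C V1 : ℝ, 0 < C ∧ 1 ≤ V1 ∧ ∀ V : ℝ, V1 ≤ V → ∀ y w, Inv y w →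
    T0 (XiV V) y w ≤ C * V ^ (-(1 / 4) : ℝ) / Real.log y ^ 2 := by
  obtain ⟨c⟩ := exists_consts
  obtain ⟨Cm, Ca, V1, hCm, hCa, hV1, h⟩ := k.closing c
  have hC5 := c.C5_pos
  have hC3 : 0 < c.C3 := by linarith [c.hC3]
  refine ⟨c.C5 * Ca + c.C3, V1, by positivity, hV1, ?_⟩
  intro V hV y w hI
  have hV0 : 0 < V := by linarith
  have hv := hI.log_y_pos
  rcases le_or_gt (Real.log y) V with hle | hlt
  · rw [XiV_zero hI hle]
    positivity
  have hy := hI.y_ge
  obtain ⟨hI', hG⟩ := root_inv hy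
  refine (T0_XiV_mono hI hI' (le_floor_sqrt hI)).trans ?_
  obtain ⟨n, hn⟩ : ∃ n : ℕ, Real.log y ≤ V * 2 ^ n := by
    obtain ⟨n, hn⟩ := pow_unbounded_of_one_lt (Real.log y / V) (by norm_num : (1 : ℝ) < 2)
    refine ⟨n, ?_⟩
    rw [div_lt_iff₀ hV0] at hn
    linarith
  have h1 := (h n V hV y hy hn).2
  have h2 := by_good c V y _ hI'
  rw [if_pos hlt] at h2
  have h3 : XiB y ⌊√y⌋₊ ≤ V ^ (-(1 / 4) : ℝ) / Real.log y ^ 2 := by
    refine (XiB_le hI').trans ((Xi_le hI').trans ?_)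
    have h6 : Real.log y ^ (-(9 / 4) : ℝ) =
        Real.log y ^ (-(1 / 4) : ℝ) / Real.log y ^ 2 := by
      rw [← Real.rpow_natCast (Real.log y) 2, ← Real.rpow_sub hv]
      norm_num
    rw [h6]
    apply div_le_div_of_nonneg_right _ (by positivity)
    exact Real.rpow_le_rpow_of_nonpos hV0 hlt.le (by norm_num)
  have h4 : c.C5 * T0 (XiG V) y ⌊√y⌋₊ + c.C3 * XiB y ⌊√y⌋₊ ≤
      c.C5 * (Ca * V ^ (-(1 / 4) : ℝ) / Real.log y ^ 2) +
        c.C3 * (V ^ (-(1 / 4) : ℝ) / Real.log y ^ 2) :=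
    add_le_add (mul_le_mul_of_nonneg_left h1 hC5.le) (mul_le_mul_of_nonneg_left h3 hC3.le)
  refine h2.trans (h4.trans (le_of_eq ?_))
  ring

/-- **mass theorem**: the sum of `Xi` over the nodes with level `> e^V` -/
theorem KData.mass (k : KData) : ∃ C V1 : ℝ, 0 < C ∧ 1 ≤ V1 ∧ ∀ V : ℝ, V1 ≤ V → ∀ y w, Inv y w →
    T0 (XiV V) y w ≤ C * (Real.log y / V) ^ (1 / 4 : ℝ) * Xi y w := by
  obtain ⟨c⟩ := exists_consts
  obtain ⟨C, V1, hC, hV1, h⟩ := k.mass0
  have hC1 := c.hC1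
  have hC3 : 0 < c.C3 := by linarith [c.hC3]
  set C2 : ℝ := 50 * (1 + 256 * C * c.C1) + c.C3 + 256 * C with hC2
  have hC2' : 0 < C2 := by positivity
  refine ⟨C2, V1, hC2', hV1, ?_⟩
  intro V hV y0 w0 hI0
  have hV0 : 0 < V := by linarith
  set v0 := Real.log y0 with hv0
  have hv00 : 0 < v0 := hI0.log_y_pos
  -- on the good nodes
  have hgood : ∀ y w, InvV v0 y w → Good y w →
      T0 (XiV V) y w ≤ 256 * C * (v0 / V) ^ (1 / 4 : ℝ) * Xi y w := by
    rintro y w ⟨hI, hyv⟩ hG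
    have hv := hI.log_y_pos
    have h1 := h V hV y w hI
    have h2 := good_Xi hI hG
    have h3 : C * V ^ (-(1 / 4) : ℝ) / Real.log y ^ 2 =
        C * (Real.log y / V) ^ (1 / 4 : ℝ) * Real.log y ^ (-(9 / 4) : ℝ) := by
      rw [Real.div_rpow hv.le hV0.le, Real.rpow_neg hV0.le, div_eq_mul_inv _ (Real.log y ^ 2),
        div_eq_mul_inv _ (V ^ (1 / 4 : ℝ))]
      have h4 : (Real.log y ^ 2)⁻¹ = Real.log y ^ (1 / 4 : ℝ) * Real.log y ^ (-(9 / 4) : ℝ) := by
        rw [← Real.rpow_add hv, ← Real.rpow_natCast (Real.log y) 2, ← Real.rpow_neg hv.le]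
        norm_num
      rw [h4]
      ring
    have h4 : (Real.log y / V) ^ (1 / 4 : ℝ) ≤ (v0 / V) ^ (1 / 4 : ℝ) := by
      apply Real.rpow_le_rpow (by positivity) _ (by norm_num)
      exact div_le_div_of_nonneg_right hyv hV0.le
    calc T0 (XiV V) y w ≤ C * (Real.log y / V) ^ (1 / 4 : ℝ) * Real.log y ^ (-(9 / 4) : ℝ) := by
          rw [← h3]; exact h1
      _ ≤ C * (v0 / V) ^ (1 / 4 : ℝ) * (256 * Xi y w) := by
          apply mul_le_mul _ h2 (by positivity) (by positivity)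
          exact mul_le_mul_of_nonneg_left h4 hC.le
      _ = _ := by ring
  have hfac : ∀ y : ℝ, Real.log y ≤ v0 → V < Real.log y → 1 ≤ (v0 / V) ^ (1 / 4 : ℝ) := by
    intro y h1 h2
    apply Real.one_le_rpow _ (by norm_num)
    rw [le_div_iff₀ hV0]
    linarith
  have key : ∀ y w, InvV v0 y w →
      T0 (XiV V) y w ≤ C2 * (v0 / V) ^ (1 / 4 : ℝ) * Xi y w := by
    refine tree_induction (invV_closed v0) ?_
    rintro y w ⟨hI, hyv⟩ ih
    have hX := Xi_pos hI
    have hF0 : 0 ≤ (v0 / V) ^ (1 / 4 : ℝ) := by positivity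
    by_cases hle : Real.log y ≤ V
    · rw [XiV_zero hI hle]
      positivity
    have hlt : V < Real.log y := not_le.1 hle
    have hF1 := hfac y hyv hlt
    by_cases hG : Good y w
    · refine (hgood y w ⟨hI, hyv⟩ hG).trans ?_
      apply mul_le_mul_of_nonneg_right _ hX.le
      apply mul_le_mul_of_nonneg_right _ hF0
      rw [hC2]
      have : 0 < 50 * (1 + 256 * C * c.C1) + c.C3 := by positivity
      linarith
    rcases lt_or_ge w c.W with hw | hw
    · have h1 : T0 (XiV V) y w ≤ T0 Xi y w := by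
        refine T0_mono (fun y w h => ?_) y w hI
        unfold XiV
        split_ifs
        · exact le_rfl
        · exact (Xi_pos h).le
      refine h1.trans ((c.small y w hI hw).trans ?_)
      apply mul_le_mul_of_nonneg_right _ hX.le
      have h2 : c.C3 ≤ C2 := by
        rw [hC2]
        have : 0 < 50 * (1 + 256 * C * c.C1) + 256 * C := by positivity
        linarith
      nlinarith
    · rw [T0_eq]
      have h1 : Op (T0 (XiV V)) y w ≤
          Op (fun y w => 256 * C * (v0 / V) ^ (1 / 4 : ℝ) * Xi y w +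
            C2 * (v0 / V) ^ (1 / 4 : ℝ) * XiB y w) y w := by
        refine Op_mono fun p q hc => ?_
        have hIc := inv_closed y w p q hI hc
        have hIVc := invV_closed v0 y w p q ⟨hI, hyv⟩ hc
        have hXc := Xi_pos hIc
        by_cases hGc : Good (y / ((p : ℝ) * q)) q
        · have h2 := hgood _ _ hIVc hGc
          have h3 := XiB_nonneg hIc
          have h4 : 0 ≤ C2 * (v0 / V) ^ (1 / 4 : ℝ) * XiB (y / ((p : ℝ) * q)) q := by positivity
          linarith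
        · have h2 := ih p q hc
          have h3 : XiB (y / ((p : ℝ) * q)) q = Xi (y / ((p : ℝ) * q)) q := by
            unfold XiB; rw [if_neg hGc]
          have h4 : 0 ≤ 256 * C * (v0 / V) ^ (1 / 4 : ℝ) * Xi (y / ((p : ℝ) * q)) q := by positivity
          rw [h3]
          linarith
      rw [Op_add (fun y w => 256 * C * (v0 / V) ^ (1 / 4 : ℝ) * Xi y w)
        (fun y w => C2 * (v0 / V) ^ (1 / 4 : ℝ) * XiB y w), Op_smul, Op_smul] at h1
      have h2 := c.op y w hI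
      have h3 := c.contr y w hI hw hG
      have h4 : XiV V y w ≤ 1 * (v0 / V) ^ (1 / 4 : ℝ) * Xi y w := by
        unfold XiV
        rw [if_pos hlt, one_mul]
        nlinarith
      have h5 : 256 * C * (v0 / V) ^ (1 / 4 : ℝ) * Op Xi y w ≤
          256 * C * (v0 / V) ^ (1 / 4 : ℝ) * (c.C1 * Xi y w) :=
        mul_le_mul_of_nonneg_left h2 (by positivity)
      have h6 : C2 * (v0 / V) ^ (1 / 4 : ℝ) * Op XiB y w ≤
          C2 * (v0 / V) ^ (1 / 4 : ℝ) * (49 / 50 * Xi y w) :=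
        mul_le_mul_of_nonneg_left h3 (by positivity)
      have h7 : (1 + 256 * C * c.C1) * ((v0 / V) ^ (1 / 4 : ℝ) * Xi y w) ≤
          C2 / 50 * ((v0 / V) ^ (1 / 4 : ℝ) * Xi y w) := by
        apply mul_le_mul_of_nonneg_right _ (by positivity)
        rw [hC2]
        have : 0 < c.C3 + 256 * C := by positivity
        linarith
      nlinarith
  exact key y0 w0 ⟨hI0, le_rfl⟩

end Crest.Agent.R001.Mass
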