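import Crest.Agent.R001.MassG664
import Crest.Agent.R001.Par2

/-! Row 1 (S0001), block (1), file H: the instance. -/

set_option autoImplicit false

namespace Crest.Agent.R001.Mass

open Finset Classical
open Crest.Agent.R001.F1 (Rw roughN mem_roughN F1a F1b)

/-- the test function -/
noncomputable def Kf (κ : ℝ) (y : ℝ) (w : ℕ) : ℝ :=
  Rw (y * Real.exp κ) w / (y * Real.exp κ) - Rw y w / y

/-- boundary terms -/
noncomputable def BdR (x y : ℝ) (w : ℕ) : ℝ :=
  ∑ p ∈ P w, ∑ q ∈ P p, if (p : ℝ) * (q : ℝ) ^ 3 < y then 0 else Rw (x / ((p : ℝ) * q)) q / x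

/-- the counting function of the boundary -/
noncomputable def Bb (y : ℝ) (w : ℕ) : ℝ :=
  ∑ p ∈ P w, ∑ q ∈ P p, if (p : ℝ) * (q : ℝ) ^ 3 < y then 0 else 1 / y

theorem P_eq_pr (w : ℕ) : P w = Tree.pr w := by
  ext p
  rw [mem_P, Tree.mem_pr]

/-- Buchstab, two steps -/
theorem two_step {M : ℝ} (hM : 0 < M) (w : ℕ) :
    Rw M w = Tree.intF (Par.Am M) 1 w + ∑ p ∈ P w, ∑ q ∈ P p, Rw (M / ((p : ℝ) * q)) q := by
  have h := (Par.buch_m M).two_step (Tree.rgh_one w)
  rw [Par.Sm_one M hM.le] at h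
  rw [h]
  congr 1
  unfold Tree.ch
  rw [P_eq_pr]
  refine Finset.sum_congr rfl fun p hp => ?_
  rw [P_eq_pr]
  refine Finset.sum_congr rfl fun q hq => ?_
  have hpp := Tree.prime_of_mem_pr hp
  have hqp := Tree.prime_of_mem_pr hq
  have h1 := Par.Sm_eq M hM.le (d := 1 * p * q) (w := q) (by
    have := hpp.pos; have := hqp.pos; positivity) ((Tree.rgh_one w).child hp hq) (by
      rw [Crest.Agent.SW.lam_mul, Crest.Agent.SW.lam_mul, Crest.Agent.SW.lam_one,
        Par.lam_prime hpp, Par.lam_prime hqp]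
      norm_num)
  rw [h1]
  push_cast
  rw [one_mul]

/-- exact recursion for `Kf` -/
theorem Kf_rec (κ : ℝ) {y : ℝ} (hy : 0 < y) (w : ℕ) :
    Kf κ y w = (Tree.intF (Par.Am (y * Real.exp κ)) 1 w / (y * Real.exp κ) -
      Tree.intF (Par.Am y) 1 w / y) + Op (Kf κ) y w + BdR (y * Real.exp κ) y w - BdR y y w := by
  have he : 0 < Real.exp κ := Real.exp_pos κ
  have h1 := two_step (M := y * Real.exp κ) (by positivity) w
  have h2 := two_step hy w
  have h3 : Op (Kf κ) y w + BdR (y * Real.exp κ) y w - BdR y y w =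
      (∑ p ∈ P w, ∑ q ∈ P p, Rw (y * Real.exp κ / ((p : ℝ) * q)) q) / (y * Real.exp κ) -
        (∑ p ∈ P w, ∑ q ∈ P p, Rw (y / ((p : ℝ) * q)) q) / y := by
    unfold Op BdR
    rw [← Finset.sum_add_distrib, ← Finset.sum_sub_distrib, Finset.sum_div, Finset.sum_div,
      ← Finset.sum_sub_distrib]
    refine Finset.sum_congr rfl fun p hp => ?_
    rw [← Finset.sum_add_distrib, ← Finset.sum_sub_distrib, Finset.sum_div, Finset.sum_div,
      ← Finset.sum_sub_distrib]
    refine Finset.sum_congr rfl fun q hq => ?_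
    have hp0 : (0 : ℝ) < p := by exact_mod_cast (mem_P.1 hp).2.pos
    have hq0 : (0 : ℝ) < q := by exact_mod_cast (mem_P.1 hq).2.pos
    split_ifs with hacc
    · unfold Kf
      have e : y / ((p : ℝ) * q) * Real.exp κ = y * Real.exp κ / ((p : ℝ) * q) := by ring
      rw [e]
      field_simp
      ring
    · ring
  unfold Kf at h3 ⊢
  rw [h1, h2, add_div, add_div]
  linarith

theorem Rw_le_two {x w : ℝ} (hx : 0 ≤ x) : Rw x w ≤ 2 * x := by
  unfold Rw
  have h1 : ((((roughN x w).filter (fun m => Even (ArithmeticFunction.cardFactors m))).card : ℕ) : ℝ)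
      ≤ (⌊x⌋₊ : ℝ) := by
    have h2 : ((roughN x w).filter (fun m => Even (ArithmeticFunction.cardFactors m))).card ≤
        ⌊x⌋₊ := by
      refine (Finset.card_filter_le _ _).trans ?_
      have h3 : roughN x w ⊆ Finset.Icc 1 ⌊x⌋₊ := by
        intro m hm
        rw [mem_roughN hx] at hm
        rw [Finset.mem_Icc, Nat.le_floor_iff hx]
        exact ⟨hm.1, hm.2.1⟩
      have h4 := Finset.card_le_card h3
      rwa [Nat.card_Icc, Nat.add_sub_cancel] at h4
    exact_mod_cast h2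
  have h2 := Nat.floor_le hx
  linarith

theorem BdR_nonneg {x y : ℝ} (hx : 0 < x) (w : ℕ) : 0 ≤ BdR x y w := by
  unfold BdR
  refine Finset.sum_nonneg fun p _ => Finset.sum_nonneg fun q _ => ?_
  split_ifs
  · exact le_rfl
  · exact div_nonneg (Par.Rw_nonneg _ _) hx.le

theorem Bb_nonneg {y : ℝ} (hy : 0 < y) (w : ℕ) : 0 ≤ Bb y w := by
  unfold Bb
  refine Finset.sum_nonneg fun p _ => Finset.sum_nonneg fun q _ => ?_
  split_ifs
  · exact le_rfl
  · positivity

theorem BdR_le {y : ℝ} (hy : 0 < y) (w : ℕ) : BdR y y w ≤ 4 * Bb y w := by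
  unfold BdR Bb
  rw [Finset.mul_sum]
  refine Finset.sum_le_sum fun p hp => ?_
  rw [Finset.mul_sum]
  refine Finset.sum_le_sum fun q hq => ?_
  have hp0 : (0 : ℝ) < p := by exact_mod_cast (mem_P.1 hp).2.pos
  have hq2 : (2 : ℝ) ≤ q := by exact_mod_cast (mem_P.1 hq).2.two_le
  have hq0 : (0 : ℝ) < q := by linarith
  split_ifs with hacc
  · simp
  · rw [mul_one_div]
    apply div_le_div_of_nonneg_right _ hy.le
    apply Par.Rw_le_four hq2 (by positivity)
    rw [div_le_iff₀ (by positivity)]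
    linarith [not_lt.1 hacc]

/-- hypotheses on the boundary count (block BB) -/
def BBH : Prop := ∃ C : ℝ, 0 < C ∧ (∀ y w, Inv y w → Bb y w ≤ C / Real.log y ^ 2) ∧
  ∀ y w, Inv y w → Op Bb y w ≤ C * Xi y w

theorem Inv.one_le_log {y : ℝ} {w : ℕ} (h : Inv y w) : 1 ≤ Real.log y := by
  have h1 : Real.log 4 ≤ Real.log y := Real.log_le_log (by norm_num) h.y_ge
  have h2 : Real.log 4 = 2 * Real.log 2 := by
    have : (4 : ℝ) = 2 ^ 2 := by norm_num
    rw [this, Real.log_pow]; push_cast; ring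
  have h3 : 0.6931471803 < Real.log 2 := Real.log_two_gt_d9
  linarith

theorem err_Xi : ∃ C : ℝ, 0 < C ∧ ∀ y w, Inv y w → ∀ κ : ℝ, 0 ≤ κ →
    |Tree.intF (Par.Am (y * Real.exp κ)) 1 w / (y * Real.exp κ) -
      Tree.intF (Par.Am y) 1 w / y| ≤ C * Xi y w := by
  obtain ⟨C, hC, h⟩ := Par.errF_le 7
  refine ⟨2 * C * 16, by positivity, ?_⟩
  intro y w hI κ hκ
  have hy := hI.y_ge
  have hv := hI.log_y_pos
  have he : 1 ≤ Real.exp κ := Real.one_le_exp hκ
  have hye : y ≤ y * Real.exp κ := by nlinarith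
  have h1 := Par.abs_intF_sub_le (M := y * Real.exp κ) (d := 1) (w := w) (by positivity) one_pos
  have h2 := Par.abs_intF_sub_le (M := y) (d := 1) (w := w) (by linarith) one_pos
  have h3 := h (y * Real.exp κ) 1 w one_pos hI.1 (by push_cast; linarith [hI.2])
  have h4 := h y 1 w one_pos hI.1 (by push_cast; linarith [hI.2])
  have h5 : C / (((1 : ℕ) : ℝ) * Real.log (y * Real.exp κ / ((1 : ℕ) : ℝ)) ^ (7 : ℝ)) ≤
      C / Real.log y ^ (7 : ℝ) := by
    push_cast
    rw [one_mul, div_one]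
    apply div_le_div_of_nonneg_left hC.le (by positivity)
    apply Real.rpow_le_rpow hv.le _ (by norm_num)
    exact Real.log_le_log (by linarith) hye
  have h6 : C / (((1 : ℕ) : ℝ) * Real.log (y / ((1 : ℕ) : ℝ)) ^ (7 : ℝ)) =
      C / Real.log y ^ (7 : ℝ) := by
    push_cast
    rw [one_mul, div_one]
  have h7 : C / Real.log y ^ (7 : ℝ) ≤ C * 16 * Xi y w := by
    rw [div_eq_mul_inv, ← Real.rpow_neg hv.le, mul_assoc]
    apply mul_le_mul_of_nonneg_left _ hC.le
    unfold Xi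
    have e1 : Real.log y ^ (-7 : ℝ) ≤ Real.log y ^ (-(25 / 4) : ℝ) :=
      Real.rpow_le_rpow_of_exponent_le hI.one_le_log (by norm_num)
    have e2 : (1 : ℝ) ≤ 16 * Real.log w ^ 4 := by
      have e3 : (1 / 2 : ℝ) ≤ Real.log w := by
        have := hI.log_two_le
        have := Real.log_two_gt_d9
        linarith
      have e4 := pow_le_pow_left₀ (by norm_num) e3 4
      linarith
    have e3 : 0 ≤ Real.log y ^ (-(25 / 4) : ℝ) := by positivity
    nlinarith
  have h8 : |Tree.intF (Par.Am (y * Real.exp κ)) 1 w / (y * Real.exp κ) -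
      Tree.intF (Par.Am y) 1 w / y| ≤ Par.errF (y * Real.exp κ) 1 w + Par.errF y 1 w := by
    have e : Tree.intF (Par.Am (y * Real.exp κ)) 1 w / (y * Real.exp κ) -
      Tree.intF (Par.Am y) 1 w / y = (Tree.intF (Par.Am (y * Real.exp κ)) 1 w / (y * Real.exp κ) -
      Tree.intF Par.rec 1 w) - (Tree.intF (Par.Am y) 1 w / y - Tree.intF Par.rec 1 w) := by ring
    rw [e]
    exact (abs_sub _ _).trans (add_le_add h1 h2)
  rw [h6] at h4
  linarith

/-- lower bound at good nodes -/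
theorem Kf_good : ∃ κ cg : ℝ, ∃ Wg : ℕ, 1 ≤ κ ∧ 0 < cg ∧ 2 ≤ Wg ∧
    ∀ y w, Inv y w → Good y w → Wg ≤ w → cg / Real.log y ^ 2 ≤ Kf κ y w := by
  obtain ⟨c, η, κ, hc, hη, hκ, h⟩ := F1a Par.pnt2_holds
  refine ⟨κ, c * κ / (1 + κ) ^ 2, ⌈Real.exp (κ / η)⌉₊ + 2, hκ, by positivity, by omega, ?_⟩
  intro y w hI hG hw
  have hy := hI.y_ge
  have hy0 : 0 < y := by linarith
  have hv := hI.log_y_pos
  have hv1 := hI.one_le_log
  have hw2 : (2 : ℝ) ≤ w := by exact_mod_cast hI.1
  have hw0 : (0 : ℝ) < w := by linarith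
  have he : 1 ≤ Real.exp κ := Real.one_le_exp (by linarith)
  have hyw : y < (w : ℝ) ^ 4 := by
    unfold Good at hG
    rw [← Real.log_lt_log_iff hy0 (by positivity), Real.log_pow]
    exact_mod_cast hG
  have hwη : Real.exp κ ≤ (w : ℝ) ^ η := by
    have h1 : Real.exp (κ / η) ≤ w := by
      have h2 := Nat.le_ceil (Real.exp (κ / η))
      have h3 : ((⌈Real.exp (κ / η)⌉₊ + 2 : ℕ) : ℝ) ≤ w := by exact_mod_cast hw
      push_cast at h3
      linarith
    have h2 := Real.rpow_le_rpow (Real.exp_pos _).le h1 hη.le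
    rwa [← Real.exp_mul, div_mul_cancel₀ _ hη.ne'] at h2
  have hlog : Real.log (y * Real.exp κ / y) = κ := by
    rw [mul_div_cancel_left₀ _ hy0.ne', Real.log_exp]
  have h1 := h y (y * Real.exp κ) w hw2 hI.2 (by
      have : y ^ 2 ≤ (w : ℝ) ^ 4 * y := by nlinarith
      have h2 : (w : ℝ) ^ 4 * y ≤ (w : ℝ) ^ 4 * (y * Real.exp κ) := by
        apply mul_le_mul_of_nonneg_left _ (by positivity)
        nlinarith
      linarith) (by
      rw [Real.rpow_add hw0]
      have h3 : (w : ℝ) ^ (4 : ℝ) = (w : ℝ) ^ 4 := by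
        rw [← Real.rpow_natCast]
        norm_num
      rw [h3]
      exact mul_le_mul hyw.le hwη (by positivity) (by positivity)) (by rw [hlog])
  rw [hlog] at h1
  refine le_trans ?_ h1
  rw [Real.log_mul hy0.ne' (by positivity), Real.log_exp, div_div]
  apply div_le_div_of_nonneg_left (by positivity) (by positivity)
  have h2 : Real.log y + κ ≤ (1 + κ) * Real.log y := by nlinarith
  have h3 := pow_le_pow_left₀ (by positivity) h2 2
  rwa [mul_pow] at h3

/-- upper bound at the root -/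
theorem Kf_root {κ : ℝ} (hκ : 1 ≤ κ) : ∃ C Y0 : ℝ, 0 < C ∧ ∀ y : ℝ, 4 ≤ y → Y0 ≤ Real.log y →
    Kf κ y ⌊√y⌋₊ ≤ C / Real.log y ^ 2 := by
  obtain ⟨C, hC, h⟩ := F1b Par.pnt2_holds
  refine ⟨4 * (C * (κ + 1)), 4 * κ + 10, by positivity, ?_⟩
  intro y hy4 hy
  obtain ⟨hI, -⟩ := root_inv hy4
  have hv : 0 < Real.log y := by linarith
  have hy0 : 0 < y := by linarith
  set n := ⌊√y⌋₊ with hn
  have hn2 : (2 : ℝ) ≤ n := by exact_mod_cast hI.1
  have hn0 : (0 : ℝ) < n := by linarith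
  have h5 : √y < (n : ℝ) + 1 := Nat.lt_floor_add_one _
  have h6 : √y ^ 2 = y := Real.sq_sqrt (by linarith)
  have hyn : y ≤ 9 / 4 * (n : ℝ) ^ 2 := by
    have h7 : √y ≤ 3 / 2 * (n : ℝ) := by linarith
    have h8 := pow_le_pow_left₀ (Real.sqrt_nonneg y) h7 2
    nlinarith
  have hlog : Real.log (y / (n : ℝ) ^ 2) ≤ 1 := by
    have h7 : y / (n : ℝ) ^ 2 ≤ Real.exp 1 := by
      rw [div_le_iff₀ (by positivity)]
      have := Real.exp_one_gt_d9
      nlinarith [sq_nonneg (n : ℝ)]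
    have h8 := Real.log_le_log (by positivity) h7
    rwa [Real.log_exp] at h8
  have hlog0 : 0 ≤ Real.log (y / (n : ℝ) ^ 2) := by
    apply Real.log_nonneg
    rw [le_div_iff₀ (by positivity), one_mul]
    exact hI.2
  have hlogy : Real.log y = 2 * Real.log n + Real.log (y / (n : ℝ) ^ 2) := by
    rw [Real.log_div hy0.ne' (by positivity), Real.log_pow]
    push_cast
    ring
  have hκ' : 1 ≤ κ + Real.log (y / (n : ℝ) ^ 2) := by linarith
  have h1 := h ((n : ℝ) ^ 2) n (κ + Real.log (y / (n : ℝ) ^ 2)) (by nlinarith)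
    (by rw [Real.sqrt_sq hn0.le]) hκ' (by
      have e : ((n : ℝ) ^ 2) ^ (1 / 4 : ℝ) = Real.exp (Real.log n / 2) := by
        rw [← Real.rpow_natCast, ← Real.rpow_mul hn0.le, Real.rpow_def_of_pos hn0]
        norm_num
        ring_nf
      rw [e]
      apply Real.exp_le_exp.2
      linarith)
  have e : (n : ℝ) ^ 2 * Real.exp (κ + Real.log (y / (n : ℝ) ^ 2)) = y * Real.exp κ := by
    rw [Real.exp_add, Real.exp_log (by positivity)]
    field_simp
  rw [e] at h1
  have h2 : 0 ≤ Rw y n / y := div_nonneg (Par.Rw_nonneg _ _) hy0.le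
  have h3 : Kf κ y n ≤ C * (κ + Real.log (y / (n : ℝ) ^ 2)) / Real.log ((n : ℝ) ^ 2) ^ 2 := by
    unfold Kf
    linarith
  refine h3.trans ?_
  rw [Real.log_pow]
  push_cast
  have h4 : Real.log y / 2 ≤ 2 * Real.log n := by linarith
  have h7 : Real.log y ^ 2 / 4 ≤ (2 * Real.log n) ^ 2 := by
    have := pow_le_pow_left₀ (by linarith : 0 ≤ Real.log y / 2) h4 2
    linarith [(by ring : (Real.log y / 2) ^ 2 = Real.log y ^ 2 / 4)]
  calc C * (κ + Real.log (y / (n : ℝ) ^ 2)) / (2 * Real.log n) ^ 2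
      ≤ C * (κ + 1) / (Real.log y ^ 2 / 4) := by
        apply div_le_div₀ (by positivity) _ (by positivity) h7
        apply mul_le_mul_of_nonneg_left _ hC.le
        linarith
    _ = 4 * (C * (κ + 1)) / Real.log y ^ 2 := by
        field_simp

/-- the instance of the abstract data -/
theorem exists_KData (hB : BBH) : Nonempty KData := by
  obtain ⟨Cb, hCb, hb1, hb2⟩ := hB
  obtain ⟨κ, cg, Wg, hκ, hcg, hWg, hgood⟩ := Kf_good
  obtain ⟨Cr, Y0, hCr, hroot⟩ := Kf_root hκ
  obtain ⟨Ce, hCe, herr⟩ := err_Xi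
  refine ⟨{
    K := Kf κ
    B := fun y w => 4 * Bb y w
    Ce := Ce + 4 * Cb + Cr + 2
    cg := cg
    Wg := Wg
    Y0 := Y0
    hCe := by positivity
    hcg := hcg
    hWg := hWg
    hrec := ?_
    hB0 := ?_
    hBop := ?_
    hgood := hgood
    hlow := ?_
    hroot := ?_ }⟩
  · intro y w hI
    have hy : 0 < y := by linarith [hI.y_ge]
    have h1 := Kf_rec κ hy w
    have h2 := herr y w hI κ (by linarith)
    have h3 := BdR_nonneg (x := y * Real.exp κ) (y := y) (by positivity) w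
    have h4 := BdR_le hy w
    have h5 := (abs_le.1 h2).1
    have h6 := Xi_pos hI
    nlinarith
  · intro y w hI
    have hy : 0 < y := by linarith [hI.y_ge]
    exact mul_nonneg (by norm_num) (Bb_nonneg hy w)
  · intro y w hI
    rw [Op_smul]
    have h1 := hb2 y w hI
    have h6 := Xi_pos hI
    nlinarith
  · intro y w hI
    have hy : 0 < y := by linarith [hI.y_ge]
    have h1 := Rw_le_two (w := w) hy.le
    have h2 : 0 ≤ Rw (y * Real.exp κ) w / (y * Real.exp κ) :=
      div_nonneg (Par.Rw_nonneg _ _) (by positivity)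
    have h3 : Rw y w / y ≤ 2 := by
      rw [div_le_iff₀ hy]
      exact h1
    unfold Kf
    linarith
  · intro y hy4 hy
    obtain ⟨hI, -⟩ := root_inv hy4
    have h1 := hroot y hy4 hy
    have h2 := hb1 y _ hI
    have hv := hI.log_y_pos
    have e : (Ce + 4 * Cb + Cr + 2) / Real.log y ^ 2 =
        (Ce + 2) / Real.log y ^ 2 + 4 * (Cb / Real.log y ^ 2) + Cr / Real.log y ^ 2 := by ring
    have h3 : 0 ≤ (Ce + 2) / Real.log y ^ 2 := by positivity
    rw [e]
    linarith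

end Crest.Agent.R001.Mass
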