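import Crest.Agent.R001.MassI664

/-! Row 1 (S0001), block (1), file J: line masses, upper bounds. -/

set_option autoImplicit false

namespace Crest.Agent.R001.Mass

open Finset Classical

/-- `Xi` summed over the nodes above the line -/
theorem above_Xi : ∃ C V1 : ℝ, 0 < C ∧ 1 ≤ V1 ∧ ∀ V : ℝ, V1 ≤ V → ∀ y w, Inv y w →
    V < Real.log y →
    T (stopV V) Xi (fun _ _ => 0) y w ≤ C * (Real.log y / V) ^ (1 / 4 : ℝ) * Xi y w := by
  obtain ⟨c⟩ := exists_consts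
  obtain ⟨C, V1, hC, hV1, h⟩ := mass
  have hC5 := c.C5_pos
  refine ⟨c.C5 * C, V1, by positivity, hV1, ?_⟩
  intro V hV y w hI hlt
  have h1 := above c V y w hI
  rw [if_neg (not_le.2 hlt), add_zero] at h1
  have h2 := mul_le_mul_of_nonneg_left (h V hV y w hI) hC5.le
  refine h1.trans (h2.trans (le_of_eq ?_))
  ring

/-- general line mass: `g ≤ A Xi` on the line -/
theorem line_upper : ∃ C V1 : ℝ, 0 < C ∧ 1 ≤ V1 ∧ ∀ V : ℝ, V1 ≤ V → ∀ (g : ℝ → ℕ → ℝ) (A : ℝ),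
    0 ≤ A → (∀ y w, Inv y w → stopV V y w → g y w ≤ A * Xi y w) →
    ∀ y w, Inv y w → V < Real.log y →
    T (stopV V) (fun _ _ => 0) g y w ≤ A * (C * (Real.log y / V) ^ (1 / 4 : ℝ) * Xi y w) := by
  obtain ⟨c⟩ := exists_consts
  obtain ⟨C, V1, hC, hV1, h⟩ := above_Xi
  have hC1 := c.hC1
  refine ⟨c.C1 * C, V1, by positivity, hV1, ?_⟩
  intro V hV g A hA hg y w hI hlt
  have hs : ¬ stopV V y w := fun h' => absurd h'.2 (not_le.2 hlt)
  have h1 := line_le c (stopV V) hA hg hI hs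
  have h2 := mul_le_mul_of_nonneg_left (h V hV y w hI hlt) (by positivity : 0 ≤ A * c.C1)
  refine h1.trans (h2.trans (le_of_eq ?_))
  ring

/-- the number of nodes on the line: `≤ C V² ω⁴ / v⁶` -/
theorem line_one : ∃ C V1 : ℝ, 0 < C ∧ 1 ≤ V1 ∧ ∀ V : ℝ, V1 ≤ V → ∀ y w, Inv y w →
    V < Real.log y →
    T (stopV V) (fun _ _ => 0) (fun _ _ => 1) y w ≤
      C * V ^ 2 * (Real.log w ^ 4 / Real.log y ^ 6) := by
  obtain ⟨C, V1, hC, hV1, h⟩ := line_upper
  refine ⟨256 * C, V1, by positivity, hV1, ?_⟩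
  intro V hV y w hI hlt
  have hV0 : 0 < V := by linarith
  have hv := hI.log_y_pos
  have h1 := h V hV (fun _ _ => 1) (256 * V ^ (9 / 4 : ℝ)) (by positivity) (by
    rintro y w hI' ⟨hG, hle⟩
    have hv' := hI'.log_y_pos
    have h2 := good_Xi hI' hG
    have h3 : V ^ (-(9 / 4) : ℝ) ≤ Real.log y ^ (-(9 / 4) : ℝ) :=
      Real.rpow_le_rpow_of_nonpos hv' hle (by norm_num)
    have h4 : V ^ (9 / 4 : ℝ) * V ^ (-(9 / 4) : ℝ) = 1 := by
      rw [← Real.rpow_add hV0]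
      norm_num
    have h5 := mul_le_mul_of_nonneg_left (h3.trans h2) (by positivity : 0 ≤ V ^ (9 / 4 : ℝ))
    rw [h4] at h5
    linarith) y w hI hlt
  refine h1.trans (le_of_eq ?_)
  rw [← quarter_Xi hI, Real.div_rpow hv.le hV0.le]
  have h6 : V ^ (9 / 4 : ℝ) = V ^ 2 * V ^ (1 / 4 : ℝ) := by
    rw [← Real.rpow_natCast V 2, ← Real.rpow_add hV0]
    norm_num
  rw [h6]
  have h7 : 0 < V ^ (1 / 4 : ℝ) := by positivity
  field_simp

/-- the nodes of level `≤ e^U` on the line, weighted with `1/v²`: `≤ C (U/V)^(1/4) ω⁴ / v⁶` -/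
theorem line_sq : ∃ C V1 : ℝ, 0 < C ∧ 1 ≤ V1 ∧ ∀ V : ℝ, V1 ≤ V → ∀ U : ℝ, 0 ≤ U → 
    ∀ y w, Inv y w → V < Real.log y →
    T (stopV V) (fun _ _ => 0) (fun y _ => if Real.log y ≤ U then 1 / Real.log y ^ 2 else 0) y w ≤
      C * (U / V) ^ (1 / 4 : ℝ) * (Real.log w ^ 4 / Real.log y ^ 6) := by
  obtain ⟨C, V1, hC, hV1, h⟩ := line_upper
  refine ⟨256 * C, V1, by positivity, hV1, ?_⟩
  intro V hV U hU y w hI hlt
  have hV0 : 0 < V := by linarith
  have hv := hI.log_y_pos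
  have h1 := h V hV (fun y _ => if Real.log y ≤ U then 1 / Real.log y ^ 2 else 0)
    (256 * U ^ (1 / 4 : ℝ)) (by positivity) (by
    rintro y w hI' ⟨hG, -⟩
    have hv' := hI'.log_y_pos
    have hX := Xi_pos hI'
    by_cases hle : Real.log y ≤ U
    · rw [if_pos hle]
      have h2 := good_Xi hI' hG
      have h3 : 1 / Real.log y ^ 2 = Real.log y ^ (1 / 4 : ℝ) * Real.log y ^ (-(9 / 4) : ℝ) := by
        rw [← Real.rpow_add hv']
        have e3 : (1 : ℝ) / Real.log y ^ 2 = Real.log y ^ (-2 : ℝ) := by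
          rw [Real.rpow_neg hv'.le, one_div]
          norm_num
        rw [e3]
        norm_num
      rw [h3]
      have h4 : Real.log y ^ (1 / 4 : ℝ) ≤ U ^ (1 / 4 : ℝ) :=
        Real.rpow_le_rpow hv'.le hle (by norm_num)
      calc Real.log y ^ (1 / 4 : ℝ) * Real.log y ^ (-(9 / 4) : ℝ)
          ≤ U ^ (1 / 4 : ℝ) * (256 * Xi y w) :=
            mul_le_mul h4 h2 (by positivity) (by positivity)
        _ = _ := by ring
    · rw [if_neg hle]
      positivity) y w hI hlt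
  refine h1.trans (le_of_eq ?_)
  rw [← quarter_Xi hI, Real.div_rpow hv.le hV0.le, Real.div_rpow hU hV0.le]
  ring

end Crest.Agent.R001.Mass
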