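import Crest.Agent.R001.MassJ664

/-! Row 1 (S0001), block (1), file K: lower bound for the line mass. -/

set_option autoImplicit false

namespace Crest.Agent.R001.Mass

open Finset Classical
open Crest.Agent.R001.F1 (Rw rk rk_empty Rw_le N2_upper F1c)

/-- rough numbers just above `w²` -/
theorem Rw_small {κ : ℝ} (hκ : 0 ≤ κ) : ∃ C : ℝ, 0 < C ∧ ∀ x w : ℝ, 2 ≤ w → 0 ≤ x →
    x ≤ Real.exp κ * w ^ 2 →
    Rw x w ≤ 2 + (if w ^ 2 ≤ x then C * (w ^ 2 / Real.log w ^ 2) else 0) := by
  obtain ⟨K, hK, h⟩ := N2_upper Par.pnt2_holds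
  have he := Real.exp_pos κ
  refine ⟨K * Real.exp κ * (κ / 2 + 19) + Real.exp κ * κ ^ 2 + 1, by positivity, ?_⟩
  intro x w hw hx hxw
  have hw0 : 0 < w := by linarith
  have hω : 0 < Real.log w := Real.log_pos (by linarith)
  have hw1 : 1 ≤ w := by linarith
  by_cases hle : w ^ 2 ≤ x
  swap
  · rw [if_neg hle, add_zero]
    have h1 : x < w ^ 2 := not_le.1 hle
    have h4 : w ^ 2 ≤ w ^ 4 := pow_le_pow_right₀ hw1 (by norm_num)
    have h6 : w ^ 2 ≤ w ^ 6 := pow_le_pow_right₀ hw1 (by norm_num)
    have h2 := Rw_le hw hx (h1.trans_le h6)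
    rw [rk_empty hw0.le hx h1, rk_empty hw0.le hx (h1.trans_le h4)] at h2
    simpa using h2
  rw [if_pos hle]
  have hx0 : 0 < x := lt_of_lt_of_le (by positivity) hle
  by_cases hk : Real.exp κ < w ^ 2
  · have h1 : x < w ^ 4 := by
      refine hxw.trans_lt ?_
      have : w ^ 4 = w ^ 2 * w ^ 2 := by ring
      rw [this]
      exact mul_lt_mul_of_pos_right hk (by positivity)
    have h6 : w ^ 4 ≤ w ^ 6 := pow_le_pow_right₀ hw1 (by norm_num)
    have h2 := Rw_le hw hx (h1.trans_le h6)
    rw [rk_empty hw0.le hx h1] at h2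
    have h3 := h x w hw hle
    have hs0 : 0 < Real.sqrt x := Real.sqrt_pos.2 hx0
    have hlx : 2 * Real.log w ≤ Real.log x := by
      have := Real.log_le_log (by positivity) hle
      rw [Real.log_pow] at this
      exact_mod_cast this
    have hlx0 : 0 < Real.log x := by linarith
    have hls : Real.log (Real.sqrt x) = Real.log x / 2 := Real.log_sqrt hx0.le
    have hlx2 : Real.log x ≤ κ + 2 * Real.log w := by
      have := Real.log_le_log hx0 hxw
      rw [Real.log_mul he.ne' (by positivity), Real.log_exp, Real.log_pow] at this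
      exact_mod_cast this
    have h4 : Real.log (Real.log (Real.sqrt x)) - Real.log (Real.log w) ≤
        (κ / 2) / Real.log w := by
      rw [hls, ← Real.log_div (by positivity) hω.ne']
      have h5 := Real.log_le_sub_one_of_pos (x := Real.log x / 2 / Real.log w) (by positivity)
      refine h5.trans ?_
      have h6 : Real.log x / 2 / Real.log w ≤ (κ / 2 + Real.log w) / Real.log w := by
        apply div_le_div_of_nonneg_right _ hω.le
        linarith
      have h7 : (κ / 2 + Real.log w) / Real.log w = (κ / 2) / Real.log w + 1 := by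
        field_simp
      linarith
    have h5 : K * x / Real.log x ≤ K * (Real.exp κ * w ^ 2) / (2 * Real.log w) := by
      apply div_le_div₀ (by positivity) _ (by positivity) hlx
      exact mul_le_mul_of_nonneg_left hxw hK.le
    have h7 : ((rk 2 x w).card : ℝ) ≤
        K * (Real.exp κ * w ^ 2) / (2 * Real.log w) * ((κ / 2 + 19) / Real.log w) := by
      refine h3.trans ?_
      apply mul_le_mul h5 _ _ (by positivity)
      · have : (κ / 2 + 19) / Real.log w = (κ / 2) / Real.log w + 19 / Real.log w := by ring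
        rw [this]
        linarith
      · have : 0 ≤ Real.log (Real.log (Real.sqrt x)) - Real.log (Real.log w) := by
          rw [sub_nonneg]
          apply Real.log_le_log hω
          rw [hls]
          linarith
        positivity
    have h8 : K * (Real.exp κ * w ^ 2) / (2 * Real.log w) * ((κ / 2 + 19) / Real.log w) =
        K * Real.exp κ * (κ / 2 + 19) * (w ^ 2 / Real.log w ^ 2) / 2 := by
      field_simp
    rw [h8] at h7
    have h9 : 0 ≤ (Real.exp κ * κ ^ 2 + 1) * (w ^ 2 / Real.log w ^ 2) := by positivity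
    simp only [Finset.card_empty, Nat.cast_zero, add_zero] at h2
    linarith
  · have h1 := Rw_le_two (x := x) (w := w) hx
    have h2 : Real.log w ≤ κ / 2 := by
      have := Real.log_le_log (by positivity) (not_lt.1 hk)
      rw [Real.log_pow, Real.log_exp] at this
      push_cast at this
      linarith
    have h3 : 1 ≤ (κ ^ 2 / 4) / Real.log w ^ 2 := by
      rw [le_div_iff₀ (by positivity), one_mul]
      have := pow_le_pow_left₀ hω.le h2 2
      linarith [(by ring : (κ / 2) ^ 2 = κ ^ 2 / 4)]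
    have h4 : 2 * (Real.exp κ * w ^ 2) ≤ Real.exp κ * κ ^ 2 * (w ^ 2 / Real.log w ^ 2) := by
      have h5 := mul_le_mul_of_nonneg_left h3 (by positivity : 0 ≤ 2 * (Real.exp κ * w ^ 2))
      have h6 : 2 * (Real.exp κ * w ^ 2) * (κ ^ 2 / 4 / Real.log w ^ 2) =
          Real.exp κ * κ ^ 2 * (w ^ 2 / Real.log w ^ 2) / 2 := by
        ring
      have h7 : 0 ≤ Real.exp κ * κ ^ 2 * (w ^ 2 / Real.log w ^ 2) := by positivity
      linarith
    have h5 : 0 ≤ (K * Real.exp κ * (κ / 2 + 19) + 1) * (w ^ 2 / Real.log w ^ 2) := by positivity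
    linarith

/-- sum of reciprocals of the large primes -/
theorem sum_PG_le {y : ℝ} {w : ℕ} (hI : Inv y w) : ∑ p ∈ PG w (Real.log y / 6), 1 / (p : ℝ) ≤ 30 := by
  have hw2 : (2 : ℝ) ≤ w := by exact_mod_cast hI.1
  have hlw := hI.log_w_pos
  set L := Real.log y with hL
  by_cases hne : (PG w (L / 6)) = ∅
  · rw [hne, Finset.sum_empty]
    norm_num
  obtain ⟨p0, hp0⟩ := Finset.nonempty_iff_ne_empty.mpr hne
  rw [mem_PG] at hp0
  have hp00 : (0 : ℝ) < p0 := by exact_mod_cast hp0.1.2.pos
  have h1 : Real.log p0 ≤ Real.log w := Real.log_le_log hp00 (by exact_mod_cast hp0.1.1.le)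
  have hL6w : L / 6 ≤ Real.log w := by linarith [hp0.2]
  have hl2 : 0.6931471803 < Real.log 2 := Real.log_two_gt_d9
  have hl2' : Real.log 2 < 0.6931471808 := Real.log_two_lt_d9
  set x' := max (Real.log 2) (L / 6) with hx'
  have hx2 : Real.log 2 ≤ x' := le_max_left _ _
  have hxL : L / 6 ≤ x' := le_max_right _ _
  have hxw : x' ≤ Real.log w := max_le (Real.log_le_log (by norm_num) hw2) hL6w
  have hx0 : 0 < x' := by linarith
  have h2mem : 2 ∉ PG w x' := by
    intro h
    rw [mem_PG] at h
    have := h.2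
    push_cast at this
    linarith
  have h3 : PG w (L / 6) ⊆ insert 2 (PG w x') := by
    intro p hp
    rw [Finset.mem_insert]
    by_cases hp2 : p = 2
    · left; exact hp2
    · right
      rw [mem_PG] at hp ⊢
      refine ⟨hp.1, ?_⟩
      rw [hx', max_lt_iff]
      refine ⟨?_, hp.2⟩
      apply Real.log_lt_log (by norm_num)
      have := hp.1.2.two_le
      have : 2 < p := by omega
      exact_mod_cast this
  have h4 := Finset.sum_le_sum_of_subset_of_nonneg (f := fun p : ℕ => 1 / (p : ℝ)) h3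
    (fun _ _ _ => by positivity)
  rw [Finset.sum_insert h2mem] at h4
  have h5 := sum_inv_le w hI.1 hx2 hxw
  have h6 : Real.log (Real.log w) - Real.log x' ≤ 2 := by
    rw [← Real.log_div hlw.ne' hx0.ne']
    refine (Real.log_le_sub_one_of_pos (by positivity)).trans ?_
    have h2w := hI.two_log_le
    have : Real.log w / x' ≤ 3 := by
      rw [div_le_iff₀ hx0]
      linarith
    linarith
  have h7 : 18 / x' ≤ 26 := by
    rw [div_le_iff₀ hx0]
    nlinarith
  push_cast at h4
  linarith

/-- the boundary terms of the upper level -/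
theorem BdR_exp_le {κ : ℝ} (hκ : 0 ≤ κ) : ∃ C : ℝ, 0 < C ∧ ∀ y w, Inv y w →
    BdR (y * Real.exp κ) y w ≤ 2 * Bb y w + (if Good y w then C / Real.log y ^ 3 else 0) := by
  obtain ⟨C, hC, hsm⟩ := Rw_small hκ
  obtain ⟨K, hK, hcard⟩ := Bridge.card_P_le
  have he : 0 < Real.exp κ := Real.exp_pos κ
  have he1 : 1 ≤ Real.exp κ := Real.one_le_exp hκ
  refine ⟨C * 36 * (6 * K * Real.exp κ) * 30, by positivity, ?_⟩
  intro y w hI
  have hy4 := hI.y_ge
  have hy0 : 0 < y := by linarith
  have hv := hI.log_y_pos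
  have h2w := hI.two_log_le
  set L := Real.log y with hL
  by_cases hG : Good y w
  swap
  · -- all pairs are accepted
    rw [if_neg hG, add_zero]
    have h0 : BdR (y * Real.exp κ) y w = 0 := by
      unfold BdR
      refine Finset.sum_eq_zero fun p hp => Finset.sum_eq_zero fun q hq => ?_
      rw [if_pos]
      have hp' := mem_P.1 hp
      have hq' := mem_P.1 hq
      have h2 : (p : ℝ) < w := by exact_mod_cast hp'.1
      have h3 : (q : ℝ) < w := by exact_mod_cast (lt_trans hq'.1 hp'.1)
      have h4 : (0 : ℝ) < p := by exact_mod_cast hp'.2.pos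
      have h5 : (0 : ℝ) < q := by exact_mod_cast hq'.2.pos
      have h6 : (q : ℝ) ^ 3 < (w : ℝ) ^ 3 := pow_lt_pow_left₀ h3 h5.le (by norm_num)
      have h7 : (p : ℝ) * (q : ℝ) ^ 3 < w * (w : ℝ) ^ 3 := mul_lt_mul'' h2 h6 h4.le (by positivity)
      have h8 : (w : ℝ) * (w : ℝ) ^ 3 = (w : ℝ) ^ 4 := by ring
      have h9 : (w : ℝ) ^ 4 ≤ y := by
        unfold Good at hG
        have hw0 : (0 : ℝ) < w := by linarith
        rw [← Real.log_le_log_iff (by positivity) hy0, Real.log_pow]
        push_cast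
        linarith
      linarith
    rw [h0]
    exact mul_nonneg (by norm_num) (Bb_nonneg hy0 w)
  rw [if_pos hG]
  -- split
  have h1 : BdR (y * Real.exp κ) y w ≤ 2 * Bb y w + ∑ p ∈ P w, ∑ q ∈ P p,
      (if y ≤ (p : ℝ) * (q : ℝ) ^ 3 ∧ (p : ℝ) * (q : ℝ) ^ 3 ≤ y * Real.exp κ then
        C / ((p : ℝ) * q * Real.log q ^ 2) else 0) := by
    unfold BdR Bb
    rw [Finset.mul_sum, ← Finset.sum_add_distrib]
    refine Finset.sum_le_sum fun p hp => ?_
    rw [Finset.mul_sum, ← Finset.sum_add_distrib]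
    refine Finset.sum_le_sum fun q hq => ?_
    have hp0 : (0 : ℝ) < p := by exact_mod_cast (mem_P.1 hp).2.pos
    have hq2 : (2 : ℝ) ≤ q := by exact_mod_cast (mem_P.1 hq).2.two_le
    have hq0 : (0 : ℝ) < q := by linarith
    have hlq : 0 < Real.log q := Real.log_pos (by linarith)
    by_cases hacc : (p : ℝ) * (q : ℝ) ^ 3 < y
    · rw [if_pos hacc, if_pos hacc, if_neg (fun h => absurd h.1 (not_le.2 hacc))]
      simp
    · rw [if_neg hacc, if_neg hacc]
      have hacc' := not_lt.1 hacc
      have h2 := hsm (y * Real.exp κ / ((p : ℝ) * q)) q hq2 (by positivity) (by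
        rw [div_le_iff₀ (by positivity)]
        have : Real.exp κ * (q : ℝ) ^ 2 * (p * q) = (p * (q : ℝ) ^ 3) * Real.exp κ := by ring
        rw [this]
        exact mul_le_mul_of_nonneg_right hacc' he.le)
      have h3 := div_le_div_of_nonneg_right h2 (by positivity : 0 ≤ y * Real.exp κ)
      refine h3.trans ?_
      rw [add_div]
      refine add_le_add ?_ ?_
      · rw [mul_one_div]
        apply div_le_div_of_nonneg_left (by norm_num) hy0
        nlinarith
      · by_cases hle : (q : ℝ) ^ 2 ≤ y * Real.exp κ / ((p : ℝ) * q)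
        · rw [if_pos hle]
          rw [le_div_iff₀ (by positivity)] at hle
          have h4 : (p : ℝ) * (q : ℝ) ^ 3 ≤ y * Real.exp κ := by
            have : (q : ℝ) ^ 2 * (p * q) = p * (q : ℝ) ^ 3 := by ring
            linarith
          rw [if_pos ⟨hacc', h4⟩]
          have e : C / ((p : ℝ) * q * Real.log q ^ 2) =
              C * ((q : ℝ) ^ 2 / Real.log q ^ 2) / (p * (q : ℝ) ^ 3) := by
            field_simp
          rw [e]
          exact div_le_div_of_nonneg_left (by positivity) (by positivity) h4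
        · rw [if_neg hle, zero_div]
          split_ifs
          · positivity
          · exact le_rfl
  refine h1.trans (add_le_add_right ?_ _)
  -- the inner sums
  have hinner : ∀ p ∈ P w, (∑ q ∈ P p,
      (if y ≤ (p : ℝ) * (q : ℝ) ^ 3 ∧ (p : ℝ) * (q : ℝ) ^ 3 ≤ y * Real.exp κ then
        C / ((p : ℝ) * q * Real.log q ^ 2) else 0)) ≤
      if L / 6 < Real.log p then C * 36 * (6 * K * Real.exp κ) / L ^ 3 * (1 / (p : ℝ)) else 0 := by
    intro p hp
    have hp' := mem_P.1 hp
    have hp0 : (0 : ℝ) < p := by exact_mod_cast hp'.2.pos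
    have hpw : (p : ℝ) < w := by exact_mod_cast hp'.1
    have hp2 : (2 : ℝ) ≤ p := by exact_mod_cast hp'.2.two_le
    have hlpw : Real.log p ≤ Real.log w := Real.log_le_log hp0 hpw.le
    rw [← Finset.sum_filter]
    set S := (P p).filter (fun q : ℕ => y ≤ (p : ℝ) * (q : ℝ) ^ 3 ∧
      (p : ℝ) * (q : ℝ) ^ 3 ≤ y * Real.exp κ) with hS
    by_cases hSe : S = ∅
    · rw [hSe, Finset.sum_empty]
      split_ifs
      · positivity
      · exact le_rfl
    -- lower bound for `q`
    have hqlow : ∀ q ∈ S, (0 : ℝ) < q ∧ L / 6 ≤ Real.log q ∧ y ≤ (p : ℝ) * (q : ℝ) ^ 3 ∧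
        (p : ℝ) * (q : ℝ) ^ 3 ≤ y * Real.exp κ ∧ q < p ∧ q.Prime := by
      intro q hq
      rw [hS, Finset.mem_filter] at hq
      have hq' := mem_P.1 hq.1
      have hq0 : (0 : ℝ) < q := by exact_mod_cast hq'.2.pos
      refine ⟨hq0, ?_, hq.2.1, hq.2.2, hq'.1, hq'.2⟩
      have h2 := Real.log_le_log hy0 hq.2.1
      rw [Real.log_mul hp0.ne' (by positivity), Real.log_pow] at h2
      push_cast at h2
      linarith
    obtain ⟨q0, hq0⟩ := Finset.nonempty_iff_ne_empty.mpr hSe
    obtain ⟨hq00, hq01, hq02, hq03, hq04, hq05⟩ := hqlow q0 hq0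
    have hlp : L / 6 < Real.log p := by
      refine hq01.trans_lt (Real.log_lt_log hq00 (by exact_mod_cast hq04))
    rw [if_pos hlp]
    set Z := (y * Real.exp κ / p) ^ (1 / 3 : ℝ) with hZ
    have hyp : 0 < y * Real.exp κ / p := by positivity
    have hZ0 : 0 < Z := Real.rpow_pos_of_pos hyp _
    have hZ3 : Z ^ 3 = y * Real.exp κ / p := by
      rw [hZ, ← Real.rpow_natCast, ← Real.rpow_mul hyp.le]
      norm_num
    have hqZ : ∀ q ∈ S, (q : ℝ) ≤ Z := by
      intro q hq
      obtain ⟨h2, -, -, h5, -, -⟩ := hqlow q hq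
      have h1 : (q : ℝ) ^ 3 ≤ Z ^ 3 := by
        rw [hZ3, le_div_iff₀ hp0]
        linarith [mul_comm (p : ℝ) ((q : ℝ) ^ 3)]
      exact le_of_pow_le_pow_left₀ (by norm_num) hZ0.le h1
    have hqZ' : ∀ q ∈ S, Z ≤ Real.exp κ * q := by
      intro q hq
      obtain ⟨h2, -, h4, -, -, -⟩ := hqlow q hq
      have h1 : Z ^ 3 ≤ (Real.exp κ * q) ^ 3 := by
        rw [hZ3, div_le_iff₀ hp0, mul_pow]
        have h6 : Real.exp κ ≤ Real.exp κ ^ 3 := by
          calc Real.exp κ = Real.exp κ ^ 1 := (pow_one _).symm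
            _ ≤ Real.exp κ ^ 3 := pow_le_pow_right₀ he1 (by norm_num)
        calc y * Real.exp κ ≤ (p * (q : ℝ) ^ 3) * Real.exp κ ^ 3 :=
              mul_le_mul h4 h6 he.le (by positivity)
          _ = Real.exp κ ^ 3 * (q : ℝ) ^ 3 * p := by ring
      exact le_of_pow_le_pow_left₀ (by norm_num) (by positivity) h1
    have hZ2 : 2 ≤ Z := by
      have h3 : (2 : ℝ) ≤ q0 := by exact_mod_cast hq05.two_le
      linarith [hqZ q0 hq0]
    have hcardS : (S.card : ℝ) ≤ K * Z / Real.log Z := by
      apply hcard Z hZ2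
      intro q hq
      exact ⟨(hqlow q hq).2.2.2.2.2, hqZ q hq⟩
    have hlZ : L / 6 ≤ Real.log Z := hq01.trans (Real.log_le_log hq00 (hqZ q0 hq0))
    have hlZ0 : 0 < Real.log Z := by linarith [div_pos hv (by norm_num : (0:ℝ) < 6)]
    calc ∑ q ∈ S, C / ((p : ℝ) * q * Real.log q ^ 2)
        ≤ ∑ q ∈ S, C * 36 / (p * L ^ 2) * (Real.exp κ / Z) := by
          refine Finset.sum_le_sum fun q hq => ?_
          obtain ⟨h2, h3, -, -, -, -⟩ := hqlow q hq
          have h4 := hqZ' q hq
          have h5 : L ^ 2 / 36 ≤ Real.log q ^ 2 := by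
            have := pow_le_pow_left₀ (by positivity : 0 ≤ L / 6) h3 2
            linarith [(by ring : (L / 6) ^ 2 = L ^ 2 / 36)]
          have h6 : Z / Real.exp κ ≤ q := by
            rw [div_le_iff₀ he]
            linarith [mul_comm (Real.exp κ) (q : ℝ)]
          calc C / ((p : ℝ) * q * Real.log q ^ 2)
              ≤ C / ((p : ℝ) * (Z / Real.exp κ) * (L ^ 2 / 36)) := by
                apply div_le_div_of_nonneg_left hC.le (by positivity)
                exact mul_le_mul (mul_le_mul_of_nonneg_left h6 hp0.le) h5 (by positivity)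
                  (by positivity)
            _ = C * 36 / (p * L ^ 2) * (Real.exp κ / Z) := by
                field_simp
      _ = S.card * (C * 36 / (p * L ^ 2) * (Real.exp κ / Z)) := by
          rw [Finset.sum_const, nsmul_eq_mul]
      _ ≤ (K * Z / Real.log Z) * (C * 36 / (p * L ^ 2) * (Real.exp κ / Z)) :=
          mul_le_mul_of_nonneg_right hcardS (by positivity)
      _ ≤ (K * Z / (L / 6)) * (C * 36 / (p * L ^ 2) * (Real.exp κ / Z)) := by
          apply mul_le_mul_of_nonneg_right _ (by positivity)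
          exact div_le_div_of_nonneg_left (by positivity) (by positivity) hlZ
      _ = C * 36 * (6 * K * Real.exp κ) / L ^ 3 * (1 / (p : ℝ)) := by
          field_simp
  refine (Finset.sum_le_sum hinner).trans ?_
  rw [← Finset.sum_filter]
  have hfe : (P w).filter (fun p : ℕ => L / 6 < Real.log p) = PG w (L / 6) := rfl
  rw [hfe, ← Finset.mul_sum]
  have h2 := sum_PG_le hI
  have h3 := mul_le_mul_of_nonneg_left h2
    (by positivity : 0 ≤ C * 36 * (6 * K * Real.exp κ) / L ^ 3)
  refine h3.trans (le_of_eq ?_)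
  ring

end Crest.Agent.R001.Mass
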