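import Crest.Agent.R001.MassK664

/-! Row 1 (S0001), block (1), file L: lower bound for the line mass (D2). -/

set_option autoImplicit false

namespace Crest.Agent.R001.Mass

open Finset Classical
open Crest.Agent.R001.F1 (Rw F1c)

/-- upper bound for `Kf` at the good nodes -/
theorem Kf_up {κ : ℝ} (hκ : 1 ≤ κ) : ∃ C : ℝ, 0 < C ∧ ∀ y w, Inv y w → Good y w →
    Kf κ y w ≤ C / Real.log y ^ 2 := by
  obtain ⟨C, hC, h⟩ := F1c Par.pnt2_holds
  have he := Real.exp_pos κ
  refine ⟨4 * κ + 2 * C + C * κ ^ 3 + 32 * κ ^ 2, by positivity, ?_⟩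
  intro y w hI hG
  have hy4 := hI.y_ge
  have hy0 : 0 < y := by linarith
  have hv := hI.log_y_pos
  have hv1 := hI.one_le_log
  have hω := hI.log_w_pos
  have h2w := hI.two_log_le
  have hw2 : (2 : ℝ) ≤ w := by exact_mod_cast hI.1
  have hw0 : (0 : ℝ) < w := by linarith
  unfold Good at hG
  set v := Real.log y with hvd
  set ω := Real.log w with hωd
  by_cases hwk : Real.exp κ ≤ w
  · have hlogx : Real.log (y * Real.exp κ) = v + κ := by
      rw [Real.log_mul hy0.ne' he.ne', Real.log_exp]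
    have hyw4 : y < (w : ℝ) ^ 4 := by
      rw [← Real.log_lt_log_iff hy0 (by positivity), Real.log_pow]
      push_cast
      linarith
    have h1 := (h (y * Real.exp κ) w hw2 (by nlinarith [hI.2, Real.one_le_exp (by linarith : 0 ≤ κ)])
      (by
        have : (w : ℝ) ^ 5 = (w : ℝ) ^ 4 * w := by ring
        rw [this]
        exact mul_le_mul hyw4.le hwk he.le (by positivity))).2
    have h2 := (h y w hw2 hI.2 (by
        have : (w : ℝ) ^ 4 ≤ (w : ℝ) ^ 5 := pow_le_pow_right₀ (by linarith) (by norm_num)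
        linarith)).1
    rw [hlogx] at h1
    -- the main terms
    have h3 : 0 ≤ Real.log ((v + κ - ω) / ω) := by
      apply Real.log_nonneg
      rw [le_div_iff₀ hω]
      linarith
    have h4 : 2 * Real.log ((v + κ - ω) / ω) / (v + κ) ≤ 2 * Real.log ((v + κ - ω) / ω) / v := by
      apply div_le_div_of_nonneg_left (by positivity) hv
      linarith
    have h5 : Real.log ((v + κ - ω) / ω) - Real.log ((v - ω) / ω) ≤ 2 * κ / v := by
      rw [← Real.log_div (by
        have : 0 < v + κ - ω := by linarith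
        positivity) (by
        have : 0 < v - ω := by linarith
        positivity)]
      have e : (v + κ - ω) / ω / ((v - ω) / ω) = 1 + κ / (v - ω) := by
        have : v - ω ≠ 0 := by
          have : 0 < v - ω := by linarith
          exact this.ne'
        field_simp
        ring
      rw [e]
      have h6 := Real.log_le_sub_one_of_pos (x := 1 + κ / (v - ω)) (by
        have : 0 < v - ω := by linarith
        positivity)
      refine h6.trans ?_
      rw [add_sub_cancel_left]
      rw [div_le_div_iff₀ (by linarith) hv]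
      nlinarith
    have h6 : 2 * Real.log ((v + κ - ω) / ω) / v - 2 * Real.log ((v - ω) / ω) / v ≤ 4 * κ / v ^ 2 := by
      rw [← sub_div, ← mul_sub]
      have h7 := div_le_div_of_nonneg_right (mul_le_mul_of_nonneg_left h5 (by norm_num : (0:ℝ) ≤ 2))
        hv.le
      refine h7.trans (le_of_eq ?_)
      field_simp
      ring
    have h7 : C / (v + κ) ^ 2 ≤ C / v ^ 2 := by
      apply div_le_div_of_nonneg_left hC.le (by positivity)
      exact pow_le_pow_left₀ hv.le (by linarith) 2
    have h8 : C * (max 0 (v + κ - 4 * ω)) ^ 3 / (v + κ) ^ 4 ≤ C * κ ^ 3 / v ^ 2 := by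
      apply div_le_div₀ (by positivity) _ (by positivity)
      · calc v ^ 2 ≤ v ^ 2 * v ^ 2 := by
              have h0 : (1 : ℝ) ≤ v ^ 2 := one_le_pow₀ hv1
              nlinarith
          _ = v ^ 4 := by ring
          _ ≤ (v + κ) ^ 4 := pow_le_pow_left₀ hv.le (by linarith) 4
      · apply mul_le_mul_of_nonneg_left _ hC.le
        apply pow_le_pow_left₀ (le_max_left _ _)
        exact max_le (by linarith) (by linarith)
    have h9 : Kf κ y w ≤ (4 * κ + 2 * C + C * κ ^ 3) / v ^ 2 := by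
      unfold Kf
      have e : (4 * κ + 2 * C + C * κ ^ 3) / v ^ 2 =
          4 * κ / v ^ 2 + C / v ^ 2 + C / v ^ 2 + C * κ ^ 3 / v ^ 2 := by ring
      rw [e]
      linarith
    refine h9.trans ?_
    apply div_le_div_of_nonneg_right _ (by positivity)
    have : 0 ≤ 32 * κ ^ 2 := by positivity
    linarith
  · have h1 : Kf κ y w ≤ 2 := by
      have h2 := Rw_le_two (x := y * Real.exp κ) (w := w) (by positivity)
      have h3 : 0 ≤ Rw y w / y := div_nonneg (Par.Rw_nonneg _ _) hy0.le
      have h4 : Rw (y * Real.exp κ) w / (y * Real.exp κ) ≤ 2 := by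
        rw [div_le_iff₀ (by positivity)]
        exact h2
      unfold Kf
      linarith
    refine h1.trans ?_
    rw [le_div_iff₀ (by positivity)]
    have h2 : ω ≤ κ := by
      rw [hωd, ← Real.log_exp κ]
      exact Real.log_le_log hw0 (not_le.1 hwk).le
    have h3 : v ≤ 4 * κ := by linarith
    have h4 := pow_le_pow_left₀ hv.le h3 2
    have h5 : 0 ≤ C * κ ^ 3 := by positivity
    nlinarith

/-- abstract lower step -/
theorem step_low {K B : ℝ → ℕ → ℝ} {Ce : ℝ} (stop : ℝ → ℕ → Prop)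
    (hrec : ∀ y w, Inv y w → K y w ≤ Op K y w + (Ce * Xi y w + B y w))
    (hB0 : ∀ y w, Inv y w → 0 ≤ B y w) (hBop : ∀ y w, Inv y w → Op B y w ≤ Ce * Xi y w) :
    ∀ y w, Inv y w → K y w ≤ T stop (fun _ _ => 0) K y w + B y w +
      2 * Ce * T stop Xi (fun _ _ => 0) y w := by
  have ha : ∀ y w, Inv y w → K y w ≤ T stop (fun _ _ => 0) K y w +
      T stop (fun y w => Ce * Xi y w + B y w) (fun _ _ => 0) y w := by
    refine tree_induction inv_closed ?_
    intro y w hI ih
    by_cases hs : stop y w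
    · rw [T_stop hs, T_stop hs, add_zero]
    · rw [T_not hs, T_not hs, zero_add]
      have h1 := Op_mono (h₁ := K) (h₂ := fun y w => T stop (fun _ _ => 0) K y w +
        T stop (fun y w => Ce * Xi y w + B y w) (fun _ _ => 0) y w) ih
      rw [Op_add (T stop (fun _ _ => 0) K)] at h1
      have h2 := hrec y w hI
      linarith
  intro y w hI
  have h1 := ha y w hI
  have h2 : T stop (fun y w => Ce * Xi y w + B y w) (fun _ _ => 0) y w =
      Ce * T stop Xi (fun _ _ => 0) y w + T stop B (fun _ _ => 0) y w := by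
    have e := T_add (stop := stop) (f := fun y w => Ce * Xi y w) (g := fun _ _ => 0)
      (f' := B) (g' := fun _ _ => 0) y w
    simp only [add_zero] at e
    rw [e, T_smul']
  have h3 := T_shift (stop := stop) inv_closed hB0 y w hI
  have h4 : T stop (Op B) (fun _ _ => 0) y w ≤ Ce * T stop Xi (fun _ _ => 0) y w := by
    rw [← T_smul']
    exact T_mono inv_closed (fun y w h _ => hBop y w h) (fun _ _ _ _ => le_rfl) y w hI
  linarith

/-- lower bound of the line mass for roots with `w⁵ ≤ y²` -/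
theorem lower0 : ∃ c V2 : ℝ, 0 < c ∧ 1 ≤ V2 ∧ ∀ V : ℝ, V2 ≤ V → ∀ y w, Inv y w → Good y w →
    V < Real.log y → (w : ℝ) ^ 5 ≤ y ^ 2 →
    c / Real.log y ^ 2 ≤
      T (stopV V) (fun _ _ => 0) (fun y _ => 1 / Real.log y ^ 2) y w := by
  obtain ⟨κ, cg, Wg, hκ, hcg, hWg, hgood⟩ := Kf_good
  obtain ⟨Ck, hCk, hup⟩ := Kf_up hκ
  obtain ⟨Ce, hCe, herr⟩ := err_Xi
  obtain ⟨Cb, hCb, hb1, hb2⟩ := bbh
  obtain ⟨Cx, hCx, hx⟩ := BdR_exp_le (κ := κ) (by linarith)
  obtain ⟨Kb, hKb, hKb'⟩ := Bridge.B_le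
  obtain ⟨C, V1, hC, hV1, hab⟩ := above_Xi
  obtain ⟨cc⟩ := exists_consts
  have hC1 := cc.hC1
  set B' : ℝ → ℕ → ℝ := fun y w => BdR (y * Real.exp κ) y w with hB'
  set Ce' : ℝ := Ce + 2 * Cb + 256 * Cx * cc.C1 with hCe'
  have hCe'0 : 0 < Ce' := by positivity
  -- `B'` is small after one generation
  have hBop : ∀ y w, Inv y w → Op B' y w ≤ Ce' * Xi y w := by
    intro y w hI
    have hX := Xi_pos hI
    have h1 : Op B' y w ≤ Op (fun y w => 2 * Bb y w + 256 * Cx * Xi y w) y w := by
      refine Op_mono fun p q hc => ?_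
      have hIc := inv_closed y w p q hI hc
      refine (hx _ _ hIc).trans (add_le_add_right ?_ _)
      have hXc := Xi_pos hIc
      by_cases hG : Good (y / ((p : ℝ) * q)) q
      · rw [if_pos hG]
        have h2 := good_Xi hIc hG
        have h3 := hIc.one_le_log
        have h4 : Cx / Real.log (y / ((p : ℝ) * q)) ^ 3 ≤
            Cx * Real.log (y / ((p : ℝ) * q)) ^ (-(9 / 4) : ℝ) := by
          rw [div_eq_mul_inv]
          apply mul_le_mul_of_nonneg_left _ hCx.le
          rw [← Real.rpow_natCast, ← Real.rpow_neg (by linarith)]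
          exact Real.rpow_le_rpow_of_exponent_le h3 (by norm_num)
        have h5 := mul_le_mul_of_nonneg_left h2 hCx.le
        linarith
      · rw [if_neg hG]
        positivity
    rw [Op_add (fun y w => 2 * Bb y w) (fun y w => 256 * Cx * Xi y w), Op_smul, Op_smul] at h1
    have h2 := hb2 y w hI
    have h3 := mul_le_mul_of_nonneg_left (cc.op y w hI) (by positivity : 0 ≤ 256 * Cx)
    rw [hCe']
    nlinarith
  have hB0 : ∀ y w, Inv y w → 0 ≤ B' y w := by
    intro y w hI
    have hy0 : 0 < y := by linarith [hI.y_ge]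
    exact BdR_nonneg (by positivity) w
  have hrec : ∀ y w, Inv y w → Kf κ y w ≤ Op (Kf κ) y w + (Ce' * Xi y w + B' y w) := by
    intro y w hI
    have hy0 : 0 < y := by linarith [hI.y_ge]
    have h1 := Kf_rec κ hy0 w
    have h2 := (abs_le.1 (herr y w hI κ (by linarith))).2
    have h3 := BdR_nonneg (x := y) (y := y) hy0 w
    have hX := Xi_pos hI
    have h4 : Ce * Xi y w ≤ Ce' * Xi y w := by
      apply mul_le_mul_of_nonneg_right _ hX.le
      rw [hCe']
      have : 0 < 2 * Cb + 256 * Cx * cc.C1 := by positivity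
      linarith
    rw [h1]
    simp only [hB']
    linarith
  set C4 : ℝ := 2 * Ce' * C with hC4
  -- the threshold
  obtain ⟨V2, hV2a, hV2b, hV2c, hV2d⟩ : ∃ V2 : ℝ, V1 ≤ V2 ∧ 4 * Real.log Wg ≤ V2 ∧
      4 * (10 * Kb + Cx) / cg ≤ V2 ∧ (4 * C4 / cg) ^ 4 ≤ V2 := by
    refine ⟨max V1 (max (4 * Real.log Wg) (max (4 * (10 * Kb + Cx) / cg) ((4 * C4 / cg) ^ 4))),
      ?_, ?_, ?_, ?_⟩
    · exact le_max_left _ _
    · exact (le_max_left _ _).trans (le_max_right _ _)
    · exact (le_max_left _ _).trans ((le_max_right _ _).trans (le_max_right _ _))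
    · exact (le_max_right _ _).trans ((le_max_right _ _).trans (le_max_right _ _))
  refine ⟨cg / (2 * Ck), V2, by positivity, by linarith, ?_⟩
  intro V hV y w hI hG hlt hw5
  have hV0 : 0 < V := by linarith
  have hv := hI.log_y_pos
  have hv1 := hI.one_le_log
  have hy4 := hI.y_ge
  have hy0 : 0 < y := by linarith
  have hw0 : (0 : ℝ) < w := by exact_mod_cast (by have := hI.1; omega : 0 < w)
  set v := Real.log y with hvd
  -- `w` is large
  have hwW : Wg ≤ w := by
    unfold Good at hG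
    have h1 : Real.log Wg ≤ Real.log w := by linarith
    have h2 : (Wg : ℝ) ≤ w := by
      rwa [Real.log_le_log_iff (by exact_mod_cast (by omega : 0 < Wg)) hw0] at h1
    exact_mod_cast h2
  have h1 := hgood y w hI hG hwW
  have h2 := step_low (stopV V) hrec hB0 hBop y w hI
  -- the boundary at the root
  have h3 : B' y w ≤ (10 * Kb + Cx) / v ^ 3 := by
    have h4 := hx y w hI
    rw [if_pos hG] at h4
    have h5 : Bb y w ≤ 5 * Kb / v ^ 3 := by
      rw [Bb_eq hI]
      refine (hKb' y w hI).trans ?_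
      split_ifs
      · -- `w² / y ≤ y^(-1/5) ≤ 5 / v`
        have h6 : (w : ℝ) ^ 2 / y ≤ 5 / v := by
          have h7 : ((w : ℝ) ^ 2 / y) ^ 5 ≤ (5 / v) ^ 5 := by
            have h8 : ((w : ℝ) ^ 2 / y) ^ 5 ≤ 1 / y := by
              rw [div_pow, div_le_div_iff₀ (by positivity) hy0]
              calc ((w : ℝ) ^ 2) ^ 5 * y = ((w : ℝ) ^ 5) ^ 2 * y := by ring
                _ ≤ (y ^ 2) ^ 2 * y := by
                    apply mul_le_mul_of_nonneg_right _ hy0.le
                    exact pow_le_pow_left₀ (by positivity) hw5 2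
                _ = 1 * y ^ 5 := by ring
            refine h8.trans ?_
            rw [div_pow, div_le_div_iff₀ hy0 (by positivity), one_mul]
            have h9 : v / 5 ≤ y ^ (1 / 5 : ℝ) := by
              have := Real.add_one_le_exp (v / 5)
              have e : Real.exp (v / 5) = y ^ (1 / 5 : ℝ) := by
                rw [Real.rpow_def_of_pos hy0]
                ring_nf
                rw [hvd]
              linarith
            have h10 := pow_le_pow_left₀ (by positivity) h9 5
            rw [← Real.rpow_natCast (y ^ (1 / 5 : ℝ)), ← Real.rpow_mul hy0.le] at h10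
            norm_num at h10
            nlinarith
          exact le_of_pow_le_pow_left₀ (by norm_num) (by positivity) h7
        have h11 : Kb * (w : ℝ) ^ 2 / (y * v ^ 2) = Kb / v ^ 2 * ((w : ℝ) ^ 2 / y) := by
          field_simp
        rw [h11]
        have h12 := mul_le_mul_of_nonneg_left h6 (by positivity : 0 ≤ Kb / v ^ 2)
        refine h12.trans (le_of_eq ?_)
        field_simp
      · positivity
    have e : (10 * Kb + Cx) / v ^ 3 = 2 * (5 * Kb / v ^ 3) + Cx / v ^ 3 := by ring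
    rw [e]
    linarith
  have h4 : (10 * Kb + Cx) / v ^ 3 ≤ cg / 4 / v ^ 2 := by
    rw [div_le_div_iff₀ (by positivity) (by positivity)]
    have h5 : 4 * (10 * Kb + Cx) ≤ v * cg := by
      have := hV2c
      rw [div_le_iff₀ hcg] at this
      nlinarith
    have h6 : 0 ≤ v ^ 2 := by positivity
    nlinarith
  -- the potential
  have h5 := hab V (by linarith) y w hI hlt
  have h6 : (v / V) ^ (1 / 4 : ℝ) * Xi y w ≤ V ^ (-(1 / 4) : ℝ) / v ^ 2 := by
    rw [Real.div_rpow hv.le hV0.le, Real.rpow_neg hV0.le]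
    have h7 := om_le hI
    rw [← quarter_Xi hI, ← hvd] at h7
    rw [div_mul_eq_mul_div, div_le_iff₀ (by positivity)]
    refine h7.trans (le_of_eq ?_)
    field_simp
  have h7 : 2 * Ce' * T (stopV V) Xi (fun _ _ => 0) y w ≤ cg / 4 / v ^ 2 := by
    have h8 : 2 * Ce' * T (stopV V) Xi (fun _ _ => 0) y w ≤ C4 * (V ^ (-(1 / 4) : ℝ) / v ^ 2) := by
      calc 2 * Ce' * T (stopV V) Xi (fun _ _ => 0) y w
          ≤ 2 * Ce' * (C * (v / V) ^ (1 / 4 : ℝ) * Xi y w) :=
            mul_le_mul_of_nonneg_left h5 (by positivity)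
        _ = C4 * ((v / V) ^ (1 / 4 : ℝ) * Xi y w) := by rw [hC4]; ring
        _ ≤ _ := mul_le_mul_of_nonneg_left h6 (by positivity)
    refine h8.trans ?_
    have h9 : 4 * C4 / cg ≤ V ^ (1 / 4 : ℝ) := by
      have h10 : 4 * C4 / cg = ((4 * C4 / cg) ^ 4) ^ (1 / 4 : ℝ) := by
        rw [← Real.rpow_natCast, ← Real.rpow_mul (by positivity)]
        norm_num
      rw [h10]
      exact Real.rpow_le_rpow (by positivity) (by linarith) (by norm_num)
    rw [div_le_iff₀ hcg] at h9
    rw [← mul_div_assoc]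
    apply div_le_div_of_nonneg_right _ (by positivity)
    rw [Real.rpow_neg hV0.le, ← div_eq_mul_inv, div_le_iff₀ (by positivity)]
    linarith
  -- conclusion
  have h8 : cg / 2 / v ^ 2 ≤ T (stopV V) (fun _ _ => 0) (Kf κ) y w := by
    have e : cg / v ^ 2 = cg / 2 / v ^ 2 + cg / 4 / v ^ 2 + cg / 4 / v ^ 2 := by ring
    rw [e] at h1
    linarith
  have h9 : T (stopV V) (fun _ _ => 0) (Kf κ) y w ≤
      Ck * T (stopV V) (fun _ _ => 0) (fun y _ => 1 / Real.log y ^ 2) y w := by
    have e := T_smul (stop := stopV V) (f := fun _ _ => 0)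
      (g := fun y _ => 1 / Real.log y ^ 2) Ck y w
    simp only [mul_zero] at e
    rw [← e]
    refine T_mono inv_closed (fun _ _ _ _ => le_rfl) (fun y w h hs => ?_) y w hI
    rw [mul_one_div]
    exact hup y w h hs.1
  have h10 : cg / (2 * Ck) / v ^ 2 = cg / 2 / v ^ 2 / Ck := by
    field_simp
  rw [h10, div_le_iff₀ hCk]
  linarith

/-- the line mass is monotone in `w` (roots above the line) -/
theorem line_mono_w {V : ℝ} {g : ℝ → ℕ → ℝ} (hg : ∀ y w, Inv y w → 0 ≤ g y w) {y : ℝ} {w w' : ℕ}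
    (hI' : Inv y w') (hw : w ≤ w') (hlt : V < Real.log y) :
    T (stopV V) (fun _ _ => 0) g y w ≤ T (stopV V) (fun _ _ => 0) g y w' := by
  have h1 : ¬ stopV V y w := fun h => absurd h.2 (not_le.2 hlt)
  have h2 : ¬ stopV V y w' := fun h => absurd h.2 (not_le.2 hlt)
  rw [T_not h1, T_not h2, zero_add, zero_add]
  refine Op_mono_w hw fun p q hc => ?_
  exact T_nonneg inv_closed (fun _ _ _ => le_rfl) hg _ _ (inv_closed y w' p q hI' hc)

/-- lower bound of the line mass, all good roots -/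
theorem lower1 : ∃ c V2 : ℝ, 0 < c ∧ 1 ≤ V2 ∧ ∀ V : ℝ, V2 ≤ V → ∀ y w, Inv y w → Good y w →
    V < Real.log y →
    c / Real.log y ^ 2 ≤
      T (stopV V) (fun _ _ => 0) (fun y _ => 1 / Real.log y ^ 2) y w := by
  obtain ⟨c, V2, hc, hV2, h⟩ := lower0
  refine ⟨c, max V2 20, hc, le_trans hV2 (le_max_left _ _), ?_⟩
  intro V hV y w hI hG hlt
  have hVa : V2 ≤ V := (le_max_left _ _).trans hV
  have hVb : 20 ≤ V := (le_max_right _ _).trans hV
  by_cases hw5 : (w : ℝ) ^ 5 ≤ y ^ 2
  · exact h V hVa y w hI hG hlt hw5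
  push Not at hw5
  have hy4 := hI.y_ge
  have hy0 : 0 < y := by linarith
  have hv := hI.log_y_pos
  have hw0 : (0 : ℝ) < w := by exact_mod_cast (by have := hI.1; omega : 0 < w)
  -- `t = y^(1/20)`
  set t : ℝ := y ^ (1 / 20 : ℝ) with ht
  have ht0 : 0 < t := Real.rpow_pos_of_pos hy0 _
  have ht20 : t ^ 20 = y := by
    rw [ht, ← Real.rpow_natCast, ← Real.rpow_mul hy0.le]
    norm_num
  have ht2 : 2 ≤ t := by
    have h1 : Real.exp 1 ≤ t := by
      rw [ht, Real.rpow_def_of_pos hy0]
      apply Real.exp_le_exp.2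
      linarith
    have := Real.exp_one_gt_d9
    linarith
  set w' : ℕ := ⌊t ^ 8⌋₊ with hw'
  have hw'le : (w' : ℝ) ≤ t ^ 8 := Nat.floor_le (by positivity)
  have hw'gt : t ^ 8 < (w' : ℝ) + 1 := Nat.lt_floor_add_one _
  have ht58 : t ^ 5 + 1 ≤ t ^ 8 := by
    have h1 : 2 ^ 3 ≤ t ^ 3 := pow_le_pow_left₀ (by norm_num) ht2 3
    have h2 : (2 : ℝ) ^ 5 ≤ t ^ 5 := pow_le_pow_left₀ (by norm_num) ht2 5
    have h3 : t ^ 8 = t ^ 5 * t ^ 3 := by ring
    rw [h3]
    nlinarith
  have hw't5 : t ^ 5 < (w' : ℝ) := by linarith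
  have hw'0 : (0 : ℝ) < w' := lt_trans (by positivity) hw't5
  have hw'5 : (w' : ℝ) ^ 5 ≤ y ^ 2 := by
    have h1 := pow_le_pow_left₀ hw'0.le hw'le 5
    calc (w' : ℝ) ^ 5 ≤ (t ^ 8) ^ 5 := h1
      _ = (t ^ 20) ^ 2 := by ring
      _ = y ^ 2 := by rw [ht20]
  have hww' : w' ≤ w := by
    have h1 : (w' : ℝ) ^ 5 < (w : ℝ) ^ 5 := lt_of_le_of_lt hw'5 hw5
    have h2 := lt_of_pow_lt_pow_left₀ 5 hw0.le h1
    exact_mod_cast h2.le
  have hI' : Inv y w' := by
    refine ⟨?_, ?_⟩
    · have h1 : (2 : ℝ) ^ 5 ≤ t ^ 5 := pow_le_pow_left₀ (by norm_num) ht2 5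
      have h2 : (2 : ℝ) < w' := by linarith
      have h3 : 2 < w' := by exact_mod_cast h2
      omega
    · have h1 : (w' : ℝ) ≤ w := by exact_mod_cast hww'
      have h2 := pow_le_pow_left₀ hw'0.le h1 2
      linarith [hI.2]
  have hG' : Good y w' := by
    unfold Good
    have h1 : y < (w' : ℝ) ^ 4 := by
      have h2 := pow_lt_pow_left₀ hw't5 (by positivity) (n := 4) (by norm_num)
      calc y = (t ^ 5) ^ 4 := by rw [← ht20]; ring
        _ < (w' : ℝ) ^ 4 := h2
    have h2 := Real.log_lt_log hy0 h1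
    rw [Real.log_pow] at h2
    exact_mod_cast h2
  refine (h V hVa y w' hI' hG' hlt hw'5).trans ?_
  exact line_mono_w (fun y w h => by have := h.log_y_pos; positivity) hI hww' hlt

/-- **(D2)** lower bound of the line mass -/
theorem lower : ∃ c V2 η : ℝ, 0 < c ∧ 1 ≤ V2 ∧ 0 < η ∧ η < 1 ∧ ∀ V : ℝ, V2 ≤ V → ∀ y w, Inv y w →
    Good y w → V < Real.log y →
    c / Real.log y ^ 2 ≤ T (stopV V) (fun _ _ => 0)
      (fun y _ => if η * V < Real.log y then 1 / Real.log y ^ 2 else 0) y w := by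
  obtain ⟨c, V2, hc, hV2, h⟩ := lower1
  obtain ⟨C, V1, hC, hV1, hsq⟩ := line_sq
  set η : ℝ := min (1 / 2) ((c / (2 * C)) ^ 4) with hη
  have hη0 : 0 < η := lt_min (by norm_num) (by positivity)
  have hη1 : η < 1 := lt_of_le_of_lt (min_le_left _ _) (by norm_num)
  refine ⟨c / 2, max V1 V2, η, by positivity, le_trans hV1 (le_max_left _ _), hη0, hη1, ?_⟩
  intro V hV y w hI hG hlt
  have hVa : V1 ≤ V := (le_max_left _ _).trans hV
  have hVb : V2 ≤ V := (le_max_right _ _).trans hV
  have hV0 : 0 < V := by linarith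
  have hv := hI.log_y_pos
  have h1 := h V hVb y w hI hG hlt
  have h2 := hsq V hVa (η * V) (by positivity) y w hI hlt
  have h3 : T (stopV V) (fun _ _ => 0) (fun y _ => 1 / Real.log y ^ 2) y w =
      T (stopV V) (fun _ _ => 0)
        (fun y _ => if η * V < Real.log y then 1 / Real.log y ^ 2 else 0) y w +
      T (stopV V) (fun _ _ => 0)
        (fun y _ => if Real.log y ≤ η * V then 1 / Real.log y ^ 2 else 0) y w := by
    have e := T_add (stop := stopV V) (f := fun _ _ => 0)
      (g := fun y _ => if η * V < Real.log y then 1 / Real.log y ^ 2 else 0)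
      (f' := fun _ _ => 0)
      (g' := fun y _ => if Real.log y ≤ η * V then 1 / Real.log y ^ 2 else 0) y w
    rw [← e]
    congr 1
    · funext y w
      simp
    · funext y w
      by_cases h : η * V < Real.log y
      · rw [if_pos h, if_neg (not_le.2 h), add_zero]
      · rw [if_neg h, if_pos (not_lt.1 h), zero_add]
  have h4 : (η * V / V) ^ (1 / 4 : ℝ) ≤ c / (2 * C) := by
    rw [mul_div_cancel_right₀ _ hV0.ne']
    have h5 : c / (2 * C) = ((c / (2 * C)) ^ 4) ^ (1 / 4 : ℝ) := by
      rw [← Real.rpow_natCast, ← Real.rpow_mul (by positivity)]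
      norm_num
    rw [h5]
    exact Real.rpow_le_rpow hη0.le (min_le_right _ _) (by norm_num)
  have h5 : C * (η * V / V) ^ (1 / 4 : ℝ) * (Real.log w ^ 4 / Real.log y ^ 6) ≤
      c / 2 / Real.log y ^ 2 := by
    have h6 := om_le hI
    calc C * (η * V / V) ^ (1 / 4 : ℝ) * (Real.log w ^ 4 / Real.log y ^ 6)
        ≤ C * (c / (2 * C)) * (1 / Real.log y ^ 2) := by
          apply mul_le_mul (mul_le_mul_of_nonneg_left h4 hC.le) h6 _ (by positivity)
          have := hI.log_w_pos
          positivity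
      _ = c / 2 / Real.log y ^ 2 := by field_simp
  have h6 : c / Real.log y ^ 2 = c / 2 / Real.log y ^ 2 + c / 2 / Real.log y ^ 2 := by ring
  rw [h6] at h1
  linarith

end Crest.Agent.R001.Mass
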