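import Crest.Agent.R001.TreeHyb
import Crest.Agent.R001.End

/-!
# The primes between `√D` and `z`
-/

namespace Crest.Agent.R001.Tree

open Finset Classical
open Crest.Agent.R001.End (rough mem_rough bt card_dvd_rough)

lemma sI_eq_rough (a : ℤ) (X w : ℕ) :
    sI a X 1 w = ((rough (Ioc (a - X) a) w).card : ℝ) := by
  rw [sI_eq]
  congr 2
  ext t
  rw [mem_rough, mem_filter]
  constructor
  · rintro ⟨h1, _, h2⟩
    exact ⟨h1, fun p hp hw => h2 p hp (by exact_mod_cast hw)⟩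
  · rintro ⟨h1, h2⟩
    exact ⟨h1, by simp, fun p hp hw => h2 p hp (by exact_mod_cast hw)⟩

/-- sum of `1/p` over primes in `[w0, z)` -/
lemma sum_inv_le {X z : ℝ} {w0 : ℕ} (hX : 1 < X) (hL : 8 * Real.log (Real.log X) + 4 ≤ Real.log X)
    (hl : 1 ≤ Real.log (Real.log X)) (hw0 : X / (Real.log X) ^ 4 ≤ (w0 : ℝ) ^ 2)
    (hz0 : (w0 : ℝ) < z) (hz : z ^ 2 ≤ X * (Real.log X) ^ ((21 : ℝ) / 10)) (hw : 4 ≤ w0) :
    ∑ p ∈ (range ⌈z⌉₊).filter (fun p => p.Prime ∧ w0 ≤ p), (1 : ℝ) / p ≤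
      100 * (Real.log (Real.log X) / Real.log X) := by
  set L := Real.log X with hLdef
  set l := Real.log L with hldef
  have hLpos : 0 < L := by linarith
  have hw4 : (4 : ℝ) ≤ w0 := by exact_mod_cast hw
  have hy2 : (2 : ℝ) ≤ (w0 : ℝ) - 1 := by linarith
  have hyz : (w0 : ℝ) - 1 ≤ z := by linarith
  have hm := Crest.Agent.Lib.Mertens.mertens_two ((w0 : ℝ) - 1) z hy2 hyz
  have hsub : (range ⌈z⌉₊).filter (fun p => p.Prime ∧ w0 ≤ p) ⊆
      Crest.Agent.Lib.Mertens.pr ((w0 : ℝ) - 1) z := by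
    intro p hp
    rw [mem_filter, mem_range] at hp
    rw [Crest.Agent.Lib.Mertens.mem_pr (by linarith) (by linarith)]
    have h1 : (p : ℝ) < z := by
      by_contra h
      push Not at h
      have := Nat.ceil_le.2 h
      omega
    have h2 : (w0 : ℝ) ≤ p := by exact_mod_cast hp.2.2
    exact ⟨⟨by linarith, h1.le⟩, hp.2.1⟩
  have h1 : ∑ p ∈ (range ⌈z⌉₊).filter (fun p => p.Prime ∧ w0 ≤ p), (1 : ℝ) / p ≤
      ∑ p ∈ Crest.Agent.Lib.Mertens.pr ((w0 : ℝ) - 1) z, (1 : ℝ) / p :=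
    Finset.sum_le_sum_of_subset_of_nonneg hsub (fun _ _ _ => by positivity)
  refine h1.trans ?_
  have h2 := (abs_le.1 hm).2
  -- logs
  have hlogw : L / 2 - 2 * l ≤ Real.log w0 := by
    have h3 : Real.log (X / L ^ 4) ≤ Real.log ((w0 : ℝ) ^ 2) :=
      Real.log_le_log (by positivity) hw0
    rw [Real.log_div (by linarith) (by positivity), Real.log_pow, Real.log_pow] at h3
    push_cast at h3
    linarith
  have hlogy : L / 2 - 2 * l - 1 ≤ Real.log ((w0 : ℝ) - 1) := by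
    have h3 : Real.log ((w0 : ℝ) / 2) ≤ Real.log ((w0 : ℝ) - 1) :=
      Real.log_le_log (by positivity) (by linarith)
    rw [Real.log_div (by linarith) (by norm_num)] at h3
    have : Real.log 2 < 1 := by
      have := Real.log_two_lt_d9; linarith
    linarith
  have hlogz : Real.log z ≤ L / 2 + 1.05 * l := by
    have hzpos : 0 < z := by linarith
    have h3 : Real.log (z ^ 2) ≤ Real.log (X * L ^ ((21 : ℝ) / 10)) :=
      Real.log_le_log (by positivity) hz
    rw [Real.log_mul (by linarith) (by positivity), Real.log_pow, Real.log_rpow hLpos] at h3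
    push_cast at h3
    linarith
  set ly := Real.log ((w0 : ℝ) - 1) with hly
  have hly4 : L / 4 ≤ ly := by linarith
  have hlypos : 0 < ly := by linarith
  have hlz : ly ≤ Real.log z := Real.log_le_log (by linarith) hyz
  have h3 : Real.log (Real.log z) - Real.log ly ≤ (Real.log z - ly) / ly := by
    rw [← Real.log_div (by linarith) hlypos.ne']
    refine (Real.log_le_sub_one_of_pos (by apply div_pos <;> linarith)).trans ?_
    rw [sub_div, div_self hlypos.ne']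
  have h4 : ∑ p ∈ Crest.Agent.Lib.Mertens.pr ((w0 : ℝ) - 1) z, (1 : ℝ) / p
      ≤ (Real.log z - ly + 18) / ly := by
    rw [add_div]; linarith
  refine h4.trans ?_
  rw [div_le_iff₀ hlypos]
  have h5 : Real.log z - ly + 18 ≤ 25 * l := by linarith
  refine h5.trans ?_
  rw [mul_div_assoc', div_mul_eq_mul_div, le_div_iff₀ hLpos]
  have : 0 ≤ l := by linarith
  nlinarith

/-- **ROOT.** loss from the primes between `w0 ≈ √D` and `z`. -/
theorem root_loss : ∃ C X0 : ℝ, 0 < C ∧ ∀ X : ℕ, X0 ≤ X → ∀ (a : ℤ) (z : ℝ),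
    z ^ 2 ≤ X * (Real.log X) ^ ((21 : ℝ) / 10) → ∀ w0 : ℕ,
    (X : ℝ) / (Real.log X) ^ 4 ≤ (w0 : ℝ) ^ 2 →
    sI a X 1 w0 - C * (Real.log (Real.log X) * X / (Real.log X) ^ 2) ≤
      ((rough (Ioc (a - X) a) z).card : ℝ) := by
  obtain ⟨C, hC, hbt⟩ := bt
  -- eventual inequalities
  have hev : ∀ᶠ x : ℝ in Filter.atTop, 1 < x ∧ 8 * Real.log (Real.log x) + 4 ≤ Real.log x ∧
      1 ≤ Real.log (Real.log x) ∧ x ^ ((1 : ℝ) / 10) ≤ x / (Real.log x) ^ 4 ∧ 16 < x ^ ((1 : ℝ) / 10) ∧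
      (Real.log x) ^ ((21 : ℝ) / 10) ≤ x ^ ((1 : ℝ) / 10) ∧ 8 ≤ x ^ ((1 : ℝ) / 20) := by
    have hlog : Filter.Tendsto Real.log Filter.atTop Filter.atTop := Real.tendsto_log_atTop
    refine (Filter.eventually_gt_atTop 1).and ?_
    refine Filter.Eventually.and ?_ ((hlog.comp hlog).eventually_ge_atTop 1 |>.and ?_)
    · have h1 : ∀ᶠ y : ℝ in Filter.atTop, 8 * Real.log y + 4 ≤ y := by
        have := Real.isLittleO_log_id_atTop.bound (show (0:ℝ) < 1 / 16 by norm_num)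
        filter_upwards [this, Filter.eventually_ge_atTop 8] with y hy hy8
        simp only [Real.norm_eq_abs, id] at hy
        rw [abs_of_pos (by linarith : (0:ℝ) < y)] at hy
        have := le_abs_self (Real.log y)
        linarith
      exact hlog.eventually h1
    · have h2 : ∀ᶠ x : ℝ in Filter.atTop, (Real.log x) ^ (4:ℝ) ≤ x ^ ((9 : ℝ) / 10) := by
        have := (isLittleO_log_rpow_rpow_atTop (4:ℝ) (show (0:ℝ) < 9 / 10 by norm_num)).bound one_pos
        filter_upwards [this, Filter.eventually_ge_atTop 1] with x hx hx1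
        rw [one_mul, Real.norm_eq_abs, Real.norm_eq_abs, abs_of_nonneg (by positivity : (0:ℝ) ≤ x ^ ((9:ℝ)/10))] at hx
        exact (le_abs_self _).trans hx
      have h3 : ∀ᶠ x : ℝ in Filter.atTop, (Real.log x) ^ ((21 : ℝ) / 10) ≤ x ^ ((1 : ℝ) / 10) := by
        have := (isLittleO_log_rpow_rpow_atTop ((21:ℝ)/10) (show (0:ℝ) < 1 / 10 by norm_num)).bound one_pos
        filter_upwards [this, Filter.eventually_ge_atTop 1] with x hx hx1
        rw [one_mul, Real.norm_eq_abs, Real.norm_eq_abs, abs_of_nonneg (by positivity : (0:ℝ) ≤ x ^ ((1:ℝ)/10))] at hx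
        exact (le_abs_self _).trans hx
      have h4 : ∀ᶠ x : ℝ in Filter.atTop, 16 < x ^ ((1 : ℝ) / 10) :=
        (tendsto_rpow_atTop (by norm_num)).eventually_gt_atTop 16
      have h5 : ∀ᶠ x : ℝ in Filter.atTop, 8 ≤ x ^ ((1 : ℝ) / 20) :=
        (tendsto_rpow_atTop (by norm_num)).eventually_ge_atTop 8
      filter_upwards [h2, h3, h4, h5, Filter.eventually_gt_atTop 1] with x h2 h3 h4 h5 hx1
      refine ⟨?_, h4, h3, h5⟩
      have hlx : 0 < Real.log x := Real.log_pos hx1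
      rw [le_div_iff₀ (by positivity)]
      have h2' : (Real.log x) ^ 4 ≤ x ^ ((9 : ℝ) / 10) := by
        rw [← Real.rpow_natCast]; exact_mod_cast h2
      calc x ^ ((1 : ℝ) / 10) * (Real.log x) ^ 4 ≤ x ^ ((1 : ℝ) / 10) * x ^ ((9 : ℝ) / 10) := by gcongr
        _ = x := by rw [← Real.rpow_add (by linarith)]; norm_num
  obtain ⟨X0, hX0⟩ := Filter.eventually_atTop.1 hev
  refine ⟨600 * C, X0, by positivity, fun X hX a z hz w0 hw0 => ?_⟩
  obtain ⟨hX1, hL, hl, hXL, hX10, hLz, hX20⟩ := hX0 X hX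
  set L := Real.log X with hLdef
  set l := Real.log L with hldef
  have hLpos : 0 < L := by linarith
  have hXpos : (0 : ℝ) < X := by linarith
  have hw0sq : (X : ℝ) ^ ((1:ℝ)/10) ≤ (w0 : ℝ) ^ 2 := hXL.trans hw0
  have hw0ge : 4 ≤ w0 := by
    by_contra h
    push Not at h
    have : (w0 : ℝ) ≤ 3 := by exact_mod_cast (by omega : w0 ≤ 3)
    have h0 : (0:ℝ) ≤ w0 := by positivity
    nlinarith
  rw [sI_eq_rough]
  by_cases hzw : z ≤ w0
  · -- trivial case
    have h1 : (rough (Ioc (a - X) a) w0).card ≤ (rough (Ioc (a - X) a) z).card := by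
      apply Finset.card_le_card
      intro t ht
      rw [mem_rough] at ht ⊢
      exact ⟨ht.1, fun p hp hpz => ht.2 p hp (lt_of_lt_of_le hpz hzw)⟩
    have h2 : ((rough (Ioc (a - X) a) w0).card : ℝ) ≤ (rough (Ioc (a - X) a) z).card := by
      exact_mod_cast h1
    have h3 : 0 ≤ 600 * C * (l * X / L ^ 2) := by
      have : 0 ≤ l := by linarith
      positivity
    linarith
  · push Not at hzw
    set P := (range ⌈z⌉₊).filter (fun p => p.Prime ∧ w0 ≤ p) with hP
    have hzpos : 0 < z := lt_of_le_of_lt (by positivity) hzw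
    -- z ≤ X^(11/20)
    have hzle : z ≤ (X : ℝ) ^ ((11 : ℝ) / 20) := by
      have h1 : z ^ 2 ≤ ((X : ℝ) ^ ((11 : ℝ) / 20)) ^ 2 := by
        calc z ^ 2 ≤ X * L ^ ((21 : ℝ) / 10) := hz
          _ ≤ X * (X : ℝ) ^ ((1:ℝ)/10) := by gcongr
          _ = ((X : ℝ) ^ ((11 : ℝ) / 20)) ^ 2 := by
            rw [← Real.rpow_natCast, ← Real.rpow_mul hXpos.le]
            nth_rewrite 1 [← Real.rpow_one (X:ℝ)]
            rw [← Real.rpow_add hXpos]
            norm_num
      exact (pow_le_pow_iff_left₀ hzpos.le (by positivity) (by norm_num)).1 h1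
    have hcover : rough (Ioc (a - X) a) w0 ⊆ rough (Ioc (a - X) a) z ∪
        P.biUnion (fun p => (rough (Ioc (a - X) a) w0).filter (fun t : ℤ => (p : ℤ) ∣ t)) := by
      intro t ht
      rw [mem_union]
      by_cases h : t ∈ rough (Ioc (a - X) a) z
      · exact Or.inl h
      · right
        rw [mem_rough] at h
        rw [mem_rough] at ht
        push Not at h
        obtain ⟨p, hp, hpz, hpt⟩ := h ht.1
        rw [mem_biUnion]
        refine ⟨p, ?_, ?_⟩
        · rw [hP, mem_filter, mem_range]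
          refine ⟨Nat.lt_ceil.2 hpz, hp, ?_⟩
          by_contra hlt
          push Not at hlt
          exact ht.2 p hp (by exact_mod_cast hlt) hpt
        · rw [mem_filter, mem_rough]; exact ⟨ht, hpt⟩
    have hterm : ∀ p ∈ P, (((rough (Ioc (a - X) a) w0).filter (fun t : ℤ => (p : ℤ) ∣ t)).card : ℝ)
        ≤ 6 * C * (X / L) * (1 / (p : ℝ)) := by
      intro p hp
      rw [hP, mem_filter, mem_range] at hp
      obtain ⟨hpz, hpp, hwp⟩ := hp
      have hpz' : (p : ℝ) < z := by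
        by_contra h
        push Not at h
        have := Nat.ceil_le.2 h
        omega
      obtain ⟨a', ha'⟩ := card_dvd_rough a X p hpp w0
      have hp0 : (0 : ℝ) < p := by exact_mod_cast hpp.pos
      set N := X / p + 1 with hN
      have hNle : (N : ℝ) ≤ X / p + 1 := by
        rw [hN]; push_cast
        have := @Nat.cast_div_le ℝ _ _ _ X p
        linarith
      have hNge : (X : ℝ) / p ≤ N := by
        rw [hN, div_le_iff₀ hp0]
        have := (Nat.lt_mul_div_succ X hpp.pos).le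
        have h2 : (X : ℝ) ≤ ((p * (X / p + 1) : ℕ) : ℝ) := by exact_mod_cast this
        rw [Nat.cast_mul] at h2
        linarith [mul_comm (p : ℝ) ((X / p + 1 : ℕ) : ℝ)]
      have hXp : (X : ℝ) ^ ((9 : ℝ) / 20) ≤ X / p := by
        rw [le_div_iff₀ hp0]
        calc (X : ℝ) ^ ((9 : ℝ) / 20) * p ≤ (X : ℝ) ^ ((9 : ℝ) / 20) * (X : ℝ) ^ ((11 : ℝ) / 20) := by
              gcongr; exact hpz'.le.trans hzle
          _ = X := by rw [← Real.rpow_add hXpos]; norm_num
      have h8 : (X : ℝ) ^ ((1 : ℝ) / 20) ≤ (X : ℝ) ^ ((9 : ℝ) / 20) :=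
        Real.rpow_le_rpow_of_exponent_le hX1.le (by norm_num)
      have hN2 : 2 ≤ N := by
        have : (2 : ℝ) ≤ N := by linarith
        exact_mod_cast this
      have hNX : (N : ℝ) ≤ X := by
        have hp4 : (4 : ℝ) ≤ p := by exact_mod_cast hw0ge.trans hwp
        have h1 : (X : ℝ) / p ≤ X / 4 := by gcongr
        have h2 : (8:ℝ) ≤ X / p := by linarith
        linarith
      have hNw : (N : ℝ) ^ ((1 : ℝ) / 56) < (w0 : ℝ) := by
        have h1 : (N : ℝ) ^ ((1 : ℝ) / 56) ≤ (X : ℝ) ^ ((1 : ℝ) / 56) := by gcongr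
        have h2 : (X : ℝ) ^ ((1 : ℝ) / 56) < (X : ℝ) ^ ((1 : ℝ) / 20) :=
          Real.rpow_lt_rpow_of_exponent_lt hX1 (by norm_num)
        have h3 : (X : ℝ) ^ ((1 : ℝ) / 20) ≤ w0 := by
          have h4 : ((X : ℝ) ^ ((1 : ℝ) / 20)) ^ 2 ≤ (w0 : ℝ) ^ 2 := by
            refine le_trans (le_of_eq ?_) hw0sq
            rw [← Real.rpow_natCast, ← Real.rpow_mul hXpos.le]
            norm_num
          exact (pow_le_pow_iff_left₀ (by positivity) (by positivity) (by norm_num)).1 h4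
        linarith
      have hlogN : L / 3 ≤ Real.log N := by
        have h1 : Real.log ((X : ℝ) ^ ((9 : ℝ) / 20)) ≤ Real.log N :=
          Real.log_le_log (by positivity) (hXp.trans hNge)
        rw [Real.log_rpow hXpos] at h1
        linarith
      have h1 := hbt a' N hN2 w0 hNw
      have h2 : (((rough (Ioc (a - X) a) w0).filter (fun t : ℤ => (p : ℤ) ∣ t)).card : ℝ)
          ≤ C * (N / Real.log N) := by
        refine le_trans ?_ h1
        have : ((X / p + 1 : ℕ) : ℤ) = (N : ℤ) := by rw [hN]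
        rw [this] at ha'
        exact_mod_cast ha'
      refine h2.trans ?_
      have h3 : (N : ℝ) ≤ 2 * (X / p) := by
        have : (1 : ℝ) ≤ X / p := by linarith
        linarith
      calc C * (N / Real.log N) ≤ C * (2 * (X / p) / (L / 3)) := by gcongr
        _ = 6 * C * (X / L) * (1 / (p : ℝ)) := by field_simp; ring
    have h1 : ((rough (Ioc (a - X) a) w0).card : ℝ) ≤ (rough (Ioc (a - X) a) z).card +
        ∑ p ∈ P, (((rough (Ioc (a - X) a) w0).filter (fun t : ℤ => (p : ℤ) ∣ t)).card : ℝ) := by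
      have h2 := Finset.card_le_card hcover
      have h3 := (h2.trans (Finset.card_union_le _ _)).trans
        (Nat.add_le_add_left (Finset.card_biUnion_le) _)
      exact_mod_cast h3
    have h2 : ∑ p ∈ P, (((rough (Ioc (a - X) a) w0).filter (fun t : ℤ => (p : ℤ) ∣ t)).card : ℝ)
        ≤ 6 * C * (X / L) * ∑ p ∈ P, (1 / (p : ℝ)) := by
      rw [Finset.mul_sum]
      exact Finset.sum_le_sum hterm
    have h3 := sum_inv_le (X := X) (z := z) (w0 := w0) hX1 hL hl hw0 hzw hz hw0ge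
    have h4 : 6 * C * (X / L) * ∑ p ∈ P, (1 / (p : ℝ)) ≤ 6 * C * (X / L) * (100 * (l / L)) := by
      gcongr
    have h5 : 6 * C * (X / L) * (100 * (l / L)) = 600 * C * (l * X / L ^ 2) := by
      field_simp; ring
    linarith

/-- the instance `D = ⌊X / L^3⌋`, `w0 = √D`. -/
theorem root_sqrt : ∃ X0 : ℝ, ∀ X : ℕ, X0 ≤ X →
    (X : ℝ) / (Real.log X) ^ 4 ≤ ((Nat.sqrt ⌊(X : ℝ) / (Real.log X) ^ 3⌋₊ : ℕ) : ℝ) ^ 2 := by
  have hev : ∀ᶠ x : ℝ in Filter.atTop, 4 ≤ Real.log x ∧ 4 * (Real.log x) ^ 3 ≤ x ^ ((1:ℝ)/2) ∧ 1 < x := by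
    have h2 : ∀ᶠ x : ℝ in Filter.atTop, 4 * (Real.log x) ^ 3 ≤ x ^ ((1 : ℝ) / 2) := by
      have := (isLittleO_log_rpow_rpow_atTop (3:ℝ) (show (0:ℝ) < 1 / 2 by norm_num)).bound
        (show (0:ℝ) < 1/4 by norm_num)
      filter_upwards [this, Filter.eventually_ge_atTop 1] with x hx hx1
      rw [Real.norm_eq_abs, Real.norm_eq_abs, abs_of_nonneg (by positivity : (0:ℝ) ≤ x ^ ((1:ℝ)/2))] at hx
      have h1 : (Real.log x) ^ 3 = (Real.log x) ^ (3:ℝ) := by
        rw [← Real.rpow_natCast]; norm_num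
      have := le_abs_self ((Real.log x) ^ (3:ℝ))
      rw [h1]; linarith
    filter_upwards [Real.tendsto_log_atTop.eventually_ge_atTop 4, h2, Filter.eventually_gt_atTop 1]
      with x h1 h2 h3 using ⟨h1, h2, h3⟩
  obtain ⟨X0, hX0⟩ := Filter.eventually_atTop.1 hev
  refine ⟨X0, fun X hX => ?_⟩
  obtain ⟨hL, hX2, hX1⟩ := hX0 X hX
  set L := Real.log X with hLdef
  have hXpos : (0:ℝ) < X := by linarith
  have hLpos : 0 < L := by linarith
  set D := ⌊(X : ℝ) / L ^ 3⌋₊ with hD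
  have h1 : (X : ℝ) / L ^ 3 < D + 1 := Nat.lt_floor_add_one _
  have h2 : D < (Nat.sqrt D + 1) * (Nat.sqrt D + 1) := Nat.lt_succ_sqrt D
  have h3 : (D : ℝ) + 1 ≤ ((Nat.sqrt D : ℝ) + 1) ^ 2 := by
    have : D + 1 ≤ (Nat.sqrt D + 1) * (Nat.sqrt D + 1) := h2
    rw [sq]; exact_mod_cast this
  set s : ℝ := (Nat.sqrt D : ℝ) with hs
  have hs0 : 0 ≤ s := by positivity
  -- X / L^3 ≥ 4 X^(1/2)... so (s+1)^2 ≥ X/L^3 and s ≥ ...
  have hXsq : (X : ℝ) ^ ((1:ℝ)/2) * (X : ℝ) ^ ((1:ℝ)/2) = X := by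
    rw [← Real.rpow_add hXpos]; norm_num
  have h4 : 16 ≤ (X : ℝ) / L ^ 3 := by
    rw [le_div_iff₀ (by positivity)]
    have h5 : (1:ℝ) ≤ L ^ 3 := one_le_pow₀ (by linarith)
    have h6 : 4 ≤ (X : ℝ) ^ ((1:ℝ)/2) := by linarith
    calc 16 * L ^ 3 = 4 * (4 * L ^ 3) := by ring
      _ ≤ (X : ℝ) ^ ((1:ℝ)/2) * (X : ℝ) ^ ((1:ℝ)/2) := by gcongr
      _ = X := hXsq
  have h5 : 3 ≤ s := by
    by_contra h
    push Not at h
    nlinarith
  -- (s+1)^2 ≤ (4/3)^2 s^2 ≤ 4 s^2
  have h6 : (s + 1) ^ 2 ≤ 4 * s ^ 2 := by nlinarith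
  have h7 : (X : ℝ) / L ^ 4 = (X / L ^ 3) / L := by
    rw [div_div]; ring_nf
  rw [h7, div_le_iff₀ hLpos]
  nlinarith

end Crest.Agent.R001.Tree
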