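import Crest.Agent.R001.Asm1

/-!
# R1, block SE, part 1 (helper301)

* `sum_sqfree_le` : `Σ_{d ∈ DD} ∏_{p ∣ d} f p ≤ ∏_{p ∈ P} (1 + f p)` for squarefree `d`;
* `smooth_mass` : numbers with a large smooth part have tiny logarithmic mass;
* `disjoint_mass` : numbers structured with respect to two different fractions are rare;
* `exists_factor` : choice of the factor `n` of `d`.
-/

set_option autoImplicit false

open Finset Filter

namespace Crest.Agent.R001.SE

/-- multiplicative majorant -/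
lemma sum_sqfree_le (DD P : Finset ℕ) (hsq : ∀ d ∈ DD, Squarefree d)
    (hP : ∀ d ∈ DD, d.primeFactors ⊆ P) (f : ℕ → ℝ) (hf : ∀ p ∈ P, 0 ≤ f p) :
    ∑ d ∈ DD, ∏ p ∈ d.primeFactors, f p ≤ ∏ p ∈ P, (1 + f p) := by
  classical
  rw [Finset.prod_one_add]
  have hinj : Set.InjOn Nat.primeFactors (DD : Set ℕ) := by
    intro d hd d' hd' h
    rw [← Nat.prod_primeFactors_of_squarefree (hsq d hd),
      ← Nat.prod_primeFactors_of_squarefree (hsq d' hd'), h]
  calc ∑ d ∈ DD, ∏ p ∈ d.primeFactors, f p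
      = ∑ S ∈ DD.image Nat.primeFactors, ∏ p ∈ S, f p := by
        rw [Finset.sum_image hinj]
    _ ≤ ∑ S ∈ P.powerset, ∏ p ∈ S, f p := by
        refine Finset.sum_le_sum_of_subset_of_nonneg ?_ ?_
        · intro S hS
          obtain ⟨d, hd, rfl⟩ := Finset.mem_image.mp hS
          exact Finset.mem_powerset.mpr (hP d hd)
        · intro S hS _
          exact Finset.prod_nonneg fun p hp => hf p (Finset.mem_powerset.mp hS hp)

/-- the part of `d` composed of primes `≤ y` -/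
noncomputable def smp (y : ℕ) (d : ℕ) : ℕ := ∏ p ∈ d.primeFactors.filter (fun p => p ≤ y), p

/-- Rankin: explicit form. -/
lemma smooth_mass_explicit (DD : Finset ℕ) (N y : ℕ) (hN : 3 ≤ N)
    (hsq : ∀ d ∈ DD, Squarefree d) (hDN : ∀ d ∈ DD, d ≤ N) {B θ : ℝ} (hB : 0 < B) (hθ : 0 ≤ θ)
    (hθy : θ * Real.log y ≤ 1) (hs : ∀ d ∈ DD, B ≤ smp y d) :
    ∑ d ∈ DD, (1 : ℝ) / d ≤ Real.exp (-(θ * Real.log B) + 3 * (∑ p ∈ Nat.primesLE N, (1 : ℝ) / p)) := by
  classical
  have hpos : ∀ d ∈ DD, 0 < d := fun d hd => Nat.pos_of_ne_zero (hsq d hd).ne_zero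
  have h1 : ∀ d ∈ DD, (1 : ℝ) / d ≤ B ^ (-θ) *
      ∏ p ∈ d.primeFactors, ((if p ≤ y then (p : ℝ) ^ θ else 1) / p) := by
    intro d hd
    have hd0 : (0 : ℝ) < d := by exact_mod_cast hpos d hd
    rw [Finset.prod_div_distrib]
    have e1 : ∏ p ∈ d.primeFactors, (p : ℝ) = d := by
      rw [← Nat.cast_prod, Nat.prod_primeFactors_of_squarefree (hsq d hd)]
    have e2 : ∏ p ∈ d.primeFactors, (if p ≤ y then (p : ℝ) ^ θ else 1) = (smp y d : ℝ) ^ θ := by
      rw [← Finset.prod_filter]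
      unfold smp
      rw [Nat.cast_prod, Real.finsetProd_rpow _ _ (fun p _ => Nat.cast_nonneg p)]
    rw [e1, e2]
    have h2 := hs d hd
    have h3 : 1 ≤ B ^ (-θ) * (smp y d : ℝ) ^ θ := by
      rw [Real.rpow_neg hB.le, ← div_eq_inv_mul, one_le_div (by positivity)]
      exact Real.rpow_le_rpow hB.le h2 hθ
    rw [← mul_div_assoc]
    gcongr
  have hprimes : ∀ p ∈ Nat.primesLE N, p.Prime := fun p hp => (Nat.mem_primesLE.mp hp).2
  have h2 : ∑ d ∈ DD, ∏ p ∈ d.primeFactors, ((if p ≤ y then (p : ℝ) ^ θ else 1) / p) ≤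
      ∏ p ∈ Nat.primesLE N, (1 + (if p ≤ y then (p : ℝ) ^ θ else 1) / p) := by
    refine sum_sqfree_le DD _ hsq ?_ _ ?_
    · intro d hd p hp
      rw [Nat.mem_primesLE]
      exact ⟨(Nat.le_of_mem_primeFactors hp).trans (hDN d hd), Nat.prime_of_mem_primeFactors hp⟩
    · intro p _
      split_ifs <;> positivity
  have h3 : ∏ p ∈ Nat.primesLE N, (1 + (if p ≤ y then (p : ℝ) ^ θ else 1) / p) ≤
      Real.exp (3 * (∑ p ∈ Nat.primesLE N, (1 : ℝ) / p)) := by
    rw [Finset.mul_sum, Real.exp_sum]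
    refine Finset.prod_le_prod (fun p _ => by split_ifs <;> positivity) fun p hp => ?_
    have hp1 : (1 : ℝ) ≤ p := by exact_mod_cast (hprimes p hp).one_lt.le
    have h4 : (if p ≤ y then (p : ℝ) ^ θ else 1) ≤ 3 := by
      split_ifs with h
      · have h5 : (p : ℝ) ^ θ = Real.exp (θ * Real.log p) := by
          rw [Real.rpow_def_of_pos (by linarith)]
          congr 1
          ring
        rw [h5]
        have h6 : θ * Real.log p ≤ 1 := by
          refine le_trans ?_ hθy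
          have : Real.log p ≤ Real.log y :=
            Real.log_le_log (by linarith) (by exact_mod_cast h)
          exact mul_le_mul_of_nonneg_left this hθ
        calc Real.exp (θ * Real.log p) ≤ Real.exp 1 := Real.exp_le_exp.mpr h6
          _ ≤ 3 := Real.exp_one_lt_three.le
      · norm_num
    have h7 := Real.add_one_le_exp (3 * (1 / (p : ℝ)))
    calc 1 + (if p ≤ y then (p : ℝ) ^ θ else 1) / p ≤ 1 + 3 / p := by gcongr
      _ = 3 * (1 / (p : ℝ)) + 1 := by ring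
      _ ≤ _ := h7
  calc ∑ d ∈ DD, (1 : ℝ) / d ≤ ∑ d ∈ DD, B ^ (-θ) *
        ∏ p ∈ d.primeFactors, ((if p ≤ y then (p : ℝ) ^ θ else 1) / p) := Finset.sum_le_sum h1
    _ = B ^ (-θ) * ∑ d ∈ DD, ∏ p ∈ d.primeFactors, ((if p ≤ y then (p : ℝ) ^ θ else 1) / p) := by
        rw [Finset.mul_sum]
    _ ≤ B ^ (-θ) * Real.exp (3 * (∑ p ∈ Nat.primesLE N, (1 : ℝ) / p)) :=
        mul_le_mul_of_nonneg_left (h2.trans h3) (by positivity)
    _ = _ := by
        rw [Real.exp_add]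
        congr 1
        rw [Real.rpow_def_of_pos hB]
        congr 1
        ring

/-- the sum of reciprocals of the primes up to `N` is at most `log log N + 30` -/
lemma sum_primes_inv_le (N : ℕ) (hN : 3 ≤ N) :
    ∑ p ∈ Nat.primesLE N, (1 : ℝ) / p ≤ Real.log (Real.log N) + 60 := by
  have hN' : (2 : ℝ) ≤ N := by
    have : (3 : ℝ) ≤ N := by exact_mod_cast hN
    linarith
  have hM := Lib.Mertens.mertens_two 2 N le_rfl hN'
  have h1 := (abs_le.mp hM).2
  have hl2 : 0 < Real.log 2 := Real.log_pos (by norm_num)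
  have hsub : Nat.primesLE N ⊆ insert 2 (Lib.Mertens.pr 2 N) := by
    intro p hp
    rw [Nat.mem_primesLE] at hp
    rw [Finset.mem_insert, Lib.Mertens.mem_pr (by norm_num) (by positivity)]
    rcases eq_or_lt_of_le hp.2.two_le with h | h
    · exact Or.inl h.symm
    · exact Or.inr ⟨⟨by exact_mod_cast h, by exact_mod_cast hp.1⟩, hp.2⟩
  have h2 : ∑ p ∈ Nat.primesLE N, (1 : ℝ) / p ≤ 1 / 2 + ∑ p ∈ Lib.Mertens.pr 2 N, (1 : ℝ) / p := by
    refine (Finset.sum_le_sum_of_subset_of_nonneg hsub fun p _ _ => by positivity).trans ?_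
    by_cases h : 2 ∈ Lib.Mertens.pr 2 N
    · rw [Finset.insert_eq_of_mem h]
      norm_num
    · rw [Finset.sum_insert h]
      norm_num
  have h3 : Real.log (Real.log 2) ≥ -1 := by
    rw [ge_iff_le, Real.le_log_iff_exp_le hl2]
    have h4 := Real.exp_neg_one_lt_d9
    have h5 := Real.log_two_gt_d9
    linarith
  have h4 : 18 / Real.log 2 ≤ 30 := by
    rw [div_le_iff₀ hl2]
    have := Real.log_two_gt_d9
    linarith
  linarith

/-- **smooth mass**: for `y ≤ (log x)^B`, the squarefree `d ≤ x^2` whose `y`-smooth part is at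
least `x^c` have logarithmic mass `≤ (log x)^{-A}`. -/
theorem smooth_mass (B A : ℕ) (c : ℝ) (hc : 0 < c) : ∀ᶠ x : ℝ in atTop,
    ∀ (y N : ℕ) (DD : Finset ℕ), (y : ℝ) ≤ (Real.log x) ^ B → 3 ≤ N → (N : ℝ) ≤ x ^ 2 →
      (∀ d ∈ DD, Squarefree d) → (∀ d ∈ DD, d ≤ N) → (∀ d ∈ DD, x ^ c ≤ smp y d) →
      ∑ d ∈ DD, (1 : ℝ) / d ≤ 1 / (Real.log x) ^ A := by
  have E1 : ∀ᶠ x : ℝ in atTop, 1 ≤ Real.log (Real.log x) :=
    Asm.tendsto_loglog.eventually_ge_atTop 1
  have E2 : ∀ᶠ x : ℝ in atTop,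
      (((A : ℝ) + 200) * ((B : ℝ) + 1) / c) * (Real.log (Real.log x)) ^ (2 : ℝ) ≤
        (Real.log x) ^ (1 : ℝ) :=
    Real.tendsto_log_atTop.eventually
      (Asm.eventually_log_rpow_le 2 1 (((A : ℝ) + 200) * ((B : ℝ) + 1) / c) one_pos
        (by positivity))
  filter_upwards [E1, E2, eventually_ge_atTop (2 : ℝ)] with x e1 e2 e3
  intro y N DD hy hN hNx hsq hDN hs
  rw [Real.rpow_one, show (2 : ℝ) = ((2 : ℕ) : ℝ) by norm_num, Real.rpow_natCast] at e2
  obtain ⟨L, hL⟩ : ∃ L, L = Real.log x := ⟨_, rfl⟩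
  obtain ⟨l, hl⟩ : ∃ l, l = Real.log L := ⟨_, rfl⟩
  rw [← hL] at e1 e2 hy ⊢
  rw [← hl] at e1 e2
  have hx0 : 0 < x := by linarith
  have hL0 : 0 < L := by rw [hL]; exact Real.log_pos (by linarith)
  have hl0 : 0 < l := by linarith
  have hA0 : (0 : ℝ) ≤ A := Nat.cast_nonneg A
  have hB0 : (0 : ℝ) ≤ B := Nat.cast_nonneg B
  obtain ⟨θ, hθ⟩ : ∃ θ : ℝ, θ = 1 / (((B : ℝ) + 1) * l) := ⟨_, rfl⟩
  have hθ0 : 0 < θ := by rw [hθ]; positivity
  have hθy : θ * Real.log y ≤ 1 := by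
    have h1 : Real.log y ≤ B * l := by
      rcases Nat.eq_zero_or_pos y with h | h
      · rw [h]; simp only [Nat.cast_zero, Real.log_zero]; positivity
      · have := Real.log_le_log (by exact_mod_cast h) hy
        rwa [Real.log_pow, ← hl] at this
    calc θ * Real.log y ≤ θ * (B * l) := by gcongr
      _ = B / ((B : ℝ) + 1) := by rw [hθ]; field_simp
      _ ≤ 1 := by rw [div_le_one (by linarith)]; linarith
  have hmain := smooth_mass_explicit DD N y hN hsq hDN (B := x ^ c) (by positivity) hθ0.le hθy hs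
  refine hmain.trans ?_
  have h1 := sum_primes_inv_le N hN
  have hNl : Real.log (Real.log N) ≤ l + 1 := by
    have hN3 : (3 : ℝ) ≤ N := by exact_mod_cast hN
    have h2 : Real.log N ≤ 2 * L := by
      have h3 := Real.log_le_log (by linarith) hNx
      rwa [Real.log_pow, ← hL] at h3
    have h4 : 0 < Real.log N := Real.log_pos (by linarith)
    have h5 := Real.log_le_log h4 h2
    rw [Real.log_mul (by norm_num) hL0.ne', ← hl] at h5
    have := Real.log_two_lt_d9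
    linarith
  have hlogB : Real.log (x ^ c) = c * L := by rw [Real.log_rpow hx0, ← hL]
  rw [hlogB]
  have h2 : θ * (c * L) = c * L / (((B : ℝ) + 1) * l) := by rw [hθ]; field_simp
  have h3 : (A : ℝ) * l + 3 * (l + 1 + 60) ≤ c * L / (((B : ℝ) + 1) * l) := by
    rw [le_div_iff₀ (by positivity)]
    have h4 : ((A : ℝ) * l + 3 * (l + 1 + 60)) ≤ (A + 200) * l := by nlinarith
    calc ((A : ℝ) * l + 3 * (l + 1 + 60)) * (((B : ℝ) + 1) * l)
        ≤ ((A + 200) * l) * (((B : ℝ) + 1) * l) := by gcongr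
      _ = c * ((((A : ℝ) + 200) * ((B : ℝ) + 1) / c) * l ^ 2) := by field_simp
      _ ≤ c * L := by gcongr
  calc Real.exp (-(θ * (c * L)) + 3 * ∑ p ∈ Nat.primesLE N, (1 : ℝ) / p)
      ≤ Real.exp (-(A * l)) := by
        apply Real.exp_le_exp.mpr
        rw [h2]
        linarith
    _ = 1 / L ^ A := by
        rw [Real.exp_neg, one_div, hl, ← Real.log_pow, Real.exp_log (by positivity)]

/-- harmonic bound -/
lemma sum_inv_le_log (DD : Finset ℕ) (N : ℕ) (h : ∀ d ∈ DD, 1 ≤ d ∧ d ≤ N) :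
    ∑ d ∈ DD, (1 : ℝ) / d ≤ 1 + Real.log N := by
  have h1 : DD ⊆ Finset.Icc 1 N := fun d hd => Finset.mem_Icc.mpr (h d hd)
  have h2 := harmonic_le_one_add_log N
  rw [harmonic_eq_sum_Icc] at h2
  push_cast at h2
  calc ∑ d ∈ DD, (1 : ℝ) / d ≤ ∑ d ∈ Finset.Icc 1 N, (1 : ℝ) / d :=
        Finset.sum_le_sum_of_subset_of_nonneg h1 fun _ _ _ => by positivity
    _ = ∑ d ∈ Finset.Icc 1 N, (d : ℝ)⁻¹ := Finset.sum_congr rfl fun d _ => one_div _
    _ ≤ 1 + Real.log N := h2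

/-- multiples of one of few large primes -/
lemma prime_mass (DD T : Finset ℕ) (N y : ℕ) (h : ∀ d ∈ DD, 1 ≤ d ∧ d ≤ N)
    (hT : ∀ p ∈ T, y < p) (hdiv : ∀ d ∈ DD, ∃ p ∈ T, p ∣ d) :
    ∑ d ∈ DD, (1 : ℝ) / d ≤ T.card * ((1 + Real.log N) / (y + 1)) := by
  classical
  have h1 : ∑ d ∈ DD, (1 : ℝ) / d ≤ ∑ p ∈ T, ∑ d ∈ DD.filter (fun d => p ∣ d), (1 : ℝ) / d := by
    rw [Finset.sum_comm' (s := T) (t := fun p => DD.filter (fun d => p ∣ d)) (t' := DD)
      (s' := fun d => T.filter (fun p => p ∣ d))]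
    · refine Finset.sum_le_sum fun d hd => ?_
      obtain ⟨p, hp, hpd⟩ := hdiv d hd
      have hmem : p ∈ T.filter (fun p => p ∣ d) := Finset.mem_filter.mpr ⟨hp, hpd⟩
      exact Finset.single_le_sum (f := fun _ : ℕ => (1 : ℝ) / d) (fun _ _ => by positivity) hmem
    · intro p d
      simp only [Finset.mem_filter]
      tauto
  refine h1.trans ?_
  rw [← nsmul_eq_mul]
  refine Finset.sum_le_card_nsmul _ _ _ fun p hp => ?_
  have hyp := hT p hp
  have hp0 : 0 < p := by omega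
  have hinj : Set.InjOn (fun d => d / p) (DD.filter (fun d => p ∣ d) : Set ℕ) := by
    intro d hd d' hd' heq
    have hd1 := (Finset.mem_filter.mp hd).2
    have hd2 := (Finset.mem_filter.mp hd').2
    simp only at heq
    rw [← Nat.div_mul_cancel hd1, ← Nat.div_mul_cancel hd2, heq]
  have h2 : ∑ d ∈ DD.filter (fun d => p ∣ d), (1 : ℝ) / d =
      (1 / (p : ℝ)) * ∑ m ∈ (DD.filter (fun d => p ∣ d)).image (fun d => d / p), (1 : ℝ) / m := by
    rw [Finset.sum_image hinj, Finset.mul_sum]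
    refine Finset.sum_congr rfl fun d hd => ?_
    have hd1 := (Finset.mem_filter.mp hd).2
    have hd0 := (h d (Finset.mem_filter.mp hd).1).1
    have hp0' : (0 : ℝ) < p := by exact_mod_cast hp0
    rw [Nat.cast_div hd1 hp0'.ne']
    have : (0 : ℝ) < d := by exact_mod_cast hd0
    field_simp
  rw [h2]
  have h3 : ∑ m ∈ (DD.filter (fun d => p ∣ d)).image (fun d => d / p), (1 : ℝ) / m ≤
      1 + Real.log N := by
    refine sum_inv_le_log _ N fun m hm => ?_
    obtain ⟨d, hd, rfl⟩ := Finset.mem_image.mp hm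
    have hd1 := (Finset.mem_filter.mp hd).2
    obtain ⟨h4, h5⟩ := h d (Finset.mem_filter.mp hd).1
    exact ⟨Nat.div_pos (Nat.le_of_dvd h4 hd1) hp0, (Nat.div_le_self d p).trans h5⟩
  have hp1 : ((y : ℝ) + 1) ≤ p := by exact_mod_cast hyp
  have hlogN : 0 ≤ 1 + Real.log (N : ℝ) := by
    have := Real.log_natCast_nonneg N
    linarith
  calc 1 / (p : ℝ) * ∑ m ∈ (DD.filter (fun d => p ∣ d)).image (fun d => d / p), (1 : ℝ) / m
      ≤ 1 / ((y : ℝ) + 1) * (1 + Real.log N) := by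
        have : (0 : ℝ) < (y : ℝ) + 1 := by positivity
        gcongr
    _ = (1 + Real.log N) / (y + 1) := by ring

/-- choice of the factor: a squarefree number `≥ B`, all of whose primes are `< B^2`, has a
divisor in `[B, B^2)`. -/
lemma exists_factor (T : Finset ℕ) (hT : ∀ p ∈ T, 1 ≤ p) {B : ℝ} (hB : 1 < B)
    (hTB : ∀ p ∈ T, (p : ℝ) < B ^ 2) (hprod : B ≤ ∏ p ∈ T, (p : ℝ)) :
    ∃ S ⊆ T, B ≤ ∏ p ∈ S, (p : ℝ) ∧ ∏ p ∈ S, (p : ℝ) < B ^ 2 := by
  classical
  have hex : ∃ k, ∃ S ⊆ T, S.card = k ∧ B ≤ ∏ p ∈ S, (p : ℝ) := ⟨_, T, Finset.Subset.refl _, rfl,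
    hprod⟩
  obtain ⟨S, hST, hcard, hS⟩ := Nat.find_spec hex
  refine ⟨S, hST, hS, ?_⟩
  have hmin : ∀ p ∈ S, ∏ q ∈ S.erase p, (q : ℝ) < B := by
    intro p hp
    by_contra hcon
    push Not at hcon
    have h1 : (S.erase p).card < Nat.find hex := by
      rw [← hcard]
      exact Finset.card_erase_lt_of_mem hp
    exact Nat.find_min hex h1 ⟨S.erase p, (Finset.erase_subset _ _).trans hST, rfl, hcon⟩
  have hne : S.Nonempty := by
    rw [Finset.nonempty_iff_ne_empty]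
    rintro rfl
    rw [Finset.prod_empty] at hS
    linarith
  obtain ⟨p, hp, hpmin⟩ := Finset.exists_min_image S id hne
  have hpos : ∀ q ∈ S, (1 : ℝ) ≤ q := fun q hq => by exact_mod_cast hT q (hST hq)
  rw [← Finset.mul_prod_erase S _ hp]
  rcases (S.erase p).eq_empty_or_nonempty with he | ⟨q, hq⟩
  · rw [he, Finset.prod_empty, mul_one]
    exact hTB p (hST hp)
  · have h1 := hmin p hp
    have hqS := Finset.mem_of_mem_erase hq
    have h2 : (p : ℝ) ≤ q := by exact_mod_cast hpmin q hqS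
    have h3 : (q : ℝ) ≤ ∏ r ∈ S.erase p, (r : ℝ) := by
      rw [← Finset.mul_prod_erase (S.erase p) _ hq]
      have h4 : (1 : ℝ) ≤ ∏ r ∈ (S.erase p).erase q, (r : ℝ) := by
        calc (1 : ℝ) = ∏ r ∈ (S.erase p).erase q, (1 : ℝ) := by rw [Finset.prod_const_one]
          _ ≤ _ := Finset.prod_le_prod (fun _ _ => zero_le_one) fun r hr =>
            hpos r (Finset.mem_of_mem_erase (Finset.mem_of_mem_erase hr))
      have := hpos q hqS
      nlinarith
    have h5 := hpos p hp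
    calc (p : ℝ) * ∏ r ∈ S.erase p, (r : ℝ) < B * B := by
          apply mul_lt_mul'' (by linarith) h1 (by linarith)
          exact Finset.prod_nonneg fun r _ => Nat.cast_nonneg r
      _ = B ^ 2 := by ring

end Crest.Agent.R001.SE
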