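import Crest.Agent.R001.Str6

/-!
# R001, block STR, part 7: convenience form
-/

set_option autoImplicit false
set_option maxHeartbeats 1000000

namespace Crest.Agent.R001.Str

open Finset

/-- Structured nodes of large height are equidistributed, `L²` form. -/
theorem STR (M0 Del0 : ℕ) (hM0 : 0 < M0) (hDel0 : 0 < Del0) (DD : Finset ℕ) (c : ℕ → ℝ)
    (hpos : ∀ δ ∈ DD, 0 < δ ∧ δ ≤ Del0) (hlcm : ∀ δ ∈ DD, ∀ δ' ∈ DD, Nat.lcm δ δ' ∣ M0)
    (a U : ℤ) (Q d0 : ℕ) (hQ : 0 < Q) (hd0 : 0 < d0) (hcop : IsCoprime U (Q : ℤ))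
    (P1 P2 : ℕ) (hP1 : 0 < P1) (hP : P1 ≤ P2) (hP2 : P2 ≤ 2 * P1)
    (d1 : ℕ) (hd1 : d1 = Int.gcd (d0 : ℤ) (Q * a - U)) (u : ℕ) (hu : u = d0 / d1)
    (N : Finset ℕ)
    (hN : ∀ n ∈ N, P1 < n ∧ n ≤ P2 ∧ Nat.Coprime n (Q * u * M0) ∧
      ((n * d1 : ℕ) : ℤ) ∣ Q * a - U)
    (N0 : ℝ) (hN0 : 0 ≤ N0)
    (hbig : Del0 ^ 2 ≤ Q * u ∨
      (Del0 : ℝ) ^ 2 * (N0 + 2) ≤ |(U : ℝ)| / d1 * ((P2 : ℝ) - P1) / (P1 * P2)) :
    ∑ n ∈ N, (err DD c N0 ((a : ℝ) / (n * d0))) ^ 2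
      ≤ 100 * (N0 + 1) * (((P2 : ℝ) - P1) + ((Q * u * M0 : ℕ) : ℝ) * (|(U : ℝ)| / d1 / P1 + 2))
          * vv DD c := by
  have hd1pos : 0 < d1 := by
    rw [hd1]; exact Int.gcd_pos_of_ne_zero_left _ (by exact_mod_cast hd0.ne')
  have hd1d0 : d1 ∣ d0 := by
    rw [hd1]
    have := Int.gcd_dvd_left (a := (d0 : ℤ)) (b := Q * a - U)
    exact_mod_cast this
  have hd1E : (d1 : ℤ) ∣ Q * a - U := by
    rw [hd1]; exact Int.gcd_dvd_right ..
  have hud1 : u * d1 = d0 := by rw [hu]; exact Nat.div_mul_cancel hd1d0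
  have hupos : 0 < u := by
    rcases Nat.eq_zero_or_pos u with h | h
    · rw [h, zero_mul] at hud1; omega
    · exact h
  obtain ⟨W, hW⟩ := hd1E
  set V : ℕ := Q * u with hV
  have hVpos : 0 < V := Nat.mul_pos hQ hupos
  set K : ℕ := Q * u * M0 with hK
  have hKpos : 0 < K := Nat.mul_pos hVpos hM0
  have hd1z : (d1 : ℤ) ≠ 0 := by exact_mod_cast hd1pos.ne'
  -- coprimality
  have hWu : IsCoprime W (u : ℤ) := by
    rw [Int.isCoprime_iff_gcd_eq_one]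
    have h1 : Int.gcd ((u : ℤ) * d1) (W * d1) = Int.gcd (u : ℤ) W * d1 := by
      rw [Int.gcd_mul_right]
      simp
    have h2 : (u : ℤ) * d1 = (d0 : ℤ) := by exact_mod_cast hud1
    have h3 : W * d1 = Q * a - U := by rw [hW]; ring
    rw [h2, h3, ← hd1] at h1
    have h4 : Int.gcd (u : ℤ) W = 1 :=
      Nat.eq_of_mul_eq_mul_right hd1pos (by rw [← h1, one_mul])
    rw [Int.gcd_comm]; exact h4
  have hWQ : IsCoprime W (Q : ℤ) := by
    have h1 : IsCoprime (Q * a - U) (Q : ℤ) := by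
      obtain ⟨p, q, hpq⟩ := hcop
      exact ⟨-p, q + p * a, by linear_combination hpq⟩
    rw [hW] at h1
    exact h1.of_mul_left_right
  have hWV : IsCoprime W (V : ℤ) := by
    rw [hV]; push_cast
    exact hWQ.mul_right hWu
  have hgcd : ∀ δ ∈ DD, ∀ δ' ∈ DD,
      Int.gcd W ((V * Nat.lcm δ δ' : ℕ) : ℤ) ≤ Del0 ^ 2 := by
    intro δ hδ δ' hδ'
    have h1 : Int.gcd W ((V * Nat.lcm δ δ' : ℕ) : ℤ) = Int.gcd W ((Nat.lcm δ δ' : ℕ) : ℤ) := by
      push_cast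
      have h2 : Nat.Coprime W.natAbs V := by
        have := Int.isCoprime_iff_gcd_eq_one.mp hWV
        rwa [Int.gcd_def, Int.natAbs_natCast] at this
      rw [Int.gcd_def, Int.gcd_def, Int.natAbs_mul, Int.natAbs_natCast]
      exact Nat.Coprime.gcd_mul_left_cancel_right _ h2.symm |> fun h => h
    rw [h1]
    have h3 : Int.gcd W ((Nat.lcm δ δ' : ℕ) : ℤ) ≤ Nat.lcm δ δ' := by
      apply Nat.le_of_dvd (Nat.lcm_pos (hpos δ hδ).1 (hpos δ' hδ').1)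
      have := Int.gcd_dvd_right (a := W) (b := ((Nat.lcm δ δ' : ℕ) : ℤ))
      exact_mod_cast this
    refine h3.trans ?_
    have h4 : Nat.lcm δ δ' ≤ δ * δ' :=
      Nat.le_of_dvd (Nat.mul_pos (hpos δ hδ).1 (hpos δ' hδ').1) (Nat.lcm_dvd_mul δ δ')
    refine h4.trans ?_
    rw [sq]
    exact Nat.mul_le_mul (hpos δ hδ).2 (hpos δ' hδ').2
  have hDK : ∀ δ ∈ DD, ∀ δ' ∈ DD, V * Nat.lcm δ δ' ∣ K := by
    intro δ hδ δ' hδ'
    rw [hK]
    exact mul_dvd_mul_left V (hlcm δ hδ δ' hδ')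
  have hP1r : (0 : ℝ) < P1 := by exact_mod_cast hP1
  have hPr : (P1 : ℝ) ≤ P2 := by exact_mod_cast hP
  have hP2r' : (P2 : ℝ) ≤ 2 * P1 := by exact_mod_cast hP2
  have hKr : (0 : ℝ) < K := by exact_mod_cast hKpos
  have hd1r : (0 : ℝ) < d1 := by exact_mod_cast hd1pos
  have hd0r : (0 : ℝ) < d0 := by exact_mod_cast hd0
  have hur : (0 : ℝ) < u := by exact_mod_cast hupos
  have hQr : (0 : ℝ) < Q := by exact_mod_cast hQ
  have hud1r : (u : ℝ) * d1 = d0 := by exact_mod_cast hud1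
  set β : ℝ := (U : ℝ) / d1 with hβ
  have habs : |β| = |(U : ℝ)| / d1 := by rw [hβ, abs_div, abs_of_pos hd1r]
  have hN' : ∀ n ∈ N, P1 < n ∧ n ≤ P2 ∧ Nat.Coprime n K ∧ (n : ℤ) ∣ W := by
    intro n hn
    obtain ⟨h1, h2, h3, h4⟩ := hN n hn
    refine ⟨h1, h2, h3, ?_⟩
    rw [hW] at h4
    push_cast at h4
    rw [mul_comm] at h4
    exact Int.dvd_of_mul_dvd_mul_left hd1z h4
  have hx : ∀ n ∈ N, (V : ℝ) * ((a : ℝ) / (n * d0)) = ((W / n : ℤ) : ℝ) + β / n := by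
    intro n hn
    obtain ⟨h1, h2, h3, q, hq⟩ := hN' n hn
    have hn0 : 0 < n := by omega
    have hnr : (0 : ℝ) < n := by exact_mod_cast hn0
    have hqe : W / (n : ℤ) = q := by
      rw [hq]; exact Int.mul_ediv_cancel_left _ (by exact_mod_cast hn0.ne')
    rw [hqe, hβ, hV]
    have hWr : (Q : ℝ) * a - U = d1 * ((n : ℝ) * q) := by
      have := hW
      rw [hq] at this
      have h5 : ((Q * a - U : ℤ) : ℝ) = ((d1 * (n * q) : ℤ) : ℝ) := by rw [this]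
      push_cast at h5
      exact h5
    have hQa : (Q : ℝ) * a = d1 * ((n : ℝ) * q) + U := by linarith
    push_cast
    rw [← hud1r]
    field_simp
    linear_combination hQa
  have hvv := vv_nonneg DD c
  rw [← habs]
  have hb0 : 0 ≤ |β| / P1 := by positivity
  rcases hbig with hbig | hbig
  · have h1 := STR1 K V hKpos hVpos DD c (fun δ hδ => (hpos δ hδ).1) W hDK P1 P2 hP1 hP N hN' β
      N0 hN0 (fun n => (a : ℝ) / (n * d0)) hx
      (fun δ hδ δ' hδ' => (hgcd δ hδ δ' hδ').trans hbig)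
    refine h1.trans ?_
    apply mul_le_mul_of_nonneg_right _ hvv
    have hX : 0 ≤ ((P2 : ℝ) - P1) := by linarith
    have hY : 0 ≤ (K : ℝ) * (|β| / P1 + 2) := by positivity
    nlinarith [mul_nonneg hX hN0, mul_nonneg hY hN0]
  · rw [← habs] at hbig
    have hD1 : (1 : ℝ) ≤ Del0 := by exact_mod_cast hDel0
    have hD2 : (1 : ℝ) ≤ (Del0 : ℝ) ^ 2 := one_le_pow₀ hD1
    have h1 := STR2 K V hKpos hVpos DD c (fun δ hδ => (hpos δ hδ).1) W hDK P1 P2 hP1 hP N hN' β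
      N0 hN0 (fun n => (a : ℝ) / (n * d0)) hx ((Del0 : ℝ) ^ 2) hP2
      (fun δ hδ δ' hδ' => by exact_mod_cast hgcd δ hδ δ' hδ') hbig
      (by nlinarith)
    refine h1.trans ?_
    apply mul_le_mul_of_nonneg_right _ hvv
    have hX : 0 ≤ ((P2 : ℝ) - P1) := by linarith
    have hY : ((P2 : ℝ) - P1) * (K * |β| / (P1 : ℝ) ^ 2) ≤ K * (|β| / P1 + 2) := by
      calc ((P2 : ℝ) - P1) * (K * |β| / (P1 : ℝ) ^ 2)
          ≤ (P1 : ℝ) * (K * |β| / (P1 : ℝ) ^ 2) := by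
            apply mul_le_mul_of_nonneg_right _ (by positivity)
            linarith
        _ = K * (|β| / P1) := by field_simp
        _ ≤ _ := by nlinarith
    have hZ : ((P2 : ℝ) - P1) * (1 + K * |β| / (P1 : ℝ) ^ 2)
        ≤ ((P2 : ℝ) - P1) + K * (|β| / P1 + 2) := by linarith
    calc 100 * ((P2 : ℝ) - P1) * (N0 + 1) * (1 + K * |β| / (P1 : ℝ) ^ 2)
        = 100 * (N0 + 1) * (((P2 : ℝ) - P1) * (1 + K * |β| / (P1 : ℝ) ^ 2)) := by ring
      _ ≤ _ := mul_le_mul_of_nonneg_left hZ (by positivity)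

end Crest.Agent.R001.Str
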