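import Crest.Agent.R001.EST1
import Crest.Agent.R001.Asm1

/-!
# R1, block UNS, (U1): the tail of the modulus `M0(Q)` (helper301)
-/

set_option autoImplicit false

open Finset Filter

namespace Crest.Agent.R001.Uns

open Crest.Agent.R001.EST

lemma exp_sub_one_le {t : ℝ} (h0 : 0 ≤ t) (h1 : t ≤ 1) : Real.exp t - 1 ≤ 2 * t := by
  have h := Real.abs_exp_sub_one_sub_id_le (x := t) (by rw [abs_of_nonneg h0]; exact h1)
  have h2 := (abs_le.mp h).2
  nlinarith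

/-- exponential Markov inequality for a random product -/
lemma markov (S : Finset ℕ) (p : ℕ → ℝ) (h0 : ∀ q ∈ S, 0 ≤ p q) (h1 : ∀ q ∈ S, p q ≤ 1)
    (hS : ∀ q ∈ S, 1 ≤ q) {B θ : ℝ} (hB : 0 < B) (hθ : 0 ≤ θ)
    (hθ1 : ∀ q ∈ S, θ * Real.log q ≤ 1) (ev : Finset ℕ → Prop) [DecidablePred ev]
    (hev : ∀ Q ∈ S.powerset, ev Q → B ≤ ∏ q ∈ Q, (q : ℝ)) :
    ∑ Q ∈ S.powerset with ev Q, Pr S p Q ≤
      Real.exp (-(θ * Real.log B) + ∑ q ∈ S, p q * (2 * (θ * Real.log q))) := by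
  have hstep : ∑ Q ∈ S.powerset with ev Q, Pr S p Q ≤
      ∑ Q ∈ S.powerset, Pr S p Q * (B ^ (-θ) * ∏ q ∈ Q, (q : ℝ) ^ θ) := by
    rw [Finset.sum_filter]
    refine Finset.sum_le_sum fun Q hQ => ?_
    have hQS := Finset.mem_powerset.mp hQ
    have hPr := Pr_nonneg S p h0 h1 Q hQS
    have hpos : 0 ≤ B ^ (-θ) * ∏ q ∈ Q, (q : ℝ) ^ θ := by
      have : 0 ≤ ∏ q ∈ Q, (q : ℝ) ^ θ := Finset.prod_nonneg fun q _ => by positivity
      positivity
    split_ifs with h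
    · have hB2 := hev Q hQ h
      have h3 : 1 ≤ B ^ (-θ) * ∏ q ∈ Q, (q : ℝ) ^ θ := by
        rw [Real.finsetProd_rpow _ _ (fun q _ => Nat.cast_nonneg q), Real.rpow_neg hB.le,
          ← div_eq_inv_mul, one_le_div (by positivity)]
        exact Real.rpow_le_rpow hB.le hB2 hθ
      calc Pr S p Q = Pr S p Q * 1 := (mul_one _).symm
        _ ≤ _ := mul_le_mul_of_nonneg_left h3 hPr
    · exact mul_nonneg hPr hpos
  refine hstep.trans ?_
  have h2 : ∑ Q ∈ S.powerset, Pr S p Q * (B ^ (-θ) * ∏ q ∈ Q, (q : ℝ) ^ θ) =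
      B ^ (-θ) * ∏ q ∈ S, (p q * (q : ℝ) ^ θ + (1 - p q)) := by
    rw [← sum_Pr_mul, Finset.mul_sum]
    exact Finset.sum_congr rfl fun Q _ => by ring
  rw [h2, Real.exp_add]
  have h3 : B ^ (-θ) = Real.exp (-(θ * Real.log B)) := by
    rw [Real.rpow_def_of_pos hB]
    congr 1
    ring
  rw [h3, Real.exp_sum]
  refine mul_le_mul_of_nonneg_left ?_ (Real.exp_pos _).le
  refine Finset.prod_le_prod (fun q hq => ?_) (fun q hq => ?_)
  · have a := h0 q hq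
    have b := h1 q hq
    have : (0 : ℝ) ≤ (q : ℝ) ^ θ := by positivity
    have : 0 ≤ p q * (q : ℝ) ^ θ := by positivity
    linarith
  · have a := h0 q hq
    have hq1 : (1 : ℝ) ≤ q := by exact_mod_cast hS q hq
    have hlq : 0 ≤ Real.log q := Real.log_nonneg hq1
    have e1 : (q : ℝ) ^ θ = Real.exp (θ * Real.log q) := by
      rw [Real.rpow_def_of_pos (by linarith)]
      congr 1
      ring
    have e2 := exp_sub_one_le (mul_nonneg hθ hlq) (hθ1 q hq)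
    rw [← e1] at e2
    have e3 := Real.add_one_le_exp (p q * (2 * (θ * Real.log q)))
    nlinarith

/-- **(U1)** the tail of the random modulus. -/
theorem tail (K A : ℕ) : ∃ c1 : ℝ, 0 < c1 ∧ ∃ X0 : ℝ, ∀ X : ℕ, X0 ≤ X → ∀ L : ℝ,
    L = Real.log X → ∀ S : Finset ℕ,
    S = (Finset.Ioc ⌊L / 100⌋₊ ⌊L ^ K⌋₊).filter Nat.Prime →
    ∀ p : ℕ → ℝ, (∀ q, p q = (c1 * L / Real.log L) / q) →
    (∀ q ∈ S, 0 < p q ∧ p q ≤ 1) ∧
    ∑ Q ∈ S.powerset with
      (⌊(X : ℝ) ^ ((1 : ℝ) / 20)⌋₊ < primorial ⌊L / 100⌋₊ * ∏ q ∈ Q, q),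
      Pr S p Q ≤ 1 / L ^ A := by
  obtain ⟨c1, hc1⟩ : ∃ c1 : ℝ, c1 = 1 / (120 * ((K : ℝ) + 1)) := ⟨_, rfl⟩
  have hK1 : (1 : ℝ) ≤ (K : ℝ) + 1 := by have : (0 : ℝ) ≤ K := Nat.cast_nonneg K; linarith
  have hc1p : 0 < c1 := by rw [hc1]; positivity
  have hc1le : c1 ≤ 1 / 120 := by
    rw [hc1]
    apply one_div_le_one_div_of_le (by norm_num)
    linarith
  refine ⟨c1, hc1p, ?_⟩
  have E1 : ∀ᶠ x : ℝ in atTop, 2 ≤ Real.log (Real.log x) :=
    Asm.tendsto_loglog.eventually_ge_atTop 2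
  have E2 : ∀ᶠ x : ℝ in atTop,
      (60 * ((K : ℝ) + 1) * (A + 1)) * (Real.log (Real.log x)) ^ (2 : ℝ) ≤ (Real.log x) ^ (1 : ℝ) :=
    Real.tendsto_log_atTop.eventually
      (Asm.eventually_log_rpow_le 2 1 (60 * ((K : ℝ) + 1) * (A + 1)) one_pos (by positivity))
  obtain ⟨X0, hX0⟩ := (E1.and (E2.and (eventually_ge_atTop (2 : ℝ)))).exists_forall_of_atTop
  refine ⟨X0, ?_⟩
  intro X hX L hL S hS p hp
  obtain ⟨e1, e2, e3⟩ := hX0 X hX
  rw [← hL] at e1 e2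
  obtain ⟨l, hl⟩ : ∃ l, l = Real.log L := ⟨_, rfl⟩
  rw [← hl] at e1 e2
  rw [Real.rpow_one, show (2 : ℝ) = ((2 : ℕ) : ℝ) by norm_num, Real.rpow_natCast] at e2
  push_cast at e2
  have hXpos : (0 : ℝ) < X := by linarith
  have hA0 : (0 : ℝ) ≤ A := Nat.cast_nonneg A
  have hL0 : 0 < L := by
    have : 0 < 60 * ((K : ℝ) + 1) * (A + 1) * l ^ 2 := by positivity
    linarith
  have hL240 : 240 ≤ L := by
    have h1 : 60 * 1 * 1 * 2 ^ 2 ≤ 60 * ((K : ℝ) + 1) * (A + 1) * l ^ 2 := by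
      gcongr
      linarith
    linarith
  have hLK : 1 ≤ L ^ K := one_le_pow₀ (by linarith)
  have hmem : ∀ q ∈ S, q.Prime ∧ L / 100 < q ∧ (q : ℝ) ≤ L ^ K := by
    intro q hq
    rw [hS, Finset.mem_filter, Finset.mem_Ioc] at hq
    obtain ⟨⟨h1, h2⟩, h3⟩ := hq
    refine ⟨h3, ?_, ?_⟩
    · exact (Nat.floor_lt (by positivity)).mp h1
    · exact (Nat.le_floor_iff (by positivity)).mp h2
  have hl0 : 0 < l := by linarith
  have hLam : c1 * L / l ≤ L / 120 := by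
    rw [div_le_div_iff₀ hl0 (by norm_num)]
    calc c1 * L * 120 ≤ 1 / 120 * L * 120 := by gcongr
      _ = L * 1 := by ring
      _ ≤ L * l := by gcongr; linarith
  have hpq : ∀ q ∈ S, 0 < p q ∧ p q ≤ 1 := by
    intro q hq
    obtain ⟨h1, h2, -⟩ := hmem q hq
    have hq0 : (0 : ℝ) < q := by exact_mod_cast h1.pos
    rw [hp q, ← hl]
    refine ⟨by positivity, ?_⟩
    rw [div_le_one hq0]
    linarith
  refine ⟨hpq, ?_⟩
  obtain ⟨θ, hθ⟩ : ∃ θ : ℝ, θ = 1 / (((K : ℝ) + 1) * l) := ⟨_, rfl⟩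
  have hθ0 : 0 < θ := by rw [hθ]; positivity
  have hlogq : ∀ q ∈ S, Real.log q ≤ K * l := by
    intro q hq
    obtain ⟨h1, -, h3⟩ := hmem q hq
    have hq0 : (0 : ℝ) < q := by exact_mod_cast h1.pos
    have := Real.log_le_log hq0 h3
    rwa [Real.log_pow, ← hl] at this
  have hθ1 : ∀ q ∈ S, θ * Real.log q ≤ 1 := by
    intro q hq
    have h1 := hlogq q hq
    calc θ * Real.log q ≤ θ * (K * l) := by gcongr
      _ = K / ((K : ℝ) + 1) := by rw [hθ]; field_simp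
      _ ≤ 1 := by rw [div_le_one (by linarith)]; linarith
  -- the event
  have hev : ∀ Q ∈ S.powerset,
      ⌊(X : ℝ) ^ ((1 : ℝ) / 20)⌋₊ < primorial ⌊L / 100⌋₊ * ∏ q ∈ Q, q →
      (X : ℝ) ^ ((1 : ℝ) / 30) ≤ ∏ q ∈ Q, (q : ℝ) := by
    intro Q _ h
    have h1 : (X : ℝ) ^ ((1 : ℝ) / 20) < ((primorial ⌊L / 100⌋₊ * ∏ q ∈ Q, q : ℕ) : ℝ) :=
      (Nat.floor_lt (by positivity)).mp h
    push_cast at h1
    have h2 : ((primorial ⌊L / 100⌋₊ : ℕ) : ℝ) ≤ (X : ℝ) ^ ((1 : ℝ) / 60) := by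
      have h3 : ((primorial ⌊L / 100⌋₊ : ℕ) : ℝ) ≤ (4 : ℝ) ^ ⌊L / 100⌋₊ := by
        exact_mod_cast primorial_le_four_pow _
      refine h3.trans ?_
      have h4 : ((⌊L / 100⌋₊ : ℕ) : ℝ) ≤ L / 100 := Nat.floor_le (by positivity)
      have hlog4 : Real.log 4 ≤ 5 / 3 := by
        have h5 : Real.log 4 = 2 * Real.log 2 := by
          rw [show (4 : ℝ) = 2 ^ 2 by norm_num, Real.log_pow]
          norm_num
        have := Real.log_two_lt_d9
        rw [h5]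
        linarith
      rw [← Real.rpow_natCast, Real.rpow_def_of_pos (by norm_num : (0 : ℝ) < 4),
        Real.rpow_def_of_pos hXpos, Real.exp_le_exp, ← hL]
      calc Real.log 4 * (⌊L / 100⌋₊ : ℕ) ≤ (5 / 3) * (L / 100) := by gcongr
        _ = L * (1 / 60) := by ring
    have h3 : (X : ℝ) ^ ((1 : ℝ) / 20) = (X : ℝ) ^ ((1 : ℝ) / 60) * (X : ℝ) ^ ((1 : ℝ) / 30) := by
      rw [← Real.rpow_add hXpos]
      norm_num
    rw [h3] at h1
    have h4 : (0 : ℝ) < (X : ℝ) ^ ((1 : ℝ) / 60) := by positivity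
    have hprod : (0 : ℝ) ≤ ∏ q ∈ Q, (q : ℝ) := Finset.prod_nonneg fun q _ => Nat.cast_nonneg q
    have h5 : (X : ℝ) ^ ((1 : ℝ) / 60) * (X : ℝ) ^ ((1 : ℝ) / 30) ≤
        (X : ℝ) ^ ((1 : ℝ) / 60) * ∏ q ∈ Q, (q : ℝ) := by
      refine h1.le.trans ?_
      exact mul_le_mul_of_nonneg_right h2 hprod
    exact le_of_mul_le_mul_left h5 h4
  have hmain := markov S p (fun q hq => (hpq q hq).1.le) (fun q hq => (hpq q hq).2)
    (fun q hq => (hmem q hq).1.one_lt.le) (B := (X : ℝ) ^ ((1 : ℝ) / 30)) (by positivity)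
    hθ0.le hθ1 _ hev
  refine hmain.trans ?_
  -- the exponent
  have hsum : ∑ q ∈ S, p q * (2 * (θ * Real.log q)) ≤ 2 * c1 * L / l := by
    have h1 : ∑ q ∈ S, p q * (2 * (θ * Real.log q)) =
        (2 * θ * (c1 * L / l)) * ∑ q ∈ S, Real.log q / q := by
      rw [Finset.mul_sum]
      refine Finset.sum_congr rfl fun q _ => ?_
      rw [hp q, ← hl]
      ring
    have h2 : ∑ q ∈ S, Real.log q / q ≤ (K + 1) * l := by
      have h3 : 1 ≤ ⌊L ^ K⌋₊ := Nat.le_floor (by push_cast; exact hLK)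
      have h4 := Lib.Mertens.A_le ⌊L ^ K⌋₊ h3
      have h5 : ∑ q ∈ S, Real.log q / q ≤ Lib.Mertens.A ⌊L ^ K⌋₊ := by
        unfold Lib.Mertens.A
        refine Finset.sum_le_sum_of_subset_of_nonneg ?_ ?_
        · intro q hq
          rw [hS, Finset.mem_filter, Finset.mem_Ioc] at hq
          rw [Nat.mem_primesLE]
          exact ⟨hq.1.2, hq.2⟩
        · intro q hq _
          have : (1 : ℝ) ≤ q := by
            rw [Nat.mem_primesLE] at hq
            exact_mod_cast hq.2.one_lt.le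
          exact div_nonneg (Real.log_nonneg this) (by linarith)
      have h6 : Real.log (⌊L ^ K⌋₊ : ℕ) ≤ K * l := by
        have h7 : ((⌊L ^ K⌋₊ : ℕ) : ℝ) ≤ L ^ K := Nat.floor_le (by positivity)
        have h8 := Real.log_le_log (by exact_mod_cast h3) h7
        rwa [Real.log_pow, ← hl] at h8
      have h9 : Real.log 4 ≤ l := by
        have h5 : Real.log 4 = 2 * Real.log 2 := by
          rw [show (4 : ℝ) = 2 ^ 2 by norm_num, Real.log_pow]
          norm_num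
        have := Real.log_two_lt_d9
        rw [h5]
        linarith
      linarith
    rw [h1]
    calc (2 * θ * (c1 * L / l)) * ∑ q ∈ S, Real.log q / q
        ≤ (2 * θ * (c1 * L / l)) * ((K + 1) * l) := by gcongr
      _ = 2 * c1 * L / l := by rw [hθ]; field_simp
  have hlogB : Real.log ((X : ℝ) ^ ((1 : ℝ) / 30)) = L / 30 := by
    rw [Real.log_rpow hXpos, ← hL]; ring
  rw [hlogB]
  have hexp : -(θ * (L / 30)) + ∑ q ∈ S, p q * (2 * (θ * Real.log q)) ≤ -(A * l) := by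
    have h1 : θ * (L / 30) = L / l * (1 / (30 * ((K : ℝ) + 1))) := by rw [hθ]; field_simp
    have h2 : 2 * c1 * L / l = L / l * (1 / (60 * ((K : ℝ) + 1))) := by rw [hc1]; field_simp; norm_num
    have h3 : A * l ≤ L / l * (1 / (60 * ((K : ℝ) + 1))) := by
      rw [div_mul_div_comm, mul_one, le_div_iff₀ (by positivity)]
      calc (A : ℝ) * l * (l * (60 * ((K : ℝ) + 1))) = 60 * ((K : ℝ) + 1) * A * l ^ 2 := by ring
        _ ≤ 60 * ((K : ℝ) + 1) * (A + 1) * l ^ 2 := by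
            gcongr
            linarith
        _ ≤ L := e2
    have h4 : 1 / (30 * ((K : ℝ) + 1)) = 2 * (1 / (60 * ((K : ℝ) + 1))) := by field_simp; norm_num
    rw [h1, h4]
    rw [h2] at hsum
    linarith
  calc Real.exp (-(θ * (L / 30)) + ∑ q ∈ S, p q * (2 * (θ * Real.log q)))
      ≤ Real.exp (-(A * l)) := Real.exp_le_exp.mpr hexp
    _ = 1 / L ^ A := by
        rw [Real.exp_neg, one_div, hl, ← Real.log_pow, Real.exp_log (by positivity)]

/-- **(U1)**, version with `y = ⌊L/400⌋` and `M0(Q) ≤ X^{1/100}`. -/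
theorem tail400 (K A : ℕ) : ∃ c1 : ℝ, 0 < c1 ∧ ∃ X0 : ℝ, ∀ X : ℕ, X0 ≤ X → ∀ L : ℝ,
    L = Real.log X → ∀ S : Finset ℕ,
    S = (Finset.Ioc ⌊L / 400⌋₊ ⌊L ^ K⌋₊).filter Nat.Prime →
    ∀ p : ℕ → ℝ, (∀ q, p q = (c1 * L / Real.log L) / q) →
    (∀ q ∈ S, 0 < p q ∧ p q ≤ 1) ∧
    ∑ Q ∈ S.powerset with
      (⌊(X : ℝ) ^ ((1 : ℝ) / 100)⌋₊ < primorial ⌊L / 400⌋₊ * ∏ q ∈ Q, q),
      Pr S p Q ≤ 1 / L ^ A := by
  obtain ⟨c1, hc1⟩ : ∃ c1 : ℝ, c1 = 1 / (800 * ((K : ℝ) + 1)) := ⟨_, rfl⟩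
  have hK1 : (1 : ℝ) ≤ (K : ℝ) + 1 := by have : (0 : ℝ) ≤ K := Nat.cast_nonneg K; linarith
  have hc1p : 0 < c1 := by rw [hc1]; positivity
  have hc1le : c1 ≤ 1 / 800 := by
    rw [hc1]
    apply one_div_le_one_div_of_le (by norm_num)
    linarith
  refine ⟨c1, hc1p, ?_⟩
  have E1 : ∀ᶠ x : ℝ in atTop, 2 ≤ Real.log (Real.log x) :=
    Asm.tendsto_loglog.eventually_ge_atTop 2
  have E2 : ∀ᶠ x : ℝ in atTop,
      (400 * ((K : ℝ) + 1) * (A + 1)) * (Real.log (Real.log x)) ^ (2 : ℝ) ≤ (Real.log x) ^ (1 : ℝ) :=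
    Real.tendsto_log_atTop.eventually
      (Asm.eventually_log_rpow_le 2 1 (400 * ((K : ℝ) + 1) * (A + 1)) one_pos (by positivity))
  obtain ⟨X0, hX0⟩ := (E1.and (E2.and (eventually_ge_atTop (2 : ℝ)))).exists_forall_of_atTop
  refine ⟨X0, ?_⟩
  intro X hX L hL S hS p hp
  obtain ⟨e1, e2, e3⟩ := hX0 X hX
  rw [← hL] at e1 e2
  obtain ⟨l, hl⟩ : ∃ l, l = Real.log L := ⟨_, rfl⟩
  rw [← hl] at e1 e2
  rw [Real.rpow_one, show (2 : ℝ) = ((2 : ℕ) : ℝ) by norm_num, Real.rpow_natCast] at e2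
  push_cast at e2
  have hXpos : (0 : ℝ) < X := by linarith
  have hA0 : (0 : ℝ) ≤ A := Nat.cast_nonneg A
  have hL0 : 0 < L := by
    have : 0 < 400 * ((K : ℝ) + 1) * (A + 1) * l ^ 2 := by positivity
    linarith
  have hL240 : 240 ≤ L := by
    have h1 : 400 * 1 * 1 * 2 ^ 2 ≤ 400 * ((K : ℝ) + 1) * (A + 1) * l ^ 2 := by
      gcongr
      linarith
    linarith
  have hLK : 1 ≤ L ^ K := one_le_pow₀ (by linarith)
  have hmem : ∀ q ∈ S, q.Prime ∧ L / 400 < q ∧ (q : ℝ) ≤ L ^ K := by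
    intro q hq
    rw [hS, Finset.mem_filter, Finset.mem_Ioc] at hq
    obtain ⟨⟨h1, h2⟩, h3⟩ := hq
    refine ⟨h3, ?_, ?_⟩
    · exact (Nat.floor_lt (by positivity)).mp h1
    · exact (Nat.le_floor_iff (by positivity)).mp h2
  have hl0 : 0 < l := by linarith
  have hLam : c1 * L / l ≤ L / 800 := by
    rw [div_le_div_iff₀ hl0 (by norm_num)]
    calc c1 * L * 800 ≤ 1 / 800 * L * 800 := by gcongr
      _ = L * 1 := by ring
      _ ≤ L * l := by gcongr; linarith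
  have hpq : ∀ q ∈ S, 0 < p q ∧ p q ≤ 1 := by
    intro q hq
    obtain ⟨h1, h2, -⟩ := hmem q hq
    have hq0 : (0 : ℝ) < q := by exact_mod_cast h1.pos
    rw [hp q, ← hl]
    refine ⟨by positivity, ?_⟩
    rw [div_le_one hq0]
    linarith
  refine ⟨hpq, ?_⟩
  obtain ⟨θ, hθ⟩ : ∃ θ : ℝ, θ = 1 / (((K : ℝ) + 1) * l) := ⟨_, rfl⟩
  have hθ0 : 0 < θ := by rw [hθ]; positivity
  have hlogq : ∀ q ∈ S, Real.log q ≤ K * l := by
    intro q hq
    obtain ⟨h1, -, h3⟩ := hmem q hq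
    have hq0 : (0 : ℝ) < q := by exact_mod_cast h1.pos
    have := Real.log_le_log hq0 h3
    rwa [Real.log_pow, ← hl] at this
  have hθ1 : ∀ q ∈ S, θ * Real.log q ≤ 1 := by
    intro q hq
    have h1 := hlogq q hq
    calc θ * Real.log q ≤ θ * (K * l) := by gcongr
      _ = K / ((K : ℝ) + 1) := by rw [hθ]; field_simp
      _ ≤ 1 := by rw [div_le_one (by linarith)]; linarith
  -- the event
  have hev : ∀ Q ∈ S.powerset,
      ⌊(X : ℝ) ^ ((1 : ℝ) / 100)⌋₊ < primorial ⌊L / 400⌋₊ * ∏ q ∈ Q, q →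
      (X : ℝ) ^ ((1 : ℝ) / 200) ≤ ∏ q ∈ Q, (q : ℝ) := by
    intro Q _ h
    have h1 : (X : ℝ) ^ ((1 : ℝ) / 100) < ((primorial ⌊L / 400⌋₊ * ∏ q ∈ Q, q : ℕ) : ℝ) :=
      (Nat.floor_lt (by positivity)).mp h
    push_cast at h1
    have h2 : ((primorial ⌊L / 400⌋₊ : ℕ) : ℝ) ≤ (X : ℝ) ^ ((1 : ℝ) / 200) := by
      have h3 : ((primorial ⌊L / 400⌋₊ : ℕ) : ℝ) ≤ (4 : ℝ) ^ ⌊L / 400⌋₊ := by
        exact_mod_cast primorial_le_four_pow _
      refine h3.trans ?_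
      have h4 : ((⌊L / 400⌋₊ : ℕ) : ℝ) ≤ L / 400 := Nat.floor_le (by positivity)
      have hlog4 : Real.log 4 ≤ 5 / 3 := by
        have h5 : Real.log 4 = 2 * Real.log 2 := by
          rw [show (4 : ℝ) = 2 ^ 2 by norm_num, Real.log_pow]
          norm_num
        have := Real.log_two_lt_d9
        rw [h5]
        linarith
      rw [← Real.rpow_natCast, Real.rpow_def_of_pos (by norm_num : (0 : ℝ) < 4),
        Real.rpow_def_of_pos hXpos, Real.exp_le_exp, ← hL]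
      calc Real.log 4 * (⌊L / 400⌋₊ : ℕ) ≤ (5 / 3) * (L / 400) := by gcongr
        _ ≤ L * (1 / 200) := by linarith
    have h3 : (X : ℝ) ^ ((1 : ℝ) / 100) = (X : ℝ) ^ ((1 : ℝ) / 200) * (X : ℝ) ^ ((1 : ℝ) / 200) := by
      rw [← Real.rpow_add hXpos]
      norm_num
    rw [h3] at h1
    have h4 : (0 : ℝ) < (X : ℝ) ^ ((1 : ℝ) / 200) := by positivity
    have hprod : (0 : ℝ) ≤ ∏ q ∈ Q, (q : ℝ) := Finset.prod_nonneg fun q _ => Nat.cast_nonneg q
    have h5 : (X : ℝ) ^ ((1 : ℝ) / 200) * (X : ℝ) ^ ((1 : ℝ) / 200) ≤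
        (X : ℝ) ^ ((1 : ℝ) / 200) * ∏ q ∈ Q, (q : ℝ) := by
      refine h1.le.trans ?_
      exact mul_le_mul_of_nonneg_right h2 hprod
    exact le_of_mul_le_mul_left h5 h4
  have hmain := markov S p (fun q hq => (hpq q hq).1.le) (fun q hq => (hpq q hq).2)
    (fun q hq => (hmem q hq).1.one_lt.le) (B := (X : ℝ) ^ ((1 : ℝ) / 200)) (by positivity)
    hθ0.le hθ1 _ hev
  refine hmain.trans ?_
  -- the exponent
  have hsum : ∑ q ∈ S, p q * (2 * (θ * Real.log q)) ≤ 2 * c1 * L / l := by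
    have h1 : ∑ q ∈ S, p q * (2 * (θ * Real.log q)) =
        (2 * θ * (c1 * L / l)) * ∑ q ∈ S, Real.log q / q := by
      rw [Finset.mul_sum]
      refine Finset.sum_congr rfl fun q _ => ?_
      rw [hp q, ← hl]
      ring
    have h2 : ∑ q ∈ S, Real.log q / q ≤ (K + 1) * l := by
      have h3 : 1 ≤ ⌊L ^ K⌋₊ := Nat.le_floor (by push_cast; exact hLK)
      have h4 := Lib.Mertens.A_le ⌊L ^ K⌋₊ h3
      have h5 : ∑ q ∈ S, Real.log q / q ≤ Lib.Mertens.A ⌊L ^ K⌋₊ := by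
        unfold Lib.Mertens.A
        refine Finset.sum_le_sum_of_subset_of_nonneg ?_ ?_
        · intro q hq
          rw [hS, Finset.mem_filter, Finset.mem_Ioc] at hq
          rw [Nat.mem_primesLE]
          exact ⟨hq.1.2, hq.2⟩
        · intro q hq _
          have : (1 : ℝ) ≤ q := by
            rw [Nat.mem_primesLE] at hq
            exact_mod_cast hq.2.one_lt.le
          exact div_nonneg (Real.log_nonneg this) (by linarith)
      have h6 : Real.log (⌊L ^ K⌋₊ : ℕ) ≤ K * l := by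
        have h7 : ((⌊L ^ K⌋₊ : ℕ) : ℝ) ≤ L ^ K := Nat.floor_le (by positivity)
        have h8 := Real.log_le_log (by exact_mod_cast h3) h7
        rwa [Real.log_pow, ← hl] at h8
      have h9 : Real.log 4 ≤ l := by
        have h5 : Real.log 4 = 2 * Real.log 2 := by
          rw [show (4 : ℝ) = 2 ^ 2 by norm_num, Real.log_pow]
          norm_num
        have := Real.log_two_lt_d9
        rw [h5]
        linarith
      linarith
    rw [h1]
    calc (2 * θ * (c1 * L / l)) * ∑ q ∈ S, Real.log q / q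
        ≤ (2 * θ * (c1 * L / l)) * ((K + 1) * l) := by gcongr
      _ = 2 * c1 * L / l := by rw [hθ]; field_simp
  have hlogB : Real.log ((X : ℝ) ^ ((1 : ℝ) / 200)) = L / 200 := by
    rw [Real.log_rpow hXpos, ← hL]; ring
  rw [hlogB]
  have hexp : -(θ * (L / 200)) + ∑ q ∈ S, p q * (2 * (θ * Real.log q)) ≤ -(A * l) := by
    have h1 : θ * (L / 200) = L / l * (1 / (200 * ((K : ℝ) + 1))) := by rw [hθ]; field_simp
    have h2 : 2 * c1 * L / l = L / l * (1 / (400 * ((K : ℝ) + 1))) := by rw [hc1]; field_simp; norm_num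
    have h3 : A * l ≤ L / l * (1 / (400 * ((K : ℝ) + 1))) := by
      rw [div_mul_div_comm, mul_one, le_div_iff₀ (by positivity)]
      calc (A : ℝ) * l * (l * (400 * ((K : ℝ) + 1))) = 400 * ((K : ℝ) + 1) * A * l ^ 2 := by ring
        _ ≤ 400 * ((K : ℝ) + 1) * (A + 1) * l ^ 2 := by
            gcongr
            linarith
        _ ≤ L := e2
    have h4 : 1 / (200 * ((K : ℝ) + 1)) = 2 * (1 / (400 * ((K : ℝ) + 1))) := by field_simp; norm_num
    rw [h1, h4]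
    rw [h2] at hsum
    linarith
  calc Real.exp (-(θ * (L / 200)) + ∑ q ∈ S, p q * (2 * (θ * Real.log q)))
      ≤ Real.exp (-(A * l)) := Real.exp_le_exp.mpr hexp
    _ = 1 / L ^ A := by
        rw [Real.exp_neg, one_div, hl, ← Real.log_pow, Real.exp_log (by positivity)]

end Crest.Agent.R001.Uns
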