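import Crest.Agent.R001.SE2
import Crest.Agent.R001.UnsTail
import Crest.Agent.R001.AsmDefs

/-!
# R1, block SE, part 4 (helper301): `ClsSE`, one class with the parameters of the assembly
-/

set_option autoImplicit false

open Finset Filter

namespace Crest.Agent.R001.SE

open Crest.Agent.R001.Tree Crest.Agent.R001.EST Crest.Agent.R001.Uns Crest.Agent.R001.Str
open Crest.Agent.R001.Asm

/-- arithmetic of a class: `n` is coprime to every modulus and `n d₁ ∣ Q a - U` -/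
lemma arith {a U : ℤ} {Q m n : ℕ} (hcop : IsCoprime U (Q : ℤ)) (hn : (n : ℤ) ∣ Q * a - U)
    (hnm : Nat.Coprime n m) (B : ℝ) (hp : ∀ p : ℕ, p.Prime → p ∣ n → B < p) (M : ℕ)
    (hM : ∀ p : ℕ, p.Prime → p ∣ M → (p : ℝ) ≤ B) :
    Nat.Coprime n (Q * (m / Int.gcd m (Q * a - U)) * M) ∧
      ((n * Int.gcd m (Q * a - U) : ℕ) : ℤ) ∣ Q * a - U := by
  have h1 : Nat.Coprime n Q := by
    rw [← Nat.isCoprime_iff_coprime]
    obtain ⟨x, hx⟩ := hn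
    obtain ⟨r, s, hrs⟩ := hcop
    -- r U + s Q = 1, U = Q a - n x
    refine ⟨-(r * x), r * a + s, ?_⟩
    have : U = Q * a - n * x := by linarith
    rw [this] at hrs
    linear_combination hrs
  have h2 : Nat.Coprime n (m / Int.gcd m (Q * a - U)) := by
    refine Nat.Coprime.coprime_dvd_right ?_ hnm
    apply Nat.div_dvd_of_dvd
    have := Int.gcd_dvd_left (a := (m : ℤ)) (b := Q * a - U)
    exact_mod_cast this
  have h3 : Nat.Coprime n M := by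
    apply Nat.Coprime.symm
    rw [Nat.coprime_comm]
    by_contra hc
    obtain ⟨p, hp1, hp2, hp3⟩ := Nat.Prime.not_coprime_iff_dvd.mp hc
    have := hp p hp1 hp2
    have := hM p hp1 hp3
    linarith
  refine ⟨(h1.mul_right h2).mul_right h3, ?_⟩
  push_cast
  have h4 : IsCoprime (n : ℤ) ((Int.gcd m (Q * a - U) : ℕ) : ℤ) := by
    rw [Nat.isCoprime_iff_coprime]
    refine Nat.Coprime.coprime_dvd_right ?_ hnm
    have := Int.gcd_dvd_left (a := (m : ℤ)) (b := Q * a - U)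
    exact_mod_cast this
  exact h4.mul_dvd hn (Int.gcd_dvd_right _ _)

/-- largeness conditions -/
structure BigC (C A K : ℕ) (c1 : ℝ) (x : ℝ) : Prop where
  x2 : 2 ≤ x
  L1600 : 1600 ≤ Real.log x
  l1 : 1 ≤ Real.log (Real.log x)
  cube : (1 + ((C : ℝ) + K) * Real.log (Real.log x)) ^ 3 ≤ Real.log x
  lam1 : Real.log (Real.log x) ≤ c1 * Real.log x
  lamt : 800 * c1 ≤ Real.log (Real.log x)
  lamk : (Real.log (Real.log x) / c1) ^ (C + 2 * A + 5) ≤ Real.log x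
  pow : 4 * (Real.log x) ^ (A + C + 2 * K + 3) ≤ x ^ ((17 : ℝ) / 300)

lemma eventually_bigC (C A K : ℕ) {c1 : ℝ} (hc1 : 0 < c1) : ∀ᶠ x : ℝ in atTop, BigC C A K c1 x := by
  have e1 : ∀ᶠ x : ℝ in atTop, 1600 ≤ Real.log x := Real.tendsto_log_atTop.eventually_ge_atTop 1600
  have e2 : ∀ᶠ x : ℝ in atTop, 1 ≤ Real.log (Real.log x) := tendsto_loglog.eventually_ge_atTop 1
  have e3 := Real.tendsto_log_atTop.eventually
    (eventually_log_rpow_le 3 1 (((C : ℝ) + K + 1) ^ 3) one_pos (by positivity))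
  have e4 := eventually_loglog_le (1 / c1) (by positivity)
  have e5 : ∀ᶠ x : ℝ in atTop, 800 * c1 ≤ Real.log (Real.log x) :=
    tendsto_loglog.eventually_ge_atTop _
  have e6 := Real.tendsto_log_atTop.eventually
    (eventually_log_rpow_le ((C + 2 * A + 5 : ℕ) : ℝ) 1 ((1 / c1) ^ (C + 2 * A + 5)) one_pos
      (by positivity))
  have e7 := eventually_log_rpow_le ((A + C + 2 * K + 3 : ℕ) : ℝ) (17 / 300) 4 (by norm_num)
    (by norm_num)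
  filter_upwards [e1, e2, e3, e4, e5, e6, e7, eventually_ge_atTop (2 : ℝ)] with x f1 f2 f3 f4 f5 f6 f7 f8
  refine ⟨f8, f1, f2, ?_, ?_, f5, ?_, ?_⟩
  · rw [show (3 : ℝ) = ((3 : ℕ) : ℝ) by norm_num, Real.rpow_natCast, Real.rpow_one] at f3
    have hCK : (0 : ℝ) ≤ (C : ℝ) + K := by positivity
    calc (1 + ((C : ℝ) + K) * Real.log (Real.log x)) ^ 3
        ≤ (((C : ℝ) + K + 1) * Real.log (Real.log x)) ^ 3 := by
          apply pow_le_pow_left₀ (by positivity)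
          nlinarith
      _ = ((C : ℝ) + K + 1) ^ 3 * (Real.log (Real.log x)) ^ 3 := by ring
      _ ≤ Real.log x := f3
  · rw [div_mul_eq_mul_div, one_mul, div_le_iff₀ hc1] at f4
    linarith
  · rw [Real.rpow_natCast, Real.rpow_one] at f6
    calc (Real.log (Real.log x) / c1) ^ (C + 2 * A + 5)
        = (1 / c1) ^ (C + 2 * A + 5) * (Real.log (Real.log x)) ^ (C + 2 * A + 5) := by
          rw [← mul_pow]; congr 1; ring
      _ ≤ Real.log x := f6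
  · rw [Real.rpow_natCast] at f7
    exact f7

/-- the size of the modulus term of STR -/
lemma str_size {X : ℕ} {C A K : ℕ} {c1 : ℝ} (hB : BigC C A K c1 X) {L : ℝ} (hL : L = Real.log X)
    {U : ℤ} {Q m P1 P2 d1 M : ℕ} (hQ : (Q : ℝ) ≤ (X : ℝ) ^ ((1 : ℝ) / 30))
    (hU : |(U : ℝ)| ≤ (X : ℝ) ^ ((31 : ℝ) / 30)) (hd1 : 0 < d1) (hd1m : d1 ∣ m)
    (hm : (m : ℝ) ≤ (X : ℝ) ^ ((1 : ℝ) / 30) * d1) (hm0 : 0 < m)
    (hP1 : (X : ℝ) ^ ((1 : ℝ) / 5) ≤ P1)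
    (hs : (P1 : ℝ) ≤ ((P2 : ℝ) - P1) * L ^ (A + C + K + 3))
    (hmP : (X : ℝ) / L ^ K ≤ 2 * (m * P1)) (hM : (M : ℝ) ≤ (X : ℝ) ^ ((1 : ℝ) / 100)) :
    ((Q * (m / d1) * M : ℕ) : ℝ) * (|(U : ℝ)| / d1 / P1 + 2) ≤ (P2 : ℝ) - P1 := by
  have hX0 : (0 : ℝ) < X := by have := hB.x2; linarith
  have hL1 : 1600 ≤ L := by rw [hL]; exact hB.L1600
  have hL0 : 0 < L := by linarith
  have hpow := hB.pow
  rw [← hL] at hpow
  have hd1r : (0 : ℝ) < d1 := by exact_mod_cast hd1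
  have hmr : (0 : ℝ) < m := by exact_mod_cast hm0
  have hX5 : (0 : ℝ) < (X : ℝ) ^ ((1 : ℝ) / 5) := Real.rpow_pos_of_pos hX0 _
  have hP1r : (0 : ℝ) < P1 := by linarith
  obtain ⟨u, hu⟩ : ∃ u, u = m / d1 := ⟨_, rfl⟩
  have hud : u * d1 = m := by rw [hu]; exact Nat.div_mul_cancel hd1m
  have hudr : (u : ℝ) * d1 = m := by exact_mod_cast hud
  have hur : (u : ℝ) ≤ (X : ℝ) ^ ((1 : ℝ) / 30) := by
    have : (u : ℝ) * d1 ≤ (X : ℝ) ^ ((1 : ℝ) / 30) * d1 := by rw [hudr]; exact hm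
    exact le_of_mul_le_mul_right this hd1r
  have hLK : 0 < L ^ K := by positivity
  have hXm : (X : ℝ) ≤ 2 * (m * P1) * L ^ K := by
    rwa [div_le_iff₀ hLK] at hmP
  -- |U| / (d1 P1) ≤ 2 L^K X^{1/15}
  have h1 : |(U : ℝ)| / d1 / P1 ≤ 2 * L ^ K * (X : ℝ) ^ ((1 : ℝ) / 15) := by
    rw [div_div, div_le_iff₀ (by positivity)]
    have h2 : (X : ℝ) ^ ((31 : ℝ) / 30) = (X : ℝ) ^ ((1 : ℝ) / 30) * X := by
      nth_rewrite 3 [← Real.rpow_one (X : ℝ)]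
      rw [← Real.rpow_add hX0]
      norm_num
    have h3 : (X : ℝ) ^ ((1 : ℝ) / 15) = (X : ℝ) ^ ((1 : ℝ) / 30) * (X : ℝ) ^ ((1 : ℝ) / 30) := by
      rw [← Real.rpow_add hX0]
      norm_num
    have h4 : 0 ≤ (X : ℝ) ^ ((1 : ℝ) / 30) := (Real.rpow_pos_of_pos hX0 _).le
    calc |(U : ℝ)| ≤ (X : ℝ) ^ ((1 : ℝ) / 30) * X := by rw [← h2]; exact hU
      _ ≤ (X : ℝ) ^ ((1 : ℝ) / 30) * (2 * (m * P1) * L ^ K) := by gcongr
      _ ≤ (X : ℝ) ^ ((1 : ℝ) / 30) * (2 * (((X : ℝ) ^ ((1 : ℝ) / 30) * d1) * P1) * L ^ K) := by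
          gcongr
      _ = 2 * L ^ K * (X : ℝ) ^ ((1 : ℝ) / 15) * (d1 * P1) := by rw [h3]; ring
  have h15 : 1 ≤ (X : ℝ) ^ ((1 : ℝ) / 15) :=
    Real.one_le_rpow (by have := hB.x2; linarith) (by norm_num)
  have hLK1 : 1 ≤ L ^ K := one_le_pow₀ (by linarith)
  have h5 : |(U : ℝ)| / d1 / P1 + 2 ≤ 4 * L ^ K * (X : ℝ) ^ ((1 : ℝ) / 15) := by
    nlinarith [mul_nonneg (sub_nonneg.2 h15) (sub_nonneg.2 hLK1)]
  have h6 : ((Q * (m / d1) * M : ℕ) : ℝ) ≤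
      (X : ℝ) ^ ((1 : ℝ) / 30) * (X : ℝ) ^ ((1 : ℝ) / 30) * (X : ℝ) ^ ((1 : ℝ) / 100) := by
    rw [← hu]
    push_cast
    have h4 : 0 ≤ (X : ℝ) ^ ((1 : ℝ) / 30) := (Real.rpow_pos_of_pos hX0 _).le
    gcongr
  have h7 : (X : ℝ) ^ ((1 : ℝ) / 30) * (X : ℝ) ^ ((1 : ℝ) / 30) * (X : ℝ) ^ ((1 : ℝ) / 100) *
      (X : ℝ) ^ ((1 : ℝ) / 15) * (X : ℝ) ^ ((17 : ℝ) / 300) = (X : ℝ) ^ ((1 : ℝ) / 5) := by
    rw [← Real.rpow_add hX0, ← Real.rpow_add hX0, ← Real.rpow_add hX0, ← Real.rpow_add hX0]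
    norm_num
  have h8 : 0 ≤ |(U : ℝ)| / d1 / P1 + 2 := by positivity
  have hLs : 0 < L ^ (A + C + K + 3) := by positivity
  have h9 : ((Q * (m / d1) * M : ℕ) : ℝ) * (|(U : ℝ)| / d1 / P1 + 2) * L ^ (A + C + K + 3) ≤
      (P2 - P1) * L ^ (A + C + K + 3) := by
    calc ((Q * (m / d1) * M : ℕ) : ℝ) * (|(U : ℝ)| / d1 / P1 + 2) * L ^ (A + C + K + 3)
        ≤ ((X : ℝ) ^ ((1 : ℝ) / 30) * (X : ℝ) ^ ((1 : ℝ) / 30) * (X : ℝ) ^ ((1 : ℝ) / 100)) *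
          (4 * L ^ K * (X : ℝ) ^ ((1 : ℝ) / 15)) * L ^ (A + C + K + 3) := by gcongr
      _ = ((X : ℝ) ^ ((1 : ℝ) / 30) * (X : ℝ) ^ ((1 : ℝ) / 30) * (X : ℝ) ^ ((1 : ℝ) / 100) *
          (X : ℝ) ^ ((1 : ℝ) / 15)) * (4 * L ^ (A + C + 2 * K + 3)) := by
          rw [show A + C + 2 * K + 3 = K + (A + C + K + 3) by ring, pow_add]
          ring
      _ ≤ ((X : ℝ) ^ ((1 : ℝ) / 30) * (X : ℝ) ^ ((1 : ℝ) / 30) * (X : ℝ) ^ ((1 : ℝ) / 100) *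
          (X : ℝ) ^ ((1 : ℝ) / 15)) * (X : ℝ) ^ ((17 : ℝ) / 300) := by gcongr
      _ = (X : ℝ) ^ ((1 : ℝ) / 5) := h7
      _ ≤ P1 := hP1
      _ ≤ (P2 - P1) * L ^ (A + C + K + 3) := hs
  exact le_of_mul_le_mul_right h9 hLs

/-- final numerics -/
lemma final_num (A C K : ℕ) {L s N0 y B0 cN : ℝ} (hL : 1600 ≤ L) (hs : 0 < s) (hN0 : 1 ≤ N0)
    (hy : y = L ^ C * N0) (hyup : y ≤ L ^ (C + K)) (hB0 : B0 = L ^ (C + 2 * A + 4))
    (hlog : (1 + Real.log y) ^ 3 ≤ L) (hc0 : 0 ≤ cN) (hc : cN ≤ s) :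
    (400 * N0 * s) * (y / B0 * (4 * (1 + Real.log y) ^ 3)) / (N0 / L ^ (A + 1)) +
      (N0 / L ^ (A + 1)) * cN + 1 / L ^ (2 * (C + K) + A + 1) * (cN * (y * (y / B0))) ≤
      s * (N0 / L ^ (A + 1)) + s * (N0 / L ^ (A + 1)) + s * (N0 / L ^ (A + 1)) := by
  have hL0 : 0 < L := by linarith
  have hL11 : 1 ≤ L := by linarith
  have hN0p : 0 < N0 := by linarith
  have hLC : 0 < L ^ C := by positivity
  have hy0 : 0 < y := by rw [hy]; positivity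
  have hB01 : 1 ≤ B0 := by rw [hB0]; exact one_le_pow₀ hL11
  refine add_le_add (add_le_add ?_ ?_) ?_
  · have h3 : y / B0 = N0 * (1 / L ^ (2 * A + 4)) := by
      rw [hy, hB0, show C + 2 * A + 4 = C + (2 * A + 4) by ring, pow_add]
      field_simp
    rw [h3, div_le_iff₀ (by positivity)]
    have h6 : 1600 * L / L ^ (2 * A + 4) ≤ 1 / (L ^ (A + 1) * L ^ (A + 1)) := by
      rw [div_le_div_iff₀ (by positivity) (by positivity), ← pow_add,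
        show 2 * A + 4 = (A + 1 + (A + 1)) + 2 by ring, pow_add L (A + 1 + (A + 1)) 2]
      have h4 : 0 < L ^ (A + 1 + (A + 1)) := by positivity
      have h5 : 1600 * L ≤ L ^ 2 := by rw [sq]; exact mul_le_mul_of_nonneg_right hL hL0.le
      calc 1600 * L * L ^ (A + 1 + (A + 1)) ≤ L ^ 2 * L ^ (A + 1 + (A + 1)) :=
            mul_le_mul_of_nonneg_right h5 h4.le
        _ = 1 * (L ^ (A + 1 + (A + 1)) * L ^ 2) := by ring
    have h7 : 0 ≤ s * N0 * N0 := by positivity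
    calc 400 * N0 * s * (N0 * (1 / L ^ (2 * A + 4)) * (4 * (1 + Real.log y) ^ 3))
        ≤ 400 * N0 * s * (N0 * (1 / L ^ (2 * A + 4)) * (4 * L)) := by gcongr
      _ = s * N0 * N0 * (1600 * L / L ^ (2 * A + 4)) := by ring
      _ ≤ s * N0 * N0 * (1 / (L ^ (A + 1) * L ^ (A + 1))) := mul_le_mul_of_nonneg_left h6 h7
      _ = s * (N0 / L ^ (A + 1)) * (N0 / L ^ (A + 1)) := by ring
  · rw [mul_comm]; gcongr
  · have h1 : y * (y / B0) ≤ L ^ (2 * (C + K)) := by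
      calc y * (y / B0) ≤ y * (y / 1) := by gcongr
        _ = y * y := by rw [div_one]
        _ ≤ L ^ (C + K) * L ^ (C + K) := by gcongr
        _ = L ^ (2 * (C + K)) := by rw [← pow_add]; congr 1; ring
    calc 1 / L ^ (2 * (C + K) + A + 1) * (cN * (y * (y / B0)))
        ≤ 1 / L ^ (2 * (C + K) + A + 1) * (s * L ^ (2 * (C + K))) := by gcongr
      _ = s * (1 / L ^ (A + 1)) := by
          rw [show 2 * (C + K) + A + 1 = 2 * (C + K) + (A + 1) by ring, pow_add]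
          field_simp
      _ ≤ s * (N0 / L ^ (A + 1)) := by gcongr

/-- the parameters of the randomisation -/
lemma params {C A K : ℕ} {c1 x : ℝ} (hB : BigC C A K c1 x) (hc1 : 0 < c1) {L : ℝ}
    (hL : L = Real.log x) :
    1 ≤ c1 * L / Real.log L ∧ c1 * L / Real.log L ≤ (⌊L / 400⌋₊ : ℝ) ∧
      L ^ (C + 2 * A + 4) ≤ (c1 * L / Real.log L) ^ (C + 2 * A + 4 + 1) := by
  have hL1 : 1600 ≤ L := by rw [hL]; exact hB.L1600
  have hL0 : 0 < L := by linarith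
  obtain ⟨l, hl⟩ : ∃ l : ℝ, l = Real.log L := ⟨_, rfl⟩
  have hl1 : 1 ≤ l := by rw [hl, hL]; exact hB.l1
  have hl0 : 0 < l := by linarith
  have hBlam1 : l ≤ c1 * L := by rw [hl, hL]; exact hB.lam1
  have hBlamt : 800 * c1 ≤ l := by rw [hl, hL]; exact hB.lamt
  have hBlamk : (l / c1) ^ (C + 2 * A + 5) ≤ L := by rw [hl, hL]; exact hB.lamk
  rw [← hl]
  refine ⟨?_, ?_, ?_⟩
  · rw [le_div_iff₀ hl0]; linarith
  · have h1 : c1 * L / l ≤ L / 400 - 1 := by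
      rw [div_le_iff₀ hl0]
      have h2 : c1 * L ≤ L / 800 * l := by
        calc c1 * L = (800 * c1) * (L / 800) := by ring
          _ ≤ l * (L / 800) := by gcongr
          _ = L / 800 * l := by ring
      have h3 : L / 800 ≤ L / 400 - 1 := by linarith
      exact h2.trans (mul_le_mul_of_nonneg_right h3 hl0.le)
    have h2 := Nat.lt_floor_add_one (L / 400)
    linarith
  · have h1 : c1 * L / l = L / (l / c1) := by field_simp
    rw [h1, div_pow, le_div_iff₀ (by positivity), pow_succ L]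
    have h0 : 0 < L ^ (C + 2 * A + 4) := by positivity
    exact mul_le_mul_of_nonneg_left hBlamk h0.le

/-- the `L²` bound in a class -/
lemma str_class {X : ℕ} {C A K C1 : ℕ} {c1 : ℝ} (hB : BigC C A K c1 X) {L : ℝ}
    (hL : L = Real.log X) (hK1 : 1 ≤ K) (hC1 : K ≤ C1) (a U : ℤ) (Q m P1 P2 : ℕ) (N : Finset ℕ)
    (hQ : 0 < Q) (hQX : (Q : ℝ) ≤ (X : ℝ) ^ ((1 : ℝ) / 30))
    (hUX : |(U : ℝ)| ≤ (X : ℝ) ^ ((31 : ℝ) / 30)) (hcop : IsCoprime U (Q : ℤ)) (hm0 : 0 < m)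
    (hmgcd : (m : ℝ) ≤ (X : ℝ) ^ ((1 : ℝ) / 30) * (Int.gcd m (Q * a - U) : ℝ))
    (hhigh : ¬ ((Q : ℝ) * ((m / Int.gcd m (Q * a - U) : ℕ) : ℝ) ≤
      L ^ (2 * (C + K) + (A + C + K + 3) + 1) ∧
      |(U : ℝ)| ≤ X * L ^ (2 * (C + K) + (A + C + K + 3) + 1)))
    (hP1X : (X : ℝ) ^ ((1 : ℝ) / 5) ≤ P1) (hP12 : P1 < P2) (hP2le : (P2 : ℝ) ≤ 2 * P1)
    (hP1s : (P1 : ℝ) ≤ ((P2 : ℝ) - P1) * L ^ (A + C + K + 3))
    (hmP : (X : ℝ) / L ^ K ≤ 2 * (m * P1))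
    (hN : ∀ n ∈ N, P1 < n ∧ n ≤ P2 ∧ Nat.Coprime n m ∧
      (∀ p : ℕ, p.Prime → p ∣ n → L ^ C1 < p) ∧ (n : ℤ) ∣ Q * a - U)
    (N0 y : ℝ) (hN0 : N0 = X / (m * P2)) (hN01 : 1 ≤ N0) (hy1 : 1 < y) (hyup : y ≤ L ^ (C + K))
    (t Z : ℕ) (ht : (t : ℝ) ≤ L ^ K) (hZ : (Z : ℝ) ≤ L ^ K) :
    ∀ (M : ℕ) (DD : Finset ℕ) (c : ℕ → ℝ), 0 < M → M ≤ ⌊(X : ℝ) ^ ((1 : ℝ) / 100)⌋₊ →
      (∀ δ ∈ DD, 0 < δ ∧ (δ : ℝ) ≤ y) → (∀ δ ∈ DD, δ ∣ M) → (∀ r, r.Prime → r ∣ M → r ≤ max t Z) →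
      ∑ n ∈ N, (err DD c N0 ((a : ℝ) / ((m * n : ℕ) : ℝ))) ^ 2 ≤
        (400 * N0 * ((P2 : ℝ) - P1)) * vv DD c := by
  intro M DD c hM0 hMX hDD hDM hMr
  have hX0 : (0 : ℝ) < X := by have := hB.x2; linarith
  have hL1 : 1600 ≤ L := by rw [hL]; exact hB.L1600
  have hL0 : 0 < L := by linarith
  have hL11 : 1 ≤ L := by linarith
  have hmr : (0 : ℝ) < m := by exact_mod_cast hm0
  have hX5 : (0 : ℝ) < (X : ℝ) ^ ((1 : ℝ) / 5) := Real.rpow_pos_of_pos hX0 _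
  have hP1r : (0 : ℝ) < P1 := by linarith
  have hP12r : (P1 : ℝ) < P2 := by exact_mod_cast hP12
  have hP2r : (0 : ℝ) < P2 := by linarith
  have hMX' : (M : ℝ) ≤ (X : ℝ) ^ ((1 : ℝ) / 100) :=
    (Nat.le_floor_iff (Real.rpow_pos_of_pos hX0 _).le).mp hMX
  have hMp : ∀ p : ℕ, p.Prime → p ∣ M → (p : ℝ) ≤ L ^ C1 := by
    intro p hp hpM
    have h1 := hMr p hp hpM
    have h6 : (p : ℝ) ≤ L ^ K := by
      have h7 : (p : ℝ) ≤ ((max t Z : ℕ) : ℝ) := by exact_mod_cast h1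
      rw [Nat.cast_max] at h7
      exact h7.trans (max_le ht hZ)
    exact h6.trans (pow_le_pow_right₀ hL11 hC1)
  have hDel : 0 < ⌊y⌋₊ := Nat.floor_pos.2 hy1.le
  have hDelr : ((⌊y⌋₊ : ℕ) : ℝ) ≤ L ^ (C + K) := (Nat.floor_le (by linarith)).trans hyup
  have hDel2 : ((⌊y⌋₊ : ℕ) : ℝ) ^ 2 ≤ L ^ (2 * (C + K)) := by
    calc ((⌊y⌋₊ : ℕ) : ℝ) ^ 2 ≤ (L ^ (C + K)) ^ 2 := by gcongr
      _ = L ^ (2 * (C + K)) := by rw [← pow_mul, mul_comm]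
  obtain ⟨d1, hd1⟩ : ∃ d1 : ℕ, d1 = Int.gcd (m : ℤ) (Q * a - U) := ⟨_, rfl⟩
  have hd1pos : 0 < d1 := by
    rw [hd1]; exact Int.gcd_pos_of_ne_zero_left _ (by exact_mod_cast hm0.ne')
  have hd1m : d1 ∣ m := by
    rw [hd1]
    have := Int.gcd_dvd_left (m : ℤ) (Q * a - U)
    exact_mod_cast this
  have hd1r : (0 : ℝ) < d1 := by exact_mod_cast hd1pos
  have hd1le : (d1 : ℝ) ≤ m := by exact_mod_cast Nat.le_of_dvd hm0 hd1m
  obtain ⟨s, hs⟩ : ∃ s : ℝ, s = (P2 : ℝ) - P1 := ⟨_, rfl⟩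
  have hs0 : 0 < s := by rw [hs]; linarith
  have hbig : ⌊y⌋₊ ^ 2 ≤ Q * (m / d1) ∨
      ((⌊y⌋₊ : ℕ) : ℝ) ^ 2 * (N0 + 2) ≤ |(U : ℝ)| / d1 * ((P2 : ℝ) - P1) / (P1 * P2) := by
    rw [← hd1] at hhigh
    by_cases hc : (Q : ℝ) * ((m / d1 : ℕ) : ℝ) ≤ L ^ (2 * (C + K) + (A + C + K + 3) + 1)
    · right
      have hU' : (X : ℝ) * L ^ (2 * (C + K) + (A + C + K + 3) + 1) < |(U : ℝ)| := by
        by_contra hcc
        exact hhigh ⟨hc, not_lt.mp hcc⟩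
      rw [← hs] at hP1s ⊢
      have e1 : (X : ℝ) * L ^ (2 * (C + K) + (A + C + K + 3) + 1) / m * s / (P1 * P2) ≤
          |(U : ℝ)| / d1 * s / (P1 * P2) := by
        gcongr
      refine le_trans ?_ e1
      have e2 : (X : ℝ) * L ^ (2 * (C + K) + (A + C + K + 3) + 1) / m * s / (P1 * P2) =
          N0 * L ^ (2 * (C + K)) * L * (L ^ (A + C + K + 3) * s / P1) := by
        rw [hN0, show 2 * (C + K) + (A + C + K + 3) + 1 = 2 * (C + K) + 1 + (A + C + K + 3) by ring,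
          pow_add, pow_add, pow_one]
        field_simp
      rw [e2]
      have e3 : 1 ≤ L ^ (A + C + K + 3) * s / P1 := by
        rw [le_div_iff₀ hP1r]; linarith
      have e4 : N0 + 2 ≤ 3 * N0 := by linarith
      have hN0p : 0 < N0 := by linarith
      have hpos1 : 0 < N0 * L ^ (2 * (C + K)) := by positivity
      have e5 : (3 : ℝ) ≤ L := by linarith
      calc ((⌊y⌋₊ : ℕ) : ℝ) ^ 2 * (N0 + 2) ≤ L ^ (2 * (C + K)) * (3 * N0) := by gcongr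
        _ = N0 * L ^ (2 * (C + K)) * 3 := by ring
        _ ≤ N0 * L ^ (2 * (C + K)) * L := mul_le_mul_of_nonneg_left e5 hpos1.le
        _ = N0 * L ^ (2 * (C + K)) * L * 1 := by ring
        _ ≤ N0 * L ^ (2 * (C + K)) * L * (L ^ (A + C + K + 3) * s / P1) :=
          mul_le_mul_of_nonneg_left e3 (by positivity)
    · left
      have h1 : ((⌊y⌋₊ ^ 2 : ℕ) : ℝ) ≤ ((Q * (m / d1) : ℕ) : ℝ) := by
        rw [Nat.cast_pow, Nat.cast_mul]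
        refine hDel2.trans (le_trans ?_ (not_le.mp hc).le)
        exact pow_le_pow_right₀ hL11 (by omega)
      exact_mod_cast h1
  have key := STR M ⌊y⌋₊ hM0 hDel DD c
    (fun δ hδ => ⟨(hDD δ hδ).1, Nat.le_floor (hDD δ hδ).2⟩)
    (fun δ hδ δ' hδ' => Nat.lcm_dvd (hDM δ hδ) (hDM δ' hδ')) a U Q m hQ hm0 hcop P1 P2
    (by exact_mod_cast hP1r) hP12.le (by exact_mod_cast hP2le) d1 hd1 (m / d1) rfl N
    (fun n hn => by
      obtain ⟨g1, g2, g3, g4, g5⟩ := hN n hn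
      have g := arith (a := a) (U := U) hcop g5 g3 (L ^ C1) g4 M hMp
      rw [← hd1] at g
      exact ⟨g1, g2, g.1, g.2⟩) N0 (by linarith) hbig
  have hsz := str_size hB hL hQX hUX hd1pos hd1m (by rw [hd1]; exact hmgcd) hm0 hP1X
    hP1s hmP hMX'
  have hvv := vv_nonneg DD c
  have hcong : ∑ n ∈ N, (err DD c N0 ((a : ℝ) / ((m * n : ℕ) : ℝ))) ^ 2 =
      ∑ n ∈ N, (err DD c N0 ((a : ℝ) / (n * m))) ^ 2 := by
    refine Finset.sum_congr rfl fun n _ => ?_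
    rw [show ((m * n : ℕ) : ℝ) = (n : ℝ) * m by push_cast; ring]
  rw [hcong]
  refine key.trans (mul_le_mul_of_nonneg_right ?_ hvv)
  rw [← hs] at hsz ⊢
  obtain ⟨W, hW⟩ : ∃ W : ℝ, W = ((Q * (m / d1) * M : ℕ) : ℝ) * (|(U : ℝ)| / d1 / P1 + 2) := ⟨_, rfl⟩
  rw [← hW] at hsz ⊢
  calc 100 * (N0 + 1) * (s + W) ≤ 100 * (2 * N0) * (s + s) := by
        have : 0 ≤ W := by rw [hW]; positivity
        gcongr
        linarith
    _ = 400 * N0 * s := by ring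

/-- the pointwise bound in a class -/
lemma pointwise {X : ℕ} {C A K C1 : ℕ} {L : ℝ} (hX0 : (0 : ℝ) < X) (hL1 : 1600 ≤ L)
    (hC1 : K ≤ C1) (a : ℤ) (m n P1 P2 w : ℕ) (hw : w = m.minFac) (hwK : (w : ℝ) ≤ L ^ K)
    (hm0 : 0 < m) (hP1r : (0 : ℝ) < P1)
    (hsP1 : ((P2 : ℝ) - P1) * L ^ (A + C + K + 1) ≤ P1) (g1 : P1 < n) (g2 : n ≤ P2)
    (g4 : ∀ p : ℕ, p.Prime → p ∣ n → L ^ C1 < p)
    (N0 y : ℝ) (hN0 : N0 = X / (m * P2)) (hadm : Adm y 1 w) (hy1 : 1 < y)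
    (hyup : y ≤ L ^ (C + K)) :
    max 0 ((X : ℝ) / (m * n) * Th (bd y) 1 w - sI a X (m * n) w) ≤
      N0 / L ^ (A + 1) + |errW y w N0 ((a : ℝ) / ((m * n : ℕ) : ℝ))| := by
  have hL0 : 0 < L := by linarith
  have hL11 : 1 ≤ L := by linarith
  have hmr : (0 : ℝ) < m := by exact_mod_cast hm0
  have g1r : (P1 : ℝ) < n := by exact_mod_cast g1
  have g2r : (n : ℝ) ≤ P2 := by exact_mod_cast g2
  have hnr : (0 : ℝ) < n := by linarith
  have hP2r : (0 : ℝ) < P2 := by linarith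
  have hN0p : 0 < N0 := by rw [hN0]; positivity
  have hn0' : 0 < n := by omega
  have hrgh : Rgh (m * n) w := by
    intro p hp hpw hpd
    rcases (Nat.Prime.dvd_mul hp).mp hpd with h | h
    · have := Nat.minFac_le_of_dvd hp.two_le h
      rw [← hw] at this
      omega
    · have h1 := g4 p hp h
      have h2 : (p : ℝ) < w := by exact_mod_cast hpw
      have h3 : L ^ K ≤ L ^ C1 := pow_le_pow_right₀ hL11 hC1
      linarith
  have hN0n : N0 ≤ (X : ℝ) / ((m * n : ℕ) : ℝ) := by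
    rw [hN0]; push_cast; gcongr
  have h1 := node_ge_real a X (m * n) (Nat.mul_pos hm0 hn0') w hrgh y hN0p.le hN0n
  have h2 : Theta y w = Th (bd y) 1 w := rfl
  have h3 := (abs_Theta_le y w).trans (card_Idx_le hadm hy1)
  obtain ⟨s, hs⟩ : ∃ s : ℝ, s = (P2 : ℝ) - P1 := ⟨_, rfl⟩
  have hs0 : 0 < s := by rw [hs]; linarith
  rw [← hs] at hsP1
  have h4 : (X : ℝ) / (m * n) - N0 ≤ N0 * (s / P1) := by
    have e1 : (X : ℝ) / (m * n) = N0 * (P2 / n) := by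
      rw [hN0]; field_simp
    rw [e1]
    have e2 : (P2 : ℝ) / n ≤ 1 + s / P1 := by
      rw [div_le_iff₀ hnr]
      have e3 : (1 + s / P1) * P1 = P2 := by rw [hs]; field_simp; ring
      have e4 : 0 ≤ 1 + s / P1 := by positivity
      calc (P2 : ℝ) = (1 + s / P1) * P1 := e3.symm
        _ ≤ (1 + s / P1) * n := mul_le_mul_of_nonneg_left g1r.le e4
    have e5 := mul_le_mul_of_nonneg_left e2 hN0p.le
    linarith
  have h5 : (0 : ℝ) ≤ (X : ℝ) / (m * n) - N0 := by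
    push_cast at hN0n; linarith
  have h6 : s / P1 * L ^ (C + K) ≤ 1 / L ^ (A + 1) := by
    rw [div_mul_eq_mul_div, div_le_div_iff₀ hP1r (by positivity), one_mul]
    calc s * L ^ (C + K) * L ^ (A + 1) = s * L ^ (A + C + K + 1) := by
          rw [mul_assoc, ← pow_add]; congr 2; ring
      _ ≤ P1 := hsP1
  have h7 : ((X : ℝ) / (m * n) - N0) * Theta y w ≤ N0 / L ^ (A + 1) := by
    calc ((X : ℝ) / (m * n) - N0) * Theta y w ≤ ((X : ℝ) / (m * n) - N0) * |Theta y w| :=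
          mul_le_mul_of_nonneg_left (le_abs_self _) h5
      _ ≤ (N0 * (s / P1)) * L ^ (C + K) :=
          mul_le_mul h4 (h3.trans hyup) (abs_nonneg _) (by positivity)
      _ = N0 * (s / P1 * L ^ (C + K)) := by ring
      _ ≤ N0 * (1 / L ^ (A + 1)) := mul_le_mul_of_nonneg_left h6 hN0p.le
      _ = N0 / L ^ (A + 1) := by ring
  apply max_le
  · positivity
  · have h8 := neg_abs_le (errW y w N0 ((a : ℝ) / ((m * n : ℕ) : ℝ)))
    rw [← h2]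
    obtain ⟨T, hT⟩ : ∃ T, T = Theta y w := ⟨_, rfl⟩
    rw [← hT] at h1 h7 ⊢
    have h9 : (X : ℝ) / (m * n) * T = ((X : ℝ) / (m * n) - N0) * T + N0 * T := by ring
    linarith

/-- **one class** -/
theorem clsSE : ClsSE := by
  classical
  intro C A
  obtain ⟨k, hk⟩ : ∃ k : ℕ, k = C + 2 * A + 4 + 1 := ⟨_, rfl⟩
  refine ⟨(C + 2 * A + 4) * (2 * 3 ^ k) + 1, ?_⟩
  intro K hK
  refine ⟨2 * (C + K) + (A + C + K + 3) + 1, ?_⟩
  intro C1 hC1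
  obtain ⟨c1, hc1, Xt, htail⟩ := tail400 K (2 * (C + K) + A + 1)
  obtain ⟨X0, hX0⟩ := (eventually_bigC C A K hc1).exists_forall_of_atTop
  refine ⟨max Xt X0, ?_⟩
  intro X hX a U Q m P1 P2 N hQ hQX hUX hcop hm1 hmgcd hhigh hP1X hP12 hsP1 hP1s hN
  have hB : BigC C A K c1 X := hX0 X ((le_max_right _ _).trans hX)
  obtain ⟨L, hL⟩ : ∃ L, L = Real.log (X : ℝ) := ⟨_, rfl⟩
  have htail' := htail X ((le_max_left _ _).trans hX) L hL _ rfl _ (fun q => rfl)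
  obtain ⟨hLam1, hLamt, hB0k⟩ := params hB hc1 hL
  have hBcube := hB.cube
  rw [← hL] at hhigh hsP1 hP1s hN hBcube ⊢
  have hX0 : (0 : ℝ) < X := by have := hB.x2; linarith
  have hL1 : 1600 ≤ L := by rw [hL]; exact hB.L1600
  clear htail
  have hL0 : 0 < L := by linarith
  have hL11 : 1 ≤ L := by linarith
  have hP12r : (P1 : ℝ) < P2 := by exact_mod_cast hP12
  -- trivial case
  rcases N.eq_empty_or_nonempty with hNe | ⟨n0, hn0⟩
  · rw [hNe, Finset.sum_empty]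
    have h1 : (0 : ℝ) ≤ (P2 : ℝ) - P1 := by linarith
    positivity
  have hm0 : 0 < m := by omega
  have hmr : (0 : ℝ) < m := by exact_mod_cast hm0
  have hX5 : (0 : ℝ) < (X : ℝ) ^ ((1 : ℝ) / 5) := Real.rpow_pos_of_pos hX0 _
  have hP1r : (0 : ℝ) < P1 := by linarith
  have hP2r : (0 : ℝ) < P2 := by linarith
  have hLbig : (2 : ℝ) ≤ L ^ (A + C + K + 1) := by
    calc (2 : ℝ) ≤ L := by linarith
      _ = L ^ 1 := (pow_one L).symm
      _ ≤ L ^ (A + C + K + 1) := pow_le_pow_right₀ hL11 (by omega)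
  have hs0 : 0 < (P2 : ℝ) - P1 := by linarith
  have hP2le : (P2 : ℝ) ≤ 2 * P1 := by
    have : ((P2 : ℝ) - P1) * 2 ≤ P1 := (mul_le_mul_of_nonneg_left hLbig hs0.le).trans hsP1
    linarith
  obtain ⟨N0, hN0⟩ : ∃ N0 : ℝ, N0 = (X : ℝ) / (m * P2) := ⟨_, rfl⟩
  have hN0p : 0 < N0 := by rw [hN0]; positivity
  rw [← hN0]
  obtain ⟨y, hy⟩ : ∃ y : ℝ, y = L ^ C * N0 := ⟨_, rfl⟩
  rw [← hy]
  obtain ⟨w, hw⟩ : ∃ w : ℕ, w = m.minFac := ⟨_, rfl⟩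
  rw [← hw] at hN ⊢
  obtain ⟨hn1, hn2, -, -, -, hn6, hn7, hn8⟩ := hN n0 hn0
  have hn1r : (P1 : ℝ) < n0 := by exact_mod_cast hn1
  have hn2r : (n0 : ℝ) ≤ P2 := by exact_mod_cast hn2
  have hn0r : (0 : ℝ) < n0 := by linarith
  -- N0 between
  have hN0low : (X : ℝ) / (m * n0) ≤ 2 * N0 := by
    rw [hN0, div_le_iff₀ (by positivity)]
    rw [show 2 * ((X : ℝ) / (m * P2)) * (m * n0) = X * (2 * n0 / P2) by field_simp]
    have : 1 ≤ 2 * n0 / (P2 : ℝ) := by rw [le_div_iff₀ hP2r]; linarith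
    exact le_mul_of_one_le_right hX0.le this
  have hN0up : N0 ≤ (X : ℝ) / (m * n0) := by
    rw [hN0]; gcongr
  have hLK0 : 0 < L ^ K := by positivity
  have hmn0 : (X : ℝ) / (m * n0) ≤ L ^ K := by
    rw [div_le_iff₀ (by positivity)]
    rw [div_le_iff₀ hLK0] at hn6
    linarith
  have hmn0' : L ^ ((C + 2 * A + 4) * (2 * 3 ^ k) + 1) ≤ (X : ℝ) / (m * n0) := by
    rw [le_div_iff₀ (by positivity), mul_comm]
    rwa [le_div_iff₀ (by positivity)] at hn7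
  have hLk : L ^ ((C + 2 * A + 4) * (2 * 3 ^ k)) ≤ N0 := by
    have h1 : 2 * L ^ ((C + 2 * A + 4) * (2 * 3 ^ k)) ≤ 2 * N0 := by
      calc 2 * L ^ ((C + 2 * A + 4) * (2 * 3 ^ k)) ≤ L * L ^ ((C + 2 * A + 4) * (2 * 3 ^ k)) := by
            have h2 : 0 < L ^ ((C + 2 * A + 4) * (2 * 3 ^ k)) := by positivity
            exact mul_le_mul_of_nonneg_right (by linarith) h2.le
        _ = L ^ ((C + 2 * A + 4) * (2 * 3 ^ k) + 1) := by rw [pow_succ, mul_comm]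
        _ ≤ 2 * N0 := hmn0'.trans hN0low
    linarith
  have hN01 : 1 ≤ N0 := (one_le_pow₀ hL11).trans hLk
  have hLC1 : 1 ≤ L ^ C := one_le_pow₀ hL11
  have hyN : N0 ≤ y := by rw [hy]; exact le_mul_of_one_le_left hN0p.le hLC1
  have hw22 : 1 < w := by
    rw [hw]
    exact (Nat.minFac_prime (show m ≠ 1 by omega)).one_lt
  have hw22r : (2 : ℝ) ≤ w := by exact_mod_cast hw22
  have hw2sq : (w : ℝ) ≤ (w : ℝ) ^ 2 := by
    rw [sq]; exact le_mul_of_one_le_left (by linarith) (by linarith)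
  have hw2 : (w : ℝ) ^ 2 < y := by linarith
  have hwK : (w : ℝ) ≤ L ^ K := by linarith
  have hadm : Adm y 1 w := adm_of_lt (by push_cast; linarith)
  have hy1 : 1 < y := by linarith
  have hyup : y ≤ L ^ (C + K) := by
    rw [hy, pow_add]
    exact mul_le_mul_of_nonneg_left (hN0up.trans hmn0) (by linarith)
  have hy0 : 0 < y := by linarith
  have hB01 : 1 ≤ L ^ (C + 2 * A + 4) := one_le_pow₀ hL11
  have hyB : (L ^ (C + 2 * A + 4)) ^ (2 * 3 ^ k) ≤ y := by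
    rw [← pow_mul]
    exact hLk.trans hyN
  have hwZ : w ≤ ⌊L ^ K⌋₊ + 1 := by
    have : w ≤ ⌊L ^ K⌋₊ := Nat.le_floor hwK
    omega
  have hpt : ∑ R ∈ (SP ⌊L / 400⌋₊ ⌊L ^ K⌋₊).powerset with
      ⌊(X : ℝ) ^ ((1 : ℝ) / 100)⌋₊ < primorial ⌊L / 400⌋₊ * ∏ q ∈ R, q,
      Pr (SP ⌊L / 400⌋₊ ⌊L ^ K⌋₊) (fun q : ℕ => (c1 * L / Real.log L) / (q : ℝ)) R ≤
        1 / L ^ (2 * (C + K) + A + 1) := by
    have h1 : SP ⌊L / 400⌋₊ ⌊L ^ K⌋₊ = (Finset.Ioc ⌊L / 400⌋₊ ⌊L ^ K⌋₊).filter Nat.Prime := by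
      ext q
      rw [mem_SP, Finset.mem_filter, Finset.mem_Ioc]
      tauto
    rw [h1]
    exact htail'.2
  have hcardN : (N.card : ℝ) ≤ (P2 : ℝ) - P1 := by
    have h1 : N ⊆ Finset.Ioc P1 P2 := by
      intro n hn
      rw [Finset.mem_Ioc]
      exact ⟨(hN n hn).1, (hN n hn).2.1⟩
    have h2 := Finset.card_le_card h1
    rw [Nat.card_Ioc] at h2
    have h3 : ((P2 - P1 : ℕ) : ℝ) = (P2 : ℝ) - P1 := by rw [Nat.cast_sub hP12.le]
    rw [← h3]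
    exact_mod_cast h2
  have ht : ((⌊L / 400⌋₊ : ℕ) : ℝ) ≤ L ^ K := by
    have h4 : ((⌊L / 400⌋₊ : ℕ) : ℝ) ≤ L / 400 := Nat.floor_le (by positivity)
    have h5 : L ≤ L ^ K := by
      calc L = L ^ 1 := (pow_one L).symm
        _ ≤ L ^ K := pow_le_pow_right₀ hL11 (by omega)
    linarith
  have hZ : ((⌊L ^ K⌋₊ : ℕ) : ℝ) ≤ L ^ K := Nat.floor_le hLK0.le
  have hmP : (X : ℝ) / L ^ K ≤ 2 * (m * P1) := by
    have h1 : (m : ℝ) * n0 ≤ m * (2 * P1) :=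
      mul_le_mul_of_nonneg_left (hn2r.trans hP2le) hmr.le
    linarith
  have hstr := str_class hB hL (by omega) hC1 a U Q m P1 P2 N hQ hQX hUX hcop hm0 hmgcd hhigh hP1X
    hP12 hP2le hP1s hmP (fun n hn => ⟨(hN n hn).1, (hN n hn).2.1, (hN n hn).2.2.1,
      (hN n hn).2.2.2.1, (hN n hn).2.2.2.2.1⟩) N0 y hN0 hN01 hy1 hyup _ _ ht hZ
  have hclass := class_bound y w ⌊L / 400⌋₊ ⌊L ^ K⌋₊ (c1 * L / Real.log L) (L ^ (C + 2 * A + 4)) k
    hadm hy1 hLam1 hLamt hB01 (by rw [hk]; exact hB0k) hyB hwZ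
    ⌊(X : ℝ) ^ ((1 : ℝ) / 100)⌋₊ _ hpt N (fun n => (a : ℝ) / ((m * n : ℕ) : ℝ)) N0 hN0p.le
    (400 * N0 * ((P2 : ℝ) - P1)) (by positivity) hstr (N0 / L ^ (A + 1)) (by positivity)
  have hlog : (1 + Real.log y) ^ 3 ≤ L := by
    have hlogy : Real.log y ≤ (C + K) * Real.log L := by
      have h1 := Real.log_le_log hy0 hyup
      rw [Real.log_pow] at h1
      push_cast at h1
      exact h1
    have hlogy0 : 0 ≤ Real.log y := Real.log_nonneg hy1.le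
    exact (pow_le_pow_left₀ (by linarith) (by linarith) 3).trans hBcube
  have hnum := final_num A C K hL1 hs0 hN01 hy hyup rfl hlog (Nat.cast_nonneg N.card) hcardN
  have hpt2 : ∀ n ∈ N, max 0 ((X : ℝ) / (m * n) * Th (bd y) 1 w - sI a X (m * n) w) ≤
      N0 / L ^ (A + 1) + |errW y w N0 ((a : ℝ) / ((m * n : ℕ) : ℝ))| := by
    intro n hn
    exact pointwise hX0 hL1 hC1 a m n P1 P2 w hw hwK hm0 hP1r hsP1 (hN n hn).1 (hN n hn).2.1
      (hN n hn).2.2.2.1 N0 y hN0 hadm hy1 hyup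
  have hLA1 : 0 < L ^ (A + 1) := by positivity
  obtain ⟨s, hs⟩ : ∃ s : ℝ, s = (P2 : ℝ) - P1 := ⟨_, rfl⟩
  rw [← hs] at hs0 hclass hnum hcardN ⊢
  have h1 : (N.card : ℝ) * (N0 / L ^ (A + 1)) ≤ s * (N0 / L ^ (A + 1)) :=
    mul_le_mul_of_nonneg_right hcardN (by positivity)
  calc ∑ n ∈ N, max 0 ((X : ℝ) / (m * n) * Th (bd y) 1 w - sI a X (m * n) w)
      ≤ ∑ n ∈ N, (N0 / L ^ (A + 1) + |errW y w N0 ((a : ℝ) / ((m * n : ℕ) : ℝ))|) :=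
        Finset.sum_le_sum hpt2
    _ = N.card * (N0 / L ^ (A + 1)) + ∑ n ∈ N, |errW y w N0 ((a : ℝ) / ((m * n : ℕ) : ℝ))| := by
        rw [Finset.sum_add_distrib, Finset.sum_const, nsmul_eq_mul]
    _ ≤ s * (N0 / L ^ (A + 1)) + (s * (N0 / L ^ (A + 1)) + s * (N0 / L ^ (A + 1)) +
          s * (N0 / L ^ (A + 1))) := add_le_add h1 (hclass.trans hnum)
    _ = s * N0 / L ^ A * (4 / L) := by
        rw [pow_succ]; field_simp; ring
    _ ≤ s * N0 / L ^ A * 1 := by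
        have h2 : 4 / L ≤ 1 := by rw [div_le_one hL0]; linarith
        exact mul_le_mul_of_nonneg_left h2 (by positivity)
    _ = s * N0 / L ^ A := mul_one _

end Crest.Agent.R001.SE
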