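import Crest.Agent.R001.Asm1

/-!
# R1, block SE, part 3 (helper301): the grid of the variable `n`
-/

set_option autoImplicit false

open Finset Filter

namespace Crest.Agent.R001.SE

open Crest.Agent.R001.Asm

/-- step of the grid at `n` -/
def gs (R n : ℕ) : ℕ := 2 ^ (Nat.log 2 n) / R + 1

/-- left end point of the cell of `n` -/
def gP1 (R n : ℕ) : ℕ := 2 ^ (Nat.log 2 n) + ((n - 2 ^ (Nat.log 2 n)) / gs R n) * gs R n - 1

/-- right end point of the cell of `n` -/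
def gP2 (R n : ℕ) : ℕ := gP1 R n + gs R n

lemma gs_pos (R n : ℕ) : 0 < gs R n := Nat.succ_pos _

lemma gP1_add_one (R n : ℕ) :
    gP1 R n + 1 = 2 ^ (Nat.log 2 n) + ((n - 2 ^ (Nat.log 2 n)) / gs R n) * gs R n := by
  unfold gP1
  have : 1 ≤ 2 ^ (Nat.log 2 n) := Nat.one_le_two_pow
  omega

lemma grid_mem (R : ℕ) {n : ℕ} (hn : 1 ≤ n) : gP1 R n < n ∧ n ≤ gP2 R n := by
  have h1 := gP1_add_one R n
  have h2 : 2 ^ (Nat.log 2 n) ≤ n := Nat.pow_log_le_self 2 (by omega)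
  have h3 := gs_pos R n
  have h4 := Nat.div_mul_le_self (n - 2 ^ (Nat.log 2 n)) (gs R n)
  have h5 := Nat.lt_div_mul_add (a := n - 2 ^ (Nat.log 2 n)) h3
  unfold gP2
  constructor
  · omega
  · omega

lemma sum_biUnion_le'' {α β : Type*} [DecidableEq β] (s : Finset α) (t : α → Finset β) (f : β → ℝ)
    (hf : ∀ b ∈ s.biUnion t, 0 ≤ f b) : ∑ b ∈ s.biUnion t, f b ≤ ∑ a ∈ s, ∑ b ∈ t a, f b := by
  classical
  induction s using Finset.induction_on with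
  | empty => simp
  | insert a s ha ih =>
    rw [biUnion_insert] at hf ⊢
    rw [sum_insert ha]
    have h1 := sum_union_inter (s₁ := t a) (s₂ := s.biUnion t) (f := f)
    have h2 : 0 ≤ ∑ b ∈ t a ∩ s.biUnion t, f b :=
      sum_nonneg fun b hb => hf b (mem_union_left _ (mem_inter.mp hb).1)
    have h3 := ih (fun b hb => hf b (mem_union_right _ hb))
    linarith

/-- the cell only depends on `j = log₂ n` and `i` -/
lemma grid_image (R : ℕ) (N : Finset ℕ) (J : ℕ) (hN : ∀ n ∈ N, 1 ≤ n ∧ Nat.log 2 n < J) :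
    N.image (fun n => (gP1 R n, gP2 R n)) ⊆
      (range J).biUnion (fun j => (range ((2 ^ j - 1) / (2 ^ j / R + 1) + 1)).image
        (fun i => (2 ^ j + i * (2 ^ j / R + 1) - 1,
          2 ^ j + i * (2 ^ j / R + 1) - 1 + (2 ^ j / R + 1)))) := by
  intro c hc
  obtain ⟨n, hn, rfl⟩ := mem_image.mp hc
  obtain ⟨h1, h2⟩ := hN n hn
  rw [mem_biUnion]
  refine ⟨Nat.log 2 n, mem_range.mpr h2, ?_⟩
  rw [mem_image]
  refine ⟨(n - 2 ^ (Nat.log 2 n)) / gs R n, ?_, rfl⟩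
  rw [mem_range, Nat.lt_succ_iff]
  apply Nat.div_le_div_right
  have h3 : n < 2 ^ (Nat.log 2 n + 1) := Nat.lt_pow_succ_log_self (by norm_num) n
  rw [pow_succ] at h3
  omega

lemma grid_sum (R : ℕ) (hR : 1 ≤ R) (N : Finset ℕ) (x : ℝ) (hx : 2 ≤ x)
    (hN : ∀ n ∈ N, 1 ≤ n ∧ (n : ℝ) ≤ x) :
    ∑ c ∈ N.image (fun n => (gP1 R n, gP2 R n)), ((c.2 : ℝ) - c.1) / c.2 ≤
      4 * (1 + Real.log x) := by
  obtain ⟨J, hJ⟩ : ∃ J : ℕ, J = Nat.log 2 ⌊x⌋₊ + 1 := ⟨_, rfl⟩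
  have hx0 : 0 < x := by linarith
  have hfl : ⌊x⌋₊ ≠ 0 := by
    have : 1 ≤ ⌊x⌋₊ := Nat.le_floor (by push_cast; linarith)
    omega
  have hsub := grid_image R N J (by
    intro n hn
    obtain ⟨h1, h2⟩ := hN n hn
    refine ⟨h1, ?_⟩
    rw [hJ, Nat.lt_succ_iff]
    exact Nat.log_mono_right (Nat.le_floor h2))
  have hJle : (J : ℝ) ≤ 2 * (1 + Real.log x) := by
    have h1 : 2 ^ (Nat.log 2 ⌊x⌋₊) ≤ ⌊x⌋₊ := Nat.pow_log_le_self 2 hfl
    have h2 : ((2 : ℝ)) ^ (Nat.log 2 ⌊x⌋₊) ≤ x := by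
      have : ((2 ^ (Nat.log 2 ⌊x⌋₊) : ℕ) : ℝ) ≤ x :=
        (Nat.cast_le.mpr h1).trans (Nat.floor_le hx0.le)
      exact_mod_cast this
    have h3 := Real.log_le_log (by positivity) h2
    rw [Real.log_pow] at h3
    have h4 := Real.log_two_gt_d9
    have h5 : (0 : ℝ) ≤ (Nat.log 2 ⌊x⌋₊ : ℝ) := Nat.cast_nonneg _
    rw [hJ]
    push_cast
    nlinarith
  have hterm : ∀ c ∈ (range J).biUnion (fun j => (range ((2 ^ j - 1) / (2 ^ j / R + 1) + 1)).image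
        (fun i => (2 ^ j + i * (2 ^ j / R + 1) - 1,
          2 ^ j + i * (2 ^ j / R + 1) - 1 + (2 ^ j / R + 1)))), 0 ≤ ((c.2 : ℝ) - c.1) / c.2 := by
    intro c hc
    obtain ⟨j, -, hj⟩ := mem_biUnion.mp hc
    obtain ⟨i, -, rfl⟩ := mem_image.mp hj
    apply div_nonneg _ (Nat.cast_nonneg _)
    rw [sub_nonneg]
    exact_mod_cast Nat.le_add_right _ _
  refine (sum_le_sum_of_subset_of_nonneg hsub (fun c hc _ => hterm c hc)).trans ?_
  refine (sum_biUnion_le'' _ _ _ hterm).trans ?_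
  have h1 : ∀ j ∈ range J, ∑ c ∈ (range ((2 ^ j - 1) / (2 ^ j / R + 1) + 1)).image
        (fun i => (2 ^ j + i * (2 ^ j / R + 1) - 1,
          2 ^ j + i * (2 ^ j / R + 1) - 1 + (2 ^ j / R + 1))), ((c.2 : ℝ) - c.1) / c.2 ≤ 2 := by
    intro j _
    obtain ⟨s, hs⟩ : ∃ s, s = 2 ^ j / R + 1 := ⟨_, rfl⟩
    rw [← hs]
    have hs0 : 0 < s := by rw [hs]; exact Nat.succ_pos _
    have hsr : (0 : ℝ) < s := by exact_mod_cast hs0
    have h2j : (0 : ℝ) < 2 ^ j := by positivity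
    have h2jn : 1 ≤ 2 ^ j := Nat.one_le_two_pow
    have e1 : ∑ c ∈ (range ((2 ^ j - 1) / s + 1)).image
        (fun i => (2 ^ j + i * s - 1, 2 ^ j + i * s - 1 + s)), ((c.2 : ℝ) - c.1) / c.2 ≤
        ((range ((2 ^ j - 1) / s + 1)).image
        (fun i => (2 ^ j + i * s - 1, 2 ^ j + i * s - 1 + s))).card • ((s : ℝ) / 2 ^ j) := by
      refine sum_le_card_nsmul _ _ _ ?_
      intro c hc
      obtain ⟨i, -, rfl⟩ := mem_image.mp hc
      have f1 : (((2 ^ j + i * s - 1 + s : ℕ) : ℝ) - ((2 ^ j + i * s - 1 : ℕ) : ℝ)) = s := by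
        push_cast
        ring
      have f2 : ((2 : ℝ)) ^ j ≤ ((2 ^ j + i * s - 1 + s : ℕ) : ℝ) := by
        have : 2 ^ j ≤ 2 ^ j + i * s - 1 + s := by
          have : 0 ≤ i * s := Nat.zero_le _
          omega
        exact_mod_cast this
      show (((2 ^ j + i * s - 1 + s : ℕ) : ℝ) - ((2 ^ j + i * s - 1 : ℕ) : ℝ)) /
        ((2 ^ j + i * s - 1 + s : ℕ) : ℝ) ≤ (s : ℝ) / 2 ^ j
      rw [f1]
      gcongr
    refine e1.trans ?_
    have e2 : ((range ((2 ^ j - 1) / s + 1)).image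
        (fun i => (2 ^ j + i * s - 1, 2 ^ j + i * s - 1 + s))).card ≤ (2 ^ j - 1) / s + 1 :=
      card_image_le.trans (by rw [card_range])
    rw [nsmul_eq_mul]
    have e3 : ((((range ((2 ^ j - 1) / s + 1)).image
        (fun i => (2 ^ j + i * s - 1, 2 ^ j + i * s - 1 + s))).card : ℕ) : ℝ) ≤
        (((2 ^ j - 1) / s + 1 : ℕ) : ℝ) := by exact_mod_cast e2
    have e4 : ((2 ^ j - 1) / s + 1) * s ≤ 2 * 2 ^ j := by
      have g1 := Nat.div_mul_le_self (2 ^ j - 1) s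
      have g2 : 2 ^ j / R ≤ 2 ^ j := Nat.div_le_self _ _
      have g3 : ((2 ^ j - 1) / s + 1) * s = (2 ^ j - 1) / s * s + s := by ring
      omega
    have e5 : (((2 ^ j - 1) / s + 1 : ℕ) : ℝ) * s ≤ 2 * 2 ^ j := by exact_mod_cast e4
    calc _ ≤ (((2 ^ j - 1) / s + 1 : ℕ) : ℝ) * ((s : ℝ) / 2 ^ j) :=
          mul_le_mul_of_nonneg_right e3 (by positivity)
      _ = ((((2 ^ j - 1) / s + 1 : ℕ) : ℝ) * s) / 2 ^ j := by ring
      _ ≤ 2 := by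
          rw [div_le_iff₀ h2j]
          exact e5
  calc _ ≤ ∑ j ∈ range J, (2 : ℝ) := sum_le_sum h1
    _ = 2 * J := by rw [sum_const, card_range, nsmul_eq_mul]; ring
    _ ≤ 4 * (1 + Real.log x) := by linarith

/-- size of the cells -/
lemma grid_size (C9 : ℕ) (h9 : 1 ≤ C9) : ∀ᶠ x : ℝ in atTop, ∀ R : ℕ,
    R = ⌈(Real.log x) ^ C9⌉₊ → ∀ n : ℕ, x ^ ((1 : ℝ) / 4) ≤ n →
    x ^ ((1 : ℝ) / 5) ≤ gP1 R n ∧ gP1 R n < gP2 R n ∧
    ((gP2 R n : ℝ) - gP1 R n) * (Real.log x) ^ (C9 - 1) ≤ gP1 R n ∧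
    (gP1 R n : ℝ) ≤ ((gP2 R n : ℝ) - gP1 R n) * (Real.log x) ^ (C9 + 1) := by
  have e1 := eventually_log_rpow_le ((C9 : ℕ) : ℝ) (1 / 5) 1 (by norm_num) one_pos
  have e2 : ∀ᶠ x : ℝ in atTop, (10 : ℝ) ≤ Real.log x := Real.tendsto_log_atTop.eventually_ge_atTop 10
  have e3 : ∀ᶠ x : ℝ in atTop, (8 : ℝ) ≤ x ^ ((1 : ℝ) / 20) :=
    (tendsto_rpow_atTop (by norm_num)).eventually_ge_atTop 8
  filter_upwards [e1, e2, e3, eventually_ge_atTop (2 : ℝ)] with x f1 f2 f3 f4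
  intro R hR n hn
  have hx0 : 0 < x := by linarith
  obtain ⟨L, hL⟩ : ∃ L, L = Real.log x := ⟨_, rfl⟩
  rw [← hL] at hR f1 f2 ⊢
  rw [Real.rpow_natCast, one_mul] at f1
  have hL0 : 0 < L := by linarith
  have hL1 : 1 ≤ L := by linarith
  have hLC : 0 < L ^ C9 := by positivity
  have hLC1 : 10 ≤ L ^ C9 := by
    calc (10 : ℝ) ≤ L := f2
      _ = L ^ 1 := (pow_one L).symm
      _ ≤ L ^ C9 := pow_le_pow_right₀ hL1 h9
  have hRge : L ^ C9 ≤ R := by rw [hR]; exact Nat.le_ceil _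
  have hRle : (R : ℝ) ≤ L ^ C9 + 1 := by rw [hR]; exact (Nat.ceil_lt_add_one hLC.le).le
  have hR0 : (0 : ℝ) < R := by linarith
  have hRn0 : 0 < R := by exact_mod_cast hR0
  have hx5 : 1 ≤ x ^ ((1 : ℝ) / 5) := Real.one_le_rpow (by linarith) (by norm_num)
  have hx4 : x ^ ((1 : ℝ) / 4) = x ^ ((1 : ℝ) / 5) * x ^ ((1 : ℝ) / 20) := by
    rw [← Real.rpow_add hx0]; norm_num
  have hn8 : 8 * x ^ ((1 : ℝ) / 5) ≤ n := by
    have : x ^ ((1 : ℝ) / 5) * 8 ≤ x ^ ((1 : ℝ) / 5) * x ^ ((1 : ℝ) / 20) := by gcongr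
    linarith
  have hn0 : (0 : ℝ) < n := by linarith
  have hnn : 1 ≤ n := by exact_mod_cast hn0
  obtain ⟨j, hj⟩ : ∃ j, j = Nat.log 2 n := ⟨_, rfl⟩
  have h2 : 2 ^ j ≤ n := by rw [hj]; exact Nat.pow_log_le_self 2 (by omega)
  have h3 : n < 2 ^ (j + 1) := by rw [hj]; exact Nat.lt_pow_succ_log_self (by norm_num) n
  have h2r : ((2 : ℝ)) ^ j ≤ n := by exact_mod_cast h2
  have h3r : (n : ℝ) < 2 * (2 : ℝ) ^ j := by
    have : (n : ℝ) < (2 : ℝ) ^ (j + 1) := by exact_mod_cast h3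
    rwa [pow_succ, mul_comm] at this
  have h2j : (0 : ℝ) < (2 : ℝ) ^ j := by positivity
  -- the step
  have hsdef : gs R n = 2 ^ j / R + 1 := by rw [hj]; rfl
  obtain ⟨s, hs⟩ : ∃ s, s = gs R n := ⟨_, rfl⟩
  have hs_lo : (2 : ℝ) ^ j / R ≤ s := by
    rw [hs, hsdef]
    have := Nat.lt_div_mul_add (a := 2 ^ j) hRn0
    have h : (2 ^ j : ℕ) ≤ (2 ^ j / R + 1) * R := by
      have e : (2 ^ j / R + 1) * R = 2 ^ j / R * R + R := by ring
      omega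
    rw [div_le_iff₀ hR0]
    exact_mod_cast h
  have hs_up : (s : ℝ) ≤ (2 : ℝ) ^ j / R + 1 := by
    rw [hs, hsdef]
    push_cast
    have := @Nat.cast_div_le ℝ _ _ _ (2 ^ j) R
    push_cast at this
    linarith
  have hs_up2 : (s : ℝ) * L ^ C9 ≤ 2 * (2 : ℝ) ^ j := by
    have g1 : (2 : ℝ) ^ j / R * L ^ C9 ≤ (2 : ℝ) ^ j := by
      calc (2 : ℝ) ^ j / R * L ^ C9 ≤ (2 : ℝ) ^ j / R * R := by gcongr
        _ = (2 : ℝ) ^ j := by field_simp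
    have g2 : L ^ C9 ≤ (2 : ℝ) ^ j := by linarith
    calc (s : ℝ) * L ^ C9 ≤ ((2 : ℝ) ^ j / R + 1) * L ^ C9 := by gcongr
      _ = (2 : ℝ) ^ j / R * L ^ C9 + L ^ C9 := by ring
      _ ≤ 2 * (2 : ℝ) ^ j := by linarith
  have hs0 : (0 : ℝ) < s := by rw [hs]; exact_mod_cast gs_pos R n
  have hdiff : ((gP2 R n : ℕ) : ℝ) - gP1 R n = s := by
    rw [hs]; unfold gP2; push_cast; ring
  -- left end point
  have hP1 : (2 : ℝ) ^ j - 1 ≤ gP1 R n := by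
    have := gP1_add_one R n
    rw [← hj] at this
    have h : 2 ^ j ≤ gP1 R n + 1 := by omega
    have hr : ((2 : ℝ)) ^ j ≤ gP1 R n + 1 := by exact_mod_cast h
    linarith
  have hP1n : (gP1 R n : ℝ) ≤ n := by exact_mod_cast (grid_mem R hnn).1.le
  rw [hdiff]
  refine ⟨by linarith, by unfold gP2; have := gs_pos R n; omega, ?_, ?_⟩
  · have g : L ^ C9 = L ^ (C9 - 1) * L := by rw [← pow_succ]; congr 1; omega
    have g1 : (s : ℝ) * L ^ (C9 - 1) * 10 ≤ 2 * (2 : ℝ) ^ j := by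
      calc (s : ℝ) * L ^ (C9 - 1) * 10 ≤ (s : ℝ) * L ^ (C9 - 1) * L := by gcongr
        _ = s * L ^ C9 := by rw [g]; ring
        _ ≤ _ := hs_up2
    linarith
  · have g1 : (2 : ℝ) ^ j ≤ s * R := by
      rwa [div_le_iff₀ hR0] at hs_lo
    have g2 : (R : ℝ) ≤ 2 * L ^ C9 := by linarith
    calc (gP1 R n : ℝ) ≤ 2 * (2 : ℝ) ^ j := by linarith
      _ ≤ 2 * (s * (2 * L ^ C9)) := by gcongr; exact g1.trans (by gcongr)
      _ = s * (L ^ C9 * 4) := by ring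
      _ ≤ s * (L ^ C9 * L) := by gcongr; linarith
      _ = s * L ^ (C9 + 1) := by rw [pow_succ]

end Crest.Agent.R001.SE
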