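import Crest.Agent.R001.SE1

/-!
# R1, block SE, part (SE-d) (helper47)

`disj` : the moduli structured with respect to at least two different fractions of `LL` have
small logarithmic mass, so the families `M τ` are nearly disjoint.
-/

set_option autoImplicit false

open Finset Filter

namespace Crest.Agent.R001.SE

/-- double counting: the overlap of a family of finite sets is controlled by the pairs. -/
lemma sum_family_le {ι : Type*} [DecidableEq ι] (LL : Finset ι) (M : ι → Finset ℕ) (f : ℕ → ℝ)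
    (hf : ∀ m, 0 ≤ f m) :
    ∑ τ ∈ LL, ∑ m ∈ M τ, f m ≤
      ∑ m ∈ LL.biUnion M, f m + ∑ τ ∈ LL.offDiag, ∑ m ∈ M τ.1 ∩ M τ.2, f m := by
  classical
  have h1 : ∑ τ ∈ LL, ∑ m ∈ M τ, f m =
      ∑ m ∈ LL.biUnion M, ∑ τ ∈ LL.filter (fun τ => m ∈ M τ), f m := by
    apply Finset.sum_comm'
    intro τ m
    simp only [Finset.mem_filter, Finset.mem_biUnion]
    constructor
    · rintro ⟨a, b⟩
      exact ⟨⟨a, b⟩, τ, a, b⟩
    · rintro ⟨⟨a, b⟩, _⟩
      exact ⟨a, b⟩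
  have h2 : ∑ τ ∈ LL.offDiag, ∑ m ∈ M τ.1 ∩ M τ.2, f m =
      ∑ m ∈ LL.biUnion M, ∑ τ ∈ LL.offDiag.filter (fun τ => m ∈ M τ.1 ∧ m ∈ M τ.2), f m := by
    apply Finset.sum_comm'
    intro τ m
    simp only [Finset.mem_filter, Finset.mem_biUnion, Finset.mem_inter, Finset.mem_offDiag]
    constructor
    · rintro ⟨a, b⟩
      exact ⟨⟨a, b⟩, τ.1, a.1, b.1⟩
    · rintro ⟨⟨a, b⟩, _⟩
      exact ⟨a, b⟩
  rw [h1, h2, ← Finset.sum_add_distrib]
  refine Finset.sum_le_sum fun m _ => ?_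
  have h3 : LL.offDiag.filter (fun τ => m ∈ M τ.1 ∧ m ∈ M τ.2) =
      (LL.filter (fun τ => m ∈ M τ)).offDiag := by
    ext τ
    simp only [Finset.mem_filter, Finset.mem_offDiag]
    tauto
  rw [h3, Finset.sum_const, Finset.sum_const, nsmul_eq_mul, nsmul_eq_mul, Finset.offDiag_card]
  obtain ⟨n, hn⟩ : ∃ n, n = (LL.filter (fun τ => m ∈ M τ)).card := ⟨_, rfl⟩
  rw [← hn, Nat.cast_sub (Nat.le_mul_self n)]
  push_cast
  have h4 : (n : ℝ) ≤ 1 + (n * n - n) := by nlinarith [sq_nonneg ((n : ℝ) - 1)]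
  calc (n : ℝ) * f m ≤ (1 + (n * n - n)) * f m := mul_le_mul_of_nonneg_right h4 (hf m)
    _ = f m + (n * n - n) * f m := by ring

/-- the number of prime factors of a non-zero integer of height `≤ 2 x^(16/15)`. -/
lemma card_primeFactors_le {n : ℕ} (hn : n ≠ 0) {x : ℝ} (hx0 : 0 < x) (hx : 1 ≤ Real.log x)
    (hnx : (n : ℝ) ≤ 2 * x ^ ((16 : ℝ) / 15)) :
    (n.primeFactors.card : ℝ) ≤ 3 * Real.log x := by
  have h1 : 2 ^ n.primeFactors.card ≤ n := by
    calc 2 ^ n.primeFactors.card = ∏ p ∈ n.primeFactors, 2 := by rw [Finset.prod_const]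
      _ ≤ ∏ p ∈ n.primeFactors, p := Finset.prod_le_prod' fun p hp =>
        (Nat.prime_of_mem_primeFactors hp).two_le
      _ ≤ n := Nat.le_of_dvd (Nat.pos_of_ne_zero hn) (Nat.prod_primeFactors_dvd n)
  have h2 : (2 : ℝ) ^ n.primeFactors.card ≤ 2 * x ^ ((16 : ℝ) / 15) := by
    refine le_trans ?_ hnx
    exact_mod_cast h1
  have h3 := Real.log_le_log (by positivity) h2
  rw [Real.log_pow, Real.log_mul (by norm_num) (by positivity), Real.log_rpow hx0] at h3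
  have h4 := Real.log_two_gt_d9
  have h5 := Real.log_two_lt_d9
  have h6 : (0 : ℝ) ≤ n.primeFactors.card := Nat.cast_nonneg _
  nlinarith

/-- two coprime fractions with positive denominators and vanishing determinant are equal -/
lemma eq_of_det {τ σ : ℤ × ℤ} (h1 : 1 ≤ τ.2) (h2 : 1 ≤ σ.2) (h3 : IsCoprime τ.1 τ.2)
    (h4 : IsCoprime σ.1 σ.2) (h : τ.2 * σ.1 - σ.2 * τ.1 = 0) : τ = σ := by
  have h5 : τ.2 * σ.1 = σ.2 * τ.1 := by linarith
  have h6 : τ.2 ∣ σ.2 := by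
    refine h3.symm.dvd_of_dvd_mul_right (x := τ.2) (y := σ.2) (z := τ.1) ?_
    exact ⟨σ.1, h5.symm⟩
  have h7 : σ.2 ∣ τ.2 := by
    refine h4.symm.dvd_of_dvd_mul_right (x := σ.2) (y := τ.2) (z := σ.1) ?_
    exact ⟨τ.1, h5⟩
  have h8 : τ.2 = σ.2 := Int.dvd_antisymm (by linarith) (by linarith) h6 h7
  have h9 : τ.1 = σ.1 := by
    rw [h8] at h5
    have : σ.2 ≠ 0 := by omega
    exact (mul_left_cancel₀ this h5).symm
  exact Prod.ext h9 h8

/-- the common part of a number structured with respect to two fractions -/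
lemma common_large {m : ℕ} {D E : ℤ} {x : ℝ} (hx : 1 ≤ x) (hm : 0 < m)
    (hm1 : x ^ ((1 : ℝ) / 3) ≤ m)
    (h1 : (m : ℝ) ≤ x ^ ((1 : ℝ) / 30) * (Int.gcd m D : ℝ))
    (h2 : (m : ℝ) ≤ x ^ ((1 : ℝ) / 30) * (Int.gcd m E : ℝ)) :
    x ^ ((1 : ℝ) / 5) ≤ (Nat.gcd (Int.gcd m D) (Int.gcd m E) : ℝ) ∧
      (x ^ ((1 : ℝ) / 5) = (Nat.gcd (Int.gcd m D) (Int.gcd m E) : ℝ) → x = 1) := by
  have hx0 : 0 < x := by linarith
  obtain ⟨g1, hg1⟩ : ∃ g, g = Int.gcd m D := ⟨_, rfl⟩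
  obtain ⟨g2, hg2⟩ : ∃ g, g = Int.gcd m E := ⟨_, rfl⟩
  have hd1 : g1 ∣ m := by
    rw [hg1]
    exact Int.natCast_dvd_natCast.mp (Int.gcd_dvd_left ..)
  have hd2 : g2 ∣ m := by
    rw [hg2]
    exact Int.natCast_dvd_natCast.mp (Int.gcd_dvd_left ..)
  rw [← hg1] at h1 ⊢
  rw [← hg2] at h2 ⊢
  obtain ⟨g, hg⟩ : ∃ g, g = Nat.gcd g1 g2 := ⟨_, rfl⟩
  rw [← hg]
  have hlcm : g1 * g2 ≤ g * m := by
    rw [← Nat.gcd_mul_lcm g1 g2, ← hg]
    exact Nat.mul_le_mul_left _ (Nat.le_of_dvd hm (Nat.lcm_dvd hd1 hd2))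
  have hlcm' : (g1 : ℝ) * g2 ≤ g * m := by exact_mod_cast hlcm
  have hm0 : (0 : ℝ) < m := by exact_mod_cast hm
  have e1 : x ^ ((1 : ℝ) / 30) * x ^ ((1 : ℝ) / 30) = x ^ ((1 : ℝ) / 15) := by
    rw [← Real.rpow_add hx0]
    norm_num
  have h3 : (m : ℝ) * m ≤ x ^ ((1 : ℝ) / 15) * (g * m) := by
    calc (m : ℝ) * m ≤ (x ^ ((1 : ℝ) / 30) * g1) * (x ^ ((1 : ℝ) / 30) * g2) :=
          mul_le_mul h1 h2 hm0.le (by positivity)
      _ = x ^ ((1 : ℝ) / 15) * ((g1 : ℝ) * g2) := by rw [← e1]; ring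
      _ ≤ _ := by gcongr
  have h4 : (m : ℝ) ≤ x ^ ((1 : ℝ) / 15) * g := by
    have : (m : ℝ) * m ≤ (x ^ ((1 : ℝ) / 15) * g) * m := by linarith
    exact le_of_mul_le_mul_right this hm0
  have h5 : x ^ ((4 : ℝ) / 15) ≤ g := by
    have h6 : x ^ ((1 : ℝ) / 15) * x ^ ((4 : ℝ) / 15) ≤ x ^ ((1 : ℝ) / 15) * g := by
      rw [← Real.rpow_add hx0]
      norm_num
      norm_num at hm1 h4
      exact hm1.trans h4
    exact le_of_mul_le_mul_left h6 (by positivity)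
  refine ⟨le_trans (Real.rpow_le_rpow_of_exponent_le hx (by norm_num)) h5, fun h => ?_⟩
  by_contra hne
  have hx1 : 1 < x := lt_of_le_of_ne hx (Ne.symm hne)
  have := Real.rpow_lt_rpow_of_exponent_lt hx1 (show (1 : ℝ) / 5 < 4 / 15 by norm_num)
  linarith

/-- **(SE-d)**: the structured moduli of different fractions are nearly disjoint. -/
theorem disj (A B : ℕ) : ∀ᶠ x : ℝ in atTop, ∀ (a : ℤ) (y : ℕ), (y : ℝ) ≤ (Real.log x) ^ B →
    ∀ LL : Finset (ℤ × ℤ), (∀ τ ∈ LL, 1 ≤ τ.2 ∧ (τ.2 : ℝ) ≤ x ^ ((1 : ℝ) / 30) ∧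
      |(τ.1 : ℝ)| ≤ x ^ ((31 : ℝ) / 30) ∧ IsCoprime τ.1 τ.2) →
    ∀ M : ℤ × ℤ → Finset ℕ, (∀ τ ∈ LL, ∀ m ∈ M τ, Squarefree m ∧ x ^ ((1 : ℝ) / 3) ≤ m ∧
      (m : ℝ) ≤ x ∧ (m : ℝ) ≤ x ^ ((1 : ℝ) / 30) * (Int.gcd m (τ.2 * a - τ.1) : ℝ)) →
    ∑ τ ∈ LL, ∑ m ∈ M τ, (1 : ℝ) / m ≤ (2 + Real.log x) +
      (LL.card : ℝ) ^ 2 * (3 * Real.log x * (2 + Real.log x) / (y + 1) +
        1 / (Real.log x) ^ A) := by
  have hsm := smooth_mass B A ((1 : ℝ) / 5) (by norm_num)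
  have hlog : ∀ᶠ x : ℝ in atTop, 1 ≤ Real.log x := Real.tendsto_log_atTop.eventually_ge_atTop 1
  filter_upwards [hsm, hlog, eventually_ge_atTop (4 : ℝ)] with x hsm hL hx4
  intro a y hy LL hLL M hM
  have hx0 : 0 < x := by linarith
  obtain ⟨N, hN⟩ : ∃ N, N = ⌊x⌋₊ := ⟨_, rfl⟩
  have hNx : (N : ℝ) ≤ x := by rw [hN]; exact Nat.floor_le hx0.le
  have hN3 : 3 ≤ N := by
    rw [hN]
    apply Nat.le_floor
    norm_num
    linarith
  have hlogN : Real.log N ≤ Real.log x :=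
    Real.log_le_log (by have : 0 < N := by omega
                        exact_mod_cast this) hNx
  have hMN : ∀ τ ∈ LL, ∀ m ∈ M τ, 1 ≤ m ∧ m ≤ N := by
    intro τ hτ m hm
    obtain ⟨h1, h2, h3, h4⟩ := hM τ hτ m hm
    refine ⟨Nat.pos_of_ne_zero h1.ne_zero, ?_⟩
    rw [hN]
    exact Nat.le_floor h3
  refine (sum_family_le LL M (fun m => (1 : ℝ) / m) (fun m => by positivity)).trans ?_
  refine add_le_add ?_ ?_
  · -- the union
    refine (sum_inv_le_log _ N ?_).trans (by linarith)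
    intro m hm
    obtain ⟨τ, hτ, hm'⟩ := Finset.mem_biUnion.mp hm
    exact hMN τ hτ m hm'
  · -- the pairs
    have hpair : ∀ τ ∈ LL.offDiag, ∑ m ∈ M τ.1 ∩ M τ.2, (1 : ℝ) / m ≤
        3 * Real.log x * (2 + Real.log x) / (y + 1) + 1 / (Real.log x) ^ A := by
      intro τ hτ
      obtain ⟨hτ1, hτ2, hne⟩ := Finset.mem_offDiag.mp hτ
      obtain ⟨σ, ρ⟩ := τ
      simp only at hτ1 hτ2 hne ⊢
      obtain ⟨a1, a2, a3, a4⟩ := hLL σ hτ1
      obtain ⟨b1, b2, b3, b4⟩ := hLL ρ hτ2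
      obtain ⟨Δ, hΔ⟩ : ∃ Δ : ℤ, Δ = σ.2 * ρ.1 - ρ.2 * σ.1 := ⟨_, rfl⟩
      have hΔ0 : Δ ≠ 0 := by
        intro h
        exact hne (eq_of_det a1 b1 a4 b4 (by rw [← hΔ, h]))
      have hΔ1 : (Δ.natAbs : ℝ) ≤ 2 * x ^ ((16 : ℝ) / 15) := by
        have e1 : x ^ ((1 : ℝ) / 30) * x ^ ((31 : ℝ) / 30) = x ^ ((16 : ℝ) / 15) := by
          rw [← Real.rpow_add hx0]
          norm_num
        have a1' : (0 : ℝ) ≤ σ.2 := by exact_mod_cast (by omega : (0 : ℤ) ≤ σ.2)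
        have b1' : (0 : ℝ) ≤ ρ.2 := by exact_mod_cast (by omega : (0 : ℤ) ≤ ρ.2)
        rw [Nat.cast_natAbs, Int.cast_abs, hΔ]
        push_cast
        calc |(σ.2 : ℝ) * ρ.1 - ρ.2 * σ.1| ≤ |(σ.2 : ℝ) * ρ.1| + |(ρ.2 : ℝ) * σ.1| := abs_sub _ _
          _ = (σ.2 : ℝ) * |(ρ.1 : ℝ)| + (ρ.2 : ℝ) * |(σ.1 : ℝ)| := by
              rw [abs_mul, abs_mul, abs_of_nonneg a1', abs_of_nonneg b1']
          _ ≤ x ^ ((1 : ℝ) / 30) * x ^ ((31 : ℝ) / 30) +
              x ^ ((1 : ℝ) / 30) * x ^ ((31 : ℝ) / 30) := by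
              gcongr
          _ = _ := by rw [e1]; ring
      obtain ⟨T, hT⟩ : ∃ T, T = Δ.natAbs.primeFactors.filter (fun p => y < p) := ⟨_, rfl⟩
      have hTc : (T.card : ℝ) ≤ 3 * Real.log x := by
        refine le_trans ?_ (card_primeFactors_le (Int.natAbs_ne_zero.mpr hΔ0) hx0 hL hΔ1)
        rw [hT]
        exact_mod_cast Finset.card_filter_le _ _
      obtain ⟨W, hW⟩ : ∃ W, W = M σ ∩ M ρ := ⟨_, rfl⟩
      rw [← hW]
      have hW1 : ∀ m ∈ W, m ∈ M σ ∧ m ∈ M ρ := fun m hm => by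
        rw [hW] at hm
        exact Finset.mem_inter.mp hm
      rw [← Finset.sum_filter_add_sum_filter_not W (fun m => x ^ ((1 : ℝ) / 5) ≤ smp y m)]
      have p1 : ∑ m ∈ W.filter (fun m => x ^ ((1 : ℝ) / 5) ≤ smp y m), (1 : ℝ) / m ≤
          1 / (Real.log x) ^ A := by
        refine hsm y N _ hy hN3 (by nlinarith) ?_ ?_ ?_
        · intro d hd
          exact (hM σ hτ1 d (hW1 d (Finset.mem_filter.mp hd).1).1).1
        · intro d hd
          exact (hMN σ hτ1 d (hW1 d (Finset.mem_filter.mp hd).1).1).2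
        · intro d hd
          exact (Finset.mem_filter.mp hd).2
      have p2 : ∑ m ∈ W.filter (fun m => ¬ x ^ ((1 : ℝ) / 5) ≤ smp y m), (1 : ℝ) / m ≤
          3 * Real.log x * (2 + Real.log x) / (y + 1) := by
        have hdiv : ∀ m ∈ W.filter (fun m => ¬ x ^ ((1 : ℝ) / 5) ≤ smp y m), ∃ p ∈ T, p ∣ m := by
          intro m hm
          obtain ⟨hmW, hms⟩ := Finset.mem_filter.mp hm
          obtain ⟨hmσ, hmρ⟩ := hW1 m hmW
          obtain ⟨c1, c2, c3, c4⟩ := hM σ hτ1 m hmσ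
          obtain ⟨_, _, _, d4⟩ := hM ρ hτ2 m hmρ
          have hm0 : 0 < m := Nat.pos_of_ne_zero c1.ne_zero
          obtain ⟨e1, _⟩ := common_large (by linarith) hm0 c2 c4 d4
          obtain ⟨g, hg⟩ : ∃ g, g = Nat.gcd (Int.gcd m (σ.2 * a - σ.1))
            (Int.gcd m (ρ.2 * a - ρ.1)) := ⟨_, rfl⟩
          rw [← hg] at e1
          have hgm : g ∣ m := by
            rw [hg]
            refine (Nat.gcd_dvd_left _ _).trans ?_
            exact Int.natCast_dvd_natCast.mp (Int.gcd_dvd_left ..)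
          have hgσ : (g : ℤ) ∣ σ.2 * a - σ.1 := by
            have h1 : (g : ℤ) ∣ (Int.gcd m (σ.2 * a - σ.1) : ℤ) := by
              rw [hg]
              exact Int.natCast_dvd_natCast.mpr (Nat.gcd_dvd_left _ _)
            exact h1.trans (Int.gcd_dvd_right ..)
          have hgρ : (g : ℤ) ∣ ρ.2 * a - ρ.1 := by
            have h1 : (g : ℤ) ∣ (Int.gcd m (ρ.2 * a - ρ.1) : ℤ) := by
              rw [hg]
              exact Int.natCast_dvd_natCast.mpr (Nat.gcd_dvd_right _ _)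
            exact h1.trans (Int.gcd_dvd_right ..)
          have hgΔ : (g : ℤ) ∣ Δ := by
            have h1 : Δ = ρ.2 * (σ.2 * a - σ.1) - σ.2 * (ρ.2 * a - ρ.1) := by
              rw [hΔ]; ring
            rw [h1]
            exact dvd_sub (Dvd.dvd.mul_left hgσ _) (Dvd.dvd.mul_left hgρ _)
          have hgΔ' : g ∣ Δ.natAbs := Int.natCast_dvd.mp hgΔ
          by_contra hcon
          push Not at hcon
          apply hms
          have hgsq : Squarefree g := c1.squarefree_of_dvd hgm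
          have hsub : g.primeFactors ⊆ m.primeFactors.filter (fun p => p ≤ y) := by
            intro p hp
            have hpm : p ∣ m := (Nat.dvd_of_mem_primeFactors hp).trans hgm
            refine Finset.mem_filter.mpr ⟨Nat.primeFactors_mono hgm c1.ne_zero hp, ?_⟩
            by_contra hpy
            push Not at hpy
            refine hcon p ?_ hpm
            rw [hT]
            exact Finset.mem_filter.mpr
              ⟨Nat.primeFactors_mono hgΔ' (Int.natAbs_ne_zero.mpr hΔ0) hp, hpy⟩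
          have hle : g ≤ smp y m := by
            rw [← Nat.prod_primeFactors_of_squarefree hgsq]
            unfold smp
            refine Finset.prod_le_prod_of_subset_of_one_le' hsub ?_
            intro p hp _
            exact (Nat.prime_of_mem_primeFactors (Finset.mem_filter.mp hp).1).one_lt.le
          exact e1.trans (by exact_mod_cast hle)
        have h1 := prime_mass (W.filter (fun m => ¬ x ^ ((1 : ℝ) / 5) ≤ smp y m)) T N y
          (fun m hm => hMN σ hτ1 m (hW1 m (Finset.mem_filter.mp hm).1).1)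
          (fun p hp => by rw [hT] at hp; exact (Finset.mem_filter.mp hp).2) hdiv
        refine h1.trans ?_
        have hy1 : (0 : ℝ) < (y : ℝ) + 1 := by positivity
        have hlogN0 : 0 ≤ 1 + Real.log (N : ℝ) := by
          have := Real.log_natCast_nonneg N
          linarith
        calc (T.card : ℝ) * ((1 + Real.log N) / (y + 1))
            ≤ (3 * Real.log x) * ((2 + Real.log x) / (y + 1)) := by
              gcongr
              linarith
          _ = _ := by ring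
      linarith
    refine (Finset.sum_le_sum hpair).trans ?_
    rw [Finset.sum_const, nsmul_eq_mul]
    have hy1 : (0 : ℝ) < (y : ℝ) + 1 := by positivity
    have hnn : 0 ≤ 3 * Real.log x * (2 + Real.log x) / (y + 1) + 1 / (Real.log x) ^ A := by
      positivity
    refine mul_le_mul_of_nonneg_right ?_ hnn
    rw [Finset.offDiag_card]
    have h1 : LL.card * LL.card - LL.card ≤ LL.card ^ 2 := by
      rw [sq]; exact Nat.sub_le _ _
    exact_mod_cast h1

end Crest.Agent.R001.SE
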