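import Mathlib

/-!
# R001, block STR: structured nodes of large height are equidistributed, part 1

Elementary counting lemmas.
-/

set_option autoImplicit false

namespace Crest.Agent.R001.Str

open Finset

/-- number of `m ∈ (l, r]` in a residue class -/
lemma card_Ioc_class (l r : ℤ) (hlr : l ≤ r) (w : ℕ) (hw : 0 < w) (c : ℤ) :
    |(((Ioc l r).filter (fun m => (w : ℤ) ∣ m - c)).card : ℝ) - ((r : ℝ) - l) / w| ≤ 1 := by
  have hw' : (0 : ℤ) < (w : ℤ) := by exact_mod_cast hw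
  have h1 := Int.Ioc_filter_modEq_card l r hw' c
  have h2 : (Ioc l r).filter (fun m => (w : ℤ) ∣ m - c)
      = (Ioc l r).filter (fun m => m ≡ c [ZMOD (w : ℤ)]) := by
    apply Finset.filter_congr
    intro m _
    rw [Int.modEq_iff_dvd, ← dvd_neg, neg_sub]
  rw [h2]
  set A : ℤ := ⌊((r : ℚ) - c) / ((w : ℤ) : ℚ)⌋ with hA
  set B : ℤ := ⌊((l : ℚ) - c) / ((w : ℤ) : ℚ)⌋ with hB
  have hwq : (0 : ℚ) < ((w : ℤ) : ℚ) := by exact_mod_cast hw
  have hAB : B ≤ A := by
    apply Int.floor_le_floor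
    apply div_le_div_of_nonneg_right _ hwq.le
    have : (l : ℚ) ≤ r := by exact_mod_cast hlr
    linarith
  have h3 : ((((Ioc l r).filter (fun m => m ≡ c [ZMOD (w : ℤ)])).card : ℤ)) = A - B := by
    rw [h1, max_eq_left]
    omega
  have h4 : ((((Ioc l r).filter (fun m => m ≡ c [ZMOD (w : ℤ)])).card : ℝ))
      = ((A - B : ℤ) : ℝ) := by
    rw [← h3]; simp
  rw [h4]
  have a1 := Int.floor_le (((r : ℚ) - c) / ((w : ℤ) : ℚ))
  have a2 := Int.lt_floor_add_one (((r : ℚ) - c) / ((w : ℤ) : ℚ))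
  have b1 := Int.floor_le (((l : ℚ) - c) / ((w : ℤ) : ℚ))
  have b2 := Int.lt_floor_add_one (((l : ℚ) - c) / ((w : ℤ) : ℚ))
  rw [← hA] at a1 a2
  rw [← hB] at b1 b2
  have e : ((r : ℚ) - c) / ((w : ℤ) : ℚ) - ((l : ℚ) - c) / ((w : ℤ) : ℚ)
      = ((r : ℚ) - l) / ((w : ℤ) : ℚ) := by
    rw [← sub_div]; ring_nf
  have eAB : ((A - B : ℤ) : ℚ) = (A : ℚ) - B := by push_cast; ring
  have c1 : ((A - B : ℤ) : ℚ) - ((r : ℚ) - l) / ((w : ℤ) : ℚ) ≤ 1 := by
    rw [eAB]; linarith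
  have c2 : -1 ≤ ((A - B : ℤ) : ℚ) - ((r : ℚ) - l) / ((w : ℤ) : ℚ) := by
    rw [eAB]; linarith
  rw [abs_le]
  constructor
  · have := (Rat.cast_le (K := ℝ)).mpr c2
    push_cast at this ⊢
    linarith
  · have := (Rat.cast_le (K := ℝ)).mpr c1
    push_cast at this ⊢
    linarith

/-- number of `b < K` in a residue class mod a divisor of `K` -/
lemma card_range_class (K D : ℕ) (hK : 0 < K) (hD : D ∣ K) (c : ℤ) :
    (((range K).filter (fun b : ℕ => (D : ℤ) ∣ (b : ℤ) - c)).card : ℝ) = (K : ℝ) / D := by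
  obtain ⟨q, rfl⟩ := hD
  have hD0 : 0 < D := Nat.pos_of_mul_pos_right hK |> fun h => by
    rcases Nat.eq_zero_or_pos D with h0 | h0
    · simp [h0] at hK
    · exact h0
  have hD' : (0 : ℤ) < (D : ℤ) := by exact_mod_cast hD0
  have h1 := Int.Ico_filter_modEq_card 0 ((D * q : ℕ) : ℤ) hD' c
  have h2 : ((range (D * q)).filter (fun b : ℕ => (D : ℤ) ∣ (b : ℤ) - c)).card
      = ((Ico 0 ((D * q : ℕ) : ℤ)).filter (fun m => m ≡ c [ZMOD (D : ℤ)])).card := by
    apply Finset.card_bij (fun (b : ℕ) _ => (b : ℤ))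
    · intro b hb
      rw [mem_filter, mem_range] at hb
      rw [mem_filter, mem_Ico]
      refine ⟨⟨by positivity, by exact_mod_cast hb.1⟩, ?_⟩
      rw [Int.modEq_iff_dvd, ← dvd_neg, neg_sub]
      exact hb.2
    · intro a _ b _ h
      exact_mod_cast h
    · intro m hm
      rw [mem_filter, mem_Ico] at hm
      obtain ⟨⟨h0, h1⟩, h2⟩ := hm
      refine ⟨m.toNat, ?_, ?_⟩
      · rw [mem_filter, mem_range]
        have : ((m.toNat : ℕ) : ℤ) = m := Int.toNat_of_nonneg h0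
        refine ⟨by omega, ?_⟩
        rw [this]
        rw [Int.modEq_iff_dvd, ← dvd_neg, neg_sub] at h2
        exact h2
      · exact Int.toNat_of_nonneg h0
  have h3 : ⌈((((D * q : ℕ) : ℤ) : ℚ) - c) / ((D : ℤ) : ℚ)⌉
      = ⌈(((0 : ℤ) : ℚ) - c) / ((D : ℤ) : ℚ)⌉ + q := by
    rw [← Int.ceil_add_natCast]
    congr 1
    have : ((D : ℤ) : ℚ) ≠ 0 := by exact_mod_cast hD0.ne'
    field_simp
    push_cast
    ring
  rw [h3] at h1
  have h4 : ((((Ico 0 ((D * q : ℕ) : ℤ)).filter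
      (fun m => m ≡ c [ZMOD (D : ℤ)])).card : ℤ)) = q := by
    rw [h1]
    have : (⌈(((0 : ℤ) : ℚ) - c) / ((D : ℤ) : ℚ)⌉ + (q : ℤ)
        - ⌈(((0 : ℤ) : ℚ) - c) / ((D : ℤ) : ℚ)⌉) = q := by ring
    rw [this]
    exact max_eq_left (by positivity)
  rw [h2]
  have h5 : (((Ico 0 ((D * q : ℕ) : ℤ)).filter
      (fun m => m ≡ c [ZMOD (D : ℤ)])).card) = q := by exact_mod_cast h4
  rw [h5]
  have : (D : ℝ) ≠ 0 := by exact_mod_cast hD0.ne'
  push_cast
  field_simp

/-- number of solutions `b < K` of `W b ≡ x mod D` for `D ∣ K` -/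
lemma card_lin (K D : ℕ) (hK : 0 < K) (hD : D ∣ K) (W x : ℤ) :
    (((range K).filter (fun b : ℕ => (D : ℤ) ∣ W * b - x)).card : ℝ)
      = if ((Int.gcd W D : ℕ) : ℤ) ∣ x then (K : ℝ) * (Int.gcd W D : ℕ) / D else 0 := by
  have hD0 : 0 < D := Nat.pos_of_dvd_of_pos hD hK
  set w : ℕ := Int.gcd W D with hw
  have hw0 : 0 < w := Int.gcd_pos_of_ne_zero_right _ (by exact_mod_cast hD0.ne')
  have hwW : (w : ℤ) ∣ W := Int.gcd_dvd_left ..
  have hwD : (w : ℤ) ∣ (D : ℤ) := Int.gcd_dvd_right ..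
  split_ifs with hx
  · obtain ⟨W', hW'⟩ := hwW
    have hwD' : w ∣ D := by exact_mod_cast hwD
    obtain ⟨D', hD'⟩ := hwD'
    obtain ⟨x', hx'⟩ := hx
    have hcop : IsCoprime W' (D' : ℤ) := by
      rw [Int.isCoprime_iff_gcd_eq_one]
      have h1 : Int.gcd W D = w * Int.gcd W' D' := by
        rw [hW', hD']
        push_cast
        rw [Int.gcd_mul_left]
        simp
      rw [← hw] at h1
      exact Nat.eq_of_mul_eq_mul_left hw0 (by rw [← h1, mul_one])
    obtain ⟨u, v, huv⟩ := hcop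
    have key : ∀ b : ℕ, ((D : ℤ) ∣ W * b - x) ↔ ((D' : ℤ) ∣ (b : ℤ) - u * x') := by
      intro b
      have e1 : W * (b : ℤ) - x = w * (W' * b - x') := by rw [hW', hx']; ring
      have e2 : (D : ℤ) = w * (D' : ℤ) := by rw [hD']; push_cast; ring
      have hwz : (w : ℤ) ≠ 0 := by exact_mod_cast hw0.ne'
      rw [e1, e2, mul_dvd_mul_iff_left hwz]
      constructor
      · intro h
        have : (b : ℤ) - u * x' = u * (W' * b - x') + v * D' * b := by
          have : (b : ℤ) = (u * W' + v * D') * b := by rw [huv]; ring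
          linear_combination this
        rw [this]
        exact dvd_add (Dvd.dvd.mul_left h u) ⟨v * b, by ring⟩
      · intro h
        have : W' * (b : ℤ) - x' = W' * ((b : ℤ) - u * x') - v * D' * x' := by
          linear_combination x' * huv
        rw [this]
        exact dvd_sub (Dvd.dvd.mul_left h W') ⟨v * x', by ring⟩
    have h1 : (range K).filter (fun b : ℕ => (D : ℤ) ∣ W * b - x)
        = (range K).filter (fun b : ℕ => (D' : ℤ) ∣ (b : ℤ) - u * x') := by
      apply Finset.filter_congr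
      intro b _
      exact key b
    have hDK : D' ∣ K := dvd_trans ⟨w, by rw [hD']; ring⟩ hD
    rw [h1, card_range_class K D' hK hDK]
    have hD'0 : (D' : ℝ) ≠ 0 := by
      rintro h
      have : D' = 0 := by exact_mod_cast h
      simp [this] at hD'
      omega
    have hwr : (w : ℝ) ≠ 0 := by exact_mod_cast hw0.ne'
    have : (D : ℝ) = w * D' := by rw [hD']; push_cast; ring
    rw [this]
    field_simp
  · rw [Finset.filter_eq_empty_iff.mpr]
    · simp
    · intro b _ h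
      apply hx
      have h2 : (w : ℤ) ∣ W * b - x := dvd_trans hwD h
      have h3 : (w : ℤ) ∣ W * b := Dvd.dvd.mul_right hwW _
      have : x = W * b - (W * b - x) := by ring
      rw [this]
      exact dvd_sub h3 h2

end Crest.Agent.R001.Str
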