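import Crest.Agent.R001.Str1

/-!
# R001, block STR, part 2: joint counts
-/

set_option autoImplicit false

namespace Crest.Agent.R001.Str

open Finset

/-- indicator of `V δ ∣ B + m` -/
noncomputable def ind (V δ : ℕ) (B m : ℤ) : ℝ := if ((V * δ : ℕ) : ℤ) ∣ B + m then 1 else 0

lemma ind_nonneg (V δ : ℕ) (B m : ℤ) : 0 ≤ ind V δ B m := by
  unfold ind; split_ifs <;> norm_num

/-- single counts -/
lemma sum_ind (K V δ : ℕ) (hK : 0 < K) (hD : V * δ ∣ K) (W m : ℤ) :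
    ∑ b ∈ range K, ind V δ (W * b) m
      = if ((Int.gcd W ((V * δ : ℕ) : ℤ) : ℕ) : ℤ) ∣ m then
          (K : ℝ) * (Int.gcd W ((V * δ : ℕ) : ℤ) : ℕ) / ((V * δ : ℕ) : ℝ) else 0 := by
  have h := card_lin K (V * δ) hK hD W (-m)
  have h1 : ∑ b ∈ range K, ind V δ (W * b) m
      = (((range K).filter (fun b : ℕ => ((V * δ : ℕ) : ℤ) ∣ W * b - (-m))).card : ℝ) := by
    rw [Finset.card_filter]
    push_cast
    apply Finset.sum_congr rfl
    intro b _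
    simp only [ind, sub_neg_eq_add]
    push_cast
    rfl
  rw [h1, h]
  simp only [dvd_neg]

/-- two congruences are one congruence -/
lemma crt_pair (V δ δ' : ℕ) (j : ℤ) (hj : ((V * Nat.gcd δ δ' : ℕ) : ℤ) ∣ j) :
    ∃ x0 : ℤ, ∀ y : ℤ, (((V * δ : ℕ) : ℤ) ∣ y ∧ ((V * δ' : ℕ) : ℤ) ∣ y + j) ↔
      ((V * Nat.lcm δ δ' : ℕ) : ℤ) ∣ y - x0 := by
  obtain ⟨k, hk⟩ := hj
  have hb := Int.gcd_eq_gcd_ab (δ : ℤ) (δ' : ℤ)
  rw [Int.gcd_natCast_natCast] at hb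
  set α := Int.gcdA (δ : ℤ) δ'
  set β := Int.gcdB (δ : ℤ) δ'
  refine ⟨-(V * δ * α * k), fun y => ?_⟩
  have e1 : -((V : ℤ) * δ * α * k) + j = (V * δ' : ℕ) * (β * k) := by
    rw [hk]
    push_cast
    rw [hb]
    ring
  have hl : ((V * Nat.lcm δ δ' : ℕ) : ℤ) = ((Nat.lcm (V * δ) (V * δ') : ℕ) : ℤ) := by
    rw [Nat.lcm_mul_left]
  rw [hl]
  constructor
  · rintro ⟨h1, h2⟩
    have a1 : ((V * δ : ℕ) : ℤ) ∣ y - -((V : ℤ) * δ * α * k) := by
      have : y - -((V : ℤ) * δ * α * k) = y + (V * δ : ℕ) * (α * k) := by push_cast; ring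
      rw [this]
      exact dvd_add h1 (dvd_mul_right _ _)
    have a2 : ((V * δ' : ℕ) : ℤ) ∣ y - -((V : ℤ) * δ * α * k) := by
      have : y - -((V : ℤ) * δ * α * k) = (y + j) - ((V * δ' : ℕ) * (β * k)) := by
        rw [← e1]; ring
      rw [this]
      exact dvd_sub h2 (dvd_mul_right _ _)
    have := Int.coe_lcm_dvd a1 a2
    rwa [Int.lcm_natCast_natCast] at this
  · intro h
    have b1 : ((V * δ : ℕ) : ℤ) ∣ ((Nat.lcm (V * δ) (V * δ') : ℕ) : ℤ) := by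
      exact_mod_cast Nat.dvd_lcm_left _ _
    have b2 : ((V * δ' : ℕ) : ℤ) ∣ ((Nat.lcm (V * δ) (V * δ') : ℕ) : ℤ) := by
      exact_mod_cast Nat.dvd_lcm_right _ _
    constructor
    · have : y = (y - -((V : ℤ) * δ * α * k)) - (V * δ : ℕ) * (α * k) := by push_cast; ring
      rw [this]
      exact dvd_sub (b1.trans h) (dvd_mul_right _ _)
    · have : y + j = (y - -((V : ℤ) * δ * α * k)) + ((V * δ' : ℕ) * (β * k)) := by
        rw [← e1]; ring
      rw [this]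
      exact dvd_add (b2.trans h) (dvd_mul_right _ _)

/-- joint counts -/
lemma joint (K V δ δ' : ℕ) (hK : 0 < K) (hD : V * Nat.lcm δ δ' ∣ K) (W j : ℤ) :
    ∃ x0 : ℤ, ∀ m : ℤ,
      ∑ b ∈ range K, ind V δ (W * b) m * ind V δ' (W * b) (m + j)
      = if ((V * Nat.gcd δ δ' : ℕ) : ℤ) ∣ j ∧
            ((Int.gcd W ((V * Nat.lcm δ δ' : ℕ) : ℤ) : ℕ) : ℤ) ∣ m - x0 then
          (K : ℝ) * (Int.gcd W ((V * Nat.lcm δ δ' : ℕ) : ℤ) : ℕ) / ((V * Nat.lcm δ δ' : ℕ) : ℝ)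
        else 0 := by
  by_cases hj : ((V * Nat.gcd δ δ' : ℕ) : ℤ) ∣ j
  · obtain ⟨x0, hx0⟩ := crt_pair V δ δ' j hj
    refine ⟨x0, fun m => ?_⟩
    have h := card_lin K (V * Nat.lcm δ δ') hK hD W (x0 - m)
    have h1 : ∑ b ∈ range K, ind V δ (W * b) m * ind V δ' (W * b) (m + j)
        = (((range K).filter
          (fun b : ℕ => ((V * Nat.lcm δ δ' : ℕ) : ℤ) ∣ W * b - (x0 - m))).card : ℝ) := by
      rw [Finset.card_filter]
      rw [Nat.cast_sum]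
      apply Finset.sum_congr rfl
      intro b _
      have hiff := hx0 (W * b + m)
      have e : W * (b : ℤ) + m - x0 = W * b - (x0 - m) := by ring
      rw [e, add_assoc] at hiff
      unfold ind
      by_cases hc : ((V * Nat.lcm δ δ' : ℕ) : ℤ) ∣ W * b - (x0 - m)
      · obtain ⟨c1, c2⟩ := hiff.mpr hc
        rw [if_pos hc, if_pos c1, if_pos c2]
        norm_num
      · rw [if_neg hc]
        by_cases c1 : ((V * δ : ℕ) : ℤ) ∣ W * b + m
        · have c2 : ¬ ((V * δ' : ℕ) : ℤ) ∣ W * b + (m + j) := fun c2 => hc (hiff.mp ⟨c1, c2⟩)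
          rw [if_neg c2]; simp
        · rw [if_neg c1]; simp
    rw [h1, h]
    have e2 : (((Int.gcd W ((V * Nat.lcm δ δ' : ℕ) : ℤ) : ℕ) : ℤ) ∣ x0 - m) ↔
        (((V * Nat.gcd δ δ' : ℕ) : ℤ) ∣ j ∧
            ((Int.gcd W ((V * Nat.lcm δ δ' : ℕ) : ℤ) : ℕ) : ℤ) ∣ m - x0) := by
      rw [← dvd_neg, neg_sub]
      exact ⟨fun h => ⟨hj, h⟩, fun h => h.2⟩
    simp only [e2]
  · refine ⟨0, fun m => ?_⟩
    rw [if_neg (fun h => hj h.1)]
    apply Finset.sum_eq_zero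
    intro b _
    unfold ind
    by_cases c1 : ((V * δ : ℕ) : ℤ) ∣ W * b + m
    · by_cases c2 : ((V * δ' : ℕ) : ℤ) ∣ W * b + (m + j)
      · exfalso
        apply hj
        have d1 : ((V * Nat.gcd δ δ' : ℕ) : ℤ) ∣ ((V * δ : ℕ) : ℤ) := by
          exact_mod_cast mul_dvd_mul_left V (Nat.gcd_dvd_left δ δ')
        have d2 : ((V * Nat.gcd δ δ' : ℕ) : ℤ) ∣ ((V * δ' : ℕ) : ℤ) := by
          exact_mod_cast mul_dvd_mul_left V (Nat.gcd_dvd_right δ δ')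
        have : j = (W * b + (m + j)) - (W * b + m) := by ring
        rw [this]
        exact dvd_sub (d2.trans c2) (d1.trans c1)
      · rw [if_neg c2]; simp
    · rw [if_neg c1]; simp

end Crest.Agent.R001.Str
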