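import Crest.Agent.R001.Str2

/-!
# R001, block STR, part 3: the second moment for a fixed window and `V` large (`STR1`)
-/

set_option autoImplicit false

namespace Crest.Agent.R001.Str

open Finset

/-- reorganise a double sum over an interval by differences -/
lemma sum_pairs (l r : ℤ) (f : ℤ → ℤ → ℝ) :
    ∑ m ∈ Ioc l r, ∑ m' ∈ Ioc l r, f m m'
      = ∑ j ∈ Ioo (-(r - l)) (r - l),
          ∑ m ∈ Ioc (max l (l - j)) (min r (r - j)), f m (m + j) := by
  rw [Finset.sum_sigma', Finset.sum_sigma']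
  apply Finset.sum_bij' (fun (p : (_ : ℤ) × ℤ) _ => (⟨p.2 - p.1, p.1⟩ : (_ : ℤ) × ℤ))
    (fun (p : (_ : ℤ) × ℤ) _ => (⟨p.2, p.2 + p.1⟩ : (_ : ℤ) × ℤ))
  · rintro ⟨m, m'⟩ h
    simp only [mem_sigma, mem_Ioc, mem_Ioo, max_lt_iff, le_min_iff] at h ⊢
    omega
  · rintro ⟨j, m⟩ h
    simp only [mem_sigma, mem_Ioc, mem_Ioo, max_lt_iff, le_min_iff] at h ⊢
    omega
  · rintro ⟨m, m'⟩ _
    simp
  · rintro ⟨j, m⟩ _
    simp
  · rintro ⟨m, m'⟩ _
    simp

/-- number of pairs of an interval congruent mod `G` -/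
lemma card_pairs (l r : ℤ) (hlr : l ≤ r) (G : ℕ) (hG : 0 < G) :
    |(∑ m ∈ Ioc l r, ∑ m' ∈ Ioc l r, (if (G : ℤ) ∣ m' - m then (1 : ℝ) else 0))
      - ((r : ℝ) - l) ^ 2 / G| ≤ (r : ℝ) - l := by
  have hcard : ((Ioc l r).card : ℝ) = (r : ℝ) - l := by
    rw [Int.card_Ioc]
    have : ((r - l).toNat : ℤ) = r - l := Int.toNat_of_nonneg (by omega)
    have h2 : (((r - l).toNat : ℤ) : ℝ) = ((r - l : ℤ) : ℝ) := by rw [this]
    push_cast at h2
    exact h2
  have h1 : (∑ m ∈ Ioc l r, ∑ m' ∈ Ioc l r, (if (G : ℤ) ∣ m' - m then (1 : ℝ) else 0))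
      - ((r : ℝ) - l) ^ 2 / G
      = ∑ m ∈ Ioc l r, ((∑ m' ∈ Ioc l r, (if (G : ℤ) ∣ m' - m then (1 : ℝ) else 0))
        - ((r : ℝ) - l) / G) := by
    rw [Finset.sum_sub_distrib, Finset.sum_const, nsmul_eq_mul, hcard]
    ring
  rw [h1]
  refine (Finset.abs_sum_le_sum_abs _ _).trans ?_
  calc ∑ m ∈ Ioc l r, |(∑ m' ∈ Ioc l r, (if (G : ℤ) ∣ m' - m then (1 : ℝ) else 0))
        - ((r : ℝ) - l) / G| ≤ ∑ m ∈ Ioc l r, (1 : ℝ) := by
        apply Finset.sum_le_sum
        intro m _
        have := card_Ioc_class l r hlr G hG m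
        rw [Finset.card_filter] at this
        push_cast at this
        exact this
    _ = (r : ℝ) - l := by rw [Finset.sum_const, nsmul_eq_mul, hcard, mul_one]

/-- number of multiples of `G` in `(-h, h)` -/
lemma card_mult (h : ℤ) (hh : 0 ≤ h) (G : ℕ) (hG : 0 < G) :
    (((Ioo (-h) h).filter (fun j => (G : ℤ) ∣ j)).card : ℝ) ≤ 2 * (h : ℝ) / G + 1 := by
  rcases hh.eq_or_lt with h0 | h0
  · subst h0
    simp
  · have e : Ioo (-h) h = Ioc (-h) (h - 1) := by
      ext j; simp only [mem_Ioo, mem_Ioc]; omega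
    rw [e]
    have := card_Ioc_class (-h) (h - 1) (by omega) G hG 0
    simp only [sub_zero] at this
    have h2 := (abs_le.mp this).2
    have hG' : (0 : ℝ) < G := by exact_mod_cast hG
    have h3 : (((h - 1 : ℤ) : ℝ) - ((-h : ℤ) : ℝ)) / G ≤ 2 * (h : ℝ) / G := by
      apply div_le_div_of_nonneg_right _ hG'.le
      push_cast; linarith
    linarith

/-- windowed count -/
noncomputable def Zr (V δ : ℕ) (B l r : ℤ) : ℝ := ∑ m ∈ Ioc l r, ind V δ B m

/-- `Σ_b Z_δ` -/
lemma sum_Zr (K V δ : ℕ) (hK : 0 < K) (hV : 0 < V) (hδ : 0 < δ) (hD : V * δ ∣ K) (W l r : ℤ)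
    (hlr : l ≤ r) (hw : Int.gcd W ((V * δ : ℕ) : ℤ) ≤ V) :
    |∑ b ∈ range K, Zr V δ (W * b) l r - (K : ℝ) * (((r : ℝ) - l) / V) / δ| ≤ (K : ℝ) / δ := by
  unfold Zr
  rw [Finset.sum_comm]
  set w : ℕ := Int.gcd W ((V * δ : ℕ) : ℤ) with hwdef
  have hw0 : 0 < w := Int.gcd_pos_of_ne_zero_right _ (by
    have : 0 < V * δ := Nat.mul_pos hV hδ
    exact_mod_cast this.ne')
  have h1 : ∑ m ∈ Ioc l r, ∑ b ∈ range K, ind V δ (W * b) m
      = ((K : ℝ) * w / ((V * δ : ℕ) : ℝ)) *
        (((Ioc l r).filter (fun m => (w : ℤ) ∣ m - 0)).card : ℝ) := by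
    rw [Finset.card_filter]
    push_cast
    rw [Finset.mul_sum]
    apply Finset.sum_congr rfl
    intro m _
    rw [sum_ind K V δ hK hD W m, ← hwdef, sub_zero]
    split_ifs
    · push_cast; ring
    · ring
  rw [h1]
  have h2 := card_Ioc_class l r hlr w hw0 0
  set N : ℝ := (((Ioc l r).filter (fun m => (w : ℤ) ∣ m - 0)).card : ℝ) with hN
  have hVr : (0 : ℝ) < V := by exact_mod_cast hV
  have hδr : (0 : ℝ) < δ := by exact_mod_cast hδ
  have hwr : (0 : ℝ) < w := by exact_mod_cast hw0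
  have hKr : (0 : ℝ) < K := by exact_mod_cast hK
  have hwV : (w : ℝ) ≤ V := by exact_mod_cast hw
  have e : (K : ℝ) * w / ((V * δ : ℕ) : ℝ) * N - (K : ℝ) * (((r : ℝ) - l) / V) / δ
      = ((K : ℝ) * w / ((V * δ : ℕ) : ℝ)) * (N - ((r : ℝ) - l) / w) := by
    push_cast
    field_simp
  rw [e, abs_mul, abs_of_nonneg (by positivity)]
  calc (K : ℝ) * w / ((V * δ : ℕ) : ℝ) * |N - ((r : ℝ) - l) / w|
      ≤ (K : ℝ) * w / ((V * δ : ℕ) : ℝ) * 1 := by
        apply mul_le_mul_of_nonneg_left h2 (by positivity)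
    _ ≤ (K : ℝ) / δ := by
        push_cast
        rw [mul_one, div_le_div_iff₀ (by positivity) hδr]
        have : (K : ℝ) * w * δ ≤ K * V * δ := by
          apply mul_le_mul_of_nonneg_right _ hδr.le
          apply mul_le_mul_of_nonneg_left hwV hKr.le
        linarith

/-- `Σ_b Z_δ Z_δ'` -/
lemma sum_ZZ (K V δ δ' : ℕ) (hK : 0 < K) (hV : 0 < V) (hδ : 0 < δ) (hδ' : 0 < δ')
    (hD : V * Nat.lcm δ δ' ∣ K) (W l r : ℤ) (hlr : l ≤ r)
    (hw : Int.gcd W ((V * Nat.lcm δ δ' : ℕ) : ℤ) ≤ V) :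
    |∑ b ∈ range K, Zr V δ (W * b) l r * Zr V δ' (W * b) l r
        - (K : ℝ) * (((r : ℝ) - l) / V) ^ 2 / (δ * δ')|
      ≤ (K : ℝ) * (3 * (((r : ℝ) - l) / V) + 1) * (Nat.gcd δ δ' : ℝ) / (δ * δ') := by
  set D : ℕ := V * Nat.lcm δ δ' with hDdef
  set g : ℕ := Nat.gcd δ δ' with hgdef
  set w : ℕ := Int.gcd W (D : ℤ) with hwdef
  have hg0 : 0 < g := Nat.gcd_pos_of_pos_left _ hδ
  have hlcm0 : 0 < Nat.lcm δ δ' := Nat.lcm_pos hδ hδ'
  have hD0 : 0 < D := Nat.mul_pos hV hlcm0
  have hw0 : 0 < w := Int.gcd_pos_of_ne_zero_right _ (by exact_mod_cast hD0.ne')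
  have hVr : (0 : ℝ) < V := by exact_mod_cast hV
  have hδr : (0 : ℝ) < δ := by exact_mod_cast hδ
  have hδr' : (0 : ℝ) < δ' := by exact_mod_cast hδ'
  have hwr : (0 : ℝ) < w := by exact_mod_cast hw0
  have hKr : (0 : ℝ) < K := by exact_mod_cast hK
  have hwV : (w : ℝ) ≤ V := by exact_mod_cast hw
  have hgr : (0 : ℝ) < g := by exact_mod_cast hg0
  have hDr : (0 : ℝ) < D := by exact_mod_cast hD0
  have hlcmr : (0 : ℝ) < (Nat.lcm δ δ' : ℝ) := by exact_mod_cast hlcm0
  have hgl : (g : ℝ) * (Nat.lcm δ δ' : ℝ) = δ * δ' := by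
    have := Nat.gcd_mul_lcm δ δ'
    exact_mod_cast this
  set h : ℝ := (r : ℝ) - l with hh
  have hh0 : 0 ≤ h := by
    have : (l : ℝ) ≤ r := by exact_mod_cast hlr
    simpa [hh] using this
  -- the joint counts
  set N : ℤ → ℤ → ℝ := fun m m' => ∑ b ∈ range K, ind V δ (W * b) m * ind V δ' (W * b) m'
    with hN
  have e1 : ∑ b ∈ range K, Zr V δ (W * b) l r * Zr V δ' (W * b) l r
      = ∑ m ∈ Ioc l r, ∑ m' ∈ Ioc l r, N m m' := by
    unfold Zr
    simp only [hN]
    calc ∑ b ∈ range K, (∑ m ∈ Ioc l r, ind V δ (W * b) m) * (∑ m ∈ Ioc l r, ind V δ' (W * b) m)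
        = ∑ b ∈ range K, ∑ m ∈ Ioc l r, ∑ m' ∈ Ioc l r,
            ind V δ (W * b) m * ind V δ' (W * b) m' := by
          apply Finset.sum_congr rfl
          intro b _
          rw [Finset.sum_mul_sum]
      _ = _ := by
          rw [Finset.sum_comm]
          apply Finset.sum_congr rfl
          intro m _
          rw [Finset.sum_comm]
  set P : ℝ := ∑ m ∈ Ioc l r, ∑ m' ∈ Ioc l r,
    (if ((V * g : ℕ) : ℤ) ∣ m' - m then (1 : ℝ) else 0) with hP
  have hPb := card_pairs l r hlr (V * g) (Nat.mul_pos hV hg0)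
  rw [← hP] at hPb
  -- difference
  have e2 : |∑ m ∈ Ioc l r, ∑ m' ∈ Ioc l r, N m m' - (K : ℝ) / D * P|
      ≤ ((K : ℝ) * w / D) * (2 * h / ((V * g : ℕ) : ℝ) + 1) := by
    rw [hP, sum_pairs l r N, sum_pairs l r, Finset.mul_sum, ← Finset.sum_sub_distrib]
    refine (Finset.abs_sum_le_sum_abs _ _).trans ?_
    calc ∑ j ∈ Ioo (-(r - l)) (r - l),
          |∑ m ∈ Ioc (max l (l - j)) (min r (r - j)), N m (m + j)
            - (K : ℝ) / D * ∑ m ∈ Ioc (max l (l - j)) (min r (r - j)),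
              (if ((V * g : ℕ) : ℤ) ∣ m + j - m then (1 : ℝ) else 0)|
        ≤ ∑ j ∈ Ioo (-(r - l)) (r - l),
            (if ((V * g : ℕ) : ℤ) ∣ j then (K : ℝ) * w / D else 0) := by
          apply Finset.sum_le_sum
          intro j hj
          rw [mem_Ioo] at hj
          obtain ⟨x0, hx0⟩ := joint K V δ δ' hK hD W j
          simp only [add_sub_cancel_left]
          by_cases hjG : ((V * g : ℕ) : ℤ) ∣ j
          · simp only [if_pos hjG]
            have hle : max l (l - j) ≤ min r (r - j) := by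
              rw [max_le_iff, le_min_iff, le_min_iff]; omega
            have a1 : ∑ m ∈ Ioc (max l (l - j)) (min r (r - j)), N m (m + j)
                = ((K : ℝ) * w / D) *
                  (((Ioc (max l (l - j)) (min r (r - j))).filter
                    (fun m => (w : ℤ) ∣ m - x0)).card : ℝ) := by
              rw [Finset.card_filter]
              push_cast
              rw [Finset.mul_sum]
              apply Finset.sum_congr rfl
              intro m _
              have := hx0 m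
              rw [hN]
              simp only
              rw [this]
              by_cases hm : (w : ℤ) ∣ m - x0
              · rw [if_pos ⟨hjG, hm⟩, if_pos hm, mul_one]
              · rw [if_neg (fun h => hm h.2), if_neg hm, mul_zero]
            rw [a1]
            have a2 : ∑ m ∈ Ioc (max l (l - j)) (min r (r - j)), (1 : ℝ)
                = ((min r (r - j) : ℤ) : ℝ) - ((max l (l - j) : ℤ) : ℝ) := by
              rw [Finset.sum_const, nsmul_eq_mul, mul_one, Int.card_Ioc]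
              have : ((min r (r - j) - max l (l - j)).toNat : ℤ)
                  = min r (r - j) - max l (l - j) := Int.toNat_of_nonneg (by omega)
              have h2 : (((min r (r - j) - max l (l - j)).toNat : ℤ) : ℝ)
                  = ((min r (r - j) - max l (l - j) : ℤ) : ℝ) := by rw [this]
              rw [Int.cast_sub] at h2
              rw [← h2]
              norm_cast
            rw [a2]
            have a3 := card_Ioc_class _ _ hle w hw0 x0
            set N1 : ℝ := (((Ioc (max l (l - j)) (min r (r - j))).filter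
                    (fun m => (w : ℤ) ∣ m - x0)).card : ℝ)
            set L1 : ℝ := ((min r (r - j) : ℤ) : ℝ) - ((max l (l - j) : ℤ) : ℝ)
            have a4 : (K : ℝ) * w / D * N1 - K / D * L1 = (K : ℝ) * w / D * (N1 - L1 / w) := by
              field_simp
            rw [a4, abs_mul, abs_of_nonneg (by positivity)]
            calc (K : ℝ) * w / D * |N1 - L1 / w| ≤ (K : ℝ) * w / D * 1 :=
                  mul_le_mul_of_nonneg_left a3 (by positivity)
              _ = _ := mul_one _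
          · simp only [if_neg hjG]
            have a1 : ∑ m ∈ Ioc (max l (l - j)) (min r (r - j)), N m (m + j) = 0 := by
              apply Finset.sum_eq_zero
              intro m _
              have := hx0 m
              rw [hN]
              simp only
              rw [this, if_neg (fun h => hjG h.1)]
            rw [a1]
            simp
      _ = ((K : ℝ) * w / D) * (((Ioo (-(r - l)) (r - l)).filter
            (fun j => ((V * g : ℕ) : ℤ) ∣ j)).card : ℝ) := by
          rw [Finset.card_filter]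
          push_cast
          rw [Finset.mul_sum]
          apply Finset.sum_congr rfl
          intro j _
          split_ifs <;> ring
      _ ≤ ((K : ℝ) * w / D) * (2 * h / ((V * g : ℕ) : ℝ) + 1) := by
          apply mul_le_mul_of_nonneg_left _ (by positivity)
          have := card_mult (r - l) (by omega) (V * g) (Nat.mul_pos hV hg0)
          rw [Int.cast_sub] at this
          exact this
  rw [e1]
  set S : ℝ := ∑ m ∈ Ioc l r, ∑ m' ∈ Ioc l r, N m m' with hS
  set y : ℝ := h / V with hy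
  have hy0 : 0 ≤ y := div_nonneg hh0 hVr.le
  have hhy : h = y * V := by rw [hy]; field_simp
  have hDD : (D : ℝ) = V * (Nat.lcm δ δ' : ℝ) := by rw [hDdef]; push_cast; rfl
  have hlg : (Nat.lcm δ δ' : ℝ) = δ * δ' / g := by rw [← hgl]; field_simp
  -- main term
  have m1 : (K : ℝ) * y ^ 2 / (δ * δ') = (K : ℝ) / D * (h ^ 2 / ((V * g : ℕ) : ℝ)) := by
    rw [hDD, hlg, hhy]
    push_cast
    field_simp
  have m2 : |(K : ℝ) / D * P - (K : ℝ) * y ^ 2 / (δ * δ')| ≤ (K : ℝ) * y * g / (δ * δ') := by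
    rw [m1, ← mul_sub, abs_mul, abs_of_nonneg (by positivity)]
    calc (K : ℝ) / D * |P - h ^ 2 / ((V * g : ℕ) : ℝ)| ≤ (K : ℝ) / D * h :=
          mul_le_mul_of_nonneg_left hPb (by positivity)
      _ = (K : ℝ) * y * g / (δ * δ') := by
          rw [hDD, hlg, hhy]
          field_simp
  have m3 : ((K : ℝ) * w / D) * (2 * h / ((V * g : ℕ) : ℝ) + 1)
      ≤ (K : ℝ) * (2 * y + 1) * g / (δ * δ') := by
    have b1 : (K : ℝ) * w / D ≤ (K : ℝ) * g / (δ * δ') := by
      calc (K : ℝ) * w / D ≤ (K : ℝ) * V / D := by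
            apply div_le_div_of_nonneg_right _ hDr.le
            exact mul_le_mul_of_nonneg_left hwV hKr.le
        _ = (K : ℝ) * g / (δ * δ') := by
            rw [hDD, hlg]
            field_simp
    have b2 : 2 * h / ((V * g : ℕ) : ℝ) + 1 ≤ 2 * y + 1 := by
      have hg1 : (1 : ℝ) ≤ g := by exact_mod_cast hg0
      have : 2 * h / ((V * g : ℕ) : ℝ) = 2 * y / g := by
        rw [hhy]; push_cast; field_simp
      rw [this]
      have : 2 * y / g ≤ 2 * y := div_le_self (by positivity) hg1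
      linarith
    calc ((K : ℝ) * w / D) * (2 * h / ((V * g : ℕ) : ℝ) + 1)
        ≤ ((K : ℝ) * g / (δ * δ')) * (2 * y + 1) := by
          apply mul_le_mul b1 b2 (by positivity) (by positivity)
      _ = _ := by ring
  have fin : |S - (K : ℝ) * y ^ 2 / (δ * δ')| ≤ |S - (K : ℝ) / D * P|
      + |(K : ℝ) / D * P - (K : ℝ) * y ^ 2 / (δ * δ')| := abs_sub_le _ _ _
  calc |S - (K : ℝ) * y ^ 2 / (δ * δ')| ≤ _ := fin
    _ ≤ (K : ℝ) * (2 * y + 1) * g / (δ * δ') + (K : ℝ) * y * g / (δ * δ') :=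
        add_le_add (e2.trans m3) m2
    _ = _ := by ring

end Crest.Agent.R001.Str
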