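import Crest.Agent.R001.Str3

/-!
# R001, block STR, part 4: the variance of one window (`V` large) and the average variance of
moving windows
-/

set_option autoImplicit false

namespace Crest.Agent.R001.Str

open Finset

/-- the variance functional `Σ_b (Σ_δ c_δ (Z_δ - y/δ))²` for the window `(l, r]`. -/
noncomputable def FF (K V : ℕ) (DD : Finset ℕ) (c : ℕ → ℝ) (W l r : ℤ) : ℝ :=
  ∑ b ∈ range K, (∑ δ ∈ DD, c δ * (Zr V δ (W * b) l r - (((r : ℝ) - l) / V) / δ)) ^ 2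

/-- the universal variance quantity -/
noncomputable def vv (DD : Finset ℕ) (c : ℕ → ℝ) : ℝ :=
  ∑ δ ∈ DD, ∑ δ' ∈ DD, |c δ| * |c δ'| * ((Nat.gcd δ δ' : ℝ) / (δ * δ'))

lemma vv_nonneg (DD : Finset ℕ) (c : ℕ → ℝ) : 0 ≤ vv DD c := by
  unfold vv
  apply Finset.sum_nonneg; intro δ _
  apply Finset.sum_nonneg; intro δ' _
  positivity

/-- algebra of the expansion -/
lemma expand (DD : Finset ℕ) (c : ℕ → ℝ) {ι : Type*} (T : Finset ι) (Z : ℕ → ι → ℝ)
    (y : ℝ) :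
    ∑ b ∈ T, (∑ δ ∈ DD, c δ * (Z δ b - y / δ)) ^ 2
      = ∑ δ ∈ DD, ∑ δ' ∈ DD, c δ * c δ' *
          ((∑ b ∈ T, Z δ b * Z δ' b) - (y / δ') * ∑ b ∈ T, Z δ b - (y / δ) * ∑ b ∈ T, Z δ' b
            + (T.card : ℝ) * (y / δ * (y / δ'))) := by
  calc ∑ b ∈ T, (∑ δ ∈ DD, c δ * (Z δ b - y / δ)) ^ 2
      = ∑ b ∈ T, ∑ δ ∈ DD, ∑ δ' ∈ DD,
          c δ * (Z δ b - y / δ) * (c δ' * (Z δ' b - y / δ')) := by
        apply Finset.sum_congr rfl
        intro b _
        rw [sq, Finset.sum_mul_sum]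
    _ = ∑ δ ∈ DD, ∑ δ' ∈ DD, ∑ b ∈ T,
          c δ * (Z δ b - y / δ) * (c δ' * (Z δ' b - y / δ')) := by
        rw [Finset.sum_comm]
        apply Finset.sum_congr rfl
        intro δ _
        rw [Finset.sum_comm]
    _ = _ := by
        apply Finset.sum_congr rfl
        intro δ _
        apply Finset.sum_congr rfl
        intro δ' _
        have e : ∀ b ∈ T, c δ * (Z δ b - y / δ) * (c δ' * (Z δ' b - y / δ'))
            = c δ * c δ' * (Z δ b * Z δ' b) - c δ * c δ' * (y / δ') * Z δ b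
              - c δ * c δ' * (y / δ) * Z δ' b + c δ * c δ' * (y / δ * (y / δ')) := by
          intro b _; ring
        rw [Finset.sum_congr rfl e, Finset.sum_add_distrib, Finset.sum_sub_distrib,
          Finset.sum_sub_distrib, ← Finset.mul_sum, ← Finset.mul_sum, ← Finset.mul_sum,
          Finset.sum_const, nsmul_eq_mul]
        ring

/-- bounding the expansion -/
lemma expand_le (DD : Finset ℕ) (c : ℕ → ℝ) {ι : Type*} (T : Finset ι) (Z : ℕ → ι → ℝ)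
    (y E : ℝ) (hE : ∀ δ ∈ DD, ∀ δ' ∈ DD,
      |(∑ b ∈ T, Z δ b * Z δ' b) - (y / δ') * ∑ b ∈ T, Z δ b - (y / δ) * ∑ b ∈ T, Z δ' b
            + (T.card : ℝ) * (y / δ * (y / δ'))| ≤ E * ((Nat.gcd δ δ' : ℝ) / (δ * δ'))) :
    ∑ b ∈ T, (∑ δ ∈ DD, c δ * (Z δ b - y / δ)) ^ 2 ≤ E * vv DD c := by
  rw [expand]
  unfold vv
  rw [Finset.mul_sum]
  apply Finset.sum_le_sum
  intro δ hδ
  rw [Finset.mul_sum]
  apply Finset.sum_le_sum
  intro δ' hδ'
  refine (le_abs_self _).trans ?_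
  rw [abs_mul, abs_mul]
  calc |c δ| * |c δ'| * |_| ≤ |c δ| * |c δ'| * (E * ((Nat.gcd δ δ' : ℝ) / (δ * δ'))) :=
        mul_le_mul_of_nonneg_left (hE δ hδ δ' hδ') (by positivity)
    _ = _ := by ring

/-- `STR1` for one window -/
theorem FF_le (K V : ℕ) (hK : 0 < K) (hV : 0 < V) (DD : Finset ℕ) (c : ℕ → ℝ)
    (hpos : ∀ δ ∈ DD, 0 < δ) (W : ℤ)
    (hD : ∀ δ ∈ DD, ∀ δ' ∈ DD, V * Nat.lcm δ δ' ∣ K)
    (hw : ∀ δ ∈ DD, ∀ δ' ∈ DD, Int.gcd W ((V * Nat.lcm δ δ' : ℕ) : ℤ) ≤ V)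
    (l r : ℤ) (hlr : l ≤ r) :
    FF K V DD c W l r ≤ (K : ℝ) * (5 * (((r : ℝ) - l) / V) + 1) * vv DD c := by
  unfold FF
  apply expand_le
  intro δ hδ δ' hδ'
  have hKr : (0 : ℝ) < K := by exact_mod_cast hK
  have hVr : (0 : ℝ) < V := by exact_mod_cast hV
  have hδr : (0 : ℝ) < δ := by exact_mod_cast hpos δ hδ
  have hδr' : (0 : ℝ) < δ' := by exact_mod_cast hpos δ' hδ'
  set y : ℝ := ((r : ℝ) - l) / V with hy
  have hy0 : 0 ≤ y := by
    apply div_nonneg _ hVr.le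
    have : (l : ℝ) ≤ r := by exact_mod_cast hlr
    linarith
  have s1 := sum_ZZ K V δ δ' hK hV (hpos δ hδ) (hpos δ' hδ') (hD δ hδ δ' hδ') W l r hlr
    (hw δ hδ δ' hδ')
  have s2 := sum_Zr K V δ hK hV (hpos δ hδ) (by
    have := hD δ hδ δ hδ; rwa [Nat.lcm_self] at this) W l r hlr (by
    have := hw δ hδ δ hδ; rwa [Nat.lcm_self] at this)
  have s3 := sum_Zr K V δ' hK hV (hpos δ' hδ') (by
    have := hD δ' hδ' δ' hδ'; rwa [Nat.lcm_self] at this) W l r hlr (by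
    have := hw δ' hδ' δ' hδ'; rwa [Nat.lcm_self] at this)
  rw [← hy] at s1 s2 s3
  set A : ℝ := ∑ b ∈ range K, Zr V δ (W * b) l r * Zr V δ' (W * b) l r
  set B : ℝ := ∑ b ∈ range K, Zr V δ (W * b) l r
  set B' : ℝ := ∑ b ∈ range K, Zr V δ' (W * b) l r
  have hg1 : (1 : ℝ) ≤ (Nat.gcd δ δ' : ℝ) := by
    exact_mod_cast Nat.gcd_pos_of_pos_left _ (hpos δ hδ)
  rw [Finset.card_range]
  have e : A - y / δ' * B - y / δ * B' + (K : ℝ) * (y / δ * (y / δ'))
      = (A - (K : ℝ) * y ^ 2 / (δ * δ')) - (y / δ') * (B - (K : ℝ) * y / δ)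
        - (y / δ) * (B' - (K : ℝ) * y / δ') := by
    field_simp
    ring
  rw [e]
  have t1 : |(y / δ') * (B - (K : ℝ) * y / δ)| ≤ (K : ℝ) * y / (δ * δ') := by
    rw [abs_mul, abs_of_nonneg (by positivity)]
    calc (y / δ') * |B - (K : ℝ) * y / δ| ≤ (y / δ') * ((K : ℝ) / δ) :=
          mul_le_mul_of_nonneg_left s2 (by positivity)
      _ = _ := by field_simp
  have t2 : |(y / δ) * (B' - (K : ℝ) * y / δ')| ≤ (K : ℝ) * y / (δ * δ') := by
    rw [abs_mul, abs_of_nonneg (by positivity)]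
    calc (y / δ) * |B' - (K : ℝ) * y / δ'| ≤ (y / δ) * ((K : ℝ) / δ') :=
          mul_le_mul_of_nonneg_left s3 (by positivity)
      _ = _ := by field_simp
  have t3 : (K : ℝ) * y / (δ * δ') ≤ (K : ℝ) * y * (Nat.gcd δ δ' : ℝ) / (δ * δ') := by
    apply div_le_div_of_nonneg_right _ (by positivity)
    calc (K : ℝ) * y = (K : ℝ) * y * 1 := (mul_one _).symm
      _ ≤ _ := mul_le_mul_of_nonneg_left hg1 (by positivity)
  have tri : ∀ a b d : ℝ, |a - b - d| ≤ |a| + |b| + |d| := by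
    intro a b d
    calc |a - b - d| ≤ |a - b| + |d| := abs_sub _ _
      _ ≤ |a| + |b| + |d| := by linarith [abs_sub a b]
  refine (tri _ _ _).trans ?_
  calc _ ≤ (K : ℝ) * (3 * y + 1) * (Nat.gcd δ δ' : ℝ) / (δ * δ')
        + (K : ℝ) * y * (Nat.gcd δ δ' : ℝ) / (δ * δ')
        + (K : ℝ) * y * (Nat.gcd δ δ' : ℝ) / (δ * δ') :=
        add_le_add (add_le_add s1 (t1.trans t3)) (t2.trans t3)
    _ = _ := by ring

/-! ### moving windows -/

lemma Zr_range (V δ : ℕ) (B r : ℤ) (h : ℕ) :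
    Zr V δ B (r - h) r = ∑ i ∈ range h, ind V δ B (r - i) := by
  unfold Zr
  apply Finset.sum_bij' (fun (m : ℤ) _ => (r - m).toNat) (fun (i : ℕ) _ => r - (i : ℤ))
  · intro m hm
    rw [mem_Ioc] at hm
    rw [mem_range]; omega
  · intro i hi
    rw [mem_range] at hi
    rw [mem_Ioc]; omega
  · intro m hm
    rw [mem_Ioc] at hm
    have : ((r - m).toNat : ℤ) = r - m := Int.toNat_of_nonneg (by omega)
    rw [this]; ring
  · intro i hi
    simp
  · intro m hm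
    rw [mem_Ioc] at hm
    have : ((r - m).toNat : ℤ) = r - m := Int.toNat_of_nonneg (by omega)
    rw [this]
    congr 1
    ring

lemma card_pairs_range (h G : ℕ) (hG : 0 < G) :
    |(∑ i ∈ range h, ∑ i' ∈ range h, (if (G : ℤ) ∣ (i : ℤ) - i' then (1 : ℝ) else 0))
      - (h : ℝ) ^ 2 / G| ≤ (h : ℝ) := by
  have key : ∀ f : ℤ → ℝ, ∑ m ∈ Ioc (-(h : ℤ)) 0, f m = ∑ i ∈ range h, f (-(i : ℤ)) := by
    intro f
    apply Finset.sum_bij' (fun (m : ℤ) _ => (-m).toNat) (fun (i : ℕ) _ => -(i : ℤ))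
    · intro m hm
      rw [mem_Ioc] at hm
      rw [mem_range]; omega
    · intro i hi
      rw [mem_range] at hi
      rw [mem_Ioc]; omega
    · intro m hm
      rw [mem_Ioc] at hm
      have : ((-m).toNat : ℤ) = -m := Int.toNat_of_nonneg (by omega)
      rw [this]; ring
    · intro i hi
      simp
    · intro m hm
      rw [mem_Ioc] at hm
      have : ((-m).toNat : ℤ) = -m := Int.toNat_of_nonneg (by omega)
      rw [this]
      congr 1
      ring
  have h1 := card_pairs (-(h : ℤ)) 0 (by omega) G hG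
  rw [key] at h1
  simp only [key] at h1
  have e : ∀ i i' : ℕ, (-(i' : ℤ) - -(i : ℤ)) = (i : ℤ) - i' := by intro i i'; ring
  simp only [e] at h1
  push_cast at h1
  rw [sub_neg_eq_add, zero_add] at h1
  exact h1

/-- average over the right end of `Σ_b Z_δ` -/
lemma sum_Zr2 (K V δ h : ℕ) (hK : 0 < K) (hV : 0 < V) (hδ : 0 < δ) (hD : V * δ ∣ K)
    (W r1 r2 : ℤ) (hr : r1 ≤ r2) :
    |∑ r ∈ Ioc r1 r2, ∑ b ∈ range K, Zr V δ (W * b) (r - h) r
        - ((r2 : ℝ) - r1) * (K : ℝ) * ((h : ℝ) / V) / δ|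
      ≤ (K : ℝ) * (Int.gcd W ((V * δ : ℕ) : ℤ) : ℝ) * ((h : ℝ) / V) / δ := by
  set w : ℕ := Int.gcd W ((V * δ : ℕ) : ℤ) with hwdef
  have hw0 : 0 < w := Int.gcd_pos_of_ne_zero_right _ (by
    have : 0 < V * δ := Nat.mul_pos hV hδ
    exact_mod_cast this.ne')
  have hVr : (0 : ℝ) < V := by exact_mod_cast hV
  have hδr : (0 : ℝ) < δ := by exact_mod_cast hδ
  have hwr : (0 : ℝ) < w := by exact_mod_cast hw0
  have hKr : (0 : ℝ) < K := by exact_mod_cast hK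
  have e1 : ∑ r ∈ Ioc r1 r2, ∑ b ∈ range K, Zr V δ (W * b) (r - h) r
      = ∑ i ∈ range h, ∑ r ∈ Ioc r1 r2, ∑ b ∈ range K, ind V δ (W * b) (r - i) := by
    simp only [Zr_range]
    calc ∑ r ∈ Ioc r1 r2, ∑ b ∈ range K, ∑ i ∈ range h, ind V δ (W * b) (r - i)
        = ∑ r ∈ Ioc r1 r2, ∑ i ∈ range h, ∑ b ∈ range K, ind V δ (W * b) (r - i) := by
          apply Finset.sum_congr rfl
          intro r _
          rw [Finset.sum_comm]
      _ = _ := by rw [Finset.sum_comm]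
  rw [e1]
  have e2 : ∀ i : ℕ, ∑ r ∈ Ioc r1 r2, ∑ b ∈ range K, ind V δ (W * b) (r - i)
      = ((K : ℝ) * w / ((V * δ : ℕ) : ℝ)) *
        (((Ioc r1 r2).filter (fun r => (w : ℤ) ∣ r - i)).card : ℝ) := by
    intro i
    rw [Finset.card_filter]
    push_cast
    rw [Finset.mul_sum]
    apply Finset.sum_congr rfl
    intro r _
    rw [sum_ind K V δ hK hD W (r - i), ← hwdef]
    split_ifs
    · push_cast; ring
    · ring
  simp only [e2]
  have e3 : ((r2 : ℝ) - r1) * (K : ℝ) * ((h : ℝ) / V) / δ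
      = ∑ i ∈ range h, ((K : ℝ) * w / ((V * δ : ℕ) : ℝ)) * (((r2 : ℝ) - r1) / w) := by
    rw [Finset.sum_const, card_range, nsmul_eq_mul]
    push_cast
    field_simp
  rw [e3, ← Finset.sum_sub_distrib]
  refine (Finset.abs_sum_le_sum_abs _ _).trans ?_
  calc ∑ i ∈ range h, |((K : ℝ) * w / ((V * δ : ℕ) : ℝ)) *
        (((Ioc r1 r2).filter (fun r => (w : ℤ) ∣ r - i)).card : ℝ)
        - ((K : ℝ) * w / ((V * δ : ℕ) : ℝ)) * (((r2 : ℝ) - r1) / w)|
      ≤ ∑ i ∈ range h, ((K : ℝ) * w / ((V * δ : ℕ) : ℝ)) := by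
        apply Finset.sum_le_sum
        intro i _
        rw [← mul_sub, abs_mul, abs_of_nonneg (by positivity)]
        have := card_Ioc_class r1 r2 hr w hw0 i
        calc _ ≤ ((K : ℝ) * w / ((V * δ : ℕ) : ℝ)) * 1 :=
              mul_le_mul_of_nonneg_left this (by positivity)
          _ = _ := mul_one _
    _ = (K : ℝ) * w * ((h : ℝ) / V) / δ := by
        rw [Finset.sum_const, card_range, nsmul_eq_mul]
        push_cast
        field_simp

/-- average over the right end of `Σ_b Z_δ Z_δ'` -/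
lemma sum_ZZ2 (K V δ δ' h : ℕ) (hK : 0 < K) (hV : 0 < V) (hδ : 0 < δ) (hδ' : 0 < δ')
    (hD : V * Nat.lcm δ δ' ∣ K) (W r1 r2 : ℤ) (hr : r1 ≤ r2)
    (hw : (Int.gcd W ((V * Nat.lcm δ δ' : ℕ) : ℤ) : ℝ) * ((h : ℝ) / V + 1) ≤ (r2 : ℝ) - r1) :
    |∑ r ∈ Ioc r1 r2, ∑ b ∈ range K, Zr V δ (W * b) (r - h) r * Zr V δ' (W * b) (r - h) r
        - ((r2 : ℝ) - r1) * (K : ℝ) * ((h : ℝ) / V) ^ 2 / (δ * δ')|
      ≤ 2 * ((r2 : ℝ) - r1) * (K : ℝ) * ((h : ℝ) / V) * (Nat.gcd δ δ' : ℝ) / (δ * δ') := by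
  set D : ℕ := V * Nat.lcm δ δ' with hDdef
  set g : ℕ := Nat.gcd δ δ' with hgdef
  set w : ℕ := Int.gcd W (D : ℤ) with hwdef
  have hg0 : 0 < g := Nat.gcd_pos_of_pos_left _ hδ
  have hlcm0 : 0 < Nat.lcm δ δ' := Nat.lcm_pos hδ hδ'
  have hD0 : 0 < D := Nat.mul_pos hV hlcm0
  have hw0 : 0 < w := Int.gcd_pos_of_ne_zero_right _ (by exact_mod_cast hD0.ne')
  have hVr : (0 : ℝ) < V := by exact_mod_cast hV
  have hδr : (0 : ℝ) < δ := by exact_mod_cast hδ
  have hδr' : (0 : ℝ) < δ' := by exact_mod_cast hδ'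
  have hwr : (0 : ℝ) < w := by exact_mod_cast hw0
  have hKr : (0 : ℝ) < K := by exact_mod_cast hK
  have hgr : (0 : ℝ) < g := by exact_mod_cast hg0
  have hg1 : (1 : ℝ) ≤ g := by exact_mod_cast hg0
  have hDr : (0 : ℝ) < D := by exact_mod_cast hD0
  have hlcmr : (0 : ℝ) < (Nat.lcm δ δ' : ℝ) := by exact_mod_cast hlcm0
  have hgl : (g : ℝ) * (Nat.lcm δ δ' : ℝ) = δ * δ' := by
    have := Nat.gcd_mul_lcm δ δ'
    exact_mod_cast this
  set R0 : ℝ := (r2 : ℝ) - r1 with hR0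
  have hR00 : 0 ≤ R0 := by
    have : (r1 : ℝ) ≤ r2 := by exact_mod_cast hr
    rw [hR0]; linarith
  set P : ℝ := ∑ i ∈ range h, ∑ i' ∈ range h,
    (if ((V * g : ℕ) : ℤ) ∣ (i : ℤ) - i' then (1 : ℝ) else 0) with hP
  have hPb := card_pairs_range h (V * g) (Nat.mul_pos hV hg0)
  rw [← hP] at hPb
  have hP0 : 0 ≤ P := by
    rw [hP]
    apply Finset.sum_nonneg; intro i _
    apply Finset.sum_nonneg; intro i' _
    split_ifs <;> norm_num
  have e1 : ∑ r ∈ Ioc r1 r2, ∑ b ∈ range K, Zr V δ (W * b) (r - h) r * Zr V δ' (W * b) (r - h) r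
      = ∑ i ∈ range h, ∑ i' ∈ range h, ∑ r ∈ Ioc r1 r2, ∑ b ∈ range K,
          ind V δ (W * b) (r - i) * ind V δ' (W * b) (r - i') := by
    calc ∑ r ∈ Ioc r1 r2, ∑ b ∈ range K, Zr V δ (W * b) (r - h) r * Zr V δ' (W * b) (r - h) r
        = ∑ r ∈ Ioc r1 r2, ∑ i ∈ range h, ∑ i' ∈ range h, ∑ b ∈ range K,
            ind V δ (W * b) (r - i) * ind V δ' (W * b) (r - i') := by
          apply Finset.sum_congr rfl
          intro r _
          calc ∑ b ∈ range K, Zr V δ (W * b) (r - h) r * Zr V δ' (W * b) (r - h) r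
              = ∑ b ∈ range K, ∑ i ∈ range h, ∑ i' ∈ range h,
                  ind V δ (W * b) (r - i) * ind V δ' (W * b) (r - i') := by
                apply Finset.sum_congr rfl
                intro b _
                rw [Zr_range, Zr_range, Finset.sum_mul_sum]
            _ = _ := by
                rw [Finset.sum_comm]
                apply Finset.sum_congr rfl
                intro i _
                rw [Finset.sum_comm]
      _ = _ := by
          rw [Finset.sum_comm]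
          apply Finset.sum_congr rfl
          intro i _
          rw [Finset.sum_comm]
  have e2 : ∀ i i' : ℕ, |∑ r ∈ Ioc r1 r2, ∑ b ∈ range K,
          ind V δ (W * b) (r - i) * ind V δ' (W * b) (r - i')
          - (K : ℝ) / D * R0 * (if ((V * g : ℕ) : ℤ) ∣ (i : ℤ) - i' then (1 : ℝ) else 0)|
      ≤ (K : ℝ) * w / D * (if ((V * g : ℕ) : ℤ) ∣ (i : ℤ) - i' then (1 : ℝ) else 0) := by
    intro i i'
    obtain ⟨x0, hx0⟩ := joint K V δ δ' hK hD W ((i : ℤ) - i')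
    have hx1 : ∀ r : ℤ, ∑ b ∈ range K, ind V δ (W * b) (r - i) * ind V δ' (W * b) (r - i')
        = if ((V * g : ℕ) : ℤ) ∣ (i : ℤ) - i' ∧ (w : ℤ) ∣ (r - i) - x0 then
            (K : ℝ) * w / D else 0 := by
      intro r
      have := hx0 (r - i)
      have e : r - (i : ℤ) + ((i : ℤ) - i') = r - i' := by ring
      rw [e] at this
      exact this
    simp only [hx1]
    by_cases hG : ((V * g : ℕ) : ℤ) ∣ (i : ℤ) - i'
    · simp only [hG, true_and, if_true, mul_one]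
      have a1 : ∑ r ∈ Ioc r1 r2, (if (w : ℤ) ∣ (r - i) - x0 then (K : ℝ) * w / D else 0)
          = ((K : ℝ) * w / D) *
            (((Ioc r1 r2).filter (fun r => (w : ℤ) ∣ r - (i + x0))).card : ℝ) := by
        rw [Finset.card_filter]
        push_cast
        rw [Finset.mul_sum]
        apply Finset.sum_congr rfl
        intro r _
        have e : r - (i : ℤ) - x0 = r - (i + x0) := by ring
        rw [e]
        split_ifs <;> ring
      rw [a1]
      have a2 := card_Ioc_class r1 r2 hr w hw0 (i + x0)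
      rw [← hR0] at a2
      set N1 : ℝ := (((Ioc r1 r2).filter (fun r => (w : ℤ) ∣ r - (i + x0))).card : ℝ)
      have a3 : (K : ℝ) * w / D * N1 - K / D * R0 = (K : ℝ) * w / D * (N1 - R0 / w) := by
        field_simp
      rw [a3, abs_mul, abs_of_nonneg (by positivity)]
      calc (K : ℝ) * w / D * |N1 - R0 / w| ≤ (K : ℝ) * w / D * 1 :=
            mul_le_mul_of_nonneg_left a2 (by positivity)
        _ = _ := mul_one _
    · simp only [hG, false_and, if_false, mul_zero, Finset.sum_const_zero, sub_zero, abs_zero,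
        le_refl]
  have e3 : |∑ r ∈ Ioc r1 r2, ∑ b ∈ range K,
        Zr V δ (W * b) (r - h) r * Zr V δ' (W * b) (r - h) r - (K : ℝ) / D * R0 * P|
      ≤ (K : ℝ) * w / D * P := by
    rw [e1, hP, Finset.mul_sum, Finset.mul_sum, ← Finset.sum_sub_distrib]
    refine (Finset.abs_sum_le_sum_abs _ _).trans ?_
    apply Finset.sum_le_sum
    intro i _
    rw [Finset.mul_sum, Finset.mul_sum, ← Finset.sum_sub_distrib]
    refine (Finset.abs_sum_le_sum_abs _ _).trans ?_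
    apply Finset.sum_le_sum
    intro i' _
    exact e2 i i'
  set S : ℝ := ∑ r ∈ Ioc r1 r2, ∑ b ∈ range K,
        Zr V δ (W * b) (r - h) r * Zr V δ' (W * b) (r - h) r with hS
  set y : ℝ := (h : ℝ) / V with hy
  have hy0 : 0 ≤ y := by positivity
  have hhy : (h : ℝ) = y * V := by rw [hy]; field_simp
  have hDD : (D : ℝ) = V * (Nat.lcm δ δ' : ℝ) := by rw [hDdef]; push_cast; rfl
  have hlg : (Nat.lcm δ δ' : ℝ) = δ * δ' / g := by rw [← hgl]; field_simp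
  have m1 : R0 * (K : ℝ) * y ^ 2 / (δ * δ') = (K : ℝ) / D * R0 * ((h : ℝ) ^ 2 / ((V * g : ℕ) : ℝ)) := by
    rw [hDD, hlg, hhy]
    push_cast
    field_simp
  have m2 : |(K : ℝ) / D * R0 * P - R0 * (K : ℝ) * y ^ 2 / (δ * δ')|
      ≤ R0 * (K : ℝ) * y * g / (δ * δ') := by
    rw [m1, ← mul_sub, abs_mul, abs_of_nonneg (by positivity)]
    calc (K : ℝ) / D * R0 * |P - (h : ℝ) ^ 2 / ((V * g : ℕ) : ℝ)| ≤ (K : ℝ) / D * R0 * h :=
          mul_le_mul_of_nonneg_left hPb (by positivity)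
      _ = R0 * (K : ℝ) * y * g / (δ * δ') := by
          rw [hDD, hlg, hhy]
          field_simp
  have m3 : (K : ℝ) * w / D * P ≤ R0 * (K : ℝ) * y * g / (δ * δ') := by
    have b1 : P ≤ (h : ℝ) ^ 2 / ((V * g : ℕ) : ℝ) + h := by linarith [(abs_le.mp hPb).2]
    calc (K : ℝ) * w / D * P ≤ (K : ℝ) * w / D * ((h : ℝ) ^ 2 / ((V * g : ℕ) : ℝ) + h) :=
          mul_le_mul_of_nonneg_left b1 (by positivity)
      _ = (K : ℝ) / (δ * δ') * (w * (y ^ 2 + y * g)) := by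
          rw [hDD, hlg, hhy]
          push_cast
          field_simp
      _ ≤ (K : ℝ) / (δ * δ') * (R0 * y * g) := by
          apply mul_le_mul_of_nonneg_left _ (by positivity)
          calc (w : ℝ) * (y ^ 2 + y * g) ≤ (w : ℝ) * ((y + 1) * (y * g)) := by
                apply mul_le_mul_of_nonneg_left _ hwr.le
                nlinarith [mul_nonneg hy0 hy0, mul_nonneg (mul_nonneg hy0 hy0) (sub_nonneg.mpr hg1)]
            _ = (w * (y + 1)) * (y * g) := by ring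
            _ ≤ R0 * (y * g) := mul_le_mul_of_nonneg_right hw (by positivity)
            _ = _ := by ring
      _ = _ := by ring
  calc |S - R0 * (K : ℝ) * y ^ 2 / (δ * δ')| ≤ |S - (K : ℝ) / D * R0 * P|
      + |(K : ℝ) / D * R0 * P - R0 * (K : ℝ) * y ^ 2 / (δ * δ')| := abs_sub_le _ _ _
    _ ≤ R0 * (K : ℝ) * y * g / (δ * δ') + R0 * (K : ℝ) * y * g / (δ * δ') :=
        add_le_add (e3.trans m3) m2
    _ = _ := by ring

/-- `STR2`: average of the variance over moving windows of fixed length `h` -/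
theorem FF_avg (K V h : ℕ) (hK : 0 < K) (hV : 0 < V) (DD : Finset ℕ) (c : ℕ → ℝ)
    (hpos : ∀ δ ∈ DD, 0 < δ) (W : ℤ)
    (hD : ∀ δ ∈ DD, ∀ δ' ∈ DD, V * Nat.lcm δ δ' ∣ K) (r1 r2 : ℤ) (hr : r1 ≤ r2)
    (hw : ∀ δ ∈ DD, ∀ δ' ∈ DD,
      (Int.gcd W ((V * Nat.lcm δ δ' : ℕ) : ℤ) : ℝ) * ((h : ℝ) / V + 1) ≤ (r2 : ℝ) - r1) :
    ∑ r ∈ Ioc r1 r2, FF K V DD c W (r - h) r
      ≤ 4 * ((r2 : ℝ) - r1) * (K : ℝ) * ((h : ℝ) / V) * vv DD c := by
  have hcardr : ((Ioc r1 r2).card : ℝ) = (r2 : ℝ) - r1 := by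
    rw [Int.card_Ioc]
    have : ((r2 - r1).toNat : ℤ) = r2 - r1 := Int.toNat_of_nonneg (by omega)
    have h2 : (((r2 - r1).toNat : ℤ) : ℝ) = ((r2 - r1 : ℤ) : ℝ) := by rw [this]
    push_cast at h2
    exact h2
  have e0 : ∑ r ∈ Ioc r1 r2, FF K V DD c W (r - h) r
      = ∑ p ∈ (Ioc r1 r2) ×ˢ (range K),
          (∑ δ ∈ DD, c δ * (Zr V δ (W * p.2) (p.1 - h) p.1 - ((h : ℝ) / V) / δ)) ^ 2 := by
    rw [Finset.sum_product]
    apply Finset.sum_congr rfl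
    intro r _
    unfold FF
    apply Finset.sum_congr rfl
    intro b _
    have : ((r : ℝ) - ((r - h : ℤ) : ℝ)) = h := by push_cast; ring
    rw [this]
  rw [e0]
  apply expand_le
  intro δ hδ δ' hδ'
  have hKr : (0 : ℝ) < K := by exact_mod_cast hK
  have hVr : (0 : ℝ) < V := by exact_mod_cast hV
  have hδr : (0 : ℝ) < δ := by exact_mod_cast hpos δ hδ
  have hδr' : (0 : ℝ) < δ' := by exact_mod_cast hpos δ' hδ'
  have hR00 : 0 ≤ (r2 : ℝ) - r1 := by
    have : (r1 : ℝ) ≤ r2 := by exact_mod_cast hr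
    linarith
  have s1 := sum_ZZ2 K V δ δ' h hK hV (hpos δ hδ) (hpos δ' hδ') (hD δ hδ δ' hδ') W r1 r2 hr
    (hw δ hδ δ' hδ')
  have s2 := sum_Zr2 K V δ h hK hV (hpos δ hδ) (by
    have := hD δ hδ δ hδ; rwa [Nat.lcm_self] at this) W r1 r2 hr
  have s3 := sum_Zr2 K V δ' h hK hV (hpos δ' hδ') (by
    have := hD δ' hδ' δ' hδ'; rwa [Nat.lcm_self] at this) W r1 r2 hr
  have w2 : (Int.gcd W ((V * δ : ℕ) : ℤ) : ℝ) * ((h : ℝ) / V + 1) ≤ (r2 : ℝ) - r1 := by
    have := hw δ hδ δ hδ; rwa [Nat.lcm_self] at this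
  have w3 : (Int.gcd W ((V * δ' : ℕ) : ℤ) : ℝ) * ((h : ℝ) / V + 1) ≤ (r2 : ℝ) - r1 := by
    have := hw δ' hδ' δ' hδ'; rwa [Nat.lcm_self] at this
  rw [Finset.sum_product, Finset.sum_product, Finset.sum_product, Finset.card_product,
    Finset.card_range, Nat.cast_mul, hcardr]
  set y : ℝ := (h : ℝ) / V with hy
  have hy0 : 0 ≤ y := by positivity
  set R0 : ℝ := (r2 : ℝ) - r1 with hR0
  set wd : ℝ := (Int.gcd W ((V * δ : ℕ) : ℤ) : ℝ) with hwd
  set wd' : ℝ := (Int.gcd W ((V * δ' : ℕ) : ℤ) : ℝ) with hwd'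
  have hwd0 : 0 ≤ wd := by positivity
  have hwd0' : 0 ≤ wd' := by positivity
  set A : ℝ := ∑ r ∈ Ioc r1 r2, ∑ b ∈ range K,
    Zr V δ (W * b) (r - h) r * Zr V δ' (W * b) (r - h) r
  set B : ℝ := ∑ r ∈ Ioc r1 r2, ∑ b ∈ range K, Zr V δ (W * b) (r - h) r
  set B' : ℝ := ∑ r ∈ Ioc r1 r2, ∑ b ∈ range K, Zr V δ' (W * b) (r - h) r
  have hg1 : (1 : ℝ) ≤ (Nat.gcd δ δ' : ℝ) := by
    exact_mod_cast Nat.gcd_pos_of_pos_left _ (hpos δ hδ)
  have e : A - y / δ' * B - y / δ * B' + R0 * (K : ℝ) * (y / δ * (y / δ'))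
      = (A - R0 * (K : ℝ) * y ^ 2 / (δ * δ')) - (y / δ') * (B - R0 * (K : ℝ) * y / δ)
        - (y / δ) * (B' - R0 * (K : ℝ) * y / δ') := by
    field_simp
    ring
  rw [e]
  have q1 : wd * y ≤ R0 := by nlinarith
  have q2 : wd' * y ≤ R0 := by nlinarith
  have t1 : |(y / δ') * (B - R0 * (K : ℝ) * y / δ)| ≤ R0 * (K : ℝ) * y / (δ * δ') := by
    rw [abs_mul, abs_of_nonneg (by positivity)]
    calc (y / δ') * |B - R0 * (K : ℝ) * y / δ| ≤ (y / δ') * ((K : ℝ) * wd * y / δ) :=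
          mul_le_mul_of_nonneg_left s2 (by positivity)
      _ = (wd * y) * ((K : ℝ) * y / (δ * δ')) := by field_simp
      _ ≤ R0 * ((K : ℝ) * y / (δ * δ')) := mul_le_mul_of_nonneg_right q1 (by positivity)
      _ = _ := by ring
  have t2 : |(y / δ) * (B' - R0 * (K : ℝ) * y / δ')| ≤ R0 * (K : ℝ) * y / (δ * δ') := by
    rw [abs_mul, abs_of_nonneg (by positivity)]
    calc (y / δ) * |B' - R0 * (K : ℝ) * y / δ'| ≤ (y / δ) * ((K : ℝ) * wd' * y / δ') :=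
          mul_le_mul_of_nonneg_left s3 (by positivity)
      _ = (wd' * y) * ((K : ℝ) * y / (δ * δ')) := by field_simp
      _ ≤ R0 * ((K : ℝ) * y / (δ * δ')) := mul_le_mul_of_nonneg_right q2 (by positivity)
      _ = _ := by ring
  have t3 : R0 * (K : ℝ) * y / (δ * δ') ≤ R0 * (K : ℝ) * y * (Nat.gcd δ δ' : ℝ) / (δ * δ') := by
    apply div_le_div_of_nonneg_right _ (by positivity)
    calc R0 * (K : ℝ) * y = R0 * (K : ℝ) * y * 1 := (mul_one _).symm
      _ ≤ _ := mul_le_mul_of_nonneg_left hg1 (by positivity)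
  have tri : ∀ a b d : ℝ, |a - b - d| ≤ |a| + |b| + |d| := by
    intro a b d
    calc |a - b - d| ≤ |a - b| + |d| := abs_sub _ _
      _ ≤ |a| + |b| + |d| := by linarith [abs_sub a b]
  refine (tri _ _ _).trans ?_
  calc _ ≤ 2 * R0 * (K : ℝ) * y * (Nat.gcd δ δ' : ℝ) / (δ * δ')
        + R0 * (K : ℝ) * y * (Nat.gcd δ δ' : ℝ) / (δ * δ')
        + R0 * (K : ℝ) * y * (Nat.gcd δ δ' : ℝ) / (δ * δ') :=
        add_le_add (add_le_add s1 (t1.trans t3)) (t2.trans t3)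
    _ = _ := by ring

end Crest.Agent.R001.Str
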