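import Crest.Agent.R001.Str4

/-!
# R001, block STR, part 5: from integers `n ∣ W` to residues and windows
-/

set_option autoImplicit false

namespace Crest.Agent.R001.Str

open Finset

/-- the indicator only depends on `B` modulo `K` -/
lemma ind_congr (K V δ : ℕ) (hD : V * δ ∣ K) (B B' m : ℤ) (h : (K : ℤ) ∣ B - B') :
    ind V δ B m = ind V δ B' m := by
  have h1 : ((V * δ : ℕ) : ℤ) ∣ B - B' := dvd_trans (by exact_mod_cast hD) h
  have h2 : ((V * δ : ℕ) : ℤ) ∣ B + m ↔ ((V * δ : ℕ) : ℤ) ∣ B' + m := by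
    have e : B + m = (B - B') + (B' + m) := by ring
    rw [e]
    exact (Int.dvd_add_right h1)
  unfold ind
  simp only [h2]

lemma Zr_congr (K V δ : ℕ) (hD : V * δ ∣ K) (B B' l r : ℤ) (h : (K : ℤ) ∣ B - B') :
    Zr V δ B l r = Zr V δ B' l r := by
  unfold Zr
  exact Finset.sum_congr rfl fun m _ => ind_congr K V δ hD B B' m h

/-- the change of variables `m = V s - B` -/
lemma card_window (V δ : ℕ) (hV : 0 < V) (B : ℤ) (x α h0 : ℝ)
    (hx : (V : ℝ) * x = B + α) :
    (((Ioc ⌊x - h0 / V⌋ ⌊x⌋).filter (fun s => (δ : ℤ) ∣ s)).card : ℝ)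
      = Zr V δ B ⌊α - h0⌋ ⌊α⌋ := by
  have hVr : (0 : ℝ) < V := by exact_mod_cast hV
  have hVz : (V : ℤ) ≠ 0 := by exact_mod_cast hV.ne'
  have e : Zr V δ B ⌊α - h0⌋ ⌊α⌋
      = (((Ioc ⌊α - h0⌋ ⌊α⌋).filter (fun m => ((V * δ : ℕ) : ℤ) ∣ B + m)).card : ℝ) := by
    unfold Zr ind
    rw [Finset.card_filter]
    push_cast
    rfl
  rw [e]
  congr 1
  apply Finset.card_bij (fun (s : ℤ) _ => V * s - B)
  · intro s hs
    rw [mem_filter, mem_Ioc, Int.floor_lt, Int.le_floor] at hs
    rw [mem_filter, mem_Ioc, Int.floor_lt, Int.le_floor]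
    obtain ⟨⟨h1, h2⟩, h3⟩ := hs
    have a1 : (V : ℝ) * (x - h0 / V) < V * s := mul_lt_mul_of_pos_left h1 hVr
    have a2 : (V : ℝ) * s ≤ V * x := mul_le_mul_of_nonneg_left h2 hVr.le
    have a3 : (V : ℝ) * (x - h0 / V) = B + α - h0 := by
      rw [mul_sub, hx]
      field_simp
    refine ⟨⟨?_, ?_⟩, ?_⟩
    · push_cast; linarith
    · push_cast; linarith
    · obtain ⟨k, hk⟩ := h3
      refine ⟨k, ?_⟩
      rw [hk]; push_cast; ring
  · intro s _ s' _ h
    have : (V : ℤ) * s = V * s' := by linarith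
    exact mul_left_cancel₀ hVz this
  · intro m hm
    rw [mem_filter, mem_Ioc, Int.floor_lt, Int.le_floor] at hm
    obtain ⟨⟨h1, h2⟩, k, hk⟩ := hm
    refine ⟨δ * k, ?_, ?_⟩
    · rw [mem_filter, mem_Ioc, Int.floor_lt, Int.le_floor]
      have hk' : (B : ℝ) + m = V * ((δ : ℝ) * k) := by
        have : ((B + m : ℤ) : ℝ) = (((V * δ : ℕ) : ℤ) * k : ℤ) := by rw [hk]
        push_cast at this
        rw [this]; ring
      refine ⟨⟨?_, ?_⟩, dvd_mul_right _ _⟩
      · have a3 : (V : ℝ) * (x - h0 / V) = B + α - h0 := by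
          rw [mul_sub, hx]
          field_simp
        have : (V : ℝ) * (x - h0 / V) < V * ((δ : ℝ) * k) := by rw [a3, ← hk']; linarith
        have := lt_of_mul_lt_mul_left this hVr.le
        push_cast
        exact this
      · have : (V : ℝ) * ((δ : ℝ) * k) ≤ V * x := by rw [hx, ← hk']; linarith
        have := le_of_mul_le_mul_left this hVr
        push_cast
        exact this
    · have : (V : ℤ) * (δ * k) = B + m := by rw [hk]; push_cast; ring
      rw [this]; ring

/-- inverse of `n` mod `K` as a natural number `< K` -/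
lemma exists_inv (K n : ℕ) (hK : 0 < K) (hn : Nat.Coprime n K) :
    ∃ b : ℕ, b < K ∧ (K : ℤ) ∣ (n : ℤ) * b - 1 := by
  have hc : IsCoprime (n : ℤ) (K : ℤ) := Nat.isCoprime_iff_coprime.mpr hn
  obtain ⟨u, v, huv⟩ := hc
  have hKz : (0 : ℤ) < K := by exact_mod_cast hK
  refine ⟨(u % K).toNat, ?_, ?_⟩
  · have h1 := Int.emod_lt_of_pos u hKz
    have h2 := Int.emod_nonneg u hKz.ne'
    omega
  · have h2 := Int.emod_nonneg u hKz.ne'
    rw [Int.toNat_of_nonneg h2]
    have h3 : (K : ℤ) ∣ u - u % K := Int.dvd_self_sub_emod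
    have e : (n : ℤ) * (u % K) - 1 = -(n * (u - u % K)) - v * K := by
      linear_combination huv
    rw [e]
    exact dvd_sub ((dvd_neg).mpr (Dvd.dvd.mul_left h3 _)) (Dvd.intro_left _ rfl)

/-- elements of a finite set all congruent mod `K` and of small diameter -/
lemma card_class_le (K : ℕ) (hK : 0 < K) (S : Finset ℕ) (D : ℝ) (hD : 0 ≤ D)
    (h1 : ∀ n ∈ S, ∀ n' ∈ S, (K : ℤ) ∣ (n : ℤ) - n')
    (h2 : ∀ n ∈ S, ∀ n' ∈ S, (n : ℝ) - n' ≤ D) : (S.card : ℝ) ≤ D / K + 1 := by
  have hKr : (0 : ℝ) < K := by exact_mod_cast hK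
  rcases S.eq_empty_or_nonempty with rfl | hne
  · simp only [Finset.card_empty, Nat.cast_zero]; positivity
  set m := S.min' hne with hm
  have hmS : m ∈ S := S.min'_mem hne
  have hle : ∀ n ∈ S, m ≤ n := fun n hn => S.min'_le n hn
  have key : S.card ≤ (range (⌊D / K⌋₊ + 1)).card := by
    apply Finset.card_le_card_of_injOn (fun n => (n - m) / K)
    · intro n hn
      have hn' : n ∈ S := hn
      simp only [coe_range, Set.mem_Iio]
      rw [Nat.lt_succ_iff, Nat.le_floor_iff (by positivity)]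
      have a1 : (((n - m) / K : ℕ) : ℝ) ≤ ((n - m : ℕ) : ℝ) / K := Nat.cast_div_le
      refine a1.trans ?_
      apply div_le_div_of_nonneg_right _ hKr.le
      rw [Nat.cast_sub (hle n hn')]
      exact h2 n hn' m hmS
    · intro n hn n' hn' h
      have hn1 : n ∈ S := hn
      have hn2 : n' ∈ S := hn'
      simp only at h
      have d1 := h1 n hn1 m hmS
      have d2 := h1 n' hn2 m hmS
      have e1 : ((n - m : ℕ) : ℤ) = (n : ℤ) - m := by
        rw [Nat.cast_sub (hle n hn1)]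
      have e2 : ((n' - m : ℕ) : ℤ) = (n' : ℤ) - m := by
        rw [Nat.cast_sub (hle n' hn2)]
      rw [← e1] at d1
      rw [← e2] at d2
      have d1' : K ∣ n - m := by exact_mod_cast d1
      have d2' : K ∣ n' - m := by exact_mod_cast d2
      have f1 := Nat.div_mul_cancel d1'
      have f2 := Nat.div_mul_cancel d2'
      have : n - m = n' - m := by rw [← f1, ← f2, h]
      have := hle n hn1
      have := hle n' hn2
      omega
  rw [card_range] at key
  have : (S.card : ℝ) ≤ (⌊D / K⌋₊ : ℝ) + 1 := by exact_mod_cast key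
  have h3 := Nat.floor_le (show 0 ≤ D / (K : ℝ) by positivity)
  linarith

/-- grouping lemma -/
lemma sum_group {ι κ : Type*} [DecidableEq κ] (N : Finset ι) (f : ι → ℕ) (g : ι → κ)
    (K : ℕ) (hf : ∀ n ∈ N, f n < K) (G : ℕ → κ → ℝ) (hG : ∀ b k, 0 ≤ G b k) (Q : Finset κ)
    (hQ : ∀ n ∈ N, g n ∈ Q) (cap : κ → ℝ)
    (hcap : ∀ k ∈ Q, ∀ b, ((N.filter (fun n => f n = b ∧ g n = k)).card : ℝ) ≤ cap k) :
    ∑ n ∈ N, G (f n) (g n) ≤ ∑ k ∈ Q, cap k * ∑ b ∈ range K, G b k := by
  classical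
  have h1 : ∑ n ∈ N, G (f n) (g n)
      = ∑ k ∈ Q, ∑ b ∈ range K, ∑ n ∈ N.filter (fun n => f n = b ∧ g n = k), G b k := by
    have e1 : ∀ n ∈ N, G (f n) (g n)
        = ∑ k ∈ Q, ∑ b ∈ range K, (if f n = b ∧ g n = k then G b k else 0) := by
      intro n hn
      rw [Finset.sum_eq_single (g n)]
      · rw [Finset.sum_eq_single (f n)]
        · simp
        · intro b _ hb
          rw [if_neg]
          exact fun h => hb h.1.symm
        · intro hb
          exact absurd (mem_range.mpr (hf n hn)) hb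
      · intro k _ hk
        apply Finset.sum_eq_zero
        intro b _
        rw [if_neg]
        exact fun h => hk h.2.symm
      · intro hk
        exact absurd (hQ n hn) hk
    rw [Finset.sum_congr rfl e1, Finset.sum_comm]
    apply Finset.sum_congr rfl
    intro k _
    rw [Finset.sum_comm]
    apply Finset.sum_congr rfl
    intro b _
    rw [Finset.sum_filter]
  rw [h1]
  apply Finset.sum_le_sum
  intro k hk
  rw [Finset.mul_sum]
  apply Finset.sum_le_sum
  intro b _
  rw [Finset.sum_const, nsmul_eq_mul]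
  exact mul_le_mul_of_nonneg_right (hcap k hk b) (hG b k)

/-- `β / n` is monotone or antitone -/
lemma between (β : ℝ) (n' m n : ℕ) (h0 : 0 < n') (h1 : n' ≤ m) (h2 : m ≤ n) :
    (β / n ≤ β / m ∧ β / m ≤ β / n') ∨ (β / n' ≤ β / m ∧ β / m ≤ β / n) := by
  have a0 : (0 : ℝ) < n' := by exact_mod_cast h0
  have a1 : (n' : ℝ) ≤ m := by exact_mod_cast h1
  have a2 : (m : ℝ) ≤ n := by exact_mod_cast h2
  rcases le_total 0 β with hβ | hβ
  · left
    exact ⟨div_le_div_of_nonneg_left hβ (by linarith) a2, div_le_div_of_nonneg_left hβ a0 a1⟩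
  · right
    have hβ' : 0 ≤ -β := by linarith
    have b1 := div_le_div_of_nonneg_left hβ' a0 a1
    have b2 := div_le_div_of_nonneg_left hβ' (by linarith : (0 : ℝ) < m) a2
    rw [neg_div, neg_div] at b1 b2
    exact ⟨by linarith, by linarith⟩

/-- the window of `n` -/
noncomputable def key (β h0 : ℝ) (n : ℕ) : ℤ × ℤ := (⌊β / n - h0⌋, ⌊β / n⌋)

lemma key_between (β h0 : ℝ) (n' m n : ℕ) (hn' : 0 < n') (h1 : n' ≤ m) (h2 : m ≤ n)
    (h : key β h0 n' = key β h0 n) : key β h0 m = key β h0 n := by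
  unfold key at h ⊢
  rw [Prod.mk.injEq] at h ⊢
  obtain ⟨e1, e2⟩ := h
  rcases between β n' m n hn' h1 h2 with ⟨a, b⟩ | ⟨a, b⟩
  · constructor
    · apply le_antisymm
      · rw [← e1]; exact Int.floor_le_floor (by linarith)
      · exact Int.floor_le_floor (by linarith)
    · apply le_antisymm
      · rw [← e2]; exact Int.floor_le_floor b
      · exact Int.floor_le_floor a
  · constructor
    · apply le_antisymm
      · exact Int.floor_le_floor (by linarith)
      · rw [← e1]; exact Int.floor_le_floor (by linarith)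
    · apply le_antisymm
      · exact Int.floor_le_floor b
      · rw [← e2]; exact Int.floor_le_floor a

/-- length of the window -/
lemma key_len (β h0 : ℝ) (hh : 0 ≤ h0) (n : ℕ) :
    (key β h0 n).1 = (key β h0 n).2 - (⌊h0⌋₊ : ℤ) ∨
      (key β h0 n).1 = (key β h0 n).2 - ((⌊h0⌋₊ + 1 : ℕ) : ℤ) := by
  unfold key
  simp only
  have a1 := Int.floor_le (β / n)
  have a2 := Int.lt_floor_add_one (β / n)
  have b1 := Int.floor_le (β / n - h0)
  have b2 := Int.lt_floor_add_one (β / n - h0)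
  have c1 := Nat.floor_le hh
  have c2 := Nat.lt_floor_add_one h0
  set r := ⌊β / (n : ℝ)⌋
  set l := ⌊β / (n : ℝ) - h0⌋
  set h := ⌊h0⌋₊
  have d1 : (l : ℝ) < (r : ℝ) - h + 1 := by linarith
  have d2 : (r : ℝ) - h - 2 < (l : ℝ) := by linarith
  have d1' : l < r - h + 1 := by exact_mod_cast d1
  have d2' : r - h - 2 < l := by exact_mod_cast d2
  push_cast
  omega

end Crest.Agent.R001.Str
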