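import Crest.Agent.R001.Str5

/-!
# R001, block STR, part 6: main theorems

`err DD c N0 x = Σ_δ c_δ (#{s ∈ (x - N0, x] : δ ∣ s} - N0/δ)`.

`STR1`, `STR2`: second moment of `err` over the integers `n ∈ (P1, P2]` with `n ∣ W`, `n` coprime
to `K`, for the windows with right ends `x_n`, `V x_n = W/n + β/n`, if `V` is large (`STR1`) or
`β` is large (`STR2`).
-/

set_option autoImplicit false
set_option maxHeartbeats 1000000

namespace Crest.Agent.R001.Str

open Finset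

/-- the error of the linear estimator in the window `(x - N0, x]` -/
noncomputable def err (DD : Finset ℕ) (c : ℕ → ℝ) (N0 x : ℝ) : ℝ :=
  ∑ δ ∈ DD, c δ * ((((Ioc ⌊x - N0⌋ ⌊x⌋).filter (fun s => (δ : ℤ) ∣ s)).card : ℝ) - N0 / δ)

/-- `|Σ c_δ/δ|² ≤ vv` -/
lemma mean_sq_le (DD : Finset ℕ) (c : ℕ → ℝ) (hpos : ∀ δ ∈ DD, 0 < δ) :
    (∑ δ ∈ DD, c δ / δ) ^ 2 ≤ vv DD c := by
  rw [sq, Finset.sum_mul_sum]
  unfold vv
  apply Finset.sum_le_sum
  intro δ hδ
  apply Finset.sum_le_sum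
  intro δ' hδ'
  have hδr : (0 : ℝ) < δ := by exact_mod_cast hpos δ hδ
  have hδr' : (0 : ℝ) < δ' := by exact_mod_cast hpos δ' hδ'
  have hg1 : (1 : ℝ) ≤ (Nat.gcd δ δ' : ℝ) := by
    exact_mod_cast Nat.gcd_pos_of_pos_left _ (hpos δ hδ)
  calc c δ / δ * (c δ' / δ') ≤ |c δ / δ * (c δ' / δ')| := le_abs_self _
    _ = |c δ| * |c δ'| * (1 / (δ * δ')) := by
        rw [abs_mul, abs_div, abs_div, Nat.abs_cast, Nat.abs_cast]
        field_simp
    _ ≤ |c δ| * |c δ'| * ((Nat.gcd δ δ' : ℝ) / (δ * δ')) := by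
        apply mul_le_mul_of_nonneg_left _ (by positivity)
        exact div_le_div_of_nonneg_right hg1 (by positivity)

section
variable (K V : ℕ) (hK : 0 < K) (hV : 0 < V) (DD : Finset ℕ) (c : ℕ → ℝ)
  (hpos : ∀ δ ∈ DD, 0 < δ) (W : ℤ)
  (hD : ∀ δ ∈ DD, ∀ δ' ∈ DD, V * Nat.lcm δ δ' ∣ K)
  (P1 P2 : ℕ) (hP1 : 0 < P1) (hP : P1 ≤ P2) (N : Finset ℕ)
  (hN : ∀ n ∈ N, P1 < n ∧ n ≤ P2 ∧ Nat.Coprime n K ∧ (n : ℤ) ∣ W)
  (β N0 : ℝ) (hN0 : 0 ≤ N0) (x : ℕ → ℝ)
  (hx : ∀ n ∈ N, (V : ℝ) * x n = ((W / n : ℤ) : ℝ) + β / n)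

/-- the summand as a function of residue and window -/
noncomputable def GG (V : ℕ) (DD : Finset ℕ) (c : ℕ → ℝ) (W : ℤ) (b : ℕ) (k : ℤ × ℤ) : ℝ :=
  (∑ δ ∈ DD, c δ * (Zr V δ (W * b) k.1 k.2 - (((k.2 : ℝ) - k.1) / V) / δ)) ^ 2

lemma GG_nonneg (V : ℕ) (DD : Finset ℕ) (c : ℕ → ℝ) (W : ℤ) (b : ℕ) (k : ℤ × ℤ) :
    0 ≤ GG V DD c W b k := sq_nonneg _

lemma sum_GG (K V : ℕ) (DD : Finset ℕ) (c : ℕ → ℝ) (W : ℤ) (k : ℤ × ℤ) :
    ∑ b ∈ range K, GG V DD c W b k = FF K V DD c W k.1 k.2 := rfl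

include hK hV hpos hD hP1 hN hx in
lemma err_sq_le : ∃ f : ℕ → ℕ, (∀ n ∈ N, f n < K) ∧
    (∀ n ∈ N, (K : ℤ) ∣ (n : ℤ) * (f n) - 1) ∧
    ∀ n ∈ N, (err DD c N0 (x n)) ^ 2
      ≤ 2 * GG V DD c W (f n) (key β (V * N0) n) + 2 * vv DD c := by
  classical
  have hex : ∀ n ∈ N, ∃ b : ℕ, b < K ∧ (K : ℤ) ∣ (n : ℤ) * b - 1 :=
    fun n hn => exists_inv K n hK (hN n hn).2.2.1
  choose! f hf1 hf2 using hex
  refine ⟨f, hf1, hf2, fun n hn => ?_⟩
  have hVr : (0 : ℝ) < V := by exact_mod_cast hV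
  obtain ⟨-, -, -, hdiv⟩ := hN n hn
  have hn0 : 0 < n := by have := (hN n hn).1; omega
  have hcong : (K : ℤ) ∣ W * (f n) - (W / n) := by
    obtain ⟨q, hq⟩ := hdiv
    have : W / (n : ℤ) = q := by
      rw [hq]; exact Int.mul_ediv_cancel_left _ (by exact_mod_cast hn0.ne')
    rw [this, hq]
    have e : (n : ℤ) * q * (f n) - q = q * (n * (f n) - 1) := by ring
    rw [e]
    exact Dvd.dvd.mul_left (hf2 n hn) _
  have h0 : (V : ℝ) * N0 / V = N0 := by field_simp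
  have e1 : err DD c N0 (x n)
      = ∑ δ ∈ DD, c δ * (Zr V δ (W * (f n)) (key β (V * N0) n).1 (key β (V * N0) n).2
          - N0 / δ) := by
    unfold err
    apply Finset.sum_congr rfl
    intro δ hδ
    have h1 := card_window V δ hV (W / n) (x n) (β / n) (V * N0) (hx n hn)
    rw [h0] at h1
    rw [h1]
    congr 2
    have hδK : V * δ ∣ K := by
      have := hD δ hδ δ hδ; rwa [Nat.lcm_self] at this
    exact (Zr_congr K V δ hδK _ _ _ _ hcong).symm
  set k := key β (V * N0) n with hk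
  set y : ℝ := (((k.2 : ℝ) - k.1) / V) with hy
  have e2 : err DD c N0 (x n)
      = (∑ δ ∈ DD, c δ * (Zr V δ (W * (f n)) k.1 k.2 - y / δ))
        + (y - N0) * ∑ δ ∈ DD, c δ / δ := by
    rw [e1, Finset.mul_sum, ← Finset.sum_add_distrib]
    apply Finset.sum_congr rfl
    intro δ _
    ring
  have hyN : (y - N0) ^ 2 ≤ 1 := by
    have a1 : (k.2 : ℝ) ≤ β / n := Int.floor_le _
    have a2 : β / n < (k.2 : ℝ) + 1 := Int.lt_floor_add_one _
    have b1 : (k.1 : ℝ) ≤ β / n - V * N0 := Int.floor_le _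
    have b2 : β / n - V * N0 < (k.1 : ℝ) + 1 := Int.lt_floor_add_one _
    have c1 : y - N0 = ((k.2 : ℝ) - k.1 - V * N0) / V := by
      rw [hy]; field_simp
    have c2 : |(k.2 : ℝ) - k.1 - V * N0| ≤ 1 := by
      rw [abs_le]; constructor <;> linarith
    have hV1 : (1 : ℝ) ≤ V := by exact_mod_cast hV
    have c3 : |y - N0| ≤ 1 := by
      rw [c1, abs_div, abs_of_pos hVr, div_le_one hVr]
      linarith
    calc (y - N0) ^ 2 = |y - N0| ^ 2 := (sq_abs _).symm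
      _ ≤ 1 ^ 2 := pow_le_pow_left₀ (abs_nonneg _) c3 2
      _ = 1 := one_pow 2
  have hG : GG V DD c W (f n) k
      = (∑ δ ∈ DD, c δ * (Zr V δ (W * (f n)) k.1 k.2 - y / δ)) ^ 2 := rfl
  rw [hG, e2]
  set A := ∑ δ ∈ DD, c δ * (Zr V δ (W * (f n)) k.1 k.2 - y / δ)
  have hM := mean_sq_le DD c hpos
  set M := ∑ δ ∈ DD, c δ / δ
  have h3 : ((y - N0) * M) ^ 2 ≤ vv DD c := by
    rw [mul_pow]
    calc (y - N0) ^ 2 * M ^ 2 ≤ 1 * M ^ 2 := mul_le_mul_of_nonneg_right hyN (sq_nonneg _)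
      _ ≤ vv DD c := by rw [one_mul]; exact hM
  nlinarith [sq_nonneg (A - (y - N0) * M)]

/-- the possible right ends -/
noncomputable def Rset (β : ℝ) (P1 P2 : ℕ) : Finset ℤ :=
  Icc ⌊min (β / P1) (β / P2)⌋ ⌊max (β / P1) (β / P2)⌋

/-- the possible windows -/
noncomputable def Qset (β h0 : ℝ) (P1 P2 : ℕ) : Finset (ℤ × ℤ) :=
  (Rset β P1 P2).image (fun r => (r - (⌊h0⌋₊ : ℤ), r)) ∪
    (Rset β P1 P2).image (fun r => (r - ((⌊h0⌋₊ + 1 : ℕ) : ℤ), r))

lemma key_mem (β h0 : ℝ) (hh : 0 ≤ h0) (P1 P2 n : ℕ) (hP1 : 0 < P1) (h1 : P1 < n) (h2 : n ≤ P2) :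
    key β h0 n ∈ Qset β h0 P1 P2 := by
  have hr : (key β h0 n).2 ∈ Rset β P1 P2 := by
    unfold Rset key
    simp only [mem_Icc]
    rcases between β P1 n P2 hP1 h1.le h2 with ⟨a, b⟩ | ⟨a, b⟩
    · exact ⟨Int.floor_le_floor ((min_le_right _ _).trans a),
        Int.floor_le_floor (b.trans (le_max_left _ _))⟩
    · exact ⟨Int.floor_le_floor ((min_le_left _ _).trans a),
        Int.floor_le_floor (b.trans (le_max_right _ _))⟩
  unfold Qset
  rw [mem_union, mem_image, mem_image]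
  rcases key_len β h0 hh n with h | h
  · left
    exact ⟨(key β h0 n).2, hr, Prod.ext h.symm rfl⟩
  · right
    exact ⟨(key β h0 n).2, hr, Prod.ext h.symm rfl⟩

lemma card_Rset (β : ℝ) (P1 P2 : ℕ) :
    ((Rset β P1 P2).card : ℝ) ≤ |β / P1 - β / P2| + 2 := by
  unfold Rset
  rw [Int.card_Icc]
  have hmm : ⌊min (β / (P1 : ℝ)) (β / P2)⌋ ≤ ⌊max (β / (P1 : ℝ)) (β / P2)⌋ :=
    Int.floor_le_floor (min_le_max)
  set a := ⌊min (β / (P1 : ℝ)) (β / P2)⌋ with ha
  set b := ⌊max (β / (P1 : ℝ)) (β / P2)⌋ with hb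
  have h1 : ((b + 1 - a).toNat : ℤ) = b + 1 - a := Int.toNat_of_nonneg (by omega)
  have h2 : (((b + 1 - a).toNat : ℤ) : ℝ) = ((b + 1 - a : ℤ) : ℝ) := by rw [h1]
  push_cast at h2
  rw [h2]
  have a1 := Int.lt_floor_add_one (min (β / (P1 : ℝ)) (β / P2))
  have b1 := Int.floor_le (max (β / (P1 : ℝ)) (β / P2))
  rw [← ha] at a1
  rw [← hb] at b1
  have := max_sub_min_eq_abs (β / (P1 : ℝ)) (β / P2)
  rw [abs_sub_comm] at this
  linarith

include hK hV hpos hD hP1 hP hN hN0 hx in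
/-- `V` large -/
theorem STR1 (hw : ∀ δ ∈ DD, ∀ δ' ∈ DD, Int.gcd W ((V * Nat.lcm δ δ' : ℕ) : ℤ) ≤ V) :
    ∑ n ∈ N, (err DD c N0 (x n)) ^ 2
      ≤ 2 * (((P2 : ℝ) - P1) + 2 * K * (|β| / P1 + 2)) * (5 * N0 + 7) * vv DD c := by
  classical
  obtain ⟨f, hf1, hf2, hf3⟩ := err_sq_le K V hK hV DD c hpos W hD P1 P2 hP1 N hN β N0 x hx
  have hKr : (0 : ℝ) < K := by exact_mod_cast hK
  have hVr : (0 : ℝ) < V := by exact_mod_cast hV
  have hV1 : (1 : ℝ) ≤ V := by exact_mod_cast hV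
  have hP1r : (0 : ℝ) < P1 := by exact_mod_cast hP1
  have hPr : (P1 : ℝ) ≤ P2 := by exact_mod_cast hP
  have hvv := vv_nonneg DD c
  set h0 : ℝ := V * N0 with hh0
  have hh0' : 0 ≤ h0 := by positivity
  set Q := Qset β h0 P1 P2 with hQ
  set fib : ℤ × ℤ → Finset ℕ := fun k => (Ioc P1 P2).filter (fun n => key β h0 n = k) with hfib
  set cap : ℤ × ℤ → ℝ := fun k => ((fib k).card : ℝ) / K + 1 with hcap
  have hcap' : ∀ k ∈ Q, ∀ b, ((N.filter (fun n => f n = b ∧ key β h0 n = k)).card : ℝ)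
      ≤ cap k := by
    intro k _ b
    apply card_class_le K hK _ _ (by positivity)
    · intro n hn n' hn'
      rw [mem_filter] at hn hn'
      have d1 := hf2 n hn.1
      have d2 := hf2 n' hn'.1
      rw [hn.2.1] at d1
      rw [hn'.2.1] at d2
      -- n b ≡ 1, n' b ≡ 1
      have e : (n : ℤ) - n' = n * (-(n' * b - 1)) + n' * (n * b - 1) := by ring
      rw [e]
      exact dvd_add (Dvd.dvd.mul_left ((dvd_neg).mpr d2) _) (Dvd.dvd.mul_left d1 _)
    · intro n hn n' hn'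
      rw [mem_filter] at hn hn'
      obtain ⟨p1, p2, -, -⟩ := hN n hn.1
      obtain ⟨q1, q2, -, -⟩ := hN n' hn'.1
      rcases le_total n' n with hle | hle
      · have hsub : Icc n' n ⊆ fib k := by
          intro m hm
          rw [mem_Icc] at hm
          rw [hfib]
          simp only [mem_filter, mem_Ioc]
          refine ⟨⟨by omega, by omega⟩, ?_⟩
          rw [key_between β h0 n' m n (by omega) hm.1 hm.2 (by rw [hn.2.2, hn'.2.2])]
          exact hn.2.2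
        have := Finset.card_le_card hsub
        rw [Nat.card_Icc] at this
        have h2 : ((n + 1 - n' : ℕ) : ℝ) ≤ ((fib k).card : ℝ) := by exact_mod_cast this
        rw [Nat.cast_sub (by omega)] at h2
        push_cast at h2
        linarith
      · have : (n : ℝ) ≤ n' := by exact_mod_cast hle
        have h3 : (0 : ℝ) ≤ ((fib k).card : ℝ) := by positivity
        linarith
  have hgrp := sum_group N f (key β h0) K hf1 (GG V DD c W) (GG_nonneg V DD c W) Q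
    (fun n hn => key_mem β h0 hh0' P1 P2 n hP1 (hN n hn).1 (hN n hn).2.1) cap hcap'
  -- bound FF on Q
  have hFF : ∀ k ∈ Q, ∑ b ∈ range K, GG V DD c W b k
      ≤ (K : ℝ) * (5 * N0 + 6) * vv DD c := by
    intro k hk
    rw [sum_GG]
    have hk2 : k.1 ≤ k.2 ∧ (k.2 : ℝ) - k.1 ≤ h0 + 1 := by
      rw [hQ] at hk
      unfold Qset at hk
      rw [mem_union, mem_image, mem_image] at hk
      have hfl := Nat.floor_le hh0'
      rcases hk with ⟨r, _, rfl⟩ | ⟨r, _, rfl⟩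
      · refine ⟨by simp, ?_⟩
        push_cast; linarith
      · refine ⟨by simp only; omega, ?_⟩
        push_cast; linarith
    refine (FF_le K V hK hV DD c hpos W hD hw k.1 k.2 hk2.1).trans ?_
    apply mul_le_mul_of_nonneg_right _ hvv
    apply mul_le_mul_of_nonneg_left _ hKr.le
    have : ((k.2 : ℝ) - k.1) / V ≤ N0 + 1 := by
      rw [div_le_iff₀ hVr]
      have : (N0 + 1) * V = h0 + V := by rw [hh0]; ring
      rw [this]; linarith [hk2.2]
    linarith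
  have hcap0 : ∀ k, 0 ≤ cap k := fun k => by rw [hcap]; positivity
  have h1 : ∑ n ∈ N, GG V DD c W (f n) (key β h0 n)
      ≤ (∑ k ∈ Q, cap k) * ((K : ℝ) * (5 * N0 + 6) * vv DD c) := by
    refine hgrp.trans ?_
    rw [Finset.sum_mul]
    apply Finset.sum_le_sum
    intro k hk
    exact mul_le_mul_of_nonneg_left (hFF k hk) (hcap0 k)
  -- Σ cap
  have h2 : ∑ k ∈ Q, ((fib k).card : ℝ) ≤ (P2 : ℝ) - P1 := by
    have hdis : (Q : Set (ℤ × ℤ)).PairwiseDisjoint fib := by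
      intro k _ k' _ hkk'
      rw [Function.onFun, Finset.disjoint_left]
      intro n hn hn'
      rw [hfib] at hn hn'
      simp only [mem_filter] at hn hn'
      exact hkk' (hn.2.symm.trans hn'.2)
    have := Finset.card_biUnion (s := Q) (t := fib) hdis
    have hsub : Q.biUnion fib ⊆ Ioc P1 P2 := by
      intro n hn
      rw [mem_biUnion] at hn
      obtain ⟨k, _, hk⟩ := hn
      exact (mem_filter.mp hk).1
    have h3 := Finset.card_le_card hsub
    rw [this, Nat.card_Ioc] at h3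
    have h4 : (((∑ k ∈ Q, (fib k).card : ℕ)) : ℝ) ≤ ((P2 - P1 : ℕ) : ℝ) := by exact_mod_cast h3
    rw [Nat.cast_sub hP] at h4
    push_cast at h4
    exact h4
  have h3 : (Q.card : ℝ) ≤ 2 * (|β| / P1 + 2) := by
    have c1 : Q.card ≤ (Rset β P1 P2).card + (Rset β P1 P2).card := by
      rw [hQ]; unfold Qset
      refine (Finset.card_union_le _ _).trans ?_
      exact add_le_add Finset.card_image_le Finset.card_image_le
    have c2 : (Q.card : ℝ) ≤ (Rset β P1 P2).card + (Rset β P1 P2).card := by exact_mod_cast c1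
    have c3 := card_Rset β P1 P2
    have c4 : |β / P1 - β / P2| ≤ |β| / P1 := by
      have hP2r : (0 : ℝ) < P2 := lt_of_lt_of_le hP1r hPr
      have : β / P1 - β / P2 = β * (1 / P1 - 1 / P2) := by ring
      rw [this, abs_mul, abs_of_nonneg (sub_nonneg.mpr (one_div_le_one_div_of_le hP1r hPr))]
      rw [div_eq_mul_one_div |β|]
      apply mul_le_mul_of_nonneg_left _ (abs_nonneg _)
      have : 0 < 1 / (P2 : ℝ) := by positivity
      linarith
    linarith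
  have h4 : (∑ k ∈ Q, cap k) * K ≤ ((P2 : ℝ) - P1) + 2 * K * (|β| / P1 + 2) := by
    have : (∑ k ∈ Q, cap k) * K = (∑ k ∈ Q, ((fib k).card : ℝ)) + Q.card * K := by
      rw [hcap]
      rw [Finset.sum_add_distrib, ← Finset.sum_div, Finset.sum_const, nsmul_eq_mul, mul_one,
        add_mul, div_mul_cancel₀ _ hKr.ne']
    rw [this]
    have : (Q.card : ℝ) * K ≤ 2 * (|β| / P1 + 2) * K := mul_le_mul_of_nonneg_right h3 hKr.le
    linarith
  have hNc : (N.card : ℝ) ≤ (P2 : ℝ) - P1 := by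
    have : N ⊆ Ioc P1 P2 := by
      intro n hn
      rw [mem_Ioc]
      exact ⟨(hN n hn).1, (hN n hn).2.1⟩
    have := Finset.card_le_card this
    rw [Nat.card_Ioc] at this
    have h5 : (N.card : ℝ) ≤ ((P2 - P1 : ℕ) : ℝ) := by exact_mod_cast this
    rwa [Nat.cast_sub hP] at h5
  set T : ℝ := ((P2 : ℝ) - P1) + 2 * K * (|β| / P1 + 2) with hT
  have hT0 : 0 ≤ T := by
    rw [hT]
    have : 0 ≤ |β| / (P1 : ℝ) := by positivity
    have := mul_nonneg (mul_nonneg (by norm_num : (0 : ℝ) ≤ 2) hKr.le)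
      (by linarith : 0 ≤ |β| / (P1 : ℝ) + 2)
    linarith
  have hNT : (N.card : ℝ) ≤ T := by
    rw [hT]
    have : 0 ≤ |β| / (P1 : ℝ) := by positivity
    have := mul_nonneg (mul_nonneg (by norm_num : (0 : ℝ) ≤ 2) hKr.le)
      (by linarith : 0 ≤ |β| / (P1 : ℝ) + 2)
    linarith
  calc ∑ n ∈ N, (err DD c N0 (x n)) ^ 2
      ≤ ∑ n ∈ N, (2 * GG V DD c W (f n) (key β h0 n) + 2 * vv DD c) :=
        Finset.sum_le_sum hf3
    _ = 2 * ∑ n ∈ N, GG V DD c W (f n) (key β h0 n) + 2 * (N.card : ℝ) * vv DD c := by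
        rw [Finset.sum_add_distrib, ← Finset.mul_sum, Finset.sum_const, nsmul_eq_mul]
        ring
    _ ≤ 2 * ((∑ k ∈ Q, cap k) * ((K : ℝ) * (5 * N0 + 6) * vv DD c)) + 2 * T * vv DD c := by
        apply add_le_add
        · exact mul_le_mul_of_nonneg_left h1 (by norm_num)
        · exact mul_le_mul_of_nonneg_right (by linarith) hvv
    _ = 2 * (((∑ k ∈ Q, cap k) * K) * (5 * N0 + 6) * vv DD c) + 2 * T * vv DD c := by ring
    _ ≤ 2 * (T * (5 * N0 + 6) * vv DD c) + 2 * T * vv DD c := by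
        have : ((∑ k ∈ Q, cap k) * K) * (5 * N0 + 6) * vv DD c ≤ T * (5 * N0 + 6) * vv DD c := by
          apply mul_le_mul_of_nonneg_right _ hvv
          exact mul_le_mul_of_nonneg_right h4 (by linarith)
        linarith
    _ = 2 * T * (5 * N0 + 7) * vv DD c := by ring

include hK hV hpos hD hP1 hP hN hN0 hx in
/-- `β` large -/
theorem STR2 (Δ : ℝ) (hP2 : P2 ≤ 2 * P1)
    (hw : ∀ δ ∈ DD, ∀ δ' ∈ DD, (Int.gcd W ((V * Nat.lcm δ δ' : ℕ) : ℤ) : ℝ) ≤ Δ)
    (hΔ : Δ * (N0 + 2) ≤ |β| * ((P2 : ℝ) - P1) / (P1 * P2))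
    (hβ1 : 1 ≤ |β| * ((P2 : ℝ) - P1) / (P1 * P2)) :
    ∑ n ∈ N, (err DD c N0 (x n)) ^ 2
      ≤ 100 * ((P2 : ℝ) - P1) * (N0 + 1) * (1 + K * |β| / (P1 : ℝ) ^ 2) * vv DD c := by
  classical
  obtain ⟨f, hf1, hf2, hf3⟩ := err_sq_le K V hK hV DD c hpos W hD P1 P2 hP1 N hN β N0 x hx
  have hKr : (0 : ℝ) < K := by exact_mod_cast hK
  have hVr : (0 : ℝ) < V := by exact_mod_cast hV
  have hV1 : (1 : ℝ) ≤ V := by exact_mod_cast hV
  have hP1r : (0 : ℝ) < P1 := by exact_mod_cast hP1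
  have hPr : (P1 : ℝ) ≤ P2 := by exact_mod_cast hP
  have hP2r : (0 : ℝ) < P2 := lt_of_lt_of_le hP1r hPr
  have hP2r' : (P2 : ℝ) ≤ 2 * P1 := by exact_mod_cast hP2
  have hvv := vv_nonneg DD c
  set h0 : ℝ := V * N0 with hh0
  have hh0' : 0 ≤ h0 := by positivity
  set Q := Qset β h0 P1 P2 with hQ
  have hβ0 : 0 < |β| := by
    by_contra hcon
    have : |β| = 0 := le_antisymm (not_lt.mp hcon) (abs_nonneg _)
    rw [this] at hβ1
    simp at hβ1
    linarith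
  set cap0 : ℝ := (P2 : ℝ) ^ 2 / |β| / K + 1 with hcap0
  have hcap' : ∀ k ∈ Q, ∀ b, ((N.filter (fun n => f n = b ∧ key β h0 n = k)).card : ℝ)
      ≤ (fun _ => cap0) k := by
    intro k _ b
    apply card_class_le K hK _ _ (by positivity)
    · intro n hn n' hn'
      rw [mem_filter] at hn hn'
      have d1 := hf2 n hn.1
      have d2 := hf2 n' hn'.1
      rw [hn.2.1] at d1
      rw [hn'.2.1] at d2
      have e : (n : ℤ) - n' = n * (-(n' * b - 1)) + n' * (n * b - 1) := by ring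
      rw [e]
      exact dvd_add (Dvd.dvd.mul_left ((dvd_neg).mpr d2) _) (Dvd.dvd.mul_left d1 _)
    · intro n hn n' hn'
      rw [mem_filter] at hn hn'
      obtain ⟨p1, p2, -, -⟩ := hN n hn.1
      obtain ⟨q1, q2, -, -⟩ := hN n' hn'.1
      have hk : key β h0 n = key β h0 n' := by rw [hn.2.2, hn'.2.2]
      unfold key at hk
      rw [Prod.mk.injEq] at hk
      have h5 := Int.abs_sub_lt_one_of_floor_eq_floor hk.2
      have hnr : (0 : ℝ) < n := by exact_mod_cast (by omega : 0 < n)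
      have hnr' : (0 : ℝ) < n' := by exact_mod_cast (by omega : 0 < n')
      have e6 : β / n - β / n' = -(β * ((n : ℝ) - n') / (n * n')) := by field_simp; ring
      rw [e6, abs_neg, abs_div, abs_mul, abs_of_pos (mul_pos hnr hnr'),
        div_lt_one (mul_pos hnr hnr')] at h5
      have h7 : (n : ℝ) * n' ≤ (P2 : ℝ) ^ 2 := by
        rw [sq]
        apply mul_le_mul _ _ hnr'.le hP2r.le
        · exact_mod_cast p2
        · exact_mod_cast q2
      have h8 : (n : ℝ) - n' ≤ |(n : ℝ) - n'| := le_abs_self _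
      rw [le_div_iff₀ hβ0]
      calc ((n : ℝ) - n') * |β| ≤ |(n : ℝ) - n'| * |β| :=
            mul_le_mul_of_nonneg_right h8 hβ0.le
        _ = |β| * |(n : ℝ) - n'| := mul_comm _ _
        _ ≤ (P2 : ℝ) ^ 2 := h5.le.trans h7
  have hgrp := sum_group N f (key β h0) K hf1 (GG V DD c W) (GG_nonneg V DD c W) Q
    (fun n hn => key_mem β h0 hh0' P1 P2 n hP1 (hN n hn).1 (hN n hn).2.1) _ hcap'
  -- the range of r
  set a : ℤ := ⌊min (β / (P1 : ℝ)) (β / P2)⌋ with ha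
  set b : ℤ := ⌊max (β / (P1 : ℝ)) (β / P2)⌋ with hb
  have hab : a ≤ b := Int.floor_le_floor min_le_max
  have hRset : Rset β P1 P2 = Ioc (a - 1) b := by
    unfold Rset
    ext r
    simp only [mem_Icc, mem_Ioc, ← ha, ← hb]
    omega
  have habs : |β / P1 - β / P2| = |β| * ((P2 : ℝ) - P1) / (P1 * P2) := by
    have : β / P1 - β / P2 = β * (((P2 : ℝ) - P1) / (P1 * P2)) := by field_simp
    have hnn : 0 ≤ (((P2 : ℝ) - P1) / (P1 * P2)) :=
      div_nonneg (by linarith) (mul_nonneg hP1r.le hP2r.le)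
    rw [this, abs_mul, abs_of_nonneg hnn]
    ring
  set Rb : ℝ := |β| * ((P2 : ℝ) - P1) / (P1 * P2) with hRb
  have hmm := max_sub_min_eq_abs (β / (P1 : ℝ)) (β / P2)
  rw [abs_sub_comm, habs] at hmm
  have hR0l : Rb ≤ (b : ℝ) - ((a - 1 : ℤ) : ℝ) := by
    have b1 := Int.lt_floor_add_one (max (β / (P1 : ℝ)) (β / P2))
    have a1 := Int.floor_le (min (β / (P1 : ℝ)) (β / P2))
    rw [← hb] at b1
    rw [← ha] at a1
    push_cast
    linarith
  have hR0u : (b : ℝ) - ((a - 1 : ℤ) : ℝ) ≤ 3 * Rb := by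
    have a1 := Int.lt_floor_add_one (min (β / (P1 : ℝ)) (β / P2))
    have b1 := Int.floor_le (max (β / (P1 : ℝ)) (β / P2))
    rw [← ha] at a1
    rw [← hb] at b1
    push_cast
    linarith
  set R0 : ℝ := (b : ℝ) - ((a - 1 : ℤ) : ℝ) with hR0
  have hfl := Nat.floor_le hh0'
  have hh1 : ((⌊h0⌋₊ : ℕ) : ℝ) / V ≤ N0 := by
    rw [div_le_iff₀ hVr]
    linarith [mul_comm N0 (V : ℝ)]
  have hh2 : ((⌊h0⌋₊ + 1 : ℕ) : ℝ) / V ≤ N0 + 1 := by
    rw [div_le_iff₀ hVr]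
    push_cast
    nlinarith [mul_comm N0 (V : ℝ)]
  have hgap : ∀ h : ℕ, (h : ℝ) / V ≤ N0 + 1 →
      ∑ r ∈ Ioc (a - 1) b, FF K V DD c W (r - h) r
        ≤ 4 * R0 * (K : ℝ) * (N0 + 1) * vv DD c := by
    intro h hh
    have h1 := FF_avg K V h hK hV DD c hpos W hD (a - 1) b (by omega) (by
      intro δ hδ δ' hδ'
      have hgc : (0 : ℝ) ≤ (Int.gcd W ((V * Nat.lcm δ δ' : ℕ) : ℤ) : ℝ) := by positivity
      calc (Int.gcd W ((V * Nat.lcm δ δ' : ℕ) : ℤ) : ℝ) * ((h : ℝ) / V + 1)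
          ≤ (Int.gcd W ((V * Nat.lcm δ δ' : ℕ) : ℤ) : ℝ) * (N0 + 2) := by
            apply mul_le_mul_of_nonneg_left _ hgc
            linarith
        _ ≤ Δ * (N0 + 2) := mul_le_mul_of_nonneg_right (hw δ hδ δ' hδ') (by linarith)
        _ ≤ Rb := hΔ
        _ ≤ _ := hR0l)
    refine h1.trans ?_
    apply mul_le_mul_of_nonneg_right _ hvv
    apply mul_le_mul_of_nonneg_left hh
    have : 0 ≤ R0 := by linarith
    positivity
  have hsumQ : ∑ k ∈ Q, (fun _ => cap0) k * ∑ b ∈ range K, GG V DD c W b k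
      ≤ cap0 * (8 * R0 * (K : ℝ) * (N0 + 1) * vv DD c) := by
    simp only
    rw [← Finset.mul_sum]
    apply mul_le_mul_of_nonneg_left _ (by positivity)
    have hnn : ∀ k, 0 ≤ ∑ b ∈ range K, GG V DD c W b k := fun k =>
      Finset.sum_nonneg fun b _ => GG_nonneg V DD c W b k
    rw [hQ]
    unfold Qset
    have u1 : ∀ (s t : Finset (ℤ × ℤ)) (F : ℤ × ℤ → ℝ), (∀ k, 0 ≤ F k) →
        ∑ k ∈ s ∪ t, F k ≤ ∑ k ∈ s, F k + ∑ k ∈ t, F k := by
      intro s t F hF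
      rw [← Finset.sum_union_inter]
      have : 0 ≤ ∑ k ∈ s ∩ t, F k := Finset.sum_nonneg fun k _ => hF k
      linarith
    refine (u1 _ _ _ hnn).trans ?_
    rw [Finset.sum_image (by
      intro r _ r' _ h
      simpa using congrArg Prod.snd h)]
    rw [Finset.sum_image (by
      intro r _ r' _ h
      simpa using congrArg Prod.snd h)]
    simp only [sum_GG]
    rw [hRset]
    have g1 := hgap ⌊h0⌋₊ (by linarith)
    have g2 := hgap (⌊h0⌋₊ + 1) hh2
    linarith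
  have h1 := hgrp.trans hsumQ
  have hNc : (N.card : ℝ) ≤ (P2 : ℝ) - P1 := by
    have : N ⊆ Ioc P1 P2 := by
      intro n hn
      rw [mem_Ioc]
      exact ⟨(hN n hn).1, (hN n hn).2.1⟩
    have := Finset.card_le_card this
    rw [Nat.card_Ioc] at this
    have h5 : (N.card : ℝ) ≤ ((P2 - P1 : ℕ) : ℝ) := by exact_mod_cast this
    rwa [Nat.cast_sub hP] at h5
  -- numerics
  have hkey : cap0 * (8 * R0 * (K : ℝ) * (N0 + 1))
      ≤ ((P2 : ℝ) - P1) * (N0 + 1) * (48 * (1 + K * |β| / (P1 : ℝ) ^ 2)) := by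
    have c1 : cap0 * K * R0 ≤ ((P2 : ℝ) - P1) * (6 * (1 + K * |β| / (P1 : ℝ) ^ 2)) := by
      have c2 : cap0 * K = (P2 : ℝ) ^ 2 / |β| + K := by
        rw [hcap0]; field_simp
      rw [c2]
      calc ((P2 : ℝ) ^ 2 / |β| + K) * R0 ≤ ((P2 : ℝ) ^ 2 / |β| + K) * (3 * Rb) :=
            mul_le_mul_of_nonneg_left hR0u (by positivity)
        _ = ((P2 : ℝ) - P1) * (3 * (P2 / P1) + 3 * (K * |β| / (P1 * P2))) := by
            rw [hRb]; field_simp
        _ ≤ ((P2 : ℝ) - P1) * (6 * (1 + K * |β| / (P1 : ℝ) ^ 2)) := by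
            apply mul_le_mul_of_nonneg_left _ (by linarith)
            have d1 : (P2 : ℝ) / P1 ≤ 2 := by rw [div_le_iff₀ hP1r]; linarith
            have d2 : (K : ℝ) * |β| / (P1 * P2) ≤ K * |β| / (P1 : ℝ) ^ 2 := by
              apply div_le_div_of_nonneg_left (by positivity) (by positivity)
              rw [sq]
              exact mul_le_mul_of_nonneg_left hPr hP1r.le
            have d3 : 0 ≤ (K : ℝ) * |β| / (P1 : ℝ) ^ 2 := by positivity
            linarith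
    calc cap0 * (8 * R0 * (K : ℝ) * (N0 + 1)) = 8 * (N0 + 1) * (cap0 * K * R0) := by ring
      _ ≤ 8 * (N0 + 1) * (((P2 : ℝ) - P1) * (6 * (1 + K * |β| / (P1 : ℝ) ^ 2))) :=
          mul_le_mul_of_nonneg_left c1 (by linarith)
      _ = _ := by ring
  have hfin : (0 : ℝ) ≤ K * |β| / (P1 : ℝ) ^ 2 := by positivity
  calc ∑ n ∈ N, (err DD c N0 (x n)) ^ 2
      ≤ ∑ n ∈ N, (2 * GG V DD c W (f n) (key β h0 n) + 2 * vv DD c) :=
        Finset.sum_le_sum hf3
    _ = 2 * ∑ n ∈ N, GG V DD c W (f n) (key β h0 n) + 2 * (N.card : ℝ) * vv DD c := by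
        rw [Finset.sum_add_distrib, ← Finset.mul_sum, Finset.sum_const, nsmul_eq_mul]
        ring
    _ ≤ 2 * (((P2 : ℝ) - P1) * (N0 + 1) * (48 * (1 + K * |β| / (P1 : ℝ) ^ 2)) * vv DD c)
        + 2 * ((P2 : ℝ) - P1) * vv DD c := by
        apply add_le_add
        · apply mul_le_mul_of_nonneg_left _ (by norm_num)
          refine h1.trans ?_
          calc cap0 * (8 * R0 * (K : ℝ) * (N0 + 1) * vv DD c)
              = (cap0 * (8 * R0 * (K : ℝ) * (N0 + 1))) * vv DD c := by ring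
            _ ≤ _ := mul_le_mul_of_nonneg_right hkey hvv
        · exact mul_le_mul_of_nonneg_right (by linarith) hvv
    _ ≤ _ := by
        have q1 : (0 : ℝ) ≤ (P2 : ℝ) - P1 := by linarith
        have q2 : ((P2 : ℝ) - P1) ≤ ((P2 : ℝ) - P1) * (N0 + 1) * (1 + K * |β| / (P1 : ℝ) ^ 2) := by
          calc ((P2 : ℝ) - P1) = ((P2 : ℝ) - P1) * 1 * 1 := by ring
            _ ≤ ((P2 : ℝ) - P1) * (N0 + 1) * (1 + K * |β| / (P1 : ℝ) ^ 2) := by
                apply mul_le_mul _ (by linarith) (by norm_num)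
                  (mul_nonneg q1 (by linarith))
                exact mul_le_mul_of_nonneg_left (by linarith) q1
        have q3 : ((P2 : ℝ) - P1) * vv DD c
            ≤ ((P2 : ℝ) - P1) * (N0 + 1) * (1 + K * |β| / (P1 : ℝ) ^ 2) * vv DD c :=
          mul_le_mul_of_nonneg_right q2 hvv
        have q4 : 0 ≤ ((P2 : ℝ) - P1) * (N0 + 1) * (1 + K * |β| / (P1 : ℝ) ^ 2) * vv DD c := by
          apply mul_nonneg _ hvv
          apply mul_nonneg _ (by linarith)
          exact mul_nonneg q1 (by linarith)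
        nlinarith [q3, q4]

end

end Crest.Agent.R001.Str
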