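import Crest.Agent.R001.TreeHyb

/-! R001, block UNS, part 1: the Rosser weights as a linear form and the path lemma. -/

set_option autoImplicit false

namespace Crest.Agent.R001.Uns

open Finset Crest.Agent.R001.Tree

/-- index set of the support of the Rosser tree of level `y` started at `(1, w)`:
even states `b` with `p = 1` and odd states `b * p`. -/
noncomputable def Idx (y : ℝ) (w : ℕ) : Finset (ℕ × ℕ) :=
  (NS (bd y) 1 w).biUnion fun b => (insert 1 (pr (wOf 1 w b))).image fun p => (b, p)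

def val (x : ℕ × ℕ) : ℕ := x.1 * x.2

noncomputable def sgn (x : ℕ × ℕ) : ℝ := if x.2 = 1 then 1 else -1

lemma mem_Idx {y : ℝ} {w : ℕ} {x : ℕ × ℕ} :
    x ∈ Idx y w ↔ x.1 ∈ NS (bd y) 1 w ∧ (x.2 = 1 ∨ x.2 ∈ pr (wOf 1 w x.1)) := by
  unfold Idx
  simp only [mem_biUnion, mem_image, mem_insert]
  constructor
  · rintro ⟨b, hb, p, hp, rfl⟩
    exact ⟨hb, hp⟩
  · rintro ⟨h1, h2⟩
    exact ⟨x.1, h1, x.2, h2, rfl⟩

lemma abs_sgn (x : ℕ × ℕ) : |sgn x| = 1 := by
  unfold sgn; split_ifs <;> simp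

lemma one_not_mem_pr (w : ℕ) : (1 : ℕ) ∉ pr w := by
  rw [mem_pr]; exact fun h => Nat.not_prime_one h.2

lemma sum_Idx (y : ℝ) (w : ℕ) (f : ℕ × ℕ → ℝ) :
    ∑ x ∈ Idx y w, f x =
      ∑ b ∈ NS (bd y) 1 w, (f (b, 1) + ∑ p ∈ pr (wOf 1 w b), f (b, p)) := by
  unfold Idx
  rw [sum_biUnion]
  · refine sum_congr rfl fun b _ => ?_
    rw [sum_image, sum_insert (one_not_mem_pr _)]
    intro p _ q _ h
    exact (Prod.ext_iff.1 h).2
  · intro b _ b' _ hbb'
    rw [Function.onFun, disjoint_left]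
    intro x hx hx'
    obtain ⟨p, _, rfl⟩ := mem_image.1 hx
    obtain ⟨q, _, h⟩ := mem_image.1 hx'
    exact hbb' (Prod.ext_iff.1 h).1.symm

/-- the linear form -/
lemma T_lin (y : ℝ) (w : ℕ) (A : ℕ → ℝ) :
    T (bd y) (intF A) (fun _ _ => 0) 1 w = ∑ x ∈ Idx y w, sgn x * A (val x) := by
  rw [T_eq_sum_NS (bd y) (intF A) one_pos (rgh_one w), sum_Idx]
  refine sum_congr rfl fun b _ => ?_
  unfold intF sgn val
  simp only [if_true, mul_one, one_mul]
  rw [sub_eq_add_neg, ← sum_neg_distrib]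
  congr 1
  refine sum_congr rfl fun p hp => ?_
  rw [if_neg, neg_one_mul]
  rintro rfl
  exact one_not_mem_pr _ hp

lemma card_Idx_le {y : ℝ} {w : ℕ} (h0 : Adm y 1 w) (hy : 1 < y) : ((Idx y w).card : ℝ) ≤ y := by
  have h1 : ((Idx y w).card : ℝ) = ∑ _x ∈ Idx y w, (1 : ℝ) := by simp
  rw [h1, sum_Idx]
  have h2 := count_support (stop := bd y) (fun _ _ h => h) one_pos h0 (by simpa using hy)
  rw [T_split, T_eq_sum_NS (bd y) _ one_pos (rgh_one w)] at h2
  have h3 : 0 ≤ T (bd y) (fun _ _ => (0 : ℝ)) (fun _ _ => 1) 1 w :=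
    T_nonneg 1 w (fun _ _ _ => le_rfl) (fun _ _ _ => zero_le_one)
  have h4 : ∑ b ∈ NS (bd y) 1 w, ((1 : ℝ) + ∑ _p ∈ pr (wOf 1 w b), (1 : ℝ)) =
      ∑ b ∈ NS (bd y) 1 w, (1 + ((pr (wOf 1 w b)).card : ℝ)) := by
    refine sum_congr rfl fun b _ => ?_
    simp
  rw [h4]
  simp only [Nat.cast_one, div_one] at h2
  linarith

/-- the node behind an element of the index set -/
lemma node_of_mem {y : ℝ} {w : ℕ} {x : ℕ × ℕ} (hx : x ∈ Idx y w) :
    ∃ w', Node (bd y) 1 w x.1 w' ∧ (x.2 = 1 ∨ x.2 ∈ pr w') := by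
  obtain ⟨h1, h2⟩ := mem_Idx.1 hx
  obtain ⟨w', hn⟩ := mem_NS.1 h1
  refine ⟨w', hn, ?_⟩
  rw [hn.wOf one_pos (rgh_one w)] at h2
  exact h2

lemma val_lt {y : ℝ} {w : ℕ} (h0 : Adm y 1 w) (hy : 1 < y) {x : ℕ × ℕ} (hx : x ∈ Idx y w) :
    (val x : ℝ) < y := by
  obtain ⟨w', hn, h⟩ := node_of_mem hx
  unfold val
  rcases h with h | h
  · rw [h, mul_one]
    exact hn.lt h0 (by simpa using hy)
  · exact odd_lt (hn.adm h0) h

lemma node_sqf {stop : ℕ → ℕ → Prop} {w d w' : ℕ} (h : Node stop 1 w d w') :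
    Squarefree d ∧ ∀ r, r.Prime → r ∣ d → r < w := by
  induction h with
  | root => exact ⟨squarefree_one, fun r hr h => absurd (Nat.dvd_one.1 h) hr.one_lt.ne'⟩
  | @step d w' p q hn hp hq _ ih =>
    have hr := hn.rgh (rgh_one w)
    have hpp := prime_of_mem_pr hp
    have hqp := prime_of_mem_pr hq
    have hplt := lt_of_mem_pr hp
    have hqlt := lt_of_mem_pr hq
    have hpd : ¬ p ∣ d := hr p hpp hplt
    have hqd : ¬ q ∣ d := hr q hqp (by omega)
    have hww := hn.w_le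
    refine ⟨?_, ?_⟩
    · have h1 : Nat.Coprime (d * p) q := by
        refine Nat.Coprime.symm ((Nat.Prime.coprime_iff_not_dvd hqp).2 ?_)
        intro h
        rcases (Nat.Prime.dvd_mul hqp).1 h with h | h
        · exact hqd h
        · have := (Nat.prime_dvd_prime_iff_eq hqp hpp).1 h; omega
      have h2 : Nat.Coprime d p := ((Nat.Prime.coprime_iff_not_dvd hpp).2 hpd).symm
      rw [Nat.squarefree_mul h1, Nat.squarefree_mul h2]
      exact ⟨⟨ih.1, hpp.squarefree⟩, hqp.squarefree⟩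
    · intro r hr' hdvd
      rcases (Nat.Prime.dvd_mul hr').1 hdvd with h3 | h3
      · rcases (Nat.Prime.dvd_mul hr').1 h3 with h4 | h4
        · exact ih.2 r hr' h4
        · have := (Nat.prime_dvd_prime_iff_eq hr' hpp).1 h4; omega
      · have := (Nat.prime_dvd_prime_iff_eq hr' hqp).1 h3; omega

lemma val_sqf {y : ℝ} {w : ℕ} {x : ℕ × ℕ} (hx : x ∈ Idx y w) :
    Squarefree (val x) ∧ ∀ r, r.Prime → r ∣ val x → r < w := by
  obtain ⟨w', hn, h⟩ := node_of_mem hx
  obtain ⟨h1, h2⟩ := node_sqf hn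
  unfold val
  rcases h with h | h
  · rw [h, mul_one]; exact ⟨h1, h2⟩
  · have hr := hn.rgh (rgh_one w)
    have hpp := prime_of_mem_pr h
    have hplt := lt_of_mem_pr h
    have hww := hn.w_le
    refine ⟨?_, ?_⟩
    · rw [Nat.squarefree_mul ((Nat.Prime.coprime_iff_not_dvd hpp).2 (hr _ hpp hplt)).symm]
      exact ⟨h1, hpp.squarefree⟩
    · intro r hr' hdvd
      rcases (Nat.Prime.dvd_mul hr').1 hdvd with h3 | h3
      · exact h2 r hr' h3
      · have := (Nat.prime_dvd_prime_iff_eq hr' hpp).1 h3; omega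

lemma val_pos {y : ℝ} {w : ℕ} {x : ℕ × ℕ} (hx : x ∈ Idx y w) : 0 < val x :=
  Nat.pos_of_ne_zero (val_sqf hx).1.ne_zero

/-- every integer has at most two representations -/
lemma val_fiber {y : ℝ} {w : ℕ} {x z : ℕ × ℕ} (hx : x ∈ Idx y w) (hz : z ∈ Idx y w)
    (h : val x = val z) (h2 : (x.2 = 1) ↔ (z.2 = 1)) : x = z := by
  obtain ⟨w', hn, hx'⟩ := node_of_mem hx
  obtain ⟨w'', hn', hz'⟩ := node_of_mem hz
  unfold val at h
  by_cases h1 : x.2 = 1
  · have h3 := h2.1 h1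
    rw [h1, h3, mul_one, mul_one] at h
    exact Prod.ext h (h1.trans h3.symm)
  · have h3 : z.2 ≠ 1 := fun h4 => h1 (h2.2 h4)
    have hxp := hx'.resolve_left h1
    have hzp := hz'.resolve_left h3
    have key : ∀ {b p c q v v' : ℕ}, Node (bd y) 1 w b v → p ∈ pr v → Node (bd y) 1 w c v' →
        q ∈ pr v' → b * p = c * q → q ≤ p := by
      intro b p c q v v' _ hp hn2 hq he
      have hpp := prime_of_mem_pr hp
      have h5 : p ∣ c * q := he ▸ dvd_mul_left p b
      rcases (Nat.Prime.dvd_mul hpp).1 h5 with h6 | h6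
      · by_contra h7
        push Not at h7
        exact hn2.rgh (rgh_one w) p hpp (h7.trans (lt_of_mem_pr hq)) h6
      · exact ((Nat.prime_dvd_prime_iff_eq hpp (prime_of_mem_pr hq)).1 h6).ge
    have h8 : z.2 ≤ x.2 := key hn hxp hn' hzp h
    have h9 : x.2 ≤ z.2 := key hn' hzp hn hxp h.symm
    have h10 : x.2 = z.2 := le_antisymm h9 h8
    refine Prod.ext ?_ h10
    rw [h10] at h
    exact Nat.eq_of_mul_eq_mul_right (prime_of_mem_pr hzp).pos h

/-! ### the path lemma -/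

/-- local factor -/
noncomputable def ff (t : ℕ) (Lam : ℝ) (q : ℕ) : ℝ := if t < q then (q : ℝ) / Lam else 1

noncomputable def ell (t : ℕ) (Lam : ℝ) (d : ℕ) : ℝ := ∏ q ∈ d.primeFactors, ff t Lam q

lemma ell_mul_prime (t : ℕ) (Lam : ℝ) {d p : ℕ} (hd : 0 < d) (hp : p.Prime) (hpd : ¬ p ∣ d) :
    ell t Lam (d * p) = ell t Lam d * ff t Lam p := by
  unfold ell
  rw [Nat.primeFactors_mul hd.ne' hp.ne_zero, hp.primeFactors, prod_union, prod_singleton]
  rw [disjoint_singleton_right]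
  intro h
  exact hpd (Nat.dvd_of_mem_primeFactors h)

/-- states all of whose primes are `> t` (with the number of primes) -/
lemma path {y : ℝ} {w t : ℕ} {Lam B0 : ℝ} {k : ℕ} (h0 : Adm y 1 w) (hy : 1 < y)
    (hLam : 1 ≤ Lam) (hB0 : 1 ≤ B0) (hk : B0 ≤ Lam ^ k) (hyB : B0 ^ (2 * 3 ^ k) ≤ y)
    {d w' : ℕ} (hn : Node (bd y) 1 w d w') :
    (B0 * ell t Lam d ≤ y ∧ ∀ p ∈ pr w', B0 * ell t Lam (d * p) ≤ y) ∧
      (w' ≤ t ∨ ∃ j : ℕ, ell t Lam d = d / Lam ^ (2 * j) ∧ y ≤ (y / d) ^ (3 ^ j)) := by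
  have hy0 : 0 < y := by linarith
  -- bounds for states with large primes only
  have even_bd : ∀ (d : ℕ) (w' : ℕ) (j : ℕ), 0 < d → Adm y d w' → (d : ℝ) < y →
      ell t Lam d = d / Lam ^ (2 * j) → y ≤ (y / d) ^ (3 ^ j) →
      B0 ≤ Lam ^ (2 * j) * (y / d) ∧
        ∀ p ∈ pr w', B0 ≤ Lam ^ (2 * j + 1) * (y / (d * p)) := by
    intro d w' j hd hadm hdy _ hj
    have hd' : (0 : ℝ) < d := by exact_mod_cast hd
    have hyd : 1 ≤ y / d := by rw [le_div_iff₀ hd']; linarith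
    by_cases hjk : k ≤ 2 * j
    · have h1 : B0 ≤ Lam ^ (2 * j) := hk.trans (pow_le_pow_right₀ hLam hjk)
      refine ⟨?_, fun p hp => ?_⟩
      · calc B0 ≤ Lam ^ (2 * j) * 1 := by linarith
          _ ≤ _ := mul_le_mul_of_nonneg_left hyd (by positivity)
      · have hp0 : (0 : ℝ) < p := by exact_mod_cast (prime_of_mem_pr hp).pos
        have h2 := odd_lt hadm hp
        push_cast at h2
        have h3 : 1 ≤ y / (d * p) := by rw [le_div_iff₀ (by positivity)]; linarith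
        calc B0 ≤ Lam ^ (2 * j) * 1 := by linarith
          _ ≤ Lam ^ (2 * j + 1) * 1 := by
              have : Lam ^ (2 * j) ≤ Lam ^ (2 * j + 1) := pow_le_pow_right₀ hLam (by omega)
              linarith
          _ ≤ _ := mul_le_mul_of_nonneg_left h3 (by positivity)
    · push Not at hjk
      have h3j : (3 : ℕ) ^ j ≤ 3 ^ k := Nat.pow_le_pow_right (by norm_num) (by omega)
      -- `(y/d) ≥ B0^2`
      have h1 : B0 ^ 2 ≤ y / d := by
        by_contra hcon
        push Not at hcon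
        have h2 : (y / d) ^ (3 ^ j) < (B0 ^ 2) ^ (3 ^ j) :=
          pow_lt_pow_left₀ hcon (by linarith) (by positivity)
        have h3 : (B0 ^ 2) ^ (3 ^ j) ≤ B0 ^ (2 * 3 ^ k) := by
          rw [← pow_mul]
          exact pow_le_pow_right₀ hB0 (by omega)
        linarith
      have hLj : 1 ≤ Lam ^ (2 * j) := one_le_pow₀ hLam
      have hLj' : 1 ≤ Lam ^ (2 * j + 1) := one_le_pow₀ hLam
      have hBB : B0 ≤ B0 ^ 2 := by nlinarith
      refine ⟨?_, fun p hp => ?_⟩
      · calc B0 ≤ 1 * (y / d) := by linarith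
          _ ≤ _ := mul_le_mul_of_nonneg_right hLj (by positivity)
      · have hp0 : (0 : ℝ) < p := by exact_mod_cast (prime_of_mem_pr hp).pos
        have h2 : (d : ℝ) * (p : ℝ) ^ 2 < y := hadm p hp
        -- `p ≤ sqrt (y/d)` so `y/(dp) ≥ sqrt (y/d) ≥ B0`
        have h4 : B0 ≤ y / (d * p) := by
          rw [le_div_iff₀ (by positivity)]
          have h5 : (B0 * (d * p)) ^ 2 ≤ y ^ 2 := by
            have h6 : B0 ^ 2 * d ≤ y := by
              rw [le_div_iff₀ hd'] at h1; exact h1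
            calc (B0 * (d * p)) ^ 2 = (B0 ^ 2 * d) * (d * (p : ℝ) ^ 2) := by ring
              _ ≤ y * y := mul_le_mul h6 h2.le (by positivity) hy0.le
              _ = y ^ 2 := by ring
          exact le_of_sq_le_sq h5 hy0.le
        calc B0 ≤ 1 * (y / (d * p)) := by linarith
          _ ≤ _ := mul_le_mul_of_nonneg_right hLj' (by positivity)
  have hLam0 : 0 < Lam := by linarith
  have final : ∀ (d w' j : ℕ), 0 < d → Adm y d w' → (d : ℝ) < y → Rgh d w' →
      ell t Lam d = d / Lam ^ (2 * j) → y ≤ (y / d) ^ (3 ^ j) →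
      B0 * ell t Lam d ≤ y ∧ ∀ p ∈ pr w', B0 * ell t Lam (d * p) ≤ y := by
    intro d w' j hd hadm hdy hr he hj
    have hd' : (0 : ℝ) < d := by exact_mod_cast hd
    obtain ⟨h1, h2⟩ := even_bd d w' j hd hadm hdy he hj
    have h3 : B0 * ell t Lam d ≤ y := by
      rw [he]
      have h4 : B0 * (d / Lam ^ (2 * j)) ≤ (Lam ^ (2 * j) * (y / d)) * (d / Lam ^ (2 * j)) :=
        mul_le_mul_of_nonneg_right h1 (by positivity)
      refine h4.trans (le_of_eq ?_)
      field_simp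
    refine ⟨h3, fun p hp => ?_⟩
    have hpp := prime_of_mem_pr hp
    have hp0 : (0 : ℝ) < p := by exact_mod_cast hpp.pos
    rw [ell_mul_prime t Lam hd hpp (hr p hpp (lt_of_mem_pr hp))]
    unfold ff
    split_ifs with ht
    · rw [he]
      have h4 : B0 * (d / Lam ^ (2 * j) * (p / Lam)) ≤
          (Lam ^ (2 * j + 1) * (y / (d * p))) * (d / Lam ^ (2 * j) * (p / Lam)) :=
        mul_le_mul_of_nonneg_right (h2 p hp) (by positivity)
      refine h4.trans (le_of_eq ?_)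
      rw [pow_succ]
      field_simp
    · rw [mul_one]; exact h3
  induction hn with
  | root =>
    have he : ell t Lam 1 = ((1 : ℕ) : ℝ) / Lam ^ (2 * 0) := by simp [ell]
    have hj : y ≤ (y / ((1 : ℕ) : ℝ)) ^ (3 ^ 0) := by simp
    exact ⟨final 1 w 0 one_pos h0 (by simpa using hy) (rgh_one w) he hj, Or.inr ⟨0, he, hj⟩⟩
  | @step d w' p q hn hp hq hs ih =>
    have hr := hn.rgh (rgh_one w)
    have hadm := hn.adm h0
    have hd := hn.pos one_pos
    have hd' : (0 : ℝ) < d := by exact_mod_cast hd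
    have hpp := prime_of_mem_pr hp
    have hqp := prime_of_mem_pr hq
    have hplt := lt_of_mem_pr hp
    have hqlt := lt_of_mem_pr hq
    have hpd : ¬ p ∣ d := hr p hpp hplt
    have hqdp : ¬ q ∣ d * p := by
      intro h
      rcases (Nat.Prime.dvd_mul hqp).1 h with h | h
      · exact hr q hqp (by omega) h
      · have := (Nat.prime_dvd_prime_iff_eq hqp hpp).1 h; omega
    have hn2 : Node (bd y) 1 w (d * p * q) q := Node.step hn hp hq hs
    have hr2 := hn2.rgh (rgh_one w)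
    have hadm2 := hn2.adm h0
    have hd2 := hn2.pos one_pos
    have hlt2 := hn2.lt h0 (by simpa using hy)
    by_cases hqt : q ≤ t
    · -- the small case
      have e1 : ell t Lam (d * p * q) = ell t Lam (d * p) := by
        rw [ell_mul_prime t Lam (Nat.mul_pos hd hpp.pos) hqp hqdp]
        unfold ff
        rw [if_neg (not_lt.2 hqt), mul_one]
      refine ⟨⟨?_, fun r hr' => ?_⟩, Or.inl hqt⟩
      · rw [e1]; exact ih.1.2 p hp
      · have hrp := prime_of_mem_pr hr'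
        have hrlt := lt_of_mem_pr hr'
        rw [ell_mul_prime t Lam hd2 hrp (hr2 r hrp hrlt)]
        unfold ff
        rw [if_neg (by omega), mul_one, e1]
        exact ih.1.2 p hp
    · push Not at hqt
      -- then `w' > t`
      obtain ⟨j, he, hj⟩ := ih.2.resolve_left (by omega)
      have he2 : ell t Lam (d * p * q) = ((d * p * q : ℕ) : ℝ) / Lam ^ (2 * (j + 1)) := by
        rw [ell_mul_prime t Lam (Nat.mul_pos hd hpp.pos) hqp hqdp,
          ell_mul_prime t Lam hd hpp hpd, he]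
        unfold ff
        rw [if_pos hqt, if_pos (by omega)]
        push_cast
        rw [show 2 * (j + 1) = 2 * j + 2 by ring, pow_add]
        field_simp
      have hj2 : y ≤ (y / ((d * p * q : ℕ) : ℝ)) ^ (3 ^ (j + 1)) := by
        have h3 := cube_le hd hadm hp hq hs
        calc y ≤ (y / d) ^ (3 ^ j) := hj
          _ ≤ ((y / ((d * p * q : ℕ) : ℝ)) ^ 3) ^ (3 ^ j) :=
              pow_le_pow_left₀ (by positivity) h3 _
          _ = _ := by rw [← pow_mul, pow_succ' 3 j]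
      exact ⟨final _ q (j + 1) hd2 hadm2 hlt2 hr2 he2 hj2, Or.inr ⟨j + 1, he2, hj2⟩⟩

/-- **(U2)** -/
lemma weight_bound {y : ℝ} {w t : ℕ} {Lam B0 : ℝ} {k : ℕ} (h0 : Adm y 1 w) (hy : 1 < y)
    (hLam : 1 ≤ Lam) (hB0 : 1 ≤ B0) (hk : B0 ≤ Lam ^ k) (hyB : B0 ^ (2 * 3 ^ k) ≤ y)
    {x : ℕ × ℕ} (hx : x ∈ Idx y w) : B0 * ell t Lam (val x) ≤ y := by
  obtain ⟨w', hn, h⟩ := node_of_mem hx
  have h1 := (path (t := t) h0 hy hLam hB0 hk hyB hn).1
  unfold val
  rcases h with h | h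
  · rw [h, mul_one]; exact h1.1
  · exact h1.2 _ h

end Crest.Agent.R001.Uns
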