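import Crest.Agent.R001.Uns9

/-! R001, block UNS, part 10: the final theorem. -/

set_option autoImplicit false

namespace Crest.Agent.R001.Uns

open Finset Crest.Agent.R001.Tree Crest.Agent.R001.EST

lemma SP_eq (t Z : ℕ) : SP t Z = (Finset.Ioc t Z).filter Nat.Prime := by
  ext q
  rw [mem_SP, mem_filter, mem_Ioc]
  tauto

/-- numerics of the final sum -/
lemma final_num (C K A : ℕ) (L X NJ D1 S1 S2 S3 : ℝ) (hL : 106496 ≤ L) (hX : 1 ≤ X)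
    (hS1 : S1 ≤ (⌊2 * L⌋₊ + 1 : ℕ) * (X * (1 + L)) / L ^ (A + 4))
    (hS2 : S2 ≤ NJ * X ^ ((995 : ℝ) / 1000))
    (hNJ : NJ ≤ 40 * L ^ (2 * K + 1) * X ^ ((1 : ℝ) / 1000))
    (h1 : 160 * L ^ (2 * K + 1 + A) ≤ X ^ ((4 : ℝ) / 1000))
    (hD1 : D1 ≤ X) (hS3 : S3 ≤ D1 * (2 * L ^ (C + K) / L ^ (C + K + A + 1))) :
    S1 + S2 + S3 ≤ X / L ^ A := by
  have hL0 : 0 < L := by linarith
  have hL1 : 1 ≤ L := by linarith
  have hX0 : 0 < X := by linarith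
  have hLA : 0 < L ^ A := by positivity
  have hfl : ((⌊2 * L⌋₊ + 1 : ℕ) : ℝ) ≤ 3 * L := by
    have := Nat.floor_le (show 0 ≤ 2 * L by linarith)
    push_cast
    linarith
  have t1 : S1 ≤ X / (4 * L ^ A) := by
    calc S1 ≤ (⌊2 * L⌋₊ + 1 : ℕ) * (X * (1 + L)) / L ^ (A + 4) := hS1
      _ ≤ (3 * L) * (X * (2 * L)) / L ^ (A + 4) := by
          have : 1 + L ≤ 2 * L := by linarith
          gcongr
      _ = 6 * X / (L ^ A * L ^ 2) := by
          have e : L ^ (A + 4) = L ^ A * L ^ 2 * L ^ 2 := by ring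
          rw [e]; field_simp; norm_num
      _ ≤ X / (4 * L ^ A) := by
          rw [div_le_div_iff₀ (by positivity) (by positivity)]
          have : 24 ≤ L ^ 2 := by nlinarith
          calc 6 * X * (4 * L ^ A) = X * (L ^ A * 24) := by ring
            _ ≤ X * (L ^ A * L ^ 2) := by gcongr
  have t2 : S2 ≤ X / (4 * L ^ A) := by
    rw [le_div_iff₀ (by positivity)]
    calc S2 * (4 * L ^ A) ≤ (NJ * X ^ ((995 : ℝ) / 1000)) * (4 * L ^ A) := by gcongr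
      _ ≤ ((40 * L ^ (2 * K + 1) * X ^ ((1 : ℝ) / 1000)) * X ^ ((995 : ℝ) / 1000)) *
          (4 * L ^ A) := by gcongr
      _ = (160 * L ^ (2 * K + 1 + A)) * (X ^ ((1 : ℝ) / 1000) * X ^ ((995 : ℝ) / 1000)) := by
          rw [pow_add]; ring
      _ ≤ X ^ ((4 : ℝ) / 1000) * (X ^ ((1 : ℝ) / 1000) * X ^ ((995 : ℝ) / 1000)) := by gcongr
      _ = X := by
          rw [← Real.rpow_add hX0, ← Real.rpow_add hX0]
          norm_num
  have t3 : S3 ≤ X / (4 * L ^ A) := by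
    calc S3 ≤ D1 * (2 * L ^ (C + K) / L ^ (C + K + A + 1)) := hS3
      _ ≤ X * (2 * L ^ (C + K) / L ^ (C + K + A + 1)) := by gcongr
      _ = X * 2 / (L ^ A * L) := by
          have e : L ^ (C + K + A + 1) = L ^ (C + K) * (L ^ A * L) := by ring
          rw [e]; field_simp
      _ ≤ X / (4 * L ^ A) := by
          rw [div_le_div_iff₀ (by positivity) (by positivity)]
          calc X * 2 * (4 * L ^ A) = X * (L ^ A * 8) := by ring
            _ ≤ X * (L ^ A * L) := by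
              have : (8 : ℝ) ≤ L := by linarith
              gcongr
  have h4 : X / (4 * L ^ A) = X / L ^ A / 4 := by field_simp
  rw [h4] at t1 t2 t3
  have h5 : 0 ≤ X / L ^ A := by positivity
  linarith

/-- number of classes -/
lemma card_J_le (K : ℕ) (L X : ℝ) (hL : 106496 ≤ L) (hX : 1 ≤ X) (J : Finset (ℕ × ℕ × ℕ))
    (h1 : ∀ c ∈ J, c.1 < ⌊2 * L⌋₊ + 1) (h2 : ∀ c ∈ J, (c.2.1 : ℝ) ≤ 4 * (X ^ ((1 : ℝ) / 1000)) * L ^ K)
    (h3 : ∀ c ∈ J, (c.2.2 : ℝ) ≤ L ^ K) :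
    (J.card : ℝ) ≤ 40 * L ^ (2 * K + 1) * X ^ ((1 : ℝ) / 1000) := by
  have hL1 : 1 ≤ L := by linarith
  have hLK : 1 ≤ L ^ K := one_le_pow₀ hL1
  obtain ⟨x, hx⟩ : ∃ x, x = X ^ ((1 : ℝ) / 1000) := ⟨_, rfl⟩
  have hx1 : 1 ≤ x := by rw [hx]; exact Real.one_le_rpow hX (by norm_num)
  rw [← hx] at h2 ⊢
  have hsub : J ⊆ range (⌊2 * L⌋₊ + 1) ×ˢ (range (⌊4 * x * L ^ K⌋₊ + 1) ×ˢ
      range (⌊L ^ K⌋₊ + 1)) := by
    intro c hc
    rw [mem_product, mem_product, mem_range, mem_range, mem_range]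
    refine ⟨h1 c hc, ?_, ?_⟩
    · exact Nat.lt_succ_of_le (Nat.le_floor (h2 c hc))
    · exact Nat.lt_succ_of_le (Nat.le_floor (h3 c hc))
  have hcard := card_le_card hsub
  rw [card_product, card_product, card_range, card_range, card_range] at hcard
  have a1 : ((⌊2 * L⌋₊ + 1 : ℕ) : ℝ) ≤ 4 * L := by
    have := Nat.floor_le (show 0 ≤ 2 * L by linarith)
    push_cast; linarith
  have a2 : ((⌊4 * x * L ^ K⌋₊ + 1 : ℕ) : ℝ) ≤ 5 * (x * L ^ K) := by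
    have := Nat.floor_le (show 0 ≤ 4 * x * L ^ K by positivity)
    have h : 1 ≤ x * L ^ K := by nlinarith
    push_cast; linarith
  have a3 : ((⌊L ^ K⌋₊ + 1 : ℕ) : ℝ) ≤ 2 * L ^ K := by
    have := Nat.floor_le (show 0 ≤ L ^ K by positivity)
    push_cast; linarith
  calc (J.card : ℝ) ≤ (((⌊2 * L⌋₊ + 1) * ((⌊4 * x * L ^ K⌋₊ + 1) * (⌊L ^ K⌋₊ + 1)) : ℕ) : ℝ) := by
        exact_mod_cast hcard
    _ = ((⌊2 * L⌋₊ + 1 : ℕ) : ℝ) * (((⌊4 * x * L ^ K⌋₊ + 1 : ℕ) : ℝ) *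
          ((⌊L ^ K⌋₊ + 1 : ℕ) : ℝ)) := by push_cast; ring
    _ ≤ (4 * L) * (5 * (x * L ^ K) * (2 * L ^ K)) := by gcongr
    _ = 40 * L ^ (2 * K + 1) * x := by ring

end Crest.Agent.R001.Uns
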