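import Crest.Agent.R001.Uns10

/-! R001, block UNS, part 11: the final theorem. -/

set_option autoImplicit false

namespace Crest.Agent.R001.Uns

open Finset Crest.Agent.R001.Tree Crest.Agent.R001.EST

/-- data of a controlled node: `g` is the distinguished prime factor -/
structure Ctl (X : ℕ) (a : ℤ) (LL : Finset (ℤ × ℤ)) (C1 : ℕ) (d g : ℕ) : Prop where
  pr : g.Prime
  dvd : g ∣ d
  lo : (Real.log X) ^ C1 ≤ g
  hi : (g : ℝ) ≤ (X : ℝ) ^ ((1 : ℝ) / 1000)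
  uns : ¬ StrP X a LL ((d / g : ℕ) : ℤ) g

open Classical in
/-- the sum over all controlled nodes, for given lists -/
lemma uns_core (C K A κ : ℕ)
    (hκ1 : (C + 2 * (A + 4) + 8) * (2 * 3 ^ (2 * (C + 2 * (A + 4) + 8))) ≤ κ) (hCκ : C ≤ κ)
    (c1 : ℝ) (C1 : ℕ) (hC1 : 2 * (2 * C + 2 * K + (A + 4) + 3) + 3 ≤ C1) (X : ℕ)
    (hbig : Big C K (A + 4) c1 X) (hc1 : 0 < c1) (L : ℝ) (hL : L = Real.log X)
    (htail : ∑ Q ∈ (SP ⌊L / 400⌋₊ ⌊L ^ K⌋₊).powerset with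
      ⌊(X : ℝ) ^ ((1 : ℝ) / 100)⌋₊ < primorial ⌊L / 400⌋₊ * ∏ q ∈ Q, q,
      Pr (SP ⌊L / 400⌋₊ ⌊L ^ K⌋₊) (fun q => (c1 * L / Real.log L) / q) Q ≤
        1 / L ^ (2 * C + 2 * K + (A + 4) + 3))
    (h1 : 160 * L ^ (2 * K + 1 + A) ≤ (X : ℝ) ^ ((4 : ℝ) / 1000))
    (a : ℤ) (Lst : ℕ → Finset (ℤ × ℤ))
    (hLst : ∀ j : ℕ, L ^ C1 ≤ 2 * ((2 ^ j : ℕ) : ℝ) → ((2 ^ j : ℕ) : ℝ) ≤ (X : ℝ) ^ ((1 : ℝ) / 1000) →
      ListProp X a (2 ^ j) (GGp (2 ^ j)) ⌊((2 ^ j : ℕ) : ℝ) / L ^ (2 * C + 2 * K + (A + 4) + 3)⌋₊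
        (Lst j))
    (DD : Finset ℕ) (gf : ℕ → ℕ)
    (hDD : ∀ d ∈ DD, 0 < d ∧ (X : ℝ) / L ^ K ≤ d ∧ (d : ℝ) ≤ X / L ^ (κ + 1) ∧
      4 * (d.minFac : ℝ) ^ 2 ≤ X / d)
    (hg : ∀ d ∈ DD, Ctl X a (Lst (Nat.log 2 (gf d))) C1 d (gf d)) :
    (∀ d ∈ DD, L ^ C * X / (3 * d) ≤
        L ^ C * ((X / (d / gf d) : ℕ) : ℝ) / (2 * ((2 ^ Nat.log 2 (gf d) : ℕ) : ℝ)) ∧
      L ^ C * ((X / (d / gf d) : ℕ) : ℝ) / (2 * ((2 ^ Nat.log 2 (gf d) : ℕ) : ℝ)) ≤
        L ^ C * X / d) ∧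
    ∑ d ∈ DD, max 0 (X / d * Th (bd (L ^ C * ((X / (d / gf d) : ℕ) : ℝ) /
      (2 * ((2 ^ Nat.log 2 (gf d) : ℕ) : ℝ)))) 1 d.minFac - sI a X d d.minFac) ≤
      X / L ^ A := by
  have f1 : 106496 ≤ L := by rw [hL]; exact hbig.f1
  have hX2 := hbig.X2
  have hL0 : 0 < L := by linarith
  have hL1 : 1 ≤ L := by linarith
  have hXr : (0 : ℝ) < X := by exact_mod_cast (by omega : 0 < X)
  have hX1 : (1 : ℝ) ≤ X := by exact_mod_cast (by omega : 1 ≤ X)
  have hκpos : 1 ≤ κ := by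
    have : 0 < (C + 2 * (A + 4) + 8) * (2 * 3 ^ (2 * (C + 2 * (A + 4) + 8))) := by positivity
    omega
  -- data of a member
  set ef : ℕ → ℕ := fun d => d / gf d with hef
  set jf : ℕ → ℕ := fun d => Nat.log 2 (gf d) with hjf
  have hfac : ∀ d ∈ DD, d = ef d * gf d := fun d hd =>
    (Nat.div_mul_cancel (hg d hd).dvd).symm
  have hmem : ∀ d ∈ DD, _ := fun d hd =>
    member C K κ hκpos L f1 X d (gf d) (2 ^ jf d) (ef d) (X / ef d) d.minFac (hDD d hd).1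
      (hfac d hd) (hg d hd).pr.pos (Nat.pow_log_le_self 2 (hg d hd).pr.ne_zero)
      (by
        have := Nat.lt_pow_succ_log_self (b := 2) (by norm_num) (gf d)
        rw [Nat.pow_succ] at this
        simp only [hjf]
        omega) rfl (hDD d hd).2.1 (hDD d hd).2.2.1 (hDD d hd).2.2.2
  refine ⟨fun d hd => ⟨(hmem d hd).2.2.2.2.1, (hmem d hd).2.2.2.2.2⟩, ?_⟩
  have he0 : ∀ d ∈ DD, 0 < ef d := fun d hd => by
    refine Nat.pos_of_ne_zero fun h => ?_
    have h2 := hfac d hd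
    rw [h, zero_mul] at h2
    exact (hDD d hd).1.ne' h2
  set lev : ℕ → ℝ := fun d => L ^ C * ((X / ef d : ℕ) : ℝ) / (2 * ((2 ^ jf d : ℕ) : ℝ)) with hlev
  have hfac2 : ∀ d ∈ DD, (d : ℝ) = ef d * gf d := fun d hd => by
    have := hfac d hd
    exact_mod_cast this
  -- bounds for `lev`
  have hlev1 : ∀ d ∈ DD, 1 < lev d := fun d hd => by
    have h2 := (hmem d hd).1
    have hG0 : (0 : ℝ) < ((2 ^ jf d : ℕ) : ℝ) := by positivity
    have h3 : L ^ κ ≤ lev d := by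
      simp only [hlev]
      rw [le_div_iff₀ (by positivity)]
      linarith
    have h4 : L ≤ L ^ κ := by
      calc L = L ^ 1 := (pow_one L).symm
        _ ≤ L ^ κ := pow_le_pow_right₀ hL1 hκpos
    linarith
  have hlev2 : ∀ d ∈ DD, lev d ≤ L ^ (C + K) := fun d hd => by
    have h2 := (hmem d hd).2.2.2.2.2
    refine h2.trans ?_
    have hd0 : (0 : ℝ) < d := by exact_mod_cast (hDD d hd).1
    have h3 := (hDD d hd).2.1
    rw [div_le_iff₀ (by positivity)] at h3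
    rw [div_le_iff₀ hd0, pow_add]
    have : 0 < L ^ C := by positivity
    calc L ^ C * X ≤ L ^ C * (d * L ^ K) := by gcongr
      _ = _ := by ring
  -- pointwise
  have hpt : ∀ d ∈ DD, max 0 (X / d * Th (bd (lev d)) 1 d.minFac - sI a X d d.minFac) ≤
      |dev (W (lev d) d.minFac) (a / ((ef d : ℕ) : ℤ)) (X / ef d) (gf d)| +
        2 * L ^ (C + K) / L ^ (C + K + A + 1) := by
    intro d hd
    have hgp := (hg d hd).pr.pos
    have h2 := node_ge a X (ef d) (gf d) d.minFac (he0 d hd) hgp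
      (rgh_of_dvd (Dvd.intro _ (hfac d hd).symm)) (lev d)
    rw [← hfac d hd, ← hfac2 d hd] at h2
    have hadm : Adm (lev d) 1 d.minFac := adm_aux _ _ (hmem d hd).2.2.2.1
    have h3 := card_Idx_le hadm (hlev1 d hd)
    have hgr : (0 : ℝ) < gf d := by exact_mod_cast hgp
    have h4 : 2 * ((Idx (lev d) d.minFac).card : ℝ) / gf d ≤
        2 * L ^ (C + K) / L ^ (C + K + A + 1) := by
      have h5 : L ^ (C + K + A + 1) ≤ gf d := by
        have h5a : L ^ (C + K + A + 1) ≤ L ^ C1 := pow_le_pow_right₀ hL1 (by omega)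
        refine h5a.trans ?_
        rw [hL]; exact (hg d hd).lo
      have h6 := h3.trans (hlev2 d hd)
      gcongr
    have h5 : Theta (lev d) d.minFac = Th (bd (lev d)) 1 d.minFac := rfl
    rw [h5] at h2
    refine max_le ?_ ?_
    · positivity
    · linarith
  -- classes
  set key : ℕ → ℕ × ℕ × ℕ := fun d => (jf d, X / ef d, d.minFac) with hkey
  set J := DD.image key with hJ
  have hlt : ∀ d ∈ DD, d.minFac < gf d := fun d hd => by
    have h2 := (hmem d hd).2.2.1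
    have h3 := (hg d hd).lo
    rw [← hL] at h3
    have h4 : L ^ K < L ^ C1 := pow_lt_pow_right₀ (by linarith) (by omega)
    have h5 : (d.minFac : ℝ) < gf d := by linarith
    exact_mod_cast h5
  have hclass : ∀ c ∈ J, ∑ d ∈ DD with key d = c,
      |dev (W (lev d) d.minFac) (a / ((ef d : ℕ) : ℤ)) (X / ef d) (gf d)| ≤
      (((Icc 1 X).filter (fun e => X / e = c.2.1 ∧ e.minFac = c.2.2)).card : ℝ) * c.2.1 / L ^ (A + 4) +
        (X : ℝ) ^ ((995 : ℝ) / 1000) := by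
    intro c hc
    obtain ⟨d0, hd0, hkd0⟩ := mem_image.1 hc
    have hj0 : c.1 = jf d0 := by rw [← hkd0]
    have hH0 : c.2.1 = X / ef d0 := by rw [← hkd0]
    have hw0 : c.2.2 = d0.minFac := by rw [← hkd0]
    obtain ⟨m1, m2, m3, m4, _, _⟩ := hmem d0 hd0
    rw [← hj0, ← hH0] at m1 m2 m4
    rw [← hw0] at m3 m4
    have hG1 : L ^ C1 ≤ 2 * ((2 ^ c.1 : ℕ) : ℝ) := by
      have h2 := (hg d0 hd0).lo
      rw [← hL] at h2
      refine h2.trans ?_
      have h3 := Nat.lt_pow_succ_log_self (b := 2) (by norm_num) (gf d0)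
      rw [hj0]
      have h4 : gf d0 ≤ 2 * 2 ^ jf d0 := by
        rw [Nat.pow_succ] at h3
        simp only [hjf]
        omega
      exact_mod_cast h4
    have hG2 : ((2 ^ c.1 : ℕ) : ℝ) ≤ (X : ℝ) ^ ((1 : ℝ) / 1000) := by
      refine le_trans ?_ (hg d0 hd0).hi
      rw [hj0]
      exact_mod_cast Nat.pow_log_le_self 2 (hg d0 hd0).pr.ne_zero
    have hLL := hLst c.1 hG1 hG2
    have hcls := cls_num C K (A + 4) κ hκ1 hCκ c1 C1 hC1 X hbig hc1 L hL htail a (2 ^ c.1) hG1 hG2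
      (Lst c.1) hLL c.2.1 c.2.2 m1 m2 m3 m4
      ((Icc 1 X).filter (fun e => X / e = c.2.1 ∧ e.minFac = c.2.2))
      (fun e he => by
        rw [mem_filter, mem_Icc] at he
        exact ⟨he.1.1, he.2.1⟩)
    refine le_trans ?_ hcls
    refine le_trans (le_of_eq ?_) (class_sum (DD.filter (fun d => key d = c)) gf c X a
      (L ^ C * (c.2.1 : ℝ) / (2 * ((2 ^ c.1 : ℕ) : ℝ))) (StrP X a (Lst c.1)) (GGp (2 ^ c.1)) ?_)
    · refine sum_congr rfl fun d hd => ?_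
      obtain ⟨hd1, hd2⟩ := mem_filter.1 hd
      have e1 : jf d = c.1 := by rw [← hd2]
      have e2 : X / ef d = c.2.1 := by rw [← hd2]
      have e3 : d.minFac = c.2.2 := by rw [← hd2]
      simp only [hlev]
      rw [e1, e2, e3]
    · intro d hd
      obtain ⟨hd1, hd2⟩ := mem_filter.1 hd
      have e1 : jf d = c.1 := by rw [← hd2]
      have e2 : X / ef d = c.2.1 := by rw [← hd2]
      have e3 : d.minFac = c.2.2 := by rw [← hd2]
      have hctl := hg d hd1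
      refine ⟨hfac d hd1, he0 d hd1, ?_, e2, ?_, ?_, ?_⟩
      · have h2 : d ≤ X := by
          have h3 := (hDD d hd1).2.2.1
          have h4 : (X : ℝ) / L ^ (κ + 1) ≤ X := div_le_self hXr.le (one_le_pow₀ hL1)
          have h5 : (d : ℝ) ≤ X := h3.trans h4
          exact_mod_cast h5
        exact (Nat.div_le_self _ _).trans h2
      · rw [← e3]
        have h2 := minFac_eq_of (ef d) (gf d) hctl.pr (by rw [← hfac d hd1]; exact hlt d hd1)
          (he0 d hd1)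
        rw [← hfac d hd1] at h2
        exact h2
      · rw [← e1]
        unfold GGp
        rw [mem_filter, mem_Icc]
        have h3 := Nat.lt_pow_succ_log_self (b := 2) (by norm_num) (gf d)
        rw [Nat.pow_succ] at h3
        refine ⟨⟨Nat.pow_log_le_self 2 hctl.pr.ne_zero, ?_⟩, hctl.pr⟩
        simp only [hjf]
        omega
      · rw [← e1]; exact hctl.uns
  have hS12 : ∑ d ∈ DD, |dev (W (lev d) d.minFac) (a / ((ef d : ℕ) : ℤ)) (X / ef d) (gf d)| ≤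
      ∑ c ∈ J, ((((Icc 1 X).filter (fun e => X / e = c.2.1 ∧ e.minFac = c.2.2)).card : ℝ) * c.2.1) /
        L ^ (A + 4) + J.card * (X : ℝ) ^ ((995 : ℝ) / 1000) := by
    rw [← sum_fiberwise_of_maps_to (s := DD) (t := J) (g := key)
      (fun d hd => mem_image_of_mem _ hd)]
    refine (sum_le_sum hclass).trans (le_of_eq ?_)
    rw [sum_add_distrib, sum_const, nsmul_eq_mul]
  have hjlt : ∀ c ∈ J, c.1 < ⌊2 * L⌋₊ + 1 := by
    intro c hc
    obtain ⟨d, hd, rfl⟩ := mem_image.1 hc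
    refine Nat.lt_succ_of_le (Nat.le_floor ?_)
    show ((jf d : ℕ) : ℝ) ≤ 2 * L
    have h2 : ((2 ^ jf d : ℕ) : ℝ) ≤ X := by
      have h3 : ((2 ^ jf d : ℕ) : ℝ) ≤ gf d := by
        exact_mod_cast Nat.pow_log_le_self 2 (hg d hd).pr.ne_zero
      refine h3.trans ((hg d hd).hi.trans ?_)
      calc (X : ℝ) ^ ((1 : ℝ) / 1000) ≤ (X : ℝ) ^ (1 : ℝ) :=
            Real.rpow_le_rpow_of_exponent_le hX1 (by norm_num)
        _ = X := Real.rpow_one _
    have h3 : (jf d : ℝ) * Real.log 2 ≤ L := by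
      rw [← Real.log_pow, hL]
      apply Real.log_le_log (by positivity)
      push_cast at h2
      exact h2
    have h4 := Real.log_two_gt_d9
    have h5 : (0 : ℝ) ≤ jf d := Nat.cast_nonneg _
    have h6 : (jf d : ℝ) * (1 / 2) ≤ (jf d : ℝ) * Real.log 2 :=
      mul_le_mul_of_nonneg_left (by linarith) h5
    linarith
  have hJcard := card_J_le K L X f1 hX1 J hjlt
    (fun c hc => by
      obtain ⟨d, hd, rfl⟩ := mem_image.1 hc
      have h2 := (hmem d hd).2.1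
      refine h2.trans ?_
      have h3 : ((2 ^ jf d : ℕ) : ℝ) ≤ (X : ℝ) ^ ((1 : ℝ) / 1000) := by
        refine le_trans ?_ (hg d hd).hi
        exact_mod_cast Nat.pow_log_le_self 2 (hg d hd).pr.ne_zero
      have h4 : 0 < L ^ K := by positivity
      have h5 : (0 : ℝ) ≤ (X : ℝ) ^ ((1 : ℝ) / 1000) := by positivity
      calc 2 * ((2 ^ jf d : ℕ) : ℝ) * L ^ K ≤ 2 * (X : ℝ) ^ ((1 : ℝ) / 1000) * L ^ K := by gcongr
        _ ≤ 4 * (X : ℝ) ^ ((1 : ℝ) / 1000) * L ^ K := by gcongr; norm_num)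
    (fun c hc => by
      obtain ⟨d, hd, rfl⟩ := mem_image.1 hc
      exact (hmem d hd).2.2.1)
  have hDcard : (DD.card : ℝ) ≤ X := by
    have h2 : DD ⊆ Icc 1 X := by
      intro d hd
      rw [mem_Icc]
      refine ⟨(hDD d hd).1, ?_⟩
      have h3 := (hDD d hd).2.2.1
      have h4 : (X : ℝ) / L ^ (κ + 1) ≤ X := div_le_self hXr.le (one_le_pow₀ hL1)
      have h5 : (d : ℝ) ≤ X := h3.trans h4
      exact_mod_cast h5
    have h3 := card_le_card h2
    rw [Nat.card_Icc, Nat.add_sub_cancel] at h3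
    exact_mod_cast h3
  have hcount := class_count X J (⌊2 * L⌋₊ + 1) hjlt
  rw [← hL] at hcount
  have hfin := final_num C K A L X J.card DD.card
    ((∑ c ∈ J, ((((Icc 1 X).filter (fun e => X / e = c.2.1 ∧ e.minFac = c.2.2)).card : ℝ) *
      c.2.1)) / L ^ (A + 4))
    (J.card * (X : ℝ) ^ ((995 : ℝ) / 1000))
    (DD.card * (2 * L ^ (C + K) / L ^ (C + K + A + 1))) f1 hX1
    (div_le_div_of_nonneg_right hcount (by positivity)) le_rfl hJcard h1 hDcard le_rfl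
  refine le_trans ?_ hfin
  refine (sum_le_sum hpt).trans ?_
  rw [sum_add_distrib, sum_const, nsmul_eq_mul]
  have h7 : ∑ c ∈ J, ((((Icc 1 X).filter (fun e => X / e = c.2.1 ∧ e.minFac = c.2.2)).card : ℝ) *
      c.2.1) / L ^ (A + 4) = (∑ c ∈ J, ((((Icc 1 X).filter (fun e => X / e = c.2.1 ∧
        e.minFac = c.2.2)).card : ℝ) * c.2.1)) / L ^ (A + 4) := by
    rw [sum_div]
  rw [← h7]
  linarith [hS12]

end Crest.Agent.R001.Uns
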