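import Crest.Agent.R001.Uns11
import Crest.Agent.R001.AsmDefs

/-! R001, block UNS, part 12: `ListX → UNSH`. -/

set_option autoImplicit false

namespace Crest.Agent.R001.Uns

open Finset Crest.Agent.R001.Tree Crest.Agent.R001.EST

lemma strP_of_capt (X : ℕ) (a : ℤ) (LL : Finset (ℤ × ℤ)) (e g : ℕ)
    (h : StrP X a LL (e : ℤ) g) :
    ∃ τ ∈ LL, (g : ℤ) ∣ τ.2 * a - τ.1 ∧ Asm.Capt X a τ e := by
  obtain ⟨τ, hτ, h1, h, h2, h3, h4, h5⟩ := h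
  exact ⟨τ, hτ, h1, h, h2, h3, by exact_mod_cast h4, h5⟩

lemma log_lt_aux (X g : ℕ) (hX : (1 : ℝ) ≤ X) (L : ℝ) (hL : L = Real.log X) (hg0 : g ≠ 0)
    (hg : (g : ℝ) ≤ (X : ℝ) ^ ((1 : ℝ) / 1000)) : Nat.log 2 g < ⌊2 * L⌋₊ + 1 := by
  refine Nat.lt_succ_of_le (Nat.le_floor ?_)
  have h2 : ((2 ^ Nat.log 2 g : ℕ) : ℝ) ≤ X := by
    have h3 : ((2 ^ Nat.log 2 g : ℕ) : ℝ) ≤ g := by
      exact_mod_cast Nat.pow_log_le_self 2 hg0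
    refine h3.trans (hg.trans ?_)
    calc (X : ℝ) ^ ((1 : ℝ) / 1000) ≤ (X : ℝ) ^ (1 : ℝ) :=
          Real.rpow_le_rpow_of_exponent_le hX (by norm_num)
      _ = X := Real.rpow_one _
  have h3 : (Nat.log 2 g : ℝ) * Real.log 2 ≤ L := by
    rw [← Real.log_pow, hL]
    apply Real.log_le_log (by positivity)
    push_cast at h2
    exact h2
  have h4 := Real.log_two_gt_d9
  have h5 : (0 : ℝ) ≤ Nat.log 2 g := Nat.cast_nonneg _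
  have h6 : (Nat.log 2 g : ℝ) * (1 / 2) ≤ (Nat.log 2 g : ℝ) * Real.log 2 :=
    mul_le_mul_of_nonneg_left (by linarith) h5
  linarith

open Filter in
theorem unsH_of_listX (hList : ListX) : Asm.UNSH := by
  classical
  intro C A
  obtain ⟨K1, hK1⟩ : ∃ K1 : ℕ, K1 = (C + 2 * (A + 4) + 8) * (2 * 3 ^ (2 * (C + 2 * (A + 4) + 8))) :=
    ⟨_, rfl⟩
  have hCK1 : C ≤ K1 := by
    rw [hK1]
    have : 0 < 2 * 3 ^ (2 * (C + 2 * (A + 4) + 8)) := by positivity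
    nlinarith
  refine ⟨K1 + 1, fun K _ => ?_⟩
  obtain ⟨κ0, hκ0⟩ : ∃ κ0 : ℕ, κ0 = 2 * C + 2 * K + (A + 4) + 3 := ⟨_, rfl⟩
  refine ⟨2 * κ0 + 3, fun C1 hC1 => ?_⟩
  obtain ⟨c1, hc1, X2, hX2⟩ := tail400 K κ0
  obtain ⟨X1, hX1⟩ := exists_list hList C K (A + 4)
  have hlp : ∀ᶠ X : ℕ in atTop,
      160 * Real.log (X : ℝ) ^ (2 * K + 1 + A) ≤ (X : ℝ) ^ ((4 : ℝ) / 1000) := by
    filter_upwards [tendsto_natCast_atTop_atTop.eventually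
      (log_pow_le (2 * K + 1 + A) (1 / 160) ((4 : ℝ) / 1000) (by norm_num) (by norm_num))] with X hX
    linarith
  obtain ⟨X3, hX3⟩ := ((eventually_big C K (A + 4) c1 hc1).and hlp).exists_forall_of_atTop
  refine ⟨max (max X1 X3) X2, fun X hX a => ?_⟩
  have hXX1 : X1 ≤ X := by
    have : (X1 : ℝ) ≤ X := (le_max_left (X1 : ℝ) X3).trans ((le_max_left _ _).trans hX)
    exact_mod_cast this
  have hXX3 : X3 ≤ X := by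
    have : (X3 : ℝ) ≤ X := (le_max_right (X1 : ℝ) X3).trans ((le_max_left _ _).trans hX)
    exact_mod_cast this
  have hXX2 : X2 ≤ X := (le_max_right _ _).trans hX
  obtain ⟨hbig, hlog⟩ := hX3 X hXX3
  obtain ⟨L, hL⟩ : ∃ L : ℝ, L = Real.log X := ⟨_, rfl⟩
  have f1 : 106496 ≤ L := by rw [hL]; exact hbig.f1
  have hX2' := hbig.X2
  have hXr1 : (1 : ℝ) ≤ X := by exact_mod_cast (by omega : 1 ≤ X)
  have hL1 : 1 ≤ L := by linarith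
  have hL0 : 0 < L := by linarith
  -- the lists
  have hlists : ∀ j : ℕ, ∃ LL : Finset (ℤ × ℤ), (LL.card : ℝ) ≤ 32 * L ^ κ0 ∧
      (∀ τ ∈ LL, 1 ≤ τ.2 ∧ (τ.2 : ℝ) ≤ (X : ℝ) ^ ((1 : ℝ) / 30) ∧
        |(τ.1 : ℝ)| ≤ (X : ℝ) ^ ((31 : ℝ) / 30) ∧ IsCoprime τ.1 τ.2) ∧
      (L ^ C1 ≤ 2 * ((2 ^ j : ℕ) : ℝ) → ((2 ^ j : ℕ) : ℝ) ≤ (X : ℝ) ^ ((1 : ℝ) / 1000) →
        ListProp X a (2 ^ j) (GGp (2 ^ j)) ⌊((2 ^ j : ℕ) : ℝ) / L ^ κ0⌋₊ LL) := by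
    intro j
    by_cases hj : L ^ C1 ≤ 2 * ((2 ^ j : ℕ) : ℝ) ∧ ((2 ^ j : ℕ) : ℝ) ≤ (X : ℝ) ^ ((1 : ℝ) / 1000)
    · obtain ⟨LL, h1, h2, h3⟩ := hX1 X hXX1 c1 hbig L hL κ0 C1 hC1 a (2 ^ j) hj.1 hj.2
      exact ⟨LL, h1, h2, fun _ _ => h3⟩
    · refine ⟨∅, ?_, by simp, fun h1 h2 => absurd ⟨h1, h2⟩ hj⟩
      simp only [card_empty, Nat.cast_zero]
      positivity
  choose Lst hl1 hl2 hl3 using hlists
  refine ⟨(range (⌊2 * L⌋₊ + 1)).biUnion Lst, ⟨?_, ?_⟩, ?_⟩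
  · rw [← hL]
    have h1 : (((range (⌊2 * L⌋₊ + 1)).biUnion Lst).card : ℝ) ≤
        ∑ j ∈ range (⌊2 * L⌋₊ + 1), ((Lst j).card : ℝ) := by
      exact_mod_cast card_biUnion_le
    have h2 : ∑ j ∈ range (⌊2 * L⌋₊ + 1), ((Lst j).card : ℝ) ≤
        ∑ j ∈ range (⌊2 * L⌋₊ + 1), 32 * L ^ κ0 := sum_le_sum fun j _ => hl1 j
    rw [sum_const, card_range, nsmul_eq_mul] at h2
    have hfl : ((⌊2 * L⌋₊ + 1 : ℕ) : ℝ) ≤ 3 * L := by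
      have := Nat.floor_le (show 0 ≤ 2 * L by linarith)
      push_cast
      linarith
    calc (((range (⌊2 * L⌋₊ + 1)).biUnion Lst).card : ℝ)
        ≤ ((⌊2 * L⌋₊ + 1 : ℕ) : ℝ) * (32 * L ^ κ0) := h1.trans h2
      _ ≤ (3 * L) * (32 * L ^ κ0) := by gcongr
      _ = 96 * L ^ (κ0 + 1) := by ring
      _ ≤ L * L ^ (κ0 + 1) := by gcongr; linarith
      _ = L ^ (κ0 + 2) := by ring
      _ ≤ L ^ (2 * κ0 + 3) := pow_le_pow_right₀ hL1 (by omega)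
  · intro τ hτ
    obtain ⟨j, _, hj⟩ := mem_biUnion.1 hτ
    exact hl2 j τ hj
  · intro DD hDD
    have hDD1 : ∀ d ∈ DD, Asm.Win X K (K1 + 1) d := fun d hd => (hDD d hd).1
    have hDD2 := fun d hd => (hDD d hd).2
    choose! gf hg1 hg2 hg3 hg4 hg5 using hDD2
    have hctl : ∀ d ∈ DD, Ctl X a (Lst (Nat.log 2 (gf d))) C1 d (gf d) := by
      intro d hd
      refine ⟨hg1 d hd, hg2 d hd, hg3 d hd, hg4 d hd, fun hs => ?_⟩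
      have hj : Nat.log 2 (gf d) ∈ range (⌊2 * L⌋₊ + 1) :=
        mem_range.2 (log_lt_aux X (gf d) hXr1 L hL (hg1 d hd).ne_zero (hg4 d hd))
      obtain ⟨τ, hτ, h1, h2⟩ := strP_of_capt X a _ _ _
        (StrP_mono X a (subset_biUnion_of_mem Lst hj) hs)
      exact hg5 d hd τ hτ ⟨h1, h2⟩
    have hSP := SP_eq ⌊L / 400⌋₊ ⌊L ^ K⌋₊
    obtain ⟨_, htail⟩ := hX2 X hXX2 L hL (SP ⌊L / 400⌋₊ ⌊L ^ K⌋₊) hSP
      (fun q => (c1 * L / Real.log L) / q) (fun q => rfl)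
    have hwin : ∀ d ∈ DD, 0 < d ∧ (X : ℝ) / L ^ K ≤ d ∧ (d : ℝ) ≤ X / L ^ (K1 + 1) ∧
        4 * (d.minFac : ℝ) ^ 2 ≤ X / d := by
      intro d hd
      obtain ⟨w1, w2, w3, w4, _⟩ := hDD1 d hd
      rw [← hL] at w2 w3
      exact ⟨Nat.pos_of_ne_zero w1.ne_zero, w2, w3, w4⟩
    have hκ : 2 * κ0 + 3 ≤ C1 := hC1
    rw [hκ0] at hκ hl3 htail
    rw [← hL] at hlog
    obtain ⟨r1, r2⟩ := uns_core C K A K1 hK1.ge hCK1 c1 C1 hκ X hbig hc1 L hL htail hlog a Lst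
      hl3 DD gf hwin hctl
    refine ⟨fun d => L ^ C * ((X / (d / gf d) : ℕ) : ℝ) / (2 * ((2 ^ Nat.log 2 (gf d) : ℕ) : ℝ)),
      fun d hd => ?_, ?_⟩
    · rw [← hL]
      exact r1 d hd
    · rw [← hL]
      exact r2

end Crest.Agent.R001.Uns
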