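import Crest.Agent.R001.Uns1
import Crest.Agent.R001.EST3
import Crest.Agent.R001.E2

/-! R001, block UNS, part 2: the Rosser weights on windows, energy, periodicity. -/

set_option autoImplicit false

namespace Crest.Agent.R001.Uns

open Finset Crest.Agent.R001.Tree Crest.Agent.R001.EST

/-- Rosser weight of level `y` for the primes `< w` -/
noncomputable def W (y : ℝ) (w : ℕ) (m : ℤ) : ℝ :=
  ∑ x ∈ Idx y w, if ((val x : ℕ) : ℤ) ∣ m then sgn x else 0

open Classical in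
/-- pointwise lower bound sieve -/
lemma W_le (y : ℝ) (w : ℕ) (m : ℤ) :
    W y w m ≤ if ∀ p : ℕ, p.Prime → p < w → ¬ (p : ℤ) ∣ m then 1 else 0 := by
  have hB : Buch (Aw {m} id (fun _ => (1 : ℝ))) (Sw {m} id (fun _ => (1 : ℝ))) := buch_w _ _ _
  have h1 := identity hB (bd y) (rgh_one w)
  have h2 : T (bd y) (intF (Aw {m} id (fun _ => (1 : ℝ)))) (fun _ _ => 0) 1 w ≤
      Sw {m} id (fun _ => (1 : ℝ)) 1 w := by
    rw [h1]
    exact T_mono 1 w (fun _ _ _ => le_rfl) (fun d' w' _ =>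
      Sw_nonneg {m} id (fun _ => (1 : ℝ)) (fun _ _ => zero_le_one) d' w')
  rw [T_lin] at h2
  have h3 : ∀ d : ℕ, Aw {m} id (fun _ => (1 : ℝ)) d = if ((d : ℕ) : ℤ) ∣ m then 1 else 0 := by
    intro d
    unfold Aw
    rw [filter_singleton]
    split_ifs with h h' h'
    · simp
    · exact absurd h h'
    · exact absurd h' h
    · simp
  have h4 : Sw {m} id (fun _ => (1 : ℝ)) 1 w =
      if ∀ p : ℕ, p.Prime → p < w → ¬ (p : ℤ) ∣ m then 1 else 0 := by
    unfold Sw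
    rw [filter_singleton]
    simp only [Nat.cast_one, isUnit_one, IsUnit.dvd, id_eq, true_and]
    split_ifs with h
    · simp
    · simp
  rw [h4] at h2
  refine le_trans (le_of_eq ?_) h2
  unfold W
  refine sum_congr rfl fun x _ => ?_
  rw [h3]
  split_ifs <;> ring

/-- `Θ` -/
noncomputable def Theta (y : ℝ) (w : ℕ) : ℝ := Th (bd y) 1 w

lemma Theta_eq (y : ℝ) (w : ℕ) : Theta y w = ∑ x ∈ Idx y w, sgn x / (val x : ℝ) := by
  unfold Theta Th
  rw [T_lin]
  refine sum_congr rfl fun x _ => ?_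
  unfold inv
  ring

lemma abs_Theta_le (y : ℝ) (w : ℕ) : |Theta y w| ≤ (Idx y w).card := by
  rw [Theta_eq]
  refine (abs_sum_le_sum_abs _ _).trans ?_
  calc ∑ x ∈ Idx y w, |sgn x / (val x : ℝ)| ≤ ∑ _x ∈ Idx y w, (1 : ℝ) := by
        refine sum_le_sum fun x hx => ?_
        rw [abs_div, abs_sgn]
        have h1 : (1 : ℝ) ≤ val x := by exact_mod_cast val_pos hx
        rw [abs_of_pos (by linarith), div_le_one (by linarith)]
        exact h1
    _ = _ := by simp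

lemma sum_W_window (y : ℝ) (w : ℕ) (A : ℤ) (H : ℕ) :
    |∑ m ∈ Ioc (A - H) A, W y w m - H * Theta y w| ≤ (Idx y w).card := by
  have h1 : ∑ m ∈ Ioc (A - H) A, W y w m =
      ∑ x ∈ Idx y w, sgn x * (((Ioc (A - H) A).filter (fun m => ((val x : ℕ) : ℤ) ∣ m)).card : ℝ) := by
    unfold W
    rw [sum_comm]
    refine sum_congr rfl fun x _ => ?_
    rw [← sum_filter, sum_const, nsmul_eq_mul, mul_comm]
  rw [h1, Theta_eq, mul_sum, ← sum_sub_distrib]
  refine (abs_sum_le_sum_abs _ _).trans ?_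
  calc ∑ x ∈ Idx y w, |sgn x * (((Ioc (A - H) A).filter
        (fun m => ((val x : ℕ) : ℤ) ∣ m)).card : ℝ) - H * (sgn x / (val x : ℝ))|
      ≤ ∑ _x ∈ Idx y w, (1 : ℝ) := by
        refine sum_le_sum fun x hx => ?_
        have h2 := E2.card_dvd_Ioc (val x) (val_pos hx) (A - H) H
        rw [sub_add_cancel] at h2
        have h3 : sgn x * (((Ioc (A - H) A).filter
            (fun m => ((val x : ℕ) : ℤ) ∣ m)).card : ℝ) - H * (sgn x / (val x : ℝ)) =
            sgn x * ((((Ioc (A - H) A).filter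
            (fun m => ((val x : ℕ) : ℤ) ∣ m)).card : ℝ) - H / (val x : ℝ)) := by ring
        rw [h3, abs_mul, abs_sgn, one_mul]
        exact h2
    _ = _ := by simp

/-- lower bound of the sifted count of a node by the window sum of the weights -/
lemma sI_ge (a : ℤ) (X e g w : ℕ) (he : 0 < e) (hew : Rgh e w) (y : ℝ) :
    ∑ m ∈ Ioc (a / e - (X / e : ℕ)) (a / e) with (g : ℤ) ∣ m, W y w m ≤ sI a X (e * g) w := by
  classical
  rw [sI_eq]
  have he' : (0 : ℤ) < e := by exact_mod_cast he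
  set I := Ioc (a / (e : ℤ) - ((X / e : ℕ) : ℤ)) (a / (e : ℤ)) with hI
  calc ∑ m ∈ I with (g : ℤ) ∣ m, W y w m
      ≤ ∑ m ∈ I with (g : ℤ) ∣ m,
          (if ∀ p : ℕ, p.Prime → p < w → ¬ (p : ℤ) ∣ m then (1 : ℝ) else 0) :=
        sum_le_sum fun m _ => W_le y w m
    _ = (((I.filter (fun m => (g : ℤ) ∣ m)).filter
          (fun m => ∀ p : ℕ, p.Prime → p < w → ¬ (p : ℤ) ∣ m)).card : ℝ) := by
        rw [← sum_filter, sum_const, nsmul_eq_mul, mul_one]
    _ ≤ _ := by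
        norm_cast
        refine card_le_card_of_injOn (fun m => (e : ℤ) * m) ?_ ?_
        · intro m hm
          rw [mem_coe, mem_filter, mem_filter, hI, mem_Ioc] at hm
          obtain ⟨⟨⟨hm1, hm2⟩, hm3⟩, hm4⟩ := hm
          rw [mem_coe, mem_filter, mem_Ioc]
          have h1 : (e : ℤ) * (a / e) ≤ a := Int.mul_ediv_self_le he'.ne'
          have h2 : a < (e : ℤ) * (a / e) + e := Int.lt_mul_ediv_self_add he'
          have h3 : (e : ℤ) * ((X / e : ℕ) : ℤ) ≤ X := by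
            have := Nat.mul_div_le X e
            exact_mod_cast this
          have h4 : a / (e : ℤ) - ((X / e : ℕ) : ℤ) + 1 ≤ m := by omega
          refine ⟨⟨?_, ?_⟩, ?_, ?_⟩
          · have h5 := mul_le_mul_of_nonneg_left h4 he'.le
            nlinarith
          · have h5 := mul_le_mul_of_nonneg_left hm2 he'.le
            linarith
          · push_cast
            exact mul_dvd_mul_left _ hm3
          · intro p hp hpw hdvd
            have hp' : Prime (p : ℤ) := Nat.prime_iff_prime_int.1 hp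
            rcases hp'.dvd_or_dvd hdvd with h6 | h6
            · exact hew p hp hpw (by exact_mod_cast h6)
            · exact hm4 p hp hpw h6
        · intro m _ m' _ h
          exact mul_left_cancel₀ he'.ne' h

/-- the node inequality -/
lemma node_ge (a : ℤ) (X e g w : ℕ) (he : 0 < e) (hg : 0 < g) (hew : Rgh e w) (y : ℝ) :
    (X : ℝ) / (e * g) * Theta y w - |dev (W y w) (a / e) (X / e) g| - 2 * (Idx y w).card / g ≤
      sI a X (e * g) w := by
  have h1 := sI_ge a X e g w he hew y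
  have h2 := sum_W_window y w (a / e) (X / e)
  set I := Ioc (a / (e : ℤ) - ((X / e : ℕ) : ℤ)) (a / (e : ℤ)) with hI
  have hg' : (0 : ℝ) < g := by exact_mod_cast hg
  have he' : (0 : ℝ) < e := by exact_mod_cast he
  have h3 : ∑ m ∈ I with (g : ℤ) ∣ m, W y w m =
      dev (W y w) (a / e) (X / e) g + (∑ m ∈ I, W y w m) / g := by
    unfold dev; ring
  rw [h3] at h1
  have h4 : -|dev (W y w) (a / e) (X / e) g| ≤ dev (W y w) (a / e) (X / e) g := neg_abs_le _
  have h5 : ((X / e : ℕ) : ℝ) * Theta y w - (Idx y w).card ≤ ∑ m ∈ I, W y w m := by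
    have := (abs_le.1 h2).1
    linarith
  have h6 : (((X / e : ℕ) : ℝ) * Theta y w - (Idx y w).card) / g ≤ (∑ m ∈ I, W y w m) / g :=
    div_le_div_of_nonneg_right h5 hg'.le
  have h7 : |(X : ℝ) / e - ((X / e : ℕ) : ℝ)| ≤ 1 := by
    have h8 : ((X / e : ℕ) : ℝ) ≤ (X : ℝ) / e := Nat.cast_div_le
    have h9 : (X : ℝ) / e < ((X / e : ℕ) : ℝ) + 1 := by
      rw [div_lt_iff₀ he']
      have := Nat.lt_mul_div_succ X he
      have h10 : (X : ℝ) < (e : ℝ) * (((X / e : ℕ) : ℝ) + 1) := by exact_mod_cast this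
      linarith
    rw [abs_of_nonneg (by linarith)]
    linarith
  have h8 : (X : ℝ) / (e * g) * Theta y w ≤
      (((X / e : ℕ) : ℝ) * Theta y w) / g + (Idx y w).card / g := by
    have h9 : (X : ℝ) / (e * g) * Theta y w - (((X / e : ℕ) : ℝ) * Theta y w) / g =
        ((X : ℝ) / e - ((X / e : ℕ) : ℝ)) * Theta y w / g := by
      field_simp
    have h10 : ((X : ℝ) / e - ((X / e : ℕ) : ℝ)) * Theta y w ≤ (Idx y w).card := by
      refine (le_abs_self _).trans ?_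
      rw [abs_mul]
      calc _ ≤ 1 * |Theta y w| := mul_le_mul_of_nonneg_right h7 (abs_nonneg _)
        _ ≤ _ := by rw [one_mul]; exact abs_Theta_le y w
    have h11 := div_le_div_of_nonneg_right h10 hg'.le
    linarith
  have h9 : (((X / e : ℕ) : ℝ) * Theta y w - (Idx y w).card) / g =
      (((X / e : ℕ) : ℝ) * Theta y w) / g - (Idx y w).card / g := by ring
  have h10 : 2 * ((Idx y w).card : ℝ) / g = (Idx y w).card / g + (Idx y w).card / g := by ring
  rw [h10]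
  linarith

/-! ### energy -/

lemma harm_le (Z : ℕ) : ∑ n ∈ Icc 1 Z, (1 : ℝ) / n ≤ 1 + Real.log Z := by
  have h := harmonic_le_one_add_log Z
  rw [harmonic_eq_sum_Icc] at h
  push_cast at h
  simpa [one_div] using h

lemma energy_le (BB : Finset ℕ) (Z : ℕ) (hBB : ∀ b ∈ BB, 1 ≤ b ∧ b ≤ Z) :
    E2.energy BB (fun _ => 1) ≤ (1 + Real.log Z) ^ 3 := by
  unfold E2.energy
  set f : ℕ × ℕ → ℕ × ℕ × ℕ := fun x => (Nat.gcd x.1 x.2, x.1 / Nat.gcd x.1 x.2,
    x.2 / Nat.gcd x.1 x.2) with hf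
  have h1 : ∑ D ∈ BB, ∑ D' ∈ BB, |(1 : ℝ)| * |(1 : ℝ)| / (Nat.lcm D D' : ℕ) =
      ∑ x ∈ BB ×ˢ BB, (1 : ℝ) / (Nat.lcm x.1 x.2 : ℕ) := by
    rw [sum_product]
    simp
  rw [h1]
  have hinj : Set.InjOn f (BB ×ˢ BB : Finset (ℕ × ℕ)) := by
    intro x hx z hz h
    rw [mem_coe, mem_product] at hx hz
    simp only [hf, Prod.mk.injEq] at h
    obtain ⟨h2, h3, h4⟩ := h
    have e1 := Nat.div_mul_cancel (Nat.gcd_dvd_left x.1 x.2)
    have e2 := Nat.div_mul_cancel (Nat.gcd_dvd_right x.1 x.2)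
    have e3 := Nat.div_mul_cancel (Nat.gcd_dvd_left z.1 z.2)
    have e4 := Nat.div_mul_cancel (Nat.gcd_dvd_right z.1 z.2)
    refine Prod.ext ?_ ?_
    · rw [← e1, ← e3, h3, h2]
    · rw [← e2, ← e4, h4, h2]
  have h2 : ∑ x ∈ BB ×ˢ BB, (1 : ℝ) / (Nat.lcm x.1 x.2 : ℕ) =
      ∑ u ∈ (BB ×ˢ BB).image f, (1 : ℝ) / u.1 * (1 / u.2.1 * (1 / u.2.2)) := by
    rw [sum_image hinj]
    refine sum_congr rfl fun x hx => ?_
    rw [mem_product] at hx
    simp only [hf]
    have hx1 := (hBB _ hx.1).1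
    have hx2 := (hBB _ hx.2).1
    have hg : 0 < Nat.gcd x.1 x.2 := Nat.gcd_pos_of_pos_left _ hx1
    have e1 := Nat.div_mul_cancel (Nat.gcd_dvd_left x.1 x.2)
    have e2 := Nat.div_mul_cancel (Nat.gcd_dvd_right x.1 x.2)
    have e3 := Nat.gcd_mul_lcm x.1 x.2
    set g := Nat.gcd x.1 x.2
    set b := x.1 / g
    set b' := x.2 / g
    have e4 : Nat.lcm x.1 x.2 = g * (b * b') := by
      have : g * Nat.lcm x.1 x.2 = g * (g * (b * b')) := by
        rw [e3, ← e1, ← e2]; ring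
      exact Nat.eq_of_mul_eq_mul_left hg this
    rw [e4]
    push_cast
    rw [one_div_mul_one_div, one_div_mul_one_div]
  rw [h2]
  have h3 : (BB ×ˢ BB).image f ⊆ Icc 1 Z ×ˢ (Icc 1 Z ×ˢ Icc 1 Z) := by
    intro u hu
    obtain ⟨x, hx, rfl⟩ := mem_image.1 hu
    rw [mem_product] at hx
    obtain ⟨hx1, hx1'⟩ := hBB _ hx.1
    obtain ⟨hx2, hx2'⟩ := hBB _ hx.2
    simp only [hf, mem_product, mem_Icc]
    have hg : 0 < Nat.gcd x.1 x.2 := Nat.gcd_pos_of_pos_left _ hx1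
    have hgle : Nat.gcd x.1 x.2 ≤ x.1 := Nat.le_of_dvd hx1 (Nat.gcd_dvd_left _ _)
    have hgle' : Nat.gcd x.1 x.2 ≤ x.2 := Nat.le_of_dvd hx2 (Nat.gcd_dvd_right _ _)
    exact ⟨⟨hg, by omega⟩, ⟨Nat.div_pos hgle hg, (Nat.div_le_self _ _).trans hx1'⟩,
      Nat.div_pos hgle' hg, (Nat.div_le_self _ _).trans hx2'⟩
  calc ∑ u ∈ (BB ×ˢ BB).image f, (1 : ℝ) / u.1 * (1 / u.2.1 * (1 / u.2.2))
      ≤ ∑ u ∈ Icc 1 Z ×ˢ (Icc 1 Z ×ˢ Icc 1 Z), (1 : ℝ) / u.1 * (1 / u.2.1 * (1 / u.2.2)) :=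
        sum_le_sum_of_subset_of_nonneg h3 fun _ _ _ => by positivity
    _ = (∑ n ∈ Icc 1 Z, (1 : ℝ) / n) ^ 3 := by
        rw [sum_product, pow_succ, sq, mul_assoc, sum_mul]
        refine sum_congr rfl fun u _ => ?_
        rw [sum_product, sum_mul, mul_sum]
        refine sum_congr rfl fun v _ => ?_
        rw [mul_sum, mul_sum]
    _ ≤ _ := by
        refine pow_le_pow_left₀ (sum_nonneg fun _ _ => by positivity) (harm_le Z) 3

/-- number of elements of the support dividing `m` -/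
noncomputable def cnt (y : ℝ) (w : ℕ) (m : ℤ) : ℝ :=
  ∑ x ∈ Idx y w, if ((val x : ℕ) : ℤ) ∣ m then (1 : ℝ) else 0

lemma cnt_le (y : ℝ) (w : ℕ) (m : ℤ) :
    cnt y w m ≤ 2 * E2.lin ((Idx y w).image val) (fun _ => 1) m := by
  classical
  unfold cnt E2.lin
  rw [← sum_fiberwise_of_maps_to (s := Idx y w) (t := (Idx y w).image val) (g := val)
    (fun x hx => mem_image_of_mem _ hx), mul_sum]
  refine sum_le_sum fun D _ => ?_
  have h1 : ∑ x ∈ Idx y w with val x = D, (if ((val x : ℕ) : ℤ) ∣ m then (1 : ℝ) else 0) =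
      ((Idx y w).filter (fun x => val x = D)).card * (if ((D : ℕ) : ℤ) ∣ m then (1 : ℝ) else 0) := by
    rw [← nsmul_eq_mul, ← sum_const]
    refine sum_congr rfl fun x hx => ?_
    rw [(mem_filter.1 hx).2]
  rw [h1]
  have h2 : (((Idx y w).filter (fun x => val x = D)).card : ℝ) ≤ 2 := by
    have h3 : ((Idx y w).filter (fun x => val x = D)).card ≤ (univ : Finset Bool).card := by
      refine card_le_card_of_injOn (fun x => decide (x.2 = 1)) (fun _ _ => mem_coe.2 (mem_univ _)) ?_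
      intro x hx z hz h
      rw [mem_coe, mem_filter] at hx hz
      exact val_fiber hx.1 hz.1 (hx.2.trans hz.2.symm) (by simpa using h)
    have h4 : (univ : Finset Bool).card = 2 := by decide
    rw [h4] at h3
    exact_mod_cast h3
  split_ifs
  · linarith
  · simp

lemma cnt_sq_window {y : ℝ} {w : ℕ} (h0 : Adm y 1 w) (hy : 1 < y) (A : ℤ) (H : ℕ) :
    ∑ m ∈ Ioc (A - H) A, cnt y w m ^ 2 ≤ 4 * (H * (1 + Real.log y) ^ 3 + y ^ 2) := by
  classical
  set BB := (Idx y w).image val with hBB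
  have hpos : ∀ D ∈ BB, 0 < D := by
    intro D hD
    obtain ⟨x, hx, rfl⟩ := mem_image.1 hD
    exact val_pos hx
  have h1 := E2.sum_lin_sq BB (fun _ => 1) hpos (A - H) H
  rw [sub_add_cancel] at h1
  have hZ : ∀ b ∈ BB, 1 ≤ b ∧ b ≤ ⌊y⌋₊ := by
    intro b hb
    refine ⟨hpos b hb, ?_⟩
    obtain ⟨x, hx, rfl⟩ := mem_image.1 hb
    exact Nat.le_floor (val_lt h0 hy hx).le
  have h2 := energy_le BB ⌊y⌋₊ hZ
  have hfl : 1 ≤ ⌊y⌋₊ := Nat.le_floor (by simpa using hy.le)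
  have h3 : Real.log ⌊y⌋₊ ≤ Real.log y :=
    Real.log_le_log (by exact_mod_cast hfl) (Nat.floor_le (by linarith))
  have h3' : 0 ≤ Real.log ⌊y⌋₊ := Real.log_nonneg (by exact_mod_cast hfl)
  have h4 : (1 + Real.log ⌊y⌋₊) ^ 3 ≤ (1 + Real.log y) ^ 3 :=
    pow_le_pow_left₀ (by linarith) (by linarith) 3
  have h5 : E2.L1 BB (fun _ => 1) ≤ y := by
    unfold E2.L1
    simp only [abs_one, sum_const, nsmul_eq_mul, mul_one]
    refine le_trans ?_ (card_Idx_le h0 hy)
    exact_mod_cast card_image_le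
  have h6 : E2.L1 BB (fun _ => 1) ^ 2 ≤ y ^ 2 := pow_le_pow_left₀ (E2.L1_nonneg _ _) h5 2
  calc ∑ m ∈ Ioc (A - H) A, cnt y w m ^ 2
      ≤ ∑ m ∈ Ioc (A - H) A, (2 * E2.lin BB (fun _ => 1) m) ^ 2 := by
        refine sum_le_sum fun m _ => pow_le_pow_left₀ ?_ (cnt_le y w m) 2
        exact sum_nonneg fun _ _ => by split_ifs <;> norm_num
    _ = 4 * ∑ m ∈ Ioc (A - H) A, E2.lin BB (fun _ => 1) m ^ 2 := by
        rw [mul_sum]
        refine sum_congr rfl fun m _ => ?_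
        ring
    _ ≤ _ := by
        have h7 : (H : ℝ) * E2.energy BB (fun _ => 1) ≤ H * (1 + Real.log y) ^ 3 :=
          mul_le_mul_of_nonneg_left (h2.trans h4) (Nat.cast_nonneg _)
        linarith

/-! ### the family `F R m` -/

/-- large primes of `val x` -/
def RR0 (t : ℕ) (x : ℕ × ℕ) : Finset ℕ := (val x).primeFactors.filter (fun q => t < q)

noncomputable def FF (y : ℝ) (w t : ℕ) (R : Finset ℕ) (m : ℤ) : ℝ :=
  ∑ x ∈ Idx y w with RR0 t x = R, if ((val x : ℕ) : ℤ) ∣ m then sgn x else 0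

noncomputable def RRs (y : ℝ) (w t : ℕ) : Finset (Finset ℕ) := (Idx y w).image (RR0 t)

lemma tot_FF (y : ℝ) (w t : ℕ) : tot (RRs y w t) (FF y w t) = W y w := by
  funext m
  unfold tot FF W RRs
  exact sum_fiberwise_of_maps_to (fun x hx => mem_image_of_mem _ hx) _

lemma sum_abs_FF_le (y : ℝ) (w t : ℕ) (m : ℤ) :
    ∑ R ∈ RRs y w t, |FF y w t R m| ≤ cnt y w m := by
  unfold cnt
  rw [← sum_fiberwise_of_maps_to (s := Idx y w) (t := RRs y w t) (g := RR0 t)
    (fun x hx => mem_image_of_mem _ hx)]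
  refine sum_le_sum fun R _ => ?_
  unfold FF
  refine (abs_sum_le_sum_abs _ _).trans (sum_le_sum fun x _ => ?_)
  split_ifs
  · rw [abs_sgn]
  · simp

lemma cnt_le_card (y : ℝ) (w : ℕ) (m : ℤ) : cnt y w m ≤ (Idx y w).card := by
  unfold cnt
  calc _ ≤ ∑ _x ∈ Idx y w, (1 : ℝ) := sum_le_sum fun x _ => by split_ifs <;> norm_num
    _ = _ := by simp

lemma val_dvd {y : ℝ} {w : ℕ} (t : ℕ) {x : ℕ × ℕ} (hx : x ∈ Idx y w) :
    val x ∣ primorial t * ∏ q ∈ RR0 t x, q := by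
  obtain ⟨hsq, _⟩ := val_sqf hx
  have h1 : ∏ p ∈ (val x).primeFactors, p =
      (∏ p ∈ (val x).primeFactors with ¬ t < p, p) * ∏ q ∈ RR0 t x, q := by
    unfold RR0
    rw [mul_comm, prod_filter_mul_prod_filter_not]
  have h2 : (∏ p ∈ (val x).primeFactors with ¬ t < p, p) ∣ primorial t := by
    unfold primorial
    refine prod_dvd_prod_of_subset _ _ _ ?_
    intro p hp
    rw [mem_filter] at hp ⊢
    rw [mem_range]
    exact ⟨by omega, Nat.prime_of_mem_primeFactors hp.1⟩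
  calc val x = ∏ p ∈ (val x).primeFactors, p := (Nat.prod_primeFactors_of_squarefree hsq).symm
    _ ∣ _ := by rw [h1]; exact mul_dvd_mul_right h2 _

lemma FF_periodic (y : ℝ) (w t : ℕ) (R : Finset ℕ) (m k : ℤ) :
    FF y w t R (m + k * ((primorial t : ℤ) * ∏ q ∈ R, (q : ℤ))) = FF y w t R m := by
  unfold FF
  refine sum_congr rfl fun x hx => ?_
  obtain ⟨hx1, hx2⟩ := mem_filter.1 hx
  have h1 : ((val x : ℕ) : ℤ) ∣ k * ((primorial t : ℤ) * ∏ q ∈ R, (q : ℤ)) := by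
    refine dvd_mul_of_dvd_right ?_ _
    have h2 := val_dvd t hx1
    rw [hx2] at h2
    have h4 : ((val x : ℕ) : ℤ) ∣ ((primorial t * ∏ q ∈ R, q : ℕ) : ℤ) := by exact_mod_cast h2
    push_cast at h4
    exact h4
  have h3 : ((val x : ℕ) : ℤ) ∣ m + k * ((primorial t : ℤ) * ∏ q ∈ R, (q : ℤ)) ↔
      ((val x : ℕ) : ℤ) ∣ m := by
    constructor
    · intro h; exact (dvd_add_left h1).1 h
    · intro h; exact dvd_add h h1
  simp only [h3]

end Crest.Agent.R001.Uns
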