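import Crest.Agent.R001.Uns2

/-! R001, block UNS, part 3: one class, explicit parameters. -/

set_option autoImplicit false

namespace Crest.Agent.R001.Uns

open Finset Crest.Agent.R001.Tree Crest.Agent.R001.EST

/-- primes in `(t, Z]` -/
def SP (t Z : ℕ) : Finset ℕ := (range (Z + 1)).filter (fun q => q.Prime ∧ t < q)

lemma mem_SP {t Z q : ℕ} : q ∈ SP t Z ↔ q ≤ Z ∧ q.Prime ∧ t < q := by
  unfold SP; rw [mem_filter, mem_range, Nat.lt_succ_iff]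

lemma prod_inv_eq_ell (t : ℕ) (Lam : ℝ) (x : ℕ × ℕ) :
    ∏ q ∈ RR0 t x, (Lam / q)⁻¹ = ell t Lam (val x) := by
  unfold RR0 ell ff
  rw [prod_filter]
  refine prod_congr rfl fun q _ => ?_
  split_ifs
  · rw [inv_div]
  · rfl

open Classical in
/-- one class -/
theorem cls (y : ℝ) (w t Z : ℕ) (Lam B0 : ℝ) (k : ℕ) (h0 : Adm y 1 w) (hy : 1 < y)
    (hLam : 1 ≤ Lam) (hLt : Lam ≤ t) (hB0 : 1 ≤ B0) (hk : B0 ≤ Lam ^ k)
    (hyB : B0 ^ (2 * 3 ^ k) ≤ y) (hwZ : w ≤ Z + 1)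
    (a : ℤ) (EE : Finset ℤ) (GG : Finset ℕ) (hGG : ∀ g ∈ GG, g.Prime) (G : ℕ)
    (hG0 : 0 < G) (hG : ∀ g ∈ GG, G ≤ g ∧ g ≤ 2 * G) (Str : ℤ → ℕ → Prop) (K0 : ℕ)
    (Lf Thr : ℝ) (hLf : 0 ≤ Lf) (hThr : 0 ≤ Thr) (hL : ListHyp a EE GG Str K0 Lf Thr)
    (H : ℕ) (Mmax : ℕ) (pt : ℝ)
    (hpt : ∑ Q ∈ (SP t Z).powerset with Mmax < primorial t * ∏ q ∈ Q, q,
      Pr (SP t Z) (fun q => Lam / q) Q ≤ pt)
    (t0 : ℝ) (ht0 : 0 < t0) (n : ℕ) (hT : y ^ 2 / B0 * (2 * ((H : ℝ) / G) + 1) ≤ 2 ^ n * t0)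
    (lam : ℝ) (hlam : 0 < lam) :
    ∑ e ∈ EE, ∑ g ∈ GG with ¬ Str e g, |dev (W y w) (a / e) H g| ≤
      EE.card * GG.card * t0 +
      n * (EE.card * ((Lf * (2 * (H : ℝ) + 12 * (G : ℝ) ^ 2) *
        (y / B0 * (4 * (H * (1 + Real.log y) ^ 3 + y ^ 2))) / G) / lam + lam +
        2 ^ n * t0 * (K0 + 1))) +
      2 ^ n * t0 * (Mmax * Thr * GG.card) + pt * (EE.card * GG.card * (2 ^ n * t0)) := by
  have hyp : 0 < y := by linarith
  have hB0' : 0 < B0 := by linarith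
  have hSpos : ∀ q ∈ SP t Z, 0 < q := fun q hq => (mem_SP.1 hq).2.1.pos
  have hLam0 : 0 < Lam := by linarith
  have hp : ∀ q ∈ SP t Z, 0 < Lam / (q : ℝ) := fun q hq => by
    have : (0 : ℝ) < q := by exact_mod_cast hSpos q hq
    positivity
  have hp1 : ∀ q ∈ SP t Z, Lam / (q : ℝ) ≤ 1 := fun q hq => by
    have h1 : (0 : ℝ) < q := by exact_mod_cast hSpos q hq
    have h2 : (t : ℝ) ≤ q := by exact_mod_cast (mem_SP.1 hq).2.2.le
    rw [div_le_one h1]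
    linarith
  have hRR : ∀ R ∈ RRs y w t, R ⊆ SP t Z := by
    intro R hR q hq
    obtain ⟨x, hx, rfl⟩ := mem_image.1 hR
    unfold RR0 at hq
    rw [mem_filter] at hq
    have h1 := Nat.prime_of_mem_primeFactors hq.1
    have h2 := (val_sqf hx).2 q h1 (Nat.dvd_of_mem_primeFactors hq.1)
    rw [mem_SP]
    exact ⟨by omega, h1, hq.2⟩
  have hWt : ∀ R ∈ RRs y w t, ∏ q ∈ R, (Lam / (q : ℝ))⁻¹ ≤ y / B0 := by
    intro R hR
    obtain ⟨x, hx, rfl⟩ := mem_image.1 hR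
    rw [prod_inv_eq_ell, le_div_iff₀ hB0', mul_comm]
    exact weight_bound h0 hy hLam hB0 hk hyB hx
  have hcard := card_Idx_le h0 hy
  have hmain := est_main (SP t Z) hSpos (fun q => Lam / (q : ℝ)) hp hp1 (RRs y w t) hRR
    (FF y w t) (primorial t) (primorial_pos t) (fun R _ m k => FF_periodic y w t R m k)
    (y / B0) (by positivity) hWt y
    (fun m => (sum_abs_FF_le y w t m).trans ((cnt_le_card y w m).trans hcard))
    a EE GG hGG G (2 * G) hG0 (fun g hg => (hG g hg).1) (fun g hg => (hG g hg).2) Str K0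
    Lf Thr hLf hThr hL H (4 * (H * (1 + Real.log y) ^ 3 + y ^ 2))
    (fun e _ => by
      refine le_trans ?_ (cnt_sq_window h0 hy (a / e) H)
      refine sum_le_sum fun m _ => pow_le_pow_left₀ (sum_nonneg fun _ _ => abs_nonneg _)
        (sum_abs_FF_le y w t m) 2)
    Mmax pt hpt t0 ht0 n (by
      refine le_trans (le_of_eq ?_) hT
      ring) lam hlam
  rw [tot_FF] at hmain
  refine hmain.trans (le_of_eq ?_)
  push_cast
  ring

end Crest.Agent.R001.Uns
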