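import Crest.Agent.R001.Uns3

/-! R001, block UNS, part 4: numerics for one class. -/

set_option autoImplicit false

namespace Crest.Agent.R001.Uns

open Finset Crest.Agent.R001.Tree Crest.Agent.R001.EST

/-- term (ii) -/
lemma num_ii (C A : ℕ) (L G N H y Lf lg n : ℝ) (hL : 106496 ≤ L) (hG : 0 < G) (hN : 0 < N)
    (hH : H = N * G) (hy : y = L ^ C * N / 2) (hLf0 : 0 ≤ Lf) (hLf : Lf ≤ 2048 * L)
    (hHG : 2 * H + 12 * G ^ 2 ≤ 13 * G ^ 2) (hS : 4 * (H * (1 + lg) ^ 3 + y ^ 2) ≤ 8 * (H * L))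
    (hS0 : 0 ≤ 4 * (H * (1 + lg) ^ 3 + y ^ 2)) (_hn0 : 0 ≤ n) (hn : n ≤ L) :
    n * (Lf * (2 * H + 12 * G ^ 2) * (y / L ^ (C + 2 * A + 8) *
      (4 * (H * (1 + lg) ^ 3 + y ^ 2))) / G / (H / L ^ (A + 2))) ≤ H / L ^ (A + 2) := by
  have hL0 : 0 < L := by linarith
  have hH0 : 0 < H := by rw [hH]; positivity
  have hy0 : 0 < y := by rw [hy]; positivity
  have h1 : Lf * (2 * H + 12 * G ^ 2) * (y / L ^ (C + 2 * A + 8) *
      (4 * (H * (1 + lg) ^ 3 + y ^ 2))) / G / (H / L ^ (A + 2)) ≤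
      (2048 * L) * (13 * G ^ 2) * (y / L ^ (C + 2 * A + 8) * (8 * (H * L))) / G /
        (H / L ^ (A + 2)) := by gcongr
  have h2 : (2048 * L) * (13 * G ^ 2) * (y / L ^ (C + 2 * A + 8) * (8 * (H * L))) / G /
        (H / L ^ (A + 2)) = 106496 * (H / L ^ (A + 4)) := by
    rw [hy, hH]
    have e1 : L ^ (C + 2 * A + 8) = L ^ C * L ^ A * L ^ A * L ^ 8 := by ring
    have e2 : L ^ (A + 2) = L ^ A * L ^ 2 := by ring
    have e3 : L ^ (A + 4) = L ^ A * L ^ 4 := by ring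
    rw [e1, e2, e3]
    field_simp
    ring
  rw [h2] at h1
  calc _ ≤ L * (106496 * (H / L ^ (A + 4))) := by
        refine mul_le_mul hn h1 ?_ hL0.le
        positivity
    _ ≤ L * (L * (H / L ^ (A + 4))) := by gcongr
    _ = H / L ^ (A + 2) := by
        have e3 : L ^ (A + 4) = L ^ (A + 2) * L ^ 2 := by ring
        rw [e3]
        field_simp

/-- all terms together -/
lemma num_all (C K A : ℕ) (L G N H y Lf lg n cE cG T K0r pt MT : ℝ) (hL : 106496 ≤ L)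
    (hG : 0 < G) (hN : 0 < N)
    (hH : H = N * G) (hy : y = L ^ C * N / 2) (hyK : y ≤ L ^ (C + K))
    (hLf0 : 0 ≤ Lf) (hLf : Lf ≤ 2048 * L)
    (hHG : 2 * H + 12 * G ^ 2 ≤ 13 * G ^ 2) (hS : 4 * (H * (1 + lg) ^ 3 + y ^ 2) ≤ 8 * (H * L))
    (hS0 : 0 ≤ 4 * (H * (1 + lg) ^ 3 + y ^ 2)) (hn0 : 0 ≤ n) (hn : n ≤ L)
    (hcE : 0 ≤ cE) (hcG0 : 0 ≤ cG) (hcG : cG ≤ 2 * G) (hT0 : 0 ≤ T) (hT : T ≤ 6 * y ^ 2 * N)
    (hK0 : 0 ≤ K0r) (hK : K0r + 1 ≤ 2 * G / L ^ (2 * C + 2 * K + A + 3))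
    (_hpt0 : 0 ≤ pt) (hpt : pt ≤ 1 / L ^ (2 * C + 2 * K + A + 3)) :
    cE * cG * (N / L ^ (A + 2)) +
      n * (cE * ((Lf * (2 * H + 12 * G ^ 2) *
        (y / L ^ (C + 2 * A + 8) * (4 * (H * (1 + lg) ^ 3 + y ^ 2))) / G) / (H / L ^ (A + 2)) +
        H / L ^ (A + 2) + T * (K0r + 1))) +
      T * (MT * cG) + pt * (cE * cG * T) ≤ cE * H / L ^ A + T * (MT * cG) := by
  have hL0 : 0 < L := by linarith
  have hH0 : 0 < H := by rw [hH]; positivity
  have hy0 : 0 < y := by rw [hy]; positivity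
  have hii := num_ii C A L G N H y Lf lg n hL hG hN hH hy hLf0 hLf hHG hS hS0 hn0 hn
  obtain ⟨U, hU⟩ : ∃ U, U = Lf * (2 * H + 12 * G ^ 2) *
        (y / L ^ (C + 2 * A + 8) * (4 * (H * (1 + lg) ^ 3 + y ^ 2))) / G / (H / L ^ (A + 2)) :=
    ⟨_, rfl⟩
  rw [← hU] at hii ⊢
  clear hU
  have hT2 : T ≤ 6 * L ^ (2 * C + 2 * K) * N := by
    have h1 : y ^ 2 ≤ L ^ (2 * C + 2 * K) := by
      calc y ^ 2 ≤ (L ^ (C + K)) ^ 2 := pow_le_pow_left₀ hy0.le hyK 2
        _ = L ^ (2 * C + 2 * K) := by ring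
    calc T ≤ 6 * y ^ 2 * N := hT
      _ ≤ _ := by gcongr
  -- (i)
  have t1 : cE * cG * (N / L ^ (A + 2)) ≤ 2 * (cE * H / L ^ (A + 2)) := by
    calc cE * cG * (N / L ^ (A + 2)) ≤ cE * (2 * G) * (N / L ^ (A + 2)) := by gcongr
      _ = _ := by rw [hH]; ring
  -- (ii)
  have t2 : n * (cE * U) ≤ cE * H / L ^ (A + 2) := by
    calc n * (cE * U) = cE * (n * U) := by ring
      _ ≤ cE * (H / L ^ (A + 2)) := mul_le_mul_of_nonneg_left hii hcE
      _ = _ := by ring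
  -- (iii)
  have t3 : n * (cE * (H / L ^ (A + 2))) ≤ cE * H / L ^ (A + 1) := by
    calc n * (cE * (H / L ^ (A + 2))) ≤ L * (cE * (H / L ^ (A + 2))) := by gcongr
      _ = _ := by
        have e : L ^ (A + 2) = L ^ (A + 1) * L := by ring
        rw [e]; field_simp
  -- (iv)
  have t4 : n * (cE * (T * (K0r + 1))) ≤ cE * H / L ^ (A + 1) := by
    calc n * (cE * (T * (K0r + 1)))
        ≤ L * (cE * ((6 * L ^ (2 * C + 2 * K) * N) * (2 * G / L ^ (2 * C + 2 * K + A + 3)))) := by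
          gcongr
      _ = 12 * (cE * H / L ^ (A + 2)) := by
          have e : L ^ (2 * C + 2 * K + A + 3) = L ^ (2 * C + 2 * K) * L ^ (A + 2) * L := by ring
          rw [e, hH]; field_simp; ring
      _ ≤ L * (cE * H / L ^ (A + 2)) := by
          have : 0 ≤ cE * H / L ^ (A + 2) := by positivity
          nlinarith
      _ = _ := by
        have e : L ^ (A + 2) = L ^ (A + 1) * L := by ring
        rw [e]; field_simp
  -- (vi)
  have t6 : pt * (cE * cG * T) ≤ cE * H / L ^ (A + 2) := by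
    calc pt * (cE * cG * T)
        ≤ 1 / L ^ (2 * C + 2 * K + A + 3) * (cE * (2 * G) * (6 * L ^ (2 * C + 2 * K) * N)) := by
          gcongr
      _ = 12 * (cE * H / L ^ (A + 3)) := by
          have e : L ^ (2 * C + 2 * K + A + 3) = L ^ (2 * C + 2 * K) * L ^ (A + 3) := by ring
          rw [e, hH]; field_simp; ring
      _ ≤ L * (cE * H / L ^ (A + 3)) := by
          have : 0 ≤ cE * H / L ^ (A + 3) := by positivity
          nlinarith
      _ = _ := by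
        have e : L ^ (A + 3) = L ^ (A + 2) * L := by ring
        rw [e]; field_simp
  -- total
  have hx : 0 ≤ cE * H / L ^ (A + 2) := by positivity
  have e1 : cE * H / L ^ (A + 1) = L * (cE * H / L ^ (A + 2)) := by
    have e : L ^ (A + 2) = L ^ (A + 1) * L := by ring
    rw [e]; field_simp
  have e2 : cE * H / L ^ A = L ^ 2 * (cE * H / L ^ (A + 2)) := by
    have e : L ^ (A + 2) = L ^ A * L ^ 2 := by ring
    rw [e]; field_simp
  have hsplit : n * (cE * (U + H / L ^ (A + 2) + T * (K0r + 1))) =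
      n * (cE * U) + n * (cE * (H / L ^ (A + 2))) + n * (cE * (T * (K0r + 1))) := by ring
  rw [hsplit, e2]
  rw [e1] at t3 t4
  generalize cE * H / L ^ (A + 2) = x at *
  have hfin : (4 + 2 * L) * x ≤ L ^ 2 * x := by
    apply mul_le_mul_of_nonneg_right _ hx
    nlinarith
  linarith [t1, t2, t3, t4, t6, hfin]

end Crest.Agent.R001.Uns
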