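import Crest.Agent.R001.Uns4
import Crest.Agent.R001.UnsTail

/-! R001, block UNS, part 5: one class, all parameters chosen. -/

set_option autoImplicit false

namespace Crest.Agent.R001.Uns

open Finset Crest.Agent.R001.Tree Crest.Agent.R001.EST

/-- structured pairs -/
def StrP (X : ℕ) (a : ℤ) (LL : Finset (ℤ × ℤ)) (e : ℤ) (g : ℕ) : Prop :=
  ∃ τ ∈ LL, (g : ℤ) ∣ τ.2 * a - τ.1 ∧ ∃ h : ℕ, 1 ≤ h ∧ (h : ℝ) ≤ (X : ℝ) ^ ((1 : ℝ) / 30) ∧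
    (h : ℤ) ∣ e ∧ e ∣ h * (τ.2 * a - τ.1)

/-- the list form of the structure theorem -/
def ListX : Prop :=
  ∃ X0 : ℕ, ∀ X : ℕ, X0 ≤ X → ∀ (a : ℤ) (G : ℕ) (GG : Finset ℕ), 2 ≤ G →
    (∀ g ∈ GG, g.Prime) → (∀ g ∈ GG, G ≤ g ∧ g ≤ G ^ 2) →
    ((GG.card : ℝ) * G ≤ (X : ℝ) ^ ((1 : ℝ) / 300)) → ∀ K0 : ℕ, 1 ≤ K0 →
    (256 * (GG.card : ℝ) * Real.log (2 * X) ≤ (K0 : ℝ) ^ 2 * Real.log G) →
    ∃ LL : Finset (ℤ × ℤ), LL.card * K0 ≤ 8 * GG.card ∧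
      (∀ τ ∈ LL, 1 ≤ τ.2 ∧ (τ.2 : ℝ) ≤ (X : ℝ) ^ ((1 : ℝ) / 30) ∧
        |(τ.1 : ℝ)| ≤ (X : ℝ) ^ ((31 : ℝ) / 30) ∧ IsCoprime τ.1 τ.2) ∧
      ∀ Y : ℕ, (X : ℝ) ^ ((1 : ℝ) / 2) ≤ Y → Y ≤ X →
        ∀ (R : ∀ g : ℕ, Finset (ZMod g)) (K : ℕ), K0 ≤ K →
        (1024 * (∑ g ∈ GG, (R g).card : ℕ) * Real.log (2 * X) ≤ (K : ℝ) ^ 2 * Real.log G) →
        ∀ (E : Finset ℕ) (P : ℕ → ℕ → Prop) [∀ e g, Decidable (P e g)],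
        (∀ e ∈ E, Y ≤ e ∧ e ≤ 2 * Y) →
        (∀ e ∈ E, ∀ g ∈ GG, P e g → ((a / (e : ℤ) : ℤ) : ZMod g) ∈ R g ∧
          ¬ (∃ τ ∈ LL, (g : ℤ) ∣ τ.2 * a - τ.1 ∧ ∃ h : ℕ, 1 ≤ h ∧
            (h : ℝ) ≤ (X : ℝ) ^ ((1 : ℝ) / 30) ∧
            h ∣ e ∧ (e : ℤ) ∣ h * (τ.2 * a - τ.1))) →
        (∀ e ∈ E, K ≤ (GG.filter (fun g => P e g)).card) →
        (E.card : ℝ) < (X : ℝ) ^ ((59 : ℝ) / 60)

/-- the tail bound for the modulus -/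
def TailP (K A : ℕ) : Prop :=
  ∃ c1 : ℝ, 0 < c1 ∧ ∃ X0 : ℝ, ∀ X : ℕ, X0 ≤ X → ∀ L : ℝ, L = Real.log X → ∀ S : Finset ℕ,
    S = (Finset.Ioc ⌊L / 400⌋₊ ⌊L ^ K⌋₊).filter Nat.Prime →
    ∀ p : ℕ → ℝ, (∀ q, p q = (c1 * L / Real.log L) / q) →
    (∀ q ∈ S, 0 < p q ∧ p q ≤ 1) ∧
    ∑ Q ∈ S.powerset with ⌊(X : ℝ) ^ ((1 : ℝ) / 100)⌋₊ < primorial ⌊L / 400⌋₊ * ∏ q ∈ Q, q,
      Pr S p Q ≤ 1 / L ^ A

/-- `ListHyp` for a class of `e` with the same `⌊X/e⌋`. -/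
lemma listHyp_of_listX (X : ℕ) (a : ℤ) (G : ℕ) (GG : Finset ℕ) (K0 : ℕ)
    (LL : Finset (ℤ × ℤ)) (hG1 : 0 < Real.log G) (hX2 : 2 ≤ X)
    (hLL : ∀ Y : ℕ, (X : ℝ) ^ ((1 : ℝ) / 2) ≤ Y → Y ≤ X →
        ∀ (R : ∀ g : ℕ, Finset (ZMod g)) (K : ℕ), K0 ≤ K →
        (1024 * (∑ g ∈ GG, (R g).card : ℕ) * Real.log (2 * X) ≤ (K : ℝ) ^ 2 * Real.log G) →
        ∀ (E : Finset ℕ) (P : ℕ → ℕ → Prop) [∀ e g, Decidable (P e g)],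
        (∀ e ∈ E, Y ≤ e ∧ e ≤ 2 * Y) →
        (∀ e ∈ E, ∀ g ∈ GG, P e g → ((a / (e : ℤ) : ℤ) : ZMod g) ∈ R g ∧
          ¬ (∃ τ ∈ LL, (g : ℤ) ∣ τ.2 * a - τ.1 ∧ ∃ h : ℕ, 1 ≤ h ∧
            (h : ℝ) ≤ (X : ℝ) ^ ((1 : ℝ) / 30) ∧
            h ∣ e ∧ (e : ℤ) ∣ h * (τ.2 * a - τ.1))) →
        (∀ e ∈ E, K ≤ (GG.filter (fun g => P e g)).card) →
        (E.card : ℝ) < (X : ℝ) ^ ((59 : ℝ) / 60))
    (H : ℕ) (hH1 : 1 ≤ H) (hHX : ((H : ℝ) + 1) * (X : ℝ) ^ ((1 : ℝ) / 2) ≤ X)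
    (EE : Finset ℕ) (hEE : ∀ e ∈ EE, 0 < e ∧ X / e = H) :
    ListHyp a (EE.map Nat.castEmbedding) GG (StrP X a LL) K0
      (1024 * Real.log (2 * X) / Real.log G) ((X : ℝ) ^ ((59 : ℝ) / 60)) := by
  classical
  intro R K hK hR EE' hEE' hT
  set E : Finset ℕ := EE.filter (fun e => (e : ℤ) ∈ EE') with hE
  have hcard : EE'.card = E.card := by
    have : EE' = E.map Nat.castEmbedding := by
      ext z
      rw [mem_map]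
      constructor
      · intro hz
        obtain ⟨e, he, hez⟩ := mem_map.1 (hEE' hz)
        refine ⟨e, ?_, hez⟩
        rw [hE, mem_filter]
        refine ⟨he, ?_⟩
        have : ((e : ℕ) : ℤ) = z := hez
        rw [this]; exact hz
      · rintro ⟨e, he, rfl⟩
        rw [hE, mem_filter] at he
        exact he.2
    rw [this, card_map]
  rw [hcard]
  set Y : ℕ := X / (H + 1) + 1 with hY
  have hXr : (0 : ℝ) < X := by exact_mod_cast (by omega : 0 < X)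
  have hY1 : (X : ℝ) ^ ((1 : ℝ) / 2) ≤ Y := by
    have h1 : (X : ℝ) / (H + 1) ≤ Y := by
      rw [div_le_iff₀ (by positivity)]
      have := Nat.lt_mul_div_succ X (show 0 < H + 1 by omega)
      have h2 : (X : ℝ) < ((H : ℝ) + 1) * Y := by
        rw [hY]
        exact_mod_cast this
      linarith
    refine le_trans ?_ h1
    rw [le_div_iff₀ (by positivity), mul_comm]
    exact hHX
  have hY2 : Y ≤ X := by
    have h1 : X / (H + 1) ≤ X / 2 := Nat.div_le_div_left (by omega) (by norm_num)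
    omega
  have hlog : 0 ≤ Real.log (2 * X) := Real.log_nonneg (by
    have : (2 : ℝ) ≤ X := by exact_mod_cast hX2
    linarith)
  refine (hLL Y hY1 hY2 R K hK ?_ E
    (fun e g => ((a / (e : ℤ) : ℤ) : ZMod g) ∈ R g ∧ ¬ StrP X a LL e g) ?_ ?_ ?_).le
  · rw [div_mul_eq_mul_div, div_le_iff₀ hG1] at hR
    push_cast
    linarith
  · intro e he
    obtain ⟨he0, heH⟩ := hEE e (mem_filter.1 he).1
    have h1 : X < e * (H + 1) := by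
      rw [← heH]; exact Nat.lt_mul_div_succ X he0
    have h2 : e * H ≤ X := by
      rw [← heH]; exact Nat.mul_div_le X e
    have h3 : X / (H + 1) < e := (Nat.div_lt_iff_lt_mul (by omega)).2 h1
    refine ⟨by omega, ?_⟩
    have h4 : X < (H + 1) * Y := Nat.lt_mul_div_succ X (by omega)
    -- e * H ≤ X < (H+1) Y ≤ 2 H Y
    have h5 : e * H < 2 * Y * H := by nlinarith
    exact (Nat.lt_of_mul_lt_mul_right h5).le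
  · intro e _ g _ hP
    refine ⟨hP.1, ?_⟩
    rintro ⟨τ, hτ, h1, h, h2, h3, h4, h5⟩
    exact hP.2 ⟨τ, hτ, h1, h, h2, h3, by exact_mod_cast h4, h5⟩
  · intro e he
    obtain ⟨T, hT1, hT2, hT3⟩ := hT e (mem_filter.1 he).2
    refine hT2.trans (card_le_card ?_)
    intro g hg
    rw [mem_filter]
    exact ⟨hT1 hg, hT3 g hg⟩

end Crest.Agent.R001.Uns
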