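import Crest.Agent.R001.Uns5

/-! R001, block UNS, part 6: one class, numerics. -/

set_option autoImplicit false

namespace Crest.Agent.R001.Uns

open Finset Crest.Agent.R001.Tree Crest.Agent.R001.EST

def GGp (G : ℕ) : Finset ℕ := (Icc G (2 * G)).filter Nat.Prime

lemma card_GGp_le (G : ℕ) (hG : 1 ≤ G) : ((GGp G).card : ℝ) ≤ 2 * G := by
  have h1 : (GGp G).card ≤ (Icc G (2 * G)).card := card_filter_le _ _
  rw [Nat.card_Icc] at h1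
  have h2 : (GGp G).card ≤ 2 * G := by omega
  exact_mod_cast h2

/-- largeness facts -/
structure Big (C K A : ℕ) (c1 : ℝ) (X : ℕ) : Prop where
  X2 : 2 ≤ X
  f1 : 106496 ≤ Real.log X
  f2 : (1 + (C + K : ℕ) * Real.log (Real.log X)) ^ 3 ≤ Real.log X
  f3 : Real.log X ≤ (c1 * Real.log X / Real.log (Real.log X)) ^ 2
  f4 : c1 * Real.log X / Real.log (Real.log X) ≤ ⌊Real.log X / 400⌋₊
  f5 : 24 * Real.log X ^ (2 * C + 3 * K) ≤ (X : ℝ) ^ ((1 : ℝ) / 2000)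
  f6 : 1 + 2 * ((2 * C + 2 * K + A + 3 : ℕ) * Real.log (Real.log X)) ≤ Real.log X
  f9 : 2 ≤ (X : ℝ) ^ ((1 : ℝ) / 750)

open Filter in
lemma log_pow_le (k : ℕ) (c s : ℝ) (hc : 0 < c) (hs : 0 < s) :
    ∀ᶠ x : ℝ in atTop, Real.log x ^ k ≤ c * x ^ s := by
  have h1 := (isLittleO_log_rpow_rpow_atTop (k : ℝ) hs).def hc
  filter_upwards [h1, eventually_ge_atTop 1] with x hx hx1
  rw [Real.norm_eq_abs, Real.norm_eq_abs, abs_of_nonneg (by positivity : (0:ℝ) ≤ x ^ s),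
    Real.rpow_natCast] at hx
  exact (le_abs_self _).trans hx

open Filter in
lemma eventually_big (C K A : ℕ) (c1 : ℝ) (hc1 : 0 < c1) :
    ∀ᶠ X : ℕ in atTop, Big C K A c1 X := by
  have hcast : Tendsto (fun X : ℕ => (X : ℝ)) atTop atTop := tendsto_natCast_atTop_atTop
  have hL : Tendsto (fun X : ℕ => Real.log (X : ℝ)) atTop atTop :=
    Real.tendsto_log_atTop.comp hcast
  have hl : Tendsto (fun X : ℕ => Real.log (Real.log (X : ℝ))) atTop atTop :=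
    Real.tendsto_log_atTop.comp hL
  set m := C + K with hm
  set m' := 2 * C + 2 * K + A + 3 with hm'
  have hp : Tendsto (fun X : ℕ => (X : ℝ) ^ ((1 : ℝ) / 750)) atTop atTop :=
    (tendsto_rpow_atTop (by norm_num)).comp hcast
  have a2 := hL.eventually (log_pow_le 3 (1 / (1 + (m : ℝ)) ^ 3) 1 (by positivity) one_pos)
  have a3 := hL.eventually (log_pow_le 2 (c1 ^ 2) 1 (by positivity) one_pos)
  have a4 := hl.eventually_ge_atTop (800 * c1)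
  have a5 := hcast.eventually (log_pow_le (2 * C + 3 * K) (1 / 24) ((1 : ℝ) / 2000)
    (by norm_num) (by norm_num))
  have a6 := hL.eventually (log_pow_le 1 (1 / (4 * (m' : ℝ) + 4)) 1 (by positivity) one_pos)
  filter_upwards [eventually_ge_atTop 2, hL.eventually_ge_atTop 106496, hl.eventually_ge_atTop 1,
    a2, a3, a4, a5, a6, hp.eventually_ge_atTop 2] with X b0 b1 bl b2 b3 b4 b5 b6 b9
  set L := Real.log (X : ℝ) with hLdef
  set l := Real.log L with hldef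
  have hL0 : 0 < L := by linarith
  have hl0 : 0 < l := by linarith
  simp only [Real.rpow_one] at b2 b3 b6
  refine ⟨b0, b1, ?_, ?_, ?_, ?_, ?_, b9⟩
  · have h1 : 1 + (m : ℝ) * l ≤ (1 + m) * l := by nlinarith [Nat.cast_nonneg (α := ℝ) m]
    calc (1 + (m : ℝ) * l) ^ 3 ≤ ((1 + m) * l) ^ 3 := by
          apply pow_le_pow_left₀ (by positivity) h1
      _ = (1 + (m : ℝ)) ^ 3 * l ^ 3 := by ring
      _ ≤ (1 + (m : ℝ)) ^ 3 * (1 / (1 + (m : ℝ)) ^ 3 * L) := by gcongr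
      _ = L := by field_simp
  · rw [div_pow, le_div_iff₀ (by positivity)]
    calc L * l ^ 2 ≤ L * (c1 ^ 2 * L) := by gcongr
      _ = (c1 * L) ^ 2 := by ring
  · have h1 : c1 * L / l ≤ L / 800 := by
      rw [div_le_iff₀ hl0]
      have : L / 800 * l ≥ L / 800 * (800 * c1) := by gcongr
      linarith
    have h2 := Nat.lt_floor_add_one (L / 400)
    linarith
  · have : 24 * L ^ (2 * C + 3 * K) ≤ 24 * (1 / 24 * (X : ℝ) ^ ((1 : ℝ) / 2000)) := by gcongr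
    linarith
  · rw [pow_one] at b6
    have h1 : (m' : ℝ) * l ≤ m' * (1 / (4 * (m' : ℝ) + 4) * L) := by gcongr
    have h2 : (m' : ℝ) * (1 / (4 * (m' : ℝ) + 4) * L) ≤ L / 4 := by
      have : (m' : ℝ) * (1 / (4 * (m' : ℝ) + 4)) ≤ 1 / 4 := by
        rw [mul_one_div, div_le_div_iff₀ (by positivity) (by norm_num)]
        linarith
      calc (m' : ℝ) * (1 / (4 * (m' : ℝ) + 4) * L) = (m' * (1 / (4 * (m' : ℝ) + 4))) * L := by ring
        _ ≤ 1 / 4 * L := by gcongr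
        _ = L / 4 := by ring
    linarith

/-- choice of the number of levels -/
lemma exists_levels (τ : ℝ) : ∃ n : ℕ, τ ≤ 2 ^ n ∧ (2 : ℝ) ^ n ≤ 2 * max τ 1 ∧
    (n : ℝ) ≤ 1 + 2 * Real.log (max τ 1) := by
  obtain ⟨n, h1, h2⟩ := exists_nat_pow_near (le_max_right τ 1) (one_lt_two (α := ℝ))
  refine ⟨n + 1, (le_max_left τ 1).trans h2.le, ?_, ?_⟩
  · rw [pow_succ]; linarith
  · have h3 : (n : ℝ) * Real.log 2 ≤ Real.log (max τ 1) := by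
      rw [← Real.log_pow]
      exact Real.log_le_log (by positivity) h1
    have h4 := Real.log_two_gt_d9
    have h5 : (0 : ℝ) ≤ n := Nat.cast_nonneg n
    push_cast
    nlinarith

/-- sizes (i) -/
lemma sizes1 (C K κ κ0 C1 : ℕ) (L G H N y : ℝ) (hκ : 1 ≤ κ) (hCκ : C ≤ κ)
    (hκ0 : C + K + 2 ≤ κ0)
    (hC1 : 2 * κ0 + 3 ≤ C1) (f1 : 106496 ≤ L) (hG1 : L ^ C1 ≤ 2 * G)
    (hH1 : 2 * G * L ^ κ ≤ L ^ C * H) (hH2 : H ≤ 2 * G * L ^ K) (hN : N = H / G)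
    (hy : y = L ^ C * H / (2 * G)) :
    L ^ (2 * κ0 + 2) ≤ G ∧ 0 < G ∧ H = N * G ∧ 1 ≤ N ∧ N ≤ 2 * L ^ K ∧ y = L ^ C * N / 2 ∧
      L ^ κ ≤ y ∧ y ≤ L ^ (C + K) ∧ 1 < y ∧ 2 * H + 12 * G ^ 2 ≤ 13 * G ^ 2 ∧ y ^ 2 ≤ H := by
  have hL0 : 0 < L := by linarith
  have hL1 : 1 ≤ L := by linarith
  have hG4 : L ^ (2 * κ0 + 2) ≤ G := by
    have h1 : L ^ (2 * κ0 + 3) ≤ L ^ C1 := pow_le_pow_right₀ hL1 hC1
    have h2 : L ^ (2 * κ0 + 3) = L ^ (2 * κ0 + 2) * L := by rw [← pow_succ]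
    have h3 : 0 < L ^ (2 * κ0 + 2) := by positivity
    nlinarith
  have hG0 : 0 < G := lt_of_lt_of_le (by positivity) hG4
  have hHN : H = N * G := by rw [hN]; field_simp
  have hN1 : 2 * L ^ κ ≤ L ^ C * N := by
    rw [hN, ← mul_div_assoc, le_div_iff₀ hG0]
    linarith
  have hLC : 0 < L ^ C := by positivity
  have hN1' : 1 ≤ N := by
    have h1 : L ^ C ≤ L ^ κ := pow_le_pow_right₀ hL1 hCκ
    by_contra hcon
    push Not at hcon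
    nlinarith
  have hN2 : N ≤ 2 * L ^ K := by
    rw [hN, div_le_iff₀ hG0]; linarith
  have hyN : y = L ^ C * N / 2 := by rw [hy, hN]; field_simp
  have hyκ : L ^ κ ≤ y := by rw [hyN]; linarith
  have hyK : y ≤ L ^ (C + K) := by
    rw [hyN, pow_add]
    nlinarith
  have hLκ : L ≤ L ^ κ := by
    calc L = L ^ 1 := (pow_one L).symm
      _ ≤ L ^ κ := pow_le_pow_right₀ hL1 hκ
  have hy1 : 1 < y := by linarith
  have hGG : 2 * H ≤ G ^ 2 := by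
    have h1 : 4 * L ^ K ≤ G := by
      refine le_trans ?_ hG4
      have h2 : L ^ (K + 1) ≤ L ^ (2 * κ0 + 2) := pow_le_pow_right₀ hL1 (by omega)
      have h3 : L ^ (K + 1) = L ^ K * L := pow_succ _ _
      have h4 : 0 < L ^ K := by positivity
      nlinarith
    nlinarith
  have hyH : y ^ 2 ≤ H := by
    calc y ^ 2 ≤ (L ^ (C + K)) ^ 2 := pow_le_pow_left₀ (by linarith) hyK 2
      _ = L ^ ((C + K) * 2) := (pow_mul _ _ _).symm
      _ ≤ L ^ (2 * κ0 + 2) := pow_le_pow_right₀ hL1 (by omega)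
      _ ≤ G := hG4
      _ ≤ H := by rw [hHN]; nlinarith
  exact ⟨hG4, hG0, hHN, hN1', hN2, hyN, hyκ, hyK, hy1, by linarith, hyH⟩

/-- sizes (ii): logarithms -/
lemma sizes2 (C K : ℕ) (L H y l : ℝ) (hl : l = Real.log L) (f1 : 106496 ≤ L)
    (f2 : (1 + (C + K : ℕ) * l) ^ 3 ≤ L) (hy1 : 1 < y) (hyK : y ≤ L ^ (C + K)) (hH : 0 ≤ H)
    (hyH : y ^ 2 ≤ H) :
    4 * (H * (1 + Real.log y) ^ 3 + y ^ 2) ≤ 8 * (H * L) ∧
      0 ≤ 4 * (H * (1 + Real.log y) ^ 3 + y ^ 2) := by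
  have hL0 : 0 < L := by linarith
  have hly0 : 0 ≤ Real.log y := Real.log_nonneg hy1.le
  have hly : Real.log y ≤ (C + K : ℕ) * l := by
    rw [hl, ← Real.log_pow]
    exact Real.log_le_log (by linarith) hyK
  have h3 : (1 + Real.log y) ^ 3 ≤ L :=
    le_trans (pow_le_pow_left₀ (by linarith) (by linarith) 3) f2
  constructor
  · have h4 : H * (1 + Real.log y) ^ 3 ≤ H * L := mul_le_mul_of_nonneg_left h3 hH
    have h5 : H ≤ H * L := by nlinarith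
    linarith
  · positivity

/-- sizes (iii): the number of levels -/
lemma sizes3 (C K A : ℕ) (L G H N y B0 l : ℝ) (hl : l = Real.log L) (f1 : 106496 ≤ L)
    (f6 : 1 + 2 * ((2 * C + 2 * K + A + 3 : ℕ) * l) ≤ L) (hG : 0 < G) (hHN : H = N * G)
    (hN1 : 1 ≤ N) (hy1 : 1 < y) (hyK : y ≤ L ^ (C + K)) (hB0 : 1 ≤ B0) :
    ∃ n : ℕ, y ^ 2 / B0 * (2 * (H / G) + 1) ≤ 2 ^ n * (N / L ^ (A + 2)) ∧
      2 ^ n * (N / L ^ (A + 2)) ≤ 6 * y ^ 2 * N ∧ (n : ℝ) ≤ L := by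
  have hL0 : 0 < L := by linarith
  have hL1 : 1 ≤ L := by linarith
  have hN0 : 0 < N := by linarith
  have hHG : H / G = N := by rw [hHN]; field_simp
  rw [hHG]
  obtain ⟨t0, ht0⟩ : ∃ t0, t0 = N / L ^ (A + 2) := ⟨_, rfl⟩
  rw [← ht0]
  have ht0' : 0 < t0 := by rw [ht0]; positivity
  have hLA : 1 ≤ L ^ (A + 2) := one_le_pow₀ hL1
  have ht0N : t0 ≤ N := by rw [ht0]; exact div_le_self hN0.le hLA
  obtain ⟨τ, hτ⟩ : ∃ τ, τ = y ^ 2 / B0 * (2 * N + 1) / t0 := ⟨_, rfl⟩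
  have hτ0 : y ^ 2 / B0 * (2 * N + 1) = τ * t0 := by rw [hτ]; field_simp
  rw [hτ0]
  obtain ⟨n, h1, h2, h3⟩ := exists_levels τ
  have hy2 : 1 ≤ y ^ 2 := one_le_pow₀ hy1.le
  have hyB : y ^ 2 / B0 ≤ y ^ 2 := div_le_self (by positivity) hB0
  refine ⟨n, mul_le_mul_of_nonneg_right h1 ht0'.le, ?_, ?_⟩
  · have h4 : 2 * max τ 1 * t0 ≤ 6 * y ^ 2 * N := by
      rcases le_total τ 1 with h | h
      · rw [max_eq_right h]
        nlinarith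
      · rw [max_eq_left h]
        calc 2 * τ * t0 = 2 * (y ^ 2 / B0 * (2 * N + 1)) := by rw [hτ0]; ring
          _ ≤ 2 * (y ^ 2 * (3 * N)) := by
              have : 2 * N + 1 ≤ 3 * N := by linarith
              gcongr
          _ = 6 * y ^ 2 * N := by ring
    exact (mul_le_mul_of_nonneg_right h2 ht0'.le).trans h4
  · have h5 : max τ 1 ≤ L ^ (2 * C + 2 * K + A + 3) := by
      apply max_le
      · rw [hτ, div_le_iff₀ ht0', ht0]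
        calc y ^ 2 / B0 * (2 * N + 1) ≤ y ^ 2 * (3 * N) := by
              have : 2 * N + 1 ≤ 3 * N := by linarith
              gcongr
          _ ≤ (L ^ (C + K)) ^ 2 * (L * N) := by
              have h6 : 3 * N ≤ L * N := by nlinarith
              gcongr
          _ = L ^ (2 * C + 2 * K + A + 3) * (N / L ^ (A + 2)) := by
              have e : L ^ (2 * C + 2 * K + A + 3) = (L ^ (C + K)) ^ 2 * L * L ^ (A + 2) := by ring
              rw [e]; field_simp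
      · exact one_le_pow₀ hL1
    have h6 : Real.log (max τ 1) ≤ (2 * C + 2 * K + A + 3 : ℕ) * l := by
      rw [hl, ← Real.log_pow]
      exact Real.log_le_log (by positivity) h5
    linarith

/-- sizes (iv): thresholds -/
lemma sizes4 (κ0 : ℕ) (L G : ℝ) (f1 : 106496 ≤ L) (hG4 : L ^ (2 * κ0 + 2) ≤ G) :
    3 ≤ G ∧ 1 ≤ Real.log G ∧ 1 ≤ ⌊G / L ^ κ0⌋₊ ∧
      ((⌊G / L ^ κ0⌋₊ : ℕ) : ℝ) + 1 ≤ 2 * G / L ^ κ0 ∧
      G / (2 * L ^ κ0) ≤ ((⌊G / L ^ κ0⌋₊ : ℕ) : ℝ) ∧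
      4096 * (G * L) ≤ (G / (2 * L ^ κ0)) ^ 2 * 4 := by
  have hL0 : 0 < L := by linarith
  have hL1 : 1 ≤ L := by linarith
  have h1 : L ^ 2 ≤ L ^ (2 * κ0 + 2) := pow_le_pow_right₀ hL1 (by omega)
  have hG3 : 3 ≤ G := by nlinarith
  have hG0 : 0 < G := by linarith
  have hlogG : 1 ≤ Real.log G := by
    rw [Real.le_log_iff_exp_le hG0]
    have := Real.exp_one_lt_d9
    linarith
  have hLκ : 0 < L ^ κ0 := by positivity
  have hLκ1 : 1 ≤ L ^ κ0 := one_le_pow₀ hL1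
  obtain ⟨x, hx⟩ : ∃ x, x = G / L ^ κ0 := ⟨_, rfl⟩
  have hGx : G = x * L ^ κ0 := by rw [hx]; field_simp
  have hx2 : 2 ≤ x := by
    rw [hx, le_div_iff₀ hLκ]
    have h2 : L ^ (2 * κ0 + 2) = L ^ κ0 * (L ^ κ0 * L ^ 2) := by ring
    have h3 : 2 ≤ L ^ κ0 * L ^ 2 := by nlinarith
    nlinarith
  have hfl1 : (1 : ℝ) ≤ ((⌊x⌋₊ : ℕ) : ℝ) := by
    have : 1 ≤ ⌊x⌋₊ := Nat.le_floor (by push_cast; linarith)
    exact_mod_cast this
  have hfl2 : ((⌊x⌋₊ : ℕ) : ℝ) ≤ x := Nat.floor_le (by linarith)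
  have hfl3 : x < ((⌊x⌋₊ : ℕ) : ℝ) + 1 := Nat.lt_floor_add_one x
  rw [← hx]
  refine ⟨hG3, hlogG, by exact_mod_cast hfl1, ?_, ?_, ?_⟩
  · have : 2 * G / L ^ κ0 = 2 * x := by rw [hx]; ring
    rw [this]; linarith
  · have : G / (2 * L ^ κ0) = x / 2 := by rw [hx]; field_simp
    rw [this]; linarith
  · have : (G / (2 * L ^ κ0)) ^ 2 * 4 = x * G / L ^ κ0 := by
      rw [hx]; field_simp; ring
    rw [this, le_div_iff₀ hLκ]
    have h5 : L ^ (2 * κ0 + 2) ≤ x * L ^ κ0 := by rw [← hGx]; exact hG4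
    have h6 : L ^ (2 * κ0 + 2) = (L ^ κ0 * L ^ 2) * L ^ κ0 := by ring
    rw [h6] at h5
    have h7 : L ^ κ0 * L ^ 2 ≤ x := le_of_mul_le_mul_right h5 hLκ
    calc 4096 * (G * L) * L ^ κ0 ≤ (L ^ κ0 * L ^ 2) * G := by
          have h8 : 4096 * L ≤ L ^ 2 := by nlinarith
          calc 4096 * (G * L) * L ^ κ0 = (4096 * L) * (L ^ κ0 * G) := by ring
            _ ≤ L ^ 2 * (L ^ κ0 * G) := by gcongr
            _ = _ := by ring
      _ ≤ x * G := by gcongr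

/-- sizes (v): the exceptional part -/
lemma sizes5 (C K : ℕ) (X : ℕ) (hX : 1 ≤ X) (L G N y T cG : ℝ) (hL0 : 0 < L)
    (f5 : 24 * L ^ (2 * C + 3 * K) ≤ (X : ℝ) ^ ((1 : ℝ) / 2000))
    (_hG : 0 ≤ G) (hG2 : G ≤ (X : ℝ) ^ ((1 : ℝ) / 1000)) (hN0 : 0 ≤ N) (hN2 : N ≤ 2 * L ^ K)
    (hy0 : 0 ≤ y) (hyK : y ≤ L ^ (C + K)) (hT : T ≤ 6 * y ^ 2 * N) (_hT0 : 0 ≤ T)
    (hcG : cG ≤ 2 * G) (hcG0 : 0 ≤ cG) :
    T * (((⌊(X : ℝ) ^ ((1 : ℝ) / 100)⌋₊ : ℕ) : ℝ) * (X : ℝ) ^ ((59 : ℝ) / 60) * cG) ≤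
      (X : ℝ) ^ ((995 : ℝ) / 1000) := by
  have hX1 : (1 : ℝ) ≤ X := by exact_mod_cast hX
  have hX0 : (0 : ℝ) < X := by linarith
  have h1 : ((⌊(X : ℝ) ^ ((1 : ℝ) / 100)⌋₊ : ℕ) : ℝ) ≤ (X : ℝ) ^ ((1 : ℝ) / 100) :=
    Nat.floor_le (by positivity)
  have h2 : T ≤ 12 * L ^ (2 * C + 3 * K) := by
    calc T ≤ 6 * y ^ 2 * N := hT
      _ ≤ 6 * (L ^ (C + K)) ^ 2 * (2 * L ^ K) := by gcongr
      _ = _ := by ring
  calc T * (((⌊(X : ℝ) ^ ((1 : ℝ) / 100)⌋₊ : ℕ) : ℝ) * (X : ℝ) ^ ((59 : ℝ) / 60) * cG)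
      ≤ (12 * L ^ (2 * C + 3 * K)) * ((X : ℝ) ^ ((1 : ℝ) / 100) * (X : ℝ) ^ ((59 : ℝ) / 60) *
          (2 * (X : ℝ) ^ ((1 : ℝ) / 1000))) := by
        gcongr
        linarith
    _ = (24 * L ^ (2 * C + 3 * K)) * ((X : ℝ) ^ ((1 : ℝ) / 100) * (X : ℝ) ^ ((59 : ℝ) / 60) *
          (X : ℝ) ^ ((1 : ℝ) / 1000)) := by ring
    _ ≤ (X : ℝ) ^ ((1 : ℝ) / 2000) * ((X : ℝ) ^ ((1 : ℝ) / 100) * (X : ℝ) ^ ((59 : ℝ) / 60) *
          (X : ℝ) ^ ((1 : ℝ) / 1000)) := by gcongr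
    _ = (X : ℝ) ^ ((1 : ℝ) / 2000 + ((1 : ℝ) / 100 + (59 : ℝ) / 60 + (1 : ℝ) / 1000)) := by
        rw [← Real.rpow_add hX0, ← Real.rpow_add hX0, ← Real.rpow_add hX0]
    _ ≤ _ := Real.rpow_le_rpow_of_exponent_le hX1 (by norm_num)

end Crest.Agent.R001.Uns
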