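import Crest.Agent.R001.Uns6

/-! R001, block UNS, part 7: the class bound. -/

set_option autoImplicit false

namespace Crest.Agent.R001.Uns

open Finset Crest.Agent.R001.Tree Crest.Agent.R001.EST

/-- the second half of `ListX` for a given list -/
def ListProp (X : ℕ) (a : ℤ) (G : ℕ) (GG : Finset ℕ) (K0 : ℕ) (LL : Finset (ℤ × ℤ)) : Prop :=
  ∀ Y : ℕ, (X : ℝ) ^ ((1 : ℝ) / 2) ≤ Y → Y ≤ X →
        ∀ (R : ∀ g : ℕ, Finset (ZMod g)) (K' : ℕ), K0 ≤ K' →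
        (1024 * (∑ g ∈ GG, (R g).card : ℕ) * Real.log (2 * X) ≤ (K' : ℝ) ^ 2 * Real.log G) →
        ∀ (E : Finset ℕ) (P : ℕ → ℕ → Prop) [∀ e g, Decidable (P e g)],
        (∀ e ∈ E, Y ≤ e ∧ e ≤ 2 * Y) →
        (∀ e ∈ E, ∀ g ∈ GG, P e g → ((a / (e : ℤ) : ℤ) : ZMod g) ∈ R g ∧
          ¬ (∃ τ ∈ LL, (g : ℤ) ∣ τ.2 * a - τ.1 ∧ ∃ h : ℕ, 1 ≤ h ∧
            (h : ℝ) ≤ (X : ℝ) ^ ((1 : ℝ) / 30) ∧
            h ∣ e ∧ (e : ℤ) ∣ h * (τ.2 * a - τ.1))) →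
        (∀ e ∈ E, K' ≤ (GG.filter (fun g => P e g)).card) →
        (E.card : ℝ) < (X : ℝ) ^ ((59 : ℝ) / 60)

lemma log_two_mul_le (X : ℕ) (hX : 2 ≤ X) : Real.log (2 * X) ≤ 2 * Real.log X := by
  have h2 : (2 : ℝ) ≤ X := by exact_mod_cast hX
  have h0 : (0 : ℝ) < X := by linarith
  rw [two_mul (Real.log (X : ℝ)), ← Real.log_mul h0.ne' h0.ne']
  apply Real.log_le_log (by positivity)
  nlinarith

lemma one_le_of_sq (L Lam : ℝ) (hL : 1 ≤ L) (h0 : 0 < Lam) (h : L ≤ Lam ^ 2) : 1 ≤ Lam := by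
  by_contra hcon
  push Not at hcon
  nlinarith

lemma adm_aux (y : ℝ) (w : ℕ) (hw : (w : ℝ) ^ 2 ≤ y) : Adm y 1 w := by
  intro p hp
  have h1 : (p : ℝ) < w := by exact_mod_cast lt_of_mem_pr hp
  have h2 : (0 : ℝ) ≤ p := Nat.cast_nonneg p
  push_cast
  nlinarith

lemma HX_aux (C K X : ℕ) (hX : 1 ≤ X) (L G H : ℝ) (hL1 : 1 ≤ L) (hG : 1 ≤ G)
    (f5 : 24 * L ^ (2 * C + 3 * K) ≤ (X : ℝ) ^ ((1 : ℝ) / 2000))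
    (hG2 : G ≤ (X : ℝ) ^ ((1 : ℝ) / 1000)) (hH2 : H ≤ 2 * G * L ^ K) :
    (H + 1) * (X : ℝ) ^ ((1 : ℝ) / 2) ≤ X := by
  have hX1 : (1 : ℝ) ≤ X := by exact_mod_cast hX
  have hXr : (0 : ℝ) < X := by linarith
  have hLK : 1 ≤ L ^ K := one_le_pow₀ hL1
  have h1 : H + 1 ≤ 4 * G * L ^ K := by nlinarith
  have h2 : 4 * L ^ K ≤ 24 * L ^ (2 * C + 3 * K) := by
    have : L ^ K ≤ L ^ (2 * C + 3 * K) := pow_le_pow_right₀ hL1 (by omega)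
    linarith
  calc (H + 1) * (X : ℝ) ^ ((1 : ℝ) / 2) ≤ (4 * G * L ^ K) * (X : ℝ) ^ ((1 : ℝ) / 2) := by
        gcongr
    _ = (4 * L ^ K) * (G * (X : ℝ) ^ ((1 : ℝ) / 2)) := by ring
    _ ≤ (X : ℝ) ^ ((1 : ℝ) / 2000) * ((X : ℝ) ^ ((1 : ℝ) / 1000) * (X : ℝ) ^ ((1 : ℝ) / 2)) := by
        have := h2.trans f5
        gcongr
    _ = (X : ℝ) ^ ((1 : ℝ) / 2000 + ((1 : ℝ) / 1000 + (1 : ℝ) / 2)) := by
        rw [← Real.rpow_add hXr, ← Real.rpow_add hXr]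
    _ ≤ (X : ℝ) ^ (1 : ℝ) := Real.rpow_le_rpow_of_exponent_le hX1 (by norm_num)
    _ = X := Real.rpow_one _

lemma Lf_aux (x lg L : ℝ) (h0 : 0 ≤ x) (hx : x ≤ 2 * L) (hlg : 1 ≤ lg) (_hL : 0 ≤ L) :
    1024 * x / lg ≤ 2048 * L := by
  rw [div_le_iff₀ (by linarith)]
  nlinarith

open Classical in
/-- one class -/
theorem cls_num (C K A κ : ℕ)
    (hκ1 : (C + 2 * A + 8) * (2 * 3 ^ (2 * (C + 2 * A + 8))) ≤ κ) (hCκ : C ≤ κ)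
    (c1 : ℝ) (C1 : ℕ) (hC1 : 2 * (2 * C + 2 * K + A + 3) + 3 ≤ C1) (X : ℕ)
    (hbig : Big C K A c1 X) (hc1 : 0 < c1) (L : ℝ) (hL : L = Real.log X)
    (htail : ∑ Q ∈ (SP ⌊L / 400⌋₊ ⌊L ^ K⌋₊).powerset with
      ⌊(X : ℝ) ^ ((1 : ℝ) / 100)⌋₊ < primorial ⌊L / 400⌋₊ * ∏ q ∈ Q, q,
      Pr (SP ⌊L / 400⌋₊ ⌊L ^ K⌋₊) (fun q => (c1 * L / Real.log L) / q) Q ≤
        1 / L ^ (2 * C + 2 * K + A + 3))
    (a : ℤ) (G : ℕ) (hG1 : L ^ C1 ≤ 2 * G) (hG2 : (G : ℝ) ≤ (X : ℝ) ^ ((1 : ℝ) / 1000))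
    (LL : Finset (ℤ × ℤ))
    (hLL : ListProp X a G (GGp G) ⌊(G : ℝ) / L ^ (2 * C + 2 * K + A + 3)⌋₊ LL)
    (H w : ℕ) (hH1 : 2 * G * L ^ κ ≤ L ^ C * H) (hH2 : (H : ℝ) ≤ 2 * G * L ^ K)
    (hw1 : (w : ℝ) ≤ L ^ K) (hw2 : (w : ℝ) ^ 2 ≤ L ^ C * H / (2 * G))
    (EE : Finset ℕ) (hEE : ∀ e ∈ EE, 0 < e ∧ X / e = H) :
    ∑ e ∈ EE.map Nat.castEmbedding, ∑ g ∈ GGp G with ¬ StrP X a LL e g,
      |dev (W (L ^ C * H / (2 * G)) w) (a / e) H g| ≤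
      EE.card * H / L ^ A + (X : ℝ) ^ ((995 : ℝ) / 1000) := by
  obtain ⟨hX2, f1, f2, f3, f4, f5, f6, f9⟩ := hbig
  rw [← hL] at f1 f2 f3 f4 f5 f6
  obtain ⟨l, hl⟩ : ∃ l, l = Real.log L := ⟨_, rfl⟩
  rw [← hl] at f2 f3 f4 f6 htail
  have hL0 : 0 < L := by linarith
  have hL1 : 1 ≤ L := by linarith
  have hl0 : 0 < l := by
    rw [hl]
    exact Real.log_pos (by linarith)
  obtain ⟨Lam, hLam⟩ : ∃ Lam, Lam = c1 * L / l := ⟨_, rfl⟩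
  have hLam0 : 0 < Lam := by rw [hLam]; positivity
  rw [← hLam] at f3 f4 htail
  have hXr : (0 : ℝ) < X := by exact_mod_cast (by omega : 0 < X)
  have hX1 : (1 : ℝ) ≤ X := by exact_mod_cast (by omega : 1 ≤ X)
  have hκpos : 1 ≤ κ := by
    have : 0 < (C + 2 * A + 8) * (2 * 3 ^ (2 * (C + 2 * A + 8))) := by positivity
    omega
  obtain ⟨κ0, hκ0⟩ : ∃ κ0, κ0 = 2 * C + 2 * K + A + 3 := ⟨_, rfl⟩
  rw [← hκ0] at hC1 htail hLL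
  obtain ⟨N, hN⟩ : ∃ N : ℝ, N = (H : ℝ) / G := ⟨_, rfl⟩
  obtain ⟨y, hy⟩ : ∃ y : ℝ, y = L ^ C * H / (2 * G) := ⟨_, rfl⟩
  rw [← hy] at hw2 ⊢
  obtain ⟨hG4, hG0, hHN, hN1, hN2, hyN, hyκ, hyK, hy1, hHG, hyH⟩ :=
    sizes1 C K κ κ0 C1 L G H N y hκpos hCκ (by omega) hC1 f1 hG1 hH1 hH2 hN hy
  obtain ⟨hS1, hS2⟩ := sizes2 C K L H y l hl f1 f2 hy1 hyK (Nat.cast_nonneg H) hyH
  obtain ⟨b0, hb0⟩ : ∃ b0, b0 = C + 2 * A + 8 := ⟨_, rfl⟩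
  have hB01 : 1 ≤ L ^ b0 := one_le_pow₀ hL1
  obtain ⟨n, hn1, hn2, hn3⟩ := sizes3 C K A L G H N y (L ^ b0) l hl f1 f6 hG0 hHN hN1 hy1 hyK hB01
  obtain ⟨hG3, hlogG, hK01, hK02, hK03, hK04⟩ := sizes4 κ0 L G f1 hG4
  have hGn : 0 < G := by exact_mod_cast hG0
  have hN0 : 0 < N := by linarith
  have hH0 : 0 < (H : ℝ) := by rw [hHN]; positivity
  have hlog2X : Real.log (2 * X) ≤ 2 * L := by
    rw [hL]; exact log_two_mul_le X hX2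
  have hlog2X0 : 0 ≤ Real.log (2 * X) := Real.log_nonneg (by linarith)
  have hcG := card_GGp_le G hGn
  -- Lam
  have hLam1 : 1 ≤ Lam := one_le_of_sq L Lam hL1 hLam0 f3
  have hLamk : L ^ b0 ≤ Lam ^ (2 * b0) := by
    rw [pow_mul]
    exact pow_le_pow_left₀ hL0.le f3 b0
  have hyB : (L ^ b0) ^ (2 * 3 ^ (2 * b0)) ≤ y := by
    rw [← pow_mul]
    refine le_trans (pow_le_pow_right₀ hL1 ?_) hyκ
    rw [hb0]; exact hκ1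
  have hAdm : Adm y 1 w := adm_aux y w hw2
  have hwZ : w ≤ ⌊L ^ K⌋₊ + 1 := (Nat.le_floor hw1).trans (Nat.le_succ _)
  -- ListHyp
  have hHX : ((H : ℝ) + 1) * (X : ℝ) ^ ((1 : ℝ) / 2) ≤ X :=
    HX_aux C K X (by omega) L G H hL1 (by linarith) f5 hG2 hH2
  have hH1n : 1 ≤ H := by
    exact Nat.one_le_iff_ne_zero.2 (fun h => by rw [h] at hH0; simp at hH0)
  have hLH := listHyp_of_listX X a G (GGp G) ⌊(G : ℝ) / L ^ κ0⌋₊ LL (by linarith) hX2 hLL H hH1n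
    hHX EE hEE
  have hLf0 : 0 ≤ 1024 * Real.log (2 * X) / Real.log G := by positivity
  have hLf : 1024 * Real.log (2 * X) / Real.log G ≤ 2048 * L :=
    Lf_aux _ _ L hlog2X0 hlog2X hlogG hL0.le
  have hGG : ∀ g ∈ GGp G, g.Prime := fun g hg => (mem_filter.1 hg).2
  have hGG2 : ∀ g ∈ GGp G, G ≤ g ∧ g ≤ 2 * G := fun g hg => mem_Icc.1 (mem_filter.1 hg).1
  have hmain := cls y w ⌊L / 400⌋₊ ⌊L ^ K⌋₊ Lam (L ^ b0) (2 * b0) hAdm hy1 hLam1 f4 hB01 hLamk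
    hyB hwZ a (EE.map Nat.castEmbedding) (GGp G) hGG G hGn hGG2 (StrP X a LL)
    ⌊(G : ℝ) / L ^ κ0⌋₊ (1024 * Real.log (2 * X) / Real.log G) ((X : ℝ) ^ ((59 : ℝ) / 60)) hLf0
    (by positivity) hLH H ⌊(X : ℝ) ^ ((1 : ℝ) / 100)⌋₊ (1 / L ^ κ0) htail (N / L ^ (A + 2))
    (by positivity) n hn1 (H / L ^ (A + 2)) (by positivity)
  have hT0 : (0 : ℝ) ≤ 2 ^ n * (N / L ^ (A + 2)) := by positivity
  have hexc := sizes5 C K X (by omega) L G N y (2 ^ n * (N / L ^ (A + 2))) (GGp G).card hL0 f5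
    hG0.le hG2 hN0.le hN2 (by linarith) hyK hn2 hT0 hcG (Nat.cast_nonneg _)
  have hnum := num_all C K A L G N H y (1024 * Real.log (2 * X) / Real.log G) (Real.log y) n
    (EE.map (Nat.castEmbedding (R := ℤ))).card (GGp G).card (2 ^ n * (N / L ^ (A + 2)))
    ((⌊(G : ℝ) / L ^ κ0⌋₊ : ℕ) : ℝ) (1 / L ^ κ0)
    (((⌊(X : ℝ) ^ ((1 : ℝ) / 100)⌋₊ : ℕ) : ℝ) * (X : ℝ) ^ ((59 : ℝ) / 60)) f1 hG0 hN0 hHN hyN hyK
    hLf0 hLf hHG hS1 hS2 (Nat.cast_nonneg n) hn3 (Nat.cast_nonneg _) (Nat.cast_nonneg _) hcG hT0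
    hn2 (Nat.cast_nonneg _) (by rw [← hκ0]; exact hK02) (by positivity) (by rw [← hκ0])
  rw [card_map] at hmain hnum
  rw [hb0] at hmain
  refine hmain.trans ?_
  refine le_trans ?_ (add_le_add_right hexc _)
  refine le_trans (le_of_eq ?_) hnum
  ring

end Crest.Agent.R001.Uns
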