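import Crest.Agent.R001.Uns7

/-! R001, block UNS, part 8: summation over the classes. -/

set_option autoImplicit false

namespace Crest.Agent.R001.Uns

open Finset Crest.Agent.R001.Tree Crest.Agent.R001.EST

lemma StrP_mono (X : ℕ) (a : ℤ) {LL LL' : Finset (ℤ × ℤ)} (h : LL ⊆ LL') {e : ℤ} {g : ℕ}
    (hs : StrP X a LL e g) : StrP X a LL' e g := by
  obtain ⟨τ, hτ, h1⟩ := hs
  exact ⟨τ, h hτ, h1⟩

/-- the list for one scale `G` -/
lemma exists_list (hList : ListX) (C K A : ℕ) : ∃ X1 : ℕ, ∀ X : ℕ, X1 ≤ X → ∀ c1 : ℝ,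
    Big C K A c1 X → ∀ L : ℝ, L = Real.log X → ∀ κ0 C1 : ℕ, 2 * κ0 + 3 ≤ C1 →
    ∀ (a : ℤ) (G : ℕ), L ^ C1 ≤ 2 * G → (G : ℝ) ≤ (X : ℝ) ^ ((1 : ℝ) / 1000) →
    ∃ LL : Finset (ℤ × ℤ), (LL.card : ℝ) ≤ 32 * L ^ κ0 ∧
      (∀ τ ∈ LL, 1 ≤ τ.2 ∧ (τ.2 : ℝ) ≤ (X : ℝ) ^ ((1 : ℝ) / 30) ∧
        |(τ.1 : ℝ)| ≤ (X : ℝ) ^ ((31 : ℝ) / 30) ∧ IsCoprime τ.1 τ.2) ∧
      ListProp X a G (GGp G) ⌊(G : ℝ) / L ^ κ0⌋₊ LL := by
  obtain ⟨X0, hX0⟩ := hList
  refine ⟨X0, fun X hX c1 hbig L hL κ0 C1 hC1 a G hG1 hG2 => ?_⟩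
  obtain ⟨hX2, f1, f2, f3, f4, f5, f6, f9⟩ := hbig
  rw [← hL] at f1
  clear f2 f3 f4 f5 f6
  have hL0 : 0 < L := by linarith
  have hL1 : 1 ≤ L := by linarith
  have hG4 : L ^ (2 * κ0 + 2) ≤ G := by
    have h1 : L ^ (2 * κ0 + 3) ≤ L ^ C1 := pow_le_pow_right₀ hL1 hC1
    have h2 : L ^ (2 * κ0 + 3) = L ^ (2 * κ0 + 2) * L := by rw [← pow_succ]
    have h3 : 0 < L ^ (2 * κ0 + 2) := by positivity
    nlinarith
  obtain ⟨hG3, hlogG, hK01, hK02, hK03, hK04⟩ := sizes4 κ0 L G f1 hG4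
  have hG3n : 3 ≤ G := by exact_mod_cast hG3
  have hXr : (0 : ℝ) < X := by exact_mod_cast (by omega : 0 < X)
  have hcG := card_GGp_le G (by omega)
  have hG0 : (0 : ℝ) < G := by linarith
  obtain ⟨k0, hk0⟩ : ∃ k0 : ℕ, k0 = ⌊(G : ℝ) / L ^ κ0⌋₊ := ⟨_, rfl⟩
  rw [← hk0] at hK01 hK02 hK03 ⊢
  have hk1 : (1 : ℝ) ≤ k0 := by exact_mod_cast hK01
  have hkey : 1024 * (G * L) ≤ (k0 : ℝ) ^ 2 := by
    have h1 : (G / (2 * L ^ κ0)) ^ 2 ≤ (k0 : ℝ) ^ 2 := pow_le_pow_left₀ (by positivity) hK03 2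
    linarith
  obtain ⟨LL, h1, h2, h3⟩ := hX0 X hX a G (GGp G) (by omega)
    (fun g hg => (mem_filter.1 hg).2)
    (fun g hg => by
      obtain ⟨h4, h5⟩ := mem_Icc.1 (mem_filter.1 hg).1
      exact ⟨h4, by nlinarith⟩)
    (by
      calc ((GGp G).card : ℝ) * G ≤ (2 * G) * G := by gcongr
        _ = 2 * (G * G) := by ring
        _ ≤ (X : ℝ) ^ ((1 : ℝ) / 750) * ((X : ℝ) ^ ((1 : ℝ) / 1000) * (X : ℝ) ^ ((1 : ℝ) / 1000)) := by
          gcongr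
        _ = (X : ℝ) ^ ((1 : ℝ) / 300) := by
          rw [← Real.rpow_add hXr, ← Real.rpow_add hXr]
          norm_num)
    k0 hK01
    (by
      have h6 := log_two_mul_le X hX2
      rw [← hL] at h6
      have h7 : 0 ≤ Real.log (2 * X) := Real.log_nonneg (by
        have : (2 : ℝ) ≤ X := by exact_mod_cast hX2
        linarith)
      calc 256 * ((GGp G).card : ℝ) * Real.log (2 * X) ≤ 256 * (2 * G) * (2 * L) := by gcongr
        _ = 1024 * (G * L) := by ring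
        _ ≤ (k0 : ℝ) ^ 2 * 1 := by rw [mul_one]; exact hkey
        _ ≤ _ := by gcongr)
  refine ⟨LL, ?_, h2, h3⟩
  have h4 : (LL.card : ℝ) * k0 ≤ 8 * (2 * G) := by
    have : ((LL.card * k0 : ℕ) : ℝ) ≤ ((8 * (GGp G).card : ℕ) : ℝ) := by exact_mod_cast h1
    push_cast at this
    linarith
  have h5 : (LL.card : ℝ) * (G / (2 * L ^ κ0)) ≤ 16 * G := by
    have : (LL.card : ℝ) * (G / (2 * L ^ κ0)) ≤ LL.card * k0 :=
      mul_le_mul_of_nonneg_left hK03 (Nat.cast_nonneg _)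
    linarith
  have hLκ : 0 < L ^ κ0 := by positivity
  rw [← mul_div_assoc, div_le_iff₀ (by positivity)] at h5
  have h6 : (LL.card : ℝ) * G ≤ (32 * L ^ κ0) * G := by linarith
  exact le_of_mul_le_mul_right h6 hG0

/-- numerics for a member of a class -/
lemma member (C K κ : ℕ) (hκ : 1 ≤ κ) (L : ℝ) (hL : 106496 ≤ L) (X d g G e H w : ℕ)
    (hd : 0 < d) (he : d = e * g) (hg : 0 < g) (hGg : G ≤ g) (hgG : g < 2 * G)
    (hH : H = X / e) (hd1 : (X : ℝ) / L ^ K ≤ d) (hd2 : (d : ℝ) ≤ X / L ^ (κ + 1))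
    (hw : 4 * (w : ℝ) ^ 2 ≤ X / d) :
    2 * (G : ℝ) * L ^ κ ≤ L ^ C * H ∧ (H : ℝ) ≤ 2 * G * L ^ K ∧ (w : ℝ) ≤ L ^ K ∧
      (w : ℝ) ^ 2 ≤ L ^ C * H / (2 * G) ∧
      L ^ C * X / (3 * d) ≤ L ^ C * H / (2 * G) ∧ L ^ C * H / (2 * G) ≤ L ^ C * X / d := by
  have hL0 : 0 < L := by linarith
  have hL1 : 1 ≤ L := by linarith
  have he0 : 0 < e := Nat.pos_of_ne_zero (by rintro rfl; simp at he; omega)
  have hdr : (0 : ℝ) < d := by exact_mod_cast hd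
  have her : (0 : ℝ) < e := by exact_mod_cast he0
  have hgr : (0 : ℝ) < g := by exact_mod_cast hg
  have hG0 : 0 < G := by omega
  have hGr : (0 : ℝ) < G := by exact_mod_cast hG0
  have hGr1 : (1 : ℝ) ≤ G := by exact_mod_cast hG0
  have hGgr : (G : ℝ) ≤ g := by exact_mod_cast hGg
  have hgGr : (g : ℝ) ≤ 2 * G := by exact_mod_cast hgG.le
  have hder : (d : ℝ) = e * g := by rw [he]; push_cast; ring
  obtain ⟨x, hx⟩ : ∃ x : ℝ, x = X / d := ⟨_, rfl⟩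
  have hXd : (X : ℝ) = x * d := by rw [hx]; field_simp
  have hLκ : L ≤ L ^ κ := by
    calc L = L ^ 1 := (pow_one L).symm
      _ ≤ L ^ κ := pow_le_pow_right₀ hL1 hκ
  have hLC : 1 ≤ L ^ C := one_le_pow₀ hL1
  have hxκ : L ^ κ * L ≤ x := by
    rw [← pow_succ]
    rw [hx, le_div_iff₀ hdr]
    rw [le_div_iff₀ (by positivity)] at hd2
    linarith
  have hxK : x ≤ L ^ K := by
    rw [hx, div_le_iff₀ hdr]
    rw [div_le_iff₀ (by positivity)] at hd1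
    linarith
  have hx0 : 0 < x := lt_of_lt_of_le (by positivity) hxκ
  have hXe : (X : ℝ) / e = x * g := by rw [hXd, hder]; field_simp
  have hH1 : (H : ℝ) ≤ x * g := by
    rw [hH, ← hXe]; exact Nat.cast_div_le
  have hH2 : x * g - 1 ≤ H := by
    rw [hH, ← hXe]
    have h1 : (X : ℝ) / e < ((X / e : ℕ) : ℝ) + 1 := by
      rw [div_lt_iff₀ her]
      have := Nat.lt_mul_div_succ X he0
      have h10 : (X : ℝ) < (e : ℝ) * (((X / e : ℕ) : ℝ) + 1) := by exact_mod_cast this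
      linarith
    linarith
  have hxg : x * G ≤ x * g := mul_le_mul_of_nonneg_left hGgr hx0.le
  have hxL : 106496 ≤ x := by nlinarith
  have hxG : 106496 ≤ x * G := by nlinarith
  have hH3 : x * G / 2 ≤ H := by linarith
  refine ⟨?_, ?_, ?_, ?_, ?_, ?_⟩
  · have h0 : 0 < L ^ κ := by positivity
    have h1 : 4 * L ^ κ ≤ x := by nlinarith
    calc 2 * (G : ℝ) * L ^ κ = (4 * L ^ κ) * G / 2 := by ring
      _ ≤ 1 * (x * G / 2) := by
        rw [one_mul]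
        gcongr
      _ ≤ L ^ C * H := by gcongr
  · calc (H : ℝ) ≤ x * g := hH1
      _ ≤ L ^ K * (2 * G) := by gcongr
      _ = _ := by ring
  · have h1 : (w : ℝ) ^ 2 ≤ L ^ K := by rw [hx] at hxK; linarith
    rcases Nat.eq_zero_or_pos w with h0 | h0
    · rw [h0]; simp; positivity
    · have h2 : (1 : ℝ) ≤ w := by exact_mod_cast h0
      nlinarith
  · rw [le_div_iff₀ (by positivity)]
    have h1 : 4 * (w : ℝ) ^ 2 ≤ x := by rw [hx]; exact hw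
    calc (w : ℝ) ^ 2 * (2 * G) = (4 * (w : ℝ) ^ 2) * G / 2 := by ring
      _ ≤ 1 * (x * G / 2) := by
        rw [one_mul]
        gcongr
      _ ≤ L ^ C * H := by gcongr
  · have h1 : L ^ C * X / (3 * d) = L ^ C * (x / 3) := by rw [hXd]; field_simp
    have h2 : L ^ C * H / (2 * G) = L ^ C * (H / (2 * G)) := by ring
    rw [h1, h2]
    refine mul_le_mul_of_nonneg_left ?_ (by positivity)
    rw [le_div_iff₀ (by positivity)]
    linarith
  · have h1 : L ^ C * X / d = L ^ C * x := by rw [hXd]; field_simp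
    have h2 : L ^ C * H / (2 * G) = L ^ C * (H / (2 * G)) := by ring
    rw [h1, h2]
    refine mul_le_mul_of_nonneg_left ?_ (by positivity)
    rw [div_le_iff₀ (by positivity)]
    exact hH1.trans (mul_le_mul_of_nonneg_left hgGr hx0.le)

end Crest.Agent.R001.Uns
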