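import Crest.Agent.R001.Uns8

/-! R001, block UNS, part 9: the final theorem. -/

set_option autoImplicit false

namespace Crest.Agent.R001.Uns

open Finset Crest.Agent.R001.Tree Crest.Agent.R001.EST

lemma minFac_eq_of (e g : ℕ) (hg : g.Prime) (hlt : (e * g).minFac < g) (he : 0 < e) :
    e.minFac = (e * g).minFac := by
  have hne : e * g ≠ 1 := by
    intro h
    have := Nat.eq_one_of_mul_eq_one_left h
    rw [this] at hg
    exact Nat.not_prime_one hg
  have hw := Nat.minFac_prime hne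
  have h1 : (e * g).minFac ∣ e := by
    rcases (Nat.Prime.dvd_mul hw).1 (Nat.minFac_dvd (e * g)) with h | h
    · exact h
    · have := (Nat.prime_dvd_prime_iff_eq hw hg).1 h
      omega
  apply le_antisymm
  · exact Nat.minFac_le_of_dvd hw.two_le h1
  · have he1 : e ≠ 1 := by
      rintro rfl
      exact hw.one_lt.ne' (Nat.dvd_one.1 h1)
    exact Nat.minFac_le_of_dvd (Nat.minFac_prime he1).two_le
      ((Nat.minFac_dvd e).trans (dvd_mul_right e g))

lemma rgh_of_dvd {e d : ℕ} (h : e ∣ d) : Rgh e d.minFac := by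
  intro p hp hlt hdvd
  have := Nat.minFac_le_of_dvd hp.two_le (hdvd.trans h)
  omega

/-- counting over the classes -/
lemma class_count (X : ℕ) (J : Finset (ℕ × ℕ × ℕ)) (m : ℕ) (hJ : ∀ c ∈ J, c.1 < m) :
    ∑ c ∈ J, ((((Icc 1 X).filter (fun e => X / e = c.2.1 ∧ e.minFac = c.2.2)).card : ℝ) * c.2.1) ≤
      m * (X * (1 + Real.log X)) := by
  classical
  calc ∑ c ∈ J, ((((Icc 1 X).filter (fun e => X / e = c.2.1 ∧ e.minFac = c.2.2)).card : ℝ) * c.2.1)
      = ∑ c ∈ J, ∑ e ∈ Icc 1 X, (if X / e = c.2.1 ∧ e.minFac = c.2.2 then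
          (((X / e : ℕ)) : ℝ) else 0) := by
        refine sum_congr rfl fun c _ => ?_
        rw [← sum_filter, ← nsmul_eq_mul, ← sum_const]
        refine sum_congr rfl fun e he => ?_
        rw [(mem_filter.1 he).2.1]
    _ = ∑ e ∈ Icc 1 X, ∑ c ∈ J, (if X / e = c.2.1 ∧ e.minFac = c.2.2 then
          (((X / e : ℕ)) : ℝ) else 0) := sum_comm
    _ ≤ ∑ e ∈ Icc 1 X, (m : ℝ) * (X / e) := by
        refine sum_le_sum fun e _ => ?_
        rw [← sum_filter, sum_const, nsmul_eq_mul]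
        have h1 : ((J.filter (fun c => X / e = c.2.1 ∧ e.minFac = c.2.2)).card : ℝ) ≤ m := by
          have : (J.filter (fun c => X / e = c.2.1 ∧ e.minFac = c.2.2)).card ≤ (range m).card := by
            refine card_le_card_of_injOn (fun c => c.1) ?_ ?_
            · intro c hc
              rw [mem_coe, mem_filter] at hc
              rw [mem_coe, mem_range]
              exact hJ c hc.1
            · intro c hc c' hc' h
              rw [mem_coe, mem_filter] at hc hc'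
              refine Prod.ext h (Prod.ext ?_ ?_)
              · rw [← hc.2.1, ← hc'.2.1]
              · rw [← hc.2.2, ← hc'.2.2]
          rw [card_range] at this
          exact_mod_cast this
        have h2 : (((X / e : ℕ)) : ℝ) ≤ (X : ℝ) / e := Nat.cast_div_le
        have h3 : (0 : ℝ) ≤ ((X / e : ℕ) : ℝ) := Nat.cast_nonneg _
        exact mul_le_mul h1 h2 h3 (Nat.cast_nonneg _)
    _ = m * (X * ∑ e ∈ Icc 1 X, (1 : ℝ) / e) := by
        rw [mul_sum, mul_sum]
        refine sum_congr rfl fun e _ => ?_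
        ring
    _ ≤ _ := by
        have := harm_le X
        gcongr

/-- the sum over one class -/
lemma class_sum (DD : Finset ℕ) (gf : ℕ → ℕ) (c : ℕ × ℕ × ℕ) (X : ℕ) (a : ℤ) (y : ℝ)
    (Str : ℤ → ℕ → Prop) (GG : Finset ℕ) [∀ e, DecidablePred fun g => ¬ Str e g]
    (hmem : ∀ d ∈ DD, d = d / gf d * gf d ∧ 1 ≤ d / gf d ∧ d / gf d ≤ X ∧ X / (d / gf d) = c.2.1 ∧
      (d / gf d).minFac = c.2.2 ∧ gf d ∈ GG ∧ ¬ Str ((d / gf d : ℕ) : ℤ) (gf d)) :
    ∑ d ∈ DD, |dev (W y c.2.2) (a / ((d / gf d : ℕ) : ℤ)) c.2.1 (gf d)| ≤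
      ∑ e ∈ ((Icc 1 X).filter (fun e => X / e = c.2.1 ∧ e.minFac = c.2.2)).map
        (Nat.castEmbedding (R := ℤ)), ∑ g ∈ GG with ¬ Str e g,
        |dev (W y c.2.2) (a / e) c.2.1 g| := by
  classical
  rw [sum_map]
  set EE := (Icc 1 X).filter (fun e => X / e = c.2.1 ∧ e.minFac = c.2.2) with hEE
  have h1 : ∑ e ∈ EE, ∑ g ∈ GG with ¬ Str (Nat.castEmbedding (R := ℤ) e) g,
      |dev (W y c.2.2) (a / (Nat.castEmbedding (R := ℤ) e)) c.2.1 g| =
      ∑ x ∈ EE ×ˢ GG, if ¬ Str ((x.1 : ℕ) : ℤ) x.2 then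
        |dev (W y c.2.2) (a / ((x.1 : ℕ) : ℤ)) c.2.1 x.2| else 0 := by
    rw [sum_product]
    refine sum_congr rfl fun e _ => ?_
    rw [sum_filter]
    rfl
  rw [h1]
  have h2 : ∑ d ∈ DD, |dev (W y c.2.2) (a / ((d / gf d : ℕ) : ℤ)) c.2.1 (gf d)| =
      ∑ x ∈ DD.image (fun d => (d / gf d, gf d)), if ¬ Str ((x.1 : ℕ) : ℤ) x.2 then
        |dev (W y c.2.2) (a / ((x.1 : ℕ) : ℤ)) c.2.1 x.2| else 0 := by
    rw [sum_image]
    · refine sum_congr rfl fun d hd => ?_
      rw [if_pos (hmem d hd).2.2.2.2.2.2]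
    · intro d hd d' hd' h
      rw [Prod.mk.injEq] at h
      rw [(hmem d hd).1, (hmem d' hd').1, h.1, h.2]
  rw [h2]
  refine sum_le_sum_of_subset_of_nonneg ?_ ?_
  · intro x hx
    obtain ⟨d, hd, rfl⟩ := mem_image.1 hx
    obtain ⟨_, h3, h4, h5, h6, h7, _⟩ := hmem d hd
    rw [mem_product, hEE, mem_filter, mem_Icc]
    exact ⟨⟨⟨h3, h4⟩, h5, h6⟩, h7⟩
  · intro x _ _
    split_ifs <;> positivity

end Crest.Agent.R001.Uns
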