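import Mathlib

/-!
# (U3): energy of a finite set of moduli
-/

namespace Crest.Agent.R001.Uns

open Finset

lemma sum_inv_Icc_le (Z : ℕ) : ∑ n ∈ Icc 1 Z, (1 : ℝ) / n ≤ 1 + Real.log Z := by
  have h := harmonic_le_one_add_log Z
  rw [harmonic_eq_sum_Icc] at h
  push_cast at h
  simpa [one_div] using h

theorem energy_le (BB : Finset ℕ) (Z : ℕ) (hBB : ∀ b ∈ BB, 1 ≤ b ∧ b ≤ Z) :
    ∑ b ∈ BB, ∑ b' ∈ BB, (1 : ℝ) / (Nat.lcm b b' : ℕ) ≤ (1 + Real.log Z) ^ 3 := by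
  classical
  have h1 : ∑ b ∈ BB, ∑ b' ∈ BB, (1 : ℝ) / (Nat.lcm b b' : ℕ) =
      ∑ x ∈ BB ×ˢ BB, (1 : ℝ) / (Nat.lcm x.1 x.2 : ℕ) := by
    rw [Finset.sum_product]
  rw [h1]
  set f : ℕ × ℕ → ℕ × ℕ × ℕ := fun x => (Nat.gcd x.1 x.2, x.1 / Nat.gcd x.1 x.2, x.2 / Nat.gcd x.1 x.2)
    with hf
  have hinj : Set.InjOn f (BB ×ˢ BB : Finset (ℕ × ℕ)) := by
    rintro ⟨b, c⟩ hx ⟨b', c'⟩ hy h
    simp only [hf, Prod.mk.injEq] at h
    obtain ⟨h2, h3, h4⟩ := h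
    have e1 : b = Nat.gcd b c * (b / Nat.gcd b c) := (Nat.mul_div_cancel' (Nat.gcd_dvd_left b c)).symm
    have e2 : c = Nat.gcd b c * (c / Nat.gcd b c) := (Nat.mul_div_cancel' (Nat.gcd_dvd_right b c)).symm
    have e3 : b' = Nat.gcd b' c' * (b' / Nat.gcd b' c') :=
      (Nat.mul_div_cancel' (Nat.gcd_dvd_left b' c')).symm
    have e4 : c' = Nat.gcd b' c' * (c' / Nat.gcd b' c') :=
      (Nat.mul_div_cancel' (Nat.gcd_dvd_right b' c')).symm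
    have e5 : b = b' := by rw [e1, e3, h3, h2]
    have e6 : c = c' := by rw [e2, e4, h4, h2]
    rw [e5, e6]
  set g : ℕ × ℕ × ℕ → ℝ := fun y => (1 : ℝ) / y.1 * ((1 : ℝ) / y.2.1 * ((1 : ℝ) / y.2.2)) with hg
  have h2 : ∀ x ∈ BB ×ˢ BB, (1 : ℝ) / (Nat.lcm x.1 x.2 : ℕ) = g (f x) := by
    rintro ⟨b, c⟩ hx
    rw [Finset.mem_product] at hx
    have hb := (hBB b hx.1).1
    have hc := (hBB c hx.2).1
    have hgpos : 0 < Nat.gcd b c := Nat.gcd_pos_of_pos_left _ hb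
    simp only [hf, hg]
    have hgu : (b : ℝ) = (Nat.gcd b c : ℝ) * ((b / Nat.gcd b c : ℕ) : ℝ) := by
      exact_mod_cast (Nat.mul_div_cancel' (Nat.gcd_dvd_left b c)).symm
    have hgv : (c : ℝ) = (Nat.gcd b c : ℝ) * ((c / Nat.gcd b c : ℕ) : ℝ) := by
      exact_mod_cast (Nat.mul_div_cancel' (Nat.gcd_dvd_right b c)).symm
    have hl : (Nat.gcd b c : ℝ) * (Nat.lcm b c : ℝ) = b * c := by
      exact_mod_cast Nat.gcd_mul_lcm b c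
    have hg0 : (0 : ℝ) < Nat.gcd b c := by exact_mod_cast hgpos
    have hb0 : (0 : ℝ) < b := by exact_mod_cast hb
    have hc0 : (0 : ℝ) < c := by exact_mod_cast hc
    have hlcm : (Nat.lcm b c : ℝ) = (Nat.gcd b c : ℝ) * (((b / Nat.gcd b c : ℕ) : ℝ) *
        ((c / Nat.gcd b c : ℕ) : ℝ)) := by
      have h3 : (Nat.gcd b c : ℝ) * (Nat.lcm b c : ℝ) = (Nat.gcd b c : ℝ) * ((Nat.gcd b c : ℝ) *
          (((b / Nat.gcd b c : ℕ) : ℝ) * ((c / Nat.gcd b c : ℕ) : ℝ))) := by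
        rw [hl]
        calc (b : ℝ) * c = ((Nat.gcd b c : ℝ) * ((b / Nat.gcd b c : ℕ) : ℝ)) *
              ((Nat.gcd b c : ℝ) * ((c / Nat.gcd b c : ℕ) : ℝ)) := by rw [← hgu, ← hgv]
          _ = _ := by ring
      exact mul_left_cancel₀ hg0.ne' h3
    rw [hlcm, one_div_mul_one_div, one_div_mul_one_div]
  rw [Finset.sum_congr rfl h2]
  have h3 : ∑ x ∈ BB ×ˢ BB, g (f x) = ∑ y ∈ (BB ×ˢ BB).image f, g y :=
    (Finset.sum_image (fun x hx y hy h => hinj hx hy h)).symm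
  rw [h3]
  have h4 : (BB ×ˢ BB).image f ⊆ Icc 1 Z ×ˢ (Icc 1 Z ×ˢ Icc 1 Z) := by
    intro y hy
    obtain ⟨⟨b, c⟩, hx, rfl⟩ := Finset.mem_image.1 hy
    rw [Finset.mem_product] at hx
    obtain ⟨hb1, hbZ⟩ := hBB b hx.1
    obtain ⟨hc1, hcZ⟩ := hBB c hx.2
    have hgpos : 0 < Nat.gcd b c := Nat.gcd_pos_of_pos_left _ hb1
    simp only [hf, Finset.mem_product, Finset.mem_Icc]
    refine ⟨⟨hgpos, (Nat.gcd_le_left c hb1).trans hbZ⟩, ⟨?_, (Nat.div_le_self _ _).trans hbZ⟩,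
      ⟨?_, (Nat.div_le_self _ _).trans hcZ⟩⟩
    · exact Nat.div_pos (Nat.gcd_le_left c hb1) hgpos
    · exact Nat.div_pos (Nat.gcd_le_right b hc1) hgpos
  have h5 : ∑ y ∈ (BB ×ˢ BB).image f, g y ≤ ∑ y ∈ Icc 1 Z ×ˢ (Icc 1 Z ×ˢ Icc 1 Z), g y :=
    Finset.sum_le_sum_of_subset_of_nonneg h4 (fun y _ _ => by simp only [hg]; positivity)
  refine h5.trans ?_
  have h6 : ∑ y ∈ Icc 1 Z ×ˢ (Icc 1 Z ×ˢ Icc 1 Z), g y = (∑ n ∈ Icc 1 Z, (1 : ℝ) / n) ^ 3 := by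
    simp only [hg]
    rw [Finset.sum_product]
    have : ∀ x ∈ Icc 1 Z, ∑ y ∈ Icc 1 Z ×ˢ Icc 1 Z, (1 : ℝ) / (x : ℕ) * ((1 : ℝ) / y.1 * ((1 : ℝ) / y.2))
        = (1 : ℝ) / (x : ℕ) * ((∑ n ∈ Icc 1 Z, (1 : ℝ) / n) * (∑ n ∈ Icc 1 Z, (1 : ℝ) / n)) := by
      intro x _
      rw [← Finset.mul_sum, Finset.sum_product, Finset.sum_mul_sum]
    rw [Finset.sum_congr rfl this, ← Finset.sum_mul]
    ring
  rw [h6]
  exact pow_le_pow_left₀ (Finset.sum_nonneg fun _ _ => by positivity) (sum_inv_Icc_le Z) 3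

/-- number of multiples of `m` in `(A, A + H]` -/
lemma card_mul_le (A : ℤ) (H m : ℕ) (hm : 0 < m) :
    (((Ioc A (A + H)).filter (fun t => (m : ℤ) ∣ t)).card : ℝ) ≤ H / m + 1 := by
  have hm' : (0 : ℤ) < m := by exact_mod_cast hm
  have h := Int.Ioc_filter_dvd_card A (A + H) hm'
  have hmr : (0 : ℚ) < (m : ℚ) := by exact_mod_cast hm
  have e1 : (⌊((A + H : ℤ) : ℚ) / ((m : ℤ) : ℚ)⌋ : ℚ) ≤ ((A + H : ℤ) : ℚ) / ((m : ℤ) : ℚ) :=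
    Int.floor_le _
  have e2 : ((A : ℤ) : ℚ) / ((m : ℤ) : ℚ) < (⌊(A : ℚ) / ((m : ℤ) : ℚ)⌋ : ℚ) + 1 := Int.lt_floor_add_one _
  have h3 : ((max (⌊((A + H : ℤ) : ℚ) / ((m : ℤ) : ℚ)⌋ - ⌊(A : ℚ) / ((m : ℤ) : ℚ)⌋) 0 : ℤ) : ℚ)
      ≤ (H : ℚ) / m + 1 := by
    push_cast
    rw [max_le_iff]
    constructor
    · push_cast at e1 e2
      have e3 : ((A : ℚ) + H) / m = A / m + H / m := by rw [add_div]
      rw [e3] at e1 ⊢
      linarith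
    · positivity
  have h4 : (((((Ioc A (A + H)).filter (fun t => (m : ℤ) ∣ t)).card : ℕ) : ℤ) : ℚ) ≤ (H : ℚ) / m + 1 := by
    rw [h]; exact h3
  have h5 : (((((Ioc A (A + H)).filter (fun t => (m : ℤ) ∣ t)).card : ℕ) : ℚ) : ℝ)
      ≤ (((H : ℚ) / m + 1 : ℚ) : ℝ) := by
    exact_mod_cast h4
  push_cast at h5
  exact h5

/-- second moment of the number of divisors from `BB` in an arbitrary interval -/
theorem sum_card_sq_le (BB : Finset ℕ) (Z : ℕ) (hBB : ∀ b ∈ BB, 1 ≤ b ∧ b ≤ Z) (A : ℤ) (H : ℕ) :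
    ∑ m ∈ Ioc A (A + H), ((BB.filter (fun b : ℕ => (b : ℤ) ∣ m)).card : ℝ) ^ 2 ≤
      H * (1 + Real.log Z) ^ 3 + (Z : ℝ) ^ 2 := by
  classical
  have h1 : ∀ m : ℤ, ((BB.filter (fun b : ℕ => (b : ℤ) ∣ m)).card : ℝ) ^ 2 =
      ∑ b ∈ BB, ∑ c ∈ BB, if ((Nat.lcm b c : ℕ) : ℤ) ∣ m then (1 : ℝ) else 0 := by
    intro m
    have h2 : ((BB.filter (fun b : ℕ => (b : ℤ) ∣ m)).card : ℝ) =
        ∑ b ∈ BB, if (b : ℤ) ∣ m then (1 : ℝ) else 0 := by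
      rw [Finset.card_filter]; push_cast; rfl
    rw [h2, sq, Finset.sum_mul_sum]
    refine Finset.sum_congr rfl fun b _ => Finset.sum_congr rfl fun c _ => ?_
    have h3 : ((Nat.lcm b c : ℕ) : ℤ) ∣ m ↔ (b : ℤ) ∣ m ∧ (c : ℤ) ∣ m := by
      rw [Int.natCast_dvd, Int.natCast_dvd, Int.natCast_dvd]
      exact Nat.lcm_dvd_iff
    by_cases hb : (b : ℤ) ∣ m <;> by_cases hc : (c : ℤ) ∣ m <;> simp [h3, hb, hc]
  simp_rw [h1]
  rw [Finset.sum_comm]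
  simp_rw [Finset.sum_comm (s := Ioc A (A + H))]
  have h2 : ∀ b ∈ BB, ∀ c ∈ BB, (∑ m ∈ Ioc A (A + H), if ((Nat.lcm b c : ℕ) : ℤ) ∣ m then (1 : ℝ) else 0)
      ≤ H * (1 / (Nat.lcm b c : ℕ)) + 1 := by
    intro b hb c hc
    have hpos : 0 < Nat.lcm b c := Nat.lcm_pos (hBB b hb).1 (hBB c hc).1
    have h3 := card_mul_le A H _ hpos
    rw [← Finset.sum_filter, Finset.sum_const, nsmul_eq_mul, mul_one]
    refine h3.trans (le_of_eq ?_)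
    ring
  calc _ ≤ ∑ b ∈ BB, ∑ c ∈ BB, ((H : ℝ) * (1 / (Nat.lcm b c : ℕ)) + 1) :=
        Finset.sum_le_sum fun b hb => Finset.sum_le_sum fun c hc => h2 b hb c hc
    _ = H * (∑ b ∈ BB, ∑ c ∈ BB, (1 : ℝ) / (Nat.lcm b c : ℕ)) + (BB.card : ℝ) ^ 2 := by
        simp_rw [Finset.sum_add_distrib, ← Finset.mul_sum]
        simp only [Finset.sum_const, nsmul_eq_mul, mul_one]
        ring
    _ ≤ H * (1 + Real.log Z) ^ 3 + (Z : ℝ) ^ 2 := by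
        have h4 := energy_le BB Z hBB
        have h5 : BB.card ≤ Z := by
          have : BB ⊆ Icc 1 Z := fun b hb => Finset.mem_Icc.2 (hBB b hb)
          have := Finset.card_le_card this
          simpa using this
        have h6 : (BB.card : ℝ) ≤ Z := by exact_mod_cast h5
        gcongr

end Crest.Agent.R001.Uns
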