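import Crest.Agent.R001.TreeHyb

/-!
# (U2): weights of the large primes of a support element
-/

namespace Crest.Agent.R001.Tree

open Finset Classical

lemma primeFactors_mul_prime {d p : ℕ} (hd : 0 < d) (hp : p.Prime) :
    (d * p).primeFactors = insert p d.primeFactors := by
  rw [Nat.primeFactors_mul hd.ne' hp.ne_zero, hp.primeFactors, Finset.union_comm]
  rfl

lemma card_primeFactors_mul_prime {d p : ℕ} (hd : 0 < d) (hp : p.Prime) (hnd : ¬ p ∣ d) :
    (d * p).primeFactors.card = d.primeFactors.card + 1 := by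
  rw [primeFactors_mul_prime hd hp, Finset.card_insert_of_notMem]
  intro h
  exact hnd (Nat.dvd_of_mem_primeFactors h)

lemma not_dvd_step {d w p q : ℕ} (hd : Rgh d w) (hp : p ∈ pr w) (hq : q ∈ pr p) : ¬ q ∣ d * p := by
  intro h
  have hqp := lt_of_mem_pr hq
  have hpw := lt_of_mem_pr hp
  rcases (Nat.Prime.dvd_mul (prime_of_mem_pr hq)).1 h with h | h
  · exact hd q (prime_of_mem_pr hq) (hqp.trans hpw) h
  · have := (Nat.prime_dvd_prime_iff_eq (prime_of_mem_pr hq) (prime_of_mem_pr hp)).1 h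
    omega

/-- PATH LEMMA: with `2 j` primes, `N ≤ (N / d)^(3^j)`. -/
theorem Node.path {N : ℝ} {w d w' : ℕ} (hN : 1 < N) (h0 : Adm N 1 w)
    (h : Node (bd N) 1 w d w') :
    ∃ j, d.primeFactors.card = 2 * j ∧ N ≤ (N / d) ^ (3 ^ j) ∧ 1 ≤ N / d ∧ 0 < d := by
  induction h with
  | root => exact ⟨0, by simp, by simp, by simpa using hN.le, one_pos⟩
  | @step d w' p q hn hp hq hs ih =>
    obtain ⟨j, hj, hle, h1, hd⟩ := ih
    have hadm := hn.adm h0
    have hr := hn.rgh (rgh_one w)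
    have hpp := prime_of_mem_pr hp
    have hqp := prime_of_mem_pr hq
    have hc := cube_le hd hadm hp hq hs
    have hlt := child_lt hadm hp hq
    have hpos : 0 < d * p * q := Nat.mul_pos (Nat.mul_pos hd hpp.pos) hqp.pos
    have hpos' : (0:ℝ) < (d * p * q : ℕ) := by exact_mod_cast hpos
    refine ⟨j + 1, ?_, ?_, ?_, hpos⟩
    · rw [card_primeFactors_mul_prime (Nat.mul_pos hd hpp.pos) hqp (not_dvd_step hr hp hq),
        card_primeFactors_mul_prime hd hpp (hr p hpp (lt_of_mem_pr hp)), hj]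
      ring
    · rw [pow_succ' 3 j, pow_mul]
      refine hle.trans ?_
      exact pow_le_pow_left₀ (by linarith) hc _
    · rw [le_div_iff₀ hpos', one_mul]; exact hlt.le

/-- the even and the odd support elements: `N ≤ (N / b)^(2 * 3^j)`, `2 j ≤ ω(b) ≤ 2 j + 1`. -/
theorem support_path {N : ℝ} {w d w' b : ℕ} (hN : 1 < N) (h0 : Adm N 1 w)
    (h : Node (bd N) 1 w d w') (hb : b = d ∨ ∃ p ∈ pr w', b = d * p) :
    ∃ j, 2 * j ≤ b.primeFactors.card ∧ N ≤ (N / b) ^ (2 * 3 ^ j) ∧ 1 ≤ N / b ∧ 0 < b := by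
  obtain ⟨j, hj, hle, h1, hd⟩ := h.path hN h0
  rcases hb with rfl | ⟨p, hp, rfl⟩
  · refine ⟨j, hj.ge, ?_, h1, hd⟩
    refine hle.trans ?_
    exact pow_le_pow_right₀ h1 (by omega)
  · have hpp := prime_of_mem_pr hp
    have hadm := h.adm h0 p hp
    have hlt := odd_lt (h.adm h0) hp
    have hdpos : (0:ℝ) < d := by exact_mod_cast hd
    have hppos : (0:ℝ) < p := by exact_mod_cast hpp.pos
    have hpos : 0 < d * p := Nat.mul_pos hd hpp.pos
    have hpos' : (0:ℝ) < (d * p : ℕ) := by exact_mod_cast hpos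
    refine ⟨j, ?_, ?_, ?_, hpos⟩
    · rw [card_primeFactors_mul_prime hd hpp ((h.rgh (rgh_one w)) p hpp (lt_of_mem_pr hp)), hj]
      omega
    · have hsq : N / d ≤ (N / (d * p : ℕ)) ^ 2 := by
        rw [div_pow, div_le_div_iff₀ hdpos (by positivity)]
        push_cast
        calc N * ((d:ℝ) * p) ^ 2 = N * d * (d * (p:ℝ) ^ 2) := by ring
          _ ≤ N * d * N := by gcongr
          _ = N ^ 2 * d := by ring
      refine hle.trans ?_
      rw [pow_mul]
      exact pow_le_pow_left₀ (by linarith) hsq _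
    · rw [le_div_iff₀ hpos', one_mul]; exact hlt.le

lemma prod_div_const (s : Finset ℕ) (c : ℝ) :
    ∏ q ∈ s, ((q : ℝ) / c) = (∏ q ∈ s, (q : ℝ)) / c ^ s.card := by
  rw [Finset.prod_div_distrib, Finset.prod_const]

/-- support elements are squarefree -/
lemma Node.squarefree {stop : ℕ → ℕ → Prop} {d0 w d w' : ℕ} (hd0 : Squarefree d0) (h0 : Rgh d0 w)
    (h : Node stop d0 w d w') : Squarefree d := by
  induction h with
  | root => exact hd0
  | @step d w' p q hn hp hq _ ih =>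
    have hr := hn.rgh h0
    have hpp := prime_of_mem_pr hp
    have hqp := prime_of_mem_pr hq
    have h1 : Squarefree (d * p) := by
      rw [Nat.squarefree_mul_iff]
      exact ⟨((Nat.Prime.coprime_iff_not_dvd hpp).2 (hr p hpp (lt_of_mem_pr hp))).symm, ih,
        hpp.squarefree⟩
    rw [Nat.squarefree_mul_iff]
    exact ⟨((Nat.Prime.coprime_iff_not_dvd hqp).2 (not_dvd_step hr hp hq)).symm, h1, hqp.squarefree⟩

/-- if all primes of `b` are large -/
lemma wt_full {N : ℝ} {w d w' b : ℕ} (hN : 1 < N) (h0 : Adm N 1 w)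
    (h : Node (bd N) 1 w d w') (hb : b = d ∨ ∃ p ∈ pr w', b = d * p)
    {B Λ : ℝ} (hΛ : 1 ≤ Λ) (hB : 0 ≤ B) {k : ℕ} (hB1 : B ≤ Λ ^ k)
    (hB2 : B ^ (2 * 3 ^ k) ≤ N) : B * ∏ q ∈ b.primeFactors, ((q : ℝ) / Λ) ≤ N := by
  obtain ⟨j, hj, hle, h1, hbpos⟩ := support_path hN h0 h hb
  have hsq : Squarefree b := by
    have hd := h.squarefree squarefree_one (rgh_one w)
    rcases hb with rfl | ⟨p, hp, rfl⟩
    · exact hd
    · rw [Nat.squarefree_mul_iff]
      exact ⟨((Nat.Prime.coprime_iff_not_dvd (prime_of_mem_pr hp)).2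
        ((h.rgh (rgh_one w)) p (prime_of_mem_pr hp) (lt_of_mem_pr hp))).symm, hd,
        (prime_of_mem_pr hp).squarefree⟩
  have hprod : ∏ q ∈ b.primeFactors, (q : ℝ) = b := by
    have := congrArg (Nat.cast : ℕ → ℝ) (Nat.prod_primeFactors_of_squarefree hsq)
    rwa [Nat.cast_prod] at this
  have hbr : (0:ℝ) < b := by exact_mod_cast hbpos
  have hbN : (b : ℝ) ≤ N := by rwa [le_div_iff₀ hbr, one_mul] at h1
  rw [prod_div_const, hprod]
  have hΛ0 : 0 < Λ := by linarith
  set r := b.primeFactors.card with hr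
  rcases le_or_gt k r with hkr | hkr
  · -- many primes
    have h2 : B ≤ Λ ^ r := hB1.trans (pow_le_pow_right₀ hΛ hkr)
    rw [mul_div_assoc', div_le_iff₀ (by positivity)]
    calc B * b ≤ Λ ^ r * N := by gcongr
      _ = N * Λ ^ r := by ring
  · -- few primes
    have h2 : B ≤ N / b := by
      have h3 : N ≤ (N / b) ^ (2 * 3 ^ k) := by
        refine hle.trans (pow_le_pow_right₀ h1 ?_)
        exact Nat.mul_le_mul_left 2 (Nat.pow_le_pow_right (by norm_num) (by omega))
      have h4 := hB2.trans h3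
      exact (pow_le_pow_iff_left₀ hB (by linarith) (by positivity)).1 h4
    rw [le_div_iff₀ hbr] at h2
    calc B * (b / Λ ^ r) = B * b / Λ ^ r := by ring
      _ ≤ B * b / 1 := by gcongr; exact one_le_pow₀ hΛ
      _ ≤ N := by rw [div_one]; exact h2

lemma filter_eq_self_of_rgh {d w t : ℕ} (hd : Rgh d w) (htw : t < w) :
    d.primeFactors.filter (fun q => t < q) = d.primeFactors := by
  apply Finset.filter_true_of_mem
  intro q hq
  have hqp := Nat.prime_of_mem_primeFactors hq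
  have hdvd := Nat.dvd_of_mem_primeFactors hq
  by_contra h
  exact hd q hqp (by omega) hdvd

/-- the primes `> t` of a support element form a support element -/
theorem large_part {stop : ℕ → ℕ → Prop} {w d w' : ℕ} (h : Node stop 1 w d w') (t : ℕ) :
    ∃ d'' w'' b', Node stop 1 w d'' w'' ∧ (b' = d'' ∨ ∃ p ∈ pr w'', b' = d'' * p) ∧
      d.primeFactors.filter (fun q => t < q) = b'.primeFactors := by
  induction h with
  | root =>
    exact ⟨1, w, 1, Node.root, Or.inl rfl, by simp⟩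
  | @step d w' p q hn hp hq hs ih =>
    have hr := hn.rgh (rgh_one w)
    have hpp := prime_of_mem_pr hp
    have hqp := prime_of_mem_pr hq
    have hqlt := lt_of_mem_pr hq
    have hplt := lt_of_mem_pr hp
    have hdpos := hn.pos one_pos
    have hdp : 0 < d * p := Nat.mul_pos hdpos hpp.pos
    by_cases h1 : t < q
    · refine ⟨d * p * q, q, d * p * q, Node.step hn hp hq hs, Or.inl rfl, ?_⟩
      rw [primeFactors_mul_prime hdp hqp, primeFactors_mul_prime hdpos hpp,
        Finset.filter_insert, if_pos h1, Finset.filter_insert, if_pos (h1.trans hqlt),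
        filter_eq_self_of_rgh hr (by omega)]
    · by_cases h2 : t < p
      · refine ⟨d, w', d * p, hn, Or.inr ⟨p, hp, rfl⟩, ?_⟩
        rw [primeFactors_mul_prime hdp hqp, primeFactors_mul_prime hdpos hpp,
          Finset.filter_insert, if_neg h1, Finset.filter_insert, if_pos h2,
          filter_eq_self_of_rgh hr (by omega)]
      · obtain ⟨d'', w'', b', h3, h4, h5⟩ := ih
        refine ⟨d'', w'', b', h3, h4, ?_⟩
        rw [primeFactors_mul_prime hdp hqp, primeFactors_mul_prime hdpos hpp,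
          Finset.filter_insert, if_neg h1, Finset.filter_insert, if_neg h2, h5]

theorem large_part' {stop : ℕ → ℕ → Prop} {w d w' b : ℕ} (h : Node stop 1 w d w')
    (hb : b = d ∨ ∃ p ∈ pr w', b = d * p) (t : ℕ) :
    ∃ d'' w'' b', Node stop 1 w d'' w'' ∧ (b' = d'' ∨ ∃ p ∈ pr w'', b' = d'' * p) ∧
      b.primeFactors.filter (fun q => t < q) = b'.primeFactors := by
  rcases hb with rfl | ⟨p, hp, rfl⟩
  · exact large_part h t
  · have hpp := prime_of_mem_pr hp
    have hplt := lt_of_mem_pr hp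
    have hdpos := h.pos one_pos
    by_cases h1 : t < p
    · refine ⟨d, w', d * p, h, Or.inr ⟨p, hp, rfl⟩, ?_⟩
      rw [primeFactors_mul_prime hdpos hpp, Finset.filter_insert, if_pos h1,
        filter_eq_self_of_rgh (h.rgh (rgh_one w)) (by omega)]
    · obtain ⟨d'', w'', b', h3, h4, h5⟩ := large_part h t
      refine ⟨d'', w'', b', h3, h4, ?_⟩
      rw [primeFactors_mul_prime hdpos hpp, Finset.filter_insert, if_neg h1, h5]

/-- **(U2)** -/
theorem wt_le {N : ℝ} {w d w' b : ℕ} (hN : 1 < N) (h0 : Adm N 1 w)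
    (h : Node (bd N) 1 w d w') (hb : b = d ∨ ∃ p ∈ pr w', b = d * p) (t : ℕ)
    {B Λ : ℝ} (hΛ : 1 ≤ Λ) (hB : 0 ≤ B) {k : ℕ} (hB1 : B ≤ Λ ^ k)
    (hB2 : B ^ (2 * 3 ^ k) ≤ N) :
    B * ∏ q ∈ b.primeFactors.filter (fun q => t < q), ((q : ℝ) / Λ) ≤ N := by
  obtain ⟨d'', w'', b', h1, h2, h3⟩ := large_part' h hb t
  rw [h3]
  exact wt_full hN h0 h1 h2 hΛ hB hB1 hB2

lemma adm_of_sq_le {N : ℝ} {w : ℕ} (h : (w:ℝ) ^ 2 ≤ N) : Adm N 1 w := by
  intro p hp
  have h1 : (p : ℝ) < w := by exact_mod_cast lt_of_mem_pr hp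
  have h2 : (0:ℝ) ≤ p := by positivity
  push_cast
  nlinarith

end Crest.Agent.R001.Tree
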